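import Claimed.Open.R319.Statement

/-!
# Sanity checks for `Statement.lean` (result 319)

1. The categorical notions `IsZeroMor`, `IsCoprod`, `IsSum` are the usual ones in a preadditive category
   with a zero object and binary biproducts.
2. The point spectrum is a zero object of `SH`; every spectrum with one-point levels is zero in `SH`.
3. The zero spectrum: its homotopy groups vanish; it is connective, `p`-complete, local for every class,
   acyclic for every homology theory; `E ∧ 0 = 0 = 0 ∧ E`; it has no type (a non-example).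
4. First facts on strict cofibre sequences, `Thick` and `Loc`.

Further checks are in `SanityHomotopy.lean` (`SH(X, E) ≃ [X, E]` for `Ω`-spectra `E`), `SanityPi.lean`
(`π_k E ≃ [S^k, E_0]`, `π_{-k} E ≃ [S⁰, E_k]`, `SH(Σ⁻¹ X, E) ≃ SH(X, sh E)`), `SanitySphere.lean` (the sphere
spectrum is a `SymRing`), `SanityWords.lean` (`IsNatMul`, the zero spectrum in the clauses of `Statement`),
`SanityNontrivial.lean` (a non-zero `Ω`-spectrum; no sphere is a zero object of `SH`) and `SanityNotLocal.lean`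
(`not_natMulInvertible_two_sphere`, `not_isPLocal_sphere`: `2` is not invertible on the spheres, so no sphere is `p`-local for `p ≠ 2`;
`exists_isPComplete_two_not_isZero`: a non-zero `2`-complete spectrum).

## Index of the further checked files (they import this file or `Statement.lean`; `SanityAll.lean` imports all of them: one build target)

* `SanityHomotopy.lean` : `SH.homEquiv : [X, E] ≃ SH(X, E)` for every `Ω`-spectrum `E`; homotopic maps are equal in `SH`.
* `SanityPi.lean` : `SH.piEquivNonneg : π_k E ≃ [S^k, E_0]`, `SH.piEquivNeg : π_{-k-1} E ≃ [S⁰, E_{k+1}]`, `SH.adjHomEquiv` (`D` is the desuspension).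
* `SanitySphere.lean` : `sphereRing` : the sphere spectrum satisfies all the axioms of `SymRing`.
* `SanityWords.lean` : `isNatMul_iff`, `natMulInvertible_iff`, `SH.fpTypeLE_zero`, `SH.not_forall_not_thick_self` : the words of `Statement` on the zero spectrum.
* `SanityNontrivial.lean` : **`not_isZero_sphere : ∀ k : ℤ, ¬ IsZero (SH.sphere k)`**, `exists_isOmega_not_isZero` : `SH` is not the trivial category.
* `SanityNotLocal.lean` : **`not_natMulInvertible_two_sphere`**, `not_isPLocal_sphere`, `exists_isPComplete_two_not_isZero` : `IsSum`, `IsPLocal`, `IsPComplete` tested in `SH`.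
* `SanityNotLocalR.lean` : **`not_natMulInvertible_sphere`** (`n ≠ 1` is not invertible on `S^k`), **`not_isPLocal_sphere_all`** (no sphere is `p`-local, for every `p`), **`exists_isPComplete_not_isZero`**
  (a non-zero `p`-complete spectrum, for every `p ≠ 1`), **`isNatMul_sphere_unique`**, `not_isZeroMor_of_isNatMul_sphere` (the unit of `π_0 S` has infinite order).
* `SanityConnective.lean` : **`subsingleton_π_HC`, `exists_π_HC_ne`** (`Ω`-spectra `HC a`, `a ∈ ℤ`, with `π_k = 0` for `k < a` and `π_a ≠ 0`), `isConnective_HC`, `not_isZero_HC`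
  (a non-zero connective spectrum), `not_isConnective_HC`, `not_isBoundedBelow_specEM` (non-examples), **`sphere_iso_iff : Nonempty (S^a ≅ S^b) ↔ a = b`**.
* `SanityHF2.lean` : **`isHFp_two_HC_zero : SH.IsHFp 2 (Q.obj (HC 0))`** (AN EXAMPLE OF `IsHFp`: `HC 0` is an Eilenberg--Mac Lane spectrum `H𝔽₂`), `subsingleton_π_HC_of_ne` (`π_k (HC a) = 0` for ALL `k ≠ a`),
  `natCard_π_HC_zero` (`π_0 (HC 0)` has exactly two elements), `not_isHFp_HC`, `isHFp_HC_zero_iff` (non-examples), `isTotallyFinite_HC_zero` (a non-zero example of `IsTotallyFinite`).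
* `SanityHF2R.lean` : **`isHFp_HCR_zero (p) : SH.IsHFp p (Q.obj (HCR (ZMod p) 0))`, `exists_isHFp (p) : ∃ H, SH.IsHFp p H`** (AN `H𝔽_p` FOR EVERY `p`), `piZeroEquivHCR : π_0 (HCR R 0) ≃ R`,
  `subsingleton_π_HCR_of_ne` (`π_k (HCR R a) = 0` for all `k ≠ a`, every commutative ring `R`), `isTotallyFinite_HCR_zero`.
* `SanityWedge.lean` : **`SH.isCoprod_wedge`, `SH.exists_isCoprod`** (the wedge of spectra is the coproduct in `SH`), `SH.isSum_iff_exists_hom`, `SH.isSum_zero_right`, `SH.isSum_zero_left`, **`SH.isNatMul_one`**,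
  **`natMulInvertible_sphere_iff`** (`n` is invertible on `S^k` iff `n = 1`), `exists_isSum_not_isZeroMor`, `SH.isCofiberSeq_il`, `SH.thick_wob_iff`, `SH.loc_wob`.
* `SanitySuspD.lean` : **`SH.dSuspIso : D (Σ^∞ (K ∧ S¹)) ≅ Σ^∞ K`**, **`SH.nonempty_D_sphere_iso : D (S^{k+1}) ≅ S^k` for every `k ∈ ℤ`**, `SH.piShEquiv : π_k E ≃ π_{k+1} (sh E)`,
  **`SH.thick_sphere`**, `SH.thick_sphere_sphere`, `SH.loc_sphere` (every sphere lies in the thick subcategory generated by `S^0`).
* `SanityFp.lean` : **`SH.hasFinitelyPresentedCohomology_of_isHFp`** (`H^*(H𝔽_p)` is finitely presented: one generator, no relation; a non-zero example: `hasFinitelyPresentedCohomology_HCR_zero`), `SH.isFp_of_isHFp`,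
  **`SH.isFp_zero_all`**, `SH.hasFinitelyPresentedCohomology_zero_all` (the hypothesis `∃ H, IsHFp p H` of `SanityWords.lean` is discharged).
* `SanityFpGen.lean` : `SH.hasFinitelyPresentedCohomology_Dpow` (the same for `Σ^{-c} H𝔽_p`), `SH.isCohomologyPresentation_id`, `SH.isTotallyFinite_of_isHFp`, `SH.not_isZero_of_isHFp`.
* `SanityAddSeq.lean` : `AddSpec.isPComplete`, `LoopSeq.aspec`, `AddSeqG.isPComplete` : `Ω`-spectra with additive structure maps from a sequence of strict loop objects; they are `N`-complete if `N` kills them.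
* `SanityCompleteR.lean` : `HA R a`, `isHFp_HA_zero`, **`isPComplete_HA`**, **`isFp_HA_zero (p) : SH.IsFp p (Q.obj (HA (ZMod p) 0))`**, **`exists_isFp_not_isZero`** : `H𝔽_p` is `p`-complete and an fp-spectrum: A NON-ZERO EXAMPLE OF `IsFp`.
* `SanityHFnon.lean` : **`piEquivHCR : π_a (HCR R a) ≃ R`** (all `a ∈ ℤ`), **`isHFp_HCR_zero_iff`** (`IsHFp q (H𝔽_p) ↔ q = p`), `not_isHFp_HCR`, `not_isHFp_HCR_int`, **`isTotallyFinite_HCR_iff`** (`↔ Finite R`), **`HCR_iso_iff`**,
  `HCR_zmod_iso_iff` : non-examples of `IsHFp` and `IsTotallyFinite`.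
* `SanitySumComp.lean` : **`SH.isSum_comp_right`, `SH.isSum_comp_left`** (composition distributes over `IsSum`), `SH.isSum_symm`, **`SH.natMulInvertible_of_iso`, `SH.isPLocal_of_iso`, `SH.isPComplete_of_iso`**, `SH.isPComplete_one_iff`.
* `SanitySmash.lean` : **`SH.smashSuspIso : Σ^∞ K ∧ Σ^∞ L ≅ Σ^∞ (K ∧ L)`**, **`SH.smashSphereIso : S ∧ S ≅ S`**, `SH.sphereSmashSuspIso`, `SH.suspSmashSphereIso`, **`SH.smashSphereNatIso : S^a ∧ S^b ≅ S^{a+b}`** (`a, b ≥ 0`),
  **`SH.not_isAcyclic_sphere_sphere`**, `SH.not_isAcyclic_sphere_nat` (non-examples of `IsAcyclic`): the handicrafted smash product on suspension spectra.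
* `SanityPinch.lean` : `PSSet.pinchMap` (two maps with disjoint supports are the components of a map into the wedge), `SH.bracket` (a map `K ∧ S¹ ∧ S¹ ⟶ Y_2` is a morphism `Σ^∞ K ⟶ Y` of `SH`), `Sp.stableEquiv_comp`,
  `SH.pr₁_Q`, `SH.pr₂_Q`, **`SH.exists_isSum_bracket`** (two such morphisms with disjoint supports have a sum).
* `SanityTwoTri.lean` : `exists_disjoint_aux` : the two triangles of `S¹ ∧ S¹`: any `c, c' ∈ R` are the invariants of two maps `S⁰ ⟶ GEMR R 0` whose double suspensions have disjoint supports.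
* `SanityHQ.lean` : `piZeroHA R : π_0 (HA R 0) ≃ R` (the value at the point), **`piZeroHA_of_isSum`** (`IsSum f g h → e h = e f + e g`), `isSum_unique_HA`, `isHQ_HA_of_sums`.
* `SanityHQ2.lean` : `exists_isSum_HA`, **`isSum_HA_iff : IsSum f g h ↔ piZeroHA R h = piZeroHA R f + piZeroHA R g`**, **`isHQ_HA_zero : SH.IsHQ (Q.obj (HA ℚ 0))`**, **`exists_isMoravaK_zero (p) : ∃ K, SH.IsMoravaK p 0 K`** : AN EXAMPLE OF `IsHQ`.
* `SanityKZ2.lean` : **`hoClassKZ2Equiv : [S², KZ2] ≃ ℤ`**, `eq_mkMap`, `homotopic_iff_degKZ2`, **`exists_generator_KZ2`**, `degKZ2_of_generator` : the first clause of `SymRing.IsOrientation` has a witness, unique up to homotopy and sign.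
* `SanityTri.lean` : `PSSet.Tri = Δ[2] / (vertices)`, `PSSet.triE`, `PSSet.triR`, **`PSSet.tri_surj`, `PSSet.tri_inj'`** : `[Tri, K] = [S¹, K] × [S¹, K]` for a Kan complex `K` (`PSSet.tri_ext` : an anodyne extension of Mathlib).
* `SanityPinchTri.lean` : `Sp.TT X = Σ⁻¹ Σ^∞ X`, `Sp.stableEquiv_triDesc`, `SH.isCoprod_tri`, `SH.nonempty_sphere_iso_TT`, **`SH.exists_isSum_sphere`** (any two elements of `π_0 Y` have a sum, for every `Y`),
  **`SH.exists_isNatMul_sphere`** (`n · 𝟙` exists on the sphere spectrum): the pinch map.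
* `SanityDegree.lean` : `degS : π_0 S → ℤ`, **`degS_of_isSum`** (additive), **`degS_of_isNatMul`** (`n · 𝟙` has the degree `n`), `piZeroHA_of_isNatMul`, `exists_isNatMul_sphere_degS`, `degS_comp_of_isNatMul`, **`infinite_π_zero_sphere`**,
  `not_isTotallyFinite_sphere_zero`, `not_isHFp_sphere_zero`, **`not_isHQ_sphere_zero`**, `not_isIso_of_isNatMul_sphere`, `existsUnique_isSum_HA`.
* `SanityHQnon.lean` : **`isHQ_HA_iff : IsHQ (HA R 0) ↔ Nonempty (R ≃+ ℚ)`**, **`not_isHQ_HA_int`** (`Hℤ` is not an `Hℚ`, although `π_0 ≃ ℚ` as a set: `nonempty_π_HA_int_equiv_rat`), `not_isHQ_HA_zmod`, `not_isHFp_of_isHQ` :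
  non-examples of `IsHQ`; its clause on `IsSum` cannot be dropped.
* `SanityTelescope.lean` : the words `seqComp`, `IsTelescopeOf`, `towerObj`, `towerMap`, `towerIter`, `act` tested: `SH.isTelescopeOf_const`, `SH.isTelescopeOf_of_isIso`, `SH.IsTelescopeOf.subsingleton_π`,
  **`SH.not_isTelescopeOf_const_sphere`** (a non-example), **`SH.IsTelescopeOf.piEquiv`** (`π_*` of a telescope is determined by the sequence), `SH.towerIter_eq_seqComp`, `SH.act_one`, `SH.act_id`.
* `SanityTelescope2.lean` : **`SH.IsTelescopeOf.subsingleton_π_of_towerIter`** (the telescope of a nilpotent self-map has `π_* = 0`), `SH.isTelescopeOf_towerMap_zero`, `SH.seqComp_towerMap_succ`, `SH.isZeroMor_seqComp_towerMap`,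
  `SH.IsTelescopeOf.subsingleton_π_of_nilpotent`, `SH.isTelescopeOf_zero_of_nilpotent`, `SH.IsTelescopeOf.bijective_of_isIso`.
* `SanityIdeal.lean` : the words `act`, `LeftIdeal`, `IsMilnorTriple` tested: **`SH.act_assoc`**, `SH.act_comp`, `SH.Dpow_comp`, `SH.LeftIdeal.self₀/₁/₂`, `SH.not_isMilnorTriple_of_isZero` (a non-example), `SH.milnor_degree_one`, `SH.milnor_degree_two`.
* `SanityDAdd.lean` : the desuspension is additive: `Sp.isIso_dWedge` (`D(X ∨ Y) ≅ DX ∨ DY`), `SH.isCoprod_D_map`, **`SH.isSum_D_map`, `SH.isSum_Dpow_map`**; `IsNatMul`, `NatMulInvertible`, `IsPLocal` pass to `Σ^{-k}`;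
  **`SH.LeftIdeal.act_mem`** (`LeftIdeal` is a left ideal).
* `SanityVn.lean` : the word `IsVnSelfMap`: `SH.isVnSelfMap_of_isZero`, `SH.IsVnSelfMap.isZeroMor_of_isZeroMor`, **`SH.not_isVnSelfMap_zero_sphere`**, `SH.IsVnSelfMap.isZeroMor_of_isIso`, **`SH.not_isVnSelfMap_id_sphere`**,
  `SH.isVnSelfMap_iso_of_isIso`, `SH.exists_not_isZeroMor_of_isHQ`, `SH.HasType.unique`.
* `SanityVn2.lean` : **`SH.IsVnSelfMap.bijective_towerIter`**, **`SH.IsVnSelfMap.isZeroMor_of_towerIter`**, **`SH.IsVnSelfMap.isZeroMor_of_ne`** (the height of a `v_n`-self-map is unique), `SH.IsVnSelfMap.eq_zero_of_sphere`.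
* `SanitySumsPi.lean` : `Sp.HasPinch`, **`SH.exists_isSum_of_hasPinch`**, **`Sp.stableEquiv_desc_D`** (`D` preserves coproducts), `Sp.HasPinch.D`, **`SH.exists_isSum_sphere_neg`** (any two elements of `π_k Y`, `k ≤ 0`, have a sum).
* `SanityTriK.lean` : `PSSet.exists_ext_of_graph`, **`PSSet.triK_surj`, `PSSet.triK_inj'`** : `[K ∧ Tri, L] = [K ∧ S¹, L] × [K ∧ S¹, L]` for a Kan complex `L` and every `K`.
* `SanitySumsAll.lean` : `Sp.stableEquiv_triKDesc`, **`Sp.hasPinch_susp`**, **`SH.exists_isSum_susp`** (sums exist in `[Σ^∞ (K ∧ S¹), Y]`), **`SH.exists_isSum_π`** (any two elements of `π_k Y` have a sum, for every `k ∈ ℤ` and every `Y`),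
  `SH.exists_isNatMul_sphere_all` (`n · 𝟙` exists on every sphere).
* `SanityHAmap.lean` : `HAmap α a : HA R a ⟶ HA R' a` for every additive `α : R →+ R'`, `HAmap_comp`, `piZeroHA_HAmap` (on `π_0 = R` it is `α`), `isTelescopeOf_HA`, **`isTelescopeOf_HZ_HQ`** (`Hℚ = tel (Hℤ —1→ Hℤ —2→ Hℤ —3→ ⋯)`),
  `not_isIso_HAmap_mulZ`, `not_isIso_HAmap_divFact` : A NON-TRIVIAL EXAMPLE OF `IsTelescopeOf`.
* `SanityHAmap2.lean` : `piAdd j : R →+ R'` (every morphism `HA R 0 ⟶ HA R' 0` of `SH` is additive on `π_0`), `piAdd_apply`, `itAdd_mulZ_injective`, **`not_isTelescopeOf_HZ_HZ`** (`Hℤ` is NOT a telescope of that sequence, whatever the legs).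
* `SanityFpNon.lean` : `not_isBoundedBelow_aspecEMR`, **`not_isFp_aspecEMR`**, **`exists_isPComplete_not_isFp`** (a `p`-complete spectrum that is not an fp-spectrum), `not_isHFp_aspecEMR`, `not_isTotallyFinite_aspecEMR`,
  `not_iso_HA_aspecEMR` : non-examples of `IsFp`.
* `SanityMoravaHeight.lean` : `IsMoravaKpos.card_π`, `IsMoravaKpos.unique`, `SH.not_isHQ_of_isMoravaKpos`, **`SH.IsMoravaK.unique`** (for `p ≥ 2` a spectrum is a `K(n)` for at most one `n`), `SH.IsMoravaK.not_isZero`.
* `SanityMoravaNon.lean` : **`not_isMoravaKpos_of_isHFp`**, **`SH.not_isMoravaK_of_isHFp`**, **`SH.not_isMoravaK_sphere`** : an `H𝔽_q` and the sphere spectrum are not Morava K-theories.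
* `SanityDegree2.lean` : `piZeroHA_comp` (`f : S ⟶ S` acts on `π_0 (HA ℤ 0) ≃ ℤ` as the multiplication by `degS f`), **`degS_comp : degS (f ≫ g) = degS f * degS g`**, `isUnit_degS_of_isIso`, **`degS_eq_of_isIso`** (an automorphism of `S` has the degree `±1`).
* `SanityTwist.lean` : `twistS : S ⟶ S` (the twist of `S¹ ∧ S¹`), **`degS_twistS : degS twistS = -1`**, **`degS_surjective`** (every integer is a degree), `twistS_ne_id`, `piZeroHA_twistS_comp`, `inv0R_of_susG_swap`.
* The construction of the `Ω`-spectra used in the last three files: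
  * `SanityMoore.lean` : `kanComplex_of_addCommGroup` : a simplicial abelian group is a Kan complex (Moore).
  * `SanityCofree.lean` : `cof_homotopic_zero`, `cofUnit_injective` : every `Y` embeds into a contractible simplicial `𝔽₂`-vector space `Cof Y`.
  * `SanityOmega.lean` : `LoopData.isOmega` : a strict loop object `E ≅ Ω E` gives an `Ω`-spectrum with injective structure maps.
  * `SanityOmegaSeq.lean` : `LoopSeq.isOmega` : the same for a sequence `E_i ≅ Ω E_{i+1}`.
  * `SanityCircle.lean` : `S1.ind`, `S1.lift`, `smashS1_hom_ext` : the simplices of `S¹ = Δ[1]/∂Δ[1]` and maps out of `A ∧ S¹`.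
  * `SanityPrism.lean` : `prism_cocycle` : the prism operator (integration along `Δ[1]`) preserves relative mod 2 cocycles.
  * `SanityDiag.lean` : `diag_cocycle`, `diag_prism` : the indicators of the diagonal simplices of the cubes `Δ[1]^m` form a stable cocycle.
  * `SanityEM.lean` : `loopEM` (`adjEM_spec`, `σEM_uniq`) : the simplicial group `EM` of stable mod 2 cocycles satisfies `EM ≅ Ω EM` strictly.
  * `SanityPrismR.lean`, `SanityDiagR.lean`, `SanityEMR.lean` : `prism_cocycleR`, `diag_cocycleR`, `diag_prismR`, `loopEMR` : the same three files with signs, for coefficients in any commutative ring `R`: `EMR R ≅ Ω (EMR R)` strictly.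
  * `SanityGraded.lean` : `σG_ex`, `σG_uniq`, `Sph_hom_GEM_eq_zero`, `not_homotopic_fundSphG` : the graded pieces `GEM d ≅ Ω GEM (d + 1)`; `[S^k, GEM d] = 0` for `k < d`, `≠ 0` for `k = d`.
  * `SanityCube.lean` : `cubY_isCubCochain`, `cubY_cobd` : a stable normalized cocycle `z` of the cubes `(Δ[1], ∂Δ[1])^k` with `z(point) = 0` is the coboundary of a stable normalized cochain.
  * `SanityPath.lean` : `cubW_isRev`, `homotopy_of_path`, `homotopic_S0_GEM` : two maps `S⁰ ⟶ GEM d` with the same value at the point are homotopic (`π_0 GEM d = 0` for `d ≠ 0`, `𝔽₂` for `d = 0`).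
  * `SanityGradedR.lean`, `SanityCubeR.lean`, `SanityPathR.lean`, `SanityConnectiveR.lean` : `σGR_ex`, `σGR_uniq`, `cubYR_cobd`, `homotopic_S0_GEMR`, `HCR`, `subsingleton_π_HCR` : the same four files with signs, for coefficients in any commutative ring `R`.
-/

open CategoryTheory
open scoped ZeroObject

namespace Claimed.Open.R319

universe v u

/-! ### 1. Zero morphisms and sums -/

section Generic

variable {C : Type u} [Category.{v} C]

section Zero

variable [Limits.HasZeroMorphisms C]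

theorem IsZeroMor.eq_zero {X Y : C} {f : X ⟶ Y} (hf : IsZeroMor f) : f = 0 := by
  obtain ⟨Z, a, b, hZ, rfl⟩ := hf
  rw [hZ.eq_of_tgt a 0, Limits.zero_comp]

theorem isZeroMor_iff [Limits.HasZeroObject C] {X Y : C} (f : X ⟶ Y) : IsZeroMor f ↔ f = 0 := by
  refine ⟨IsZeroMor.eq_zero, ?_⟩
  rintro rfl
  exact ⟨0, 0, 0, Limits.isZero_zero C, by simp⟩

end Zero

theorem isCoprod_iff_nonempty_isColimit {A B P : C} (i₁ : A ⟶ P) (i₂ : B ⟶ P) :
    IsCoprod i₁ i₂ ↔ Nonempty (Limits.IsColimit (Limits.BinaryCofan.mk i₁ i₂)) := by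
  constructor
  · intro h
    choose d hd using h
    refine ⟨Limits.BinaryCofan.isColimitMk (fun s => d s.pt s.inl s.inr) ?_ ?_ ?_⟩
    · intro s; exact (hd s.pt s.inl s.inr).1.1
    · intro s; exact (hd s.pt s.inl s.inr).1.2
    · intro s m h₁ h₂; exact (hd s.pt s.inl s.inr).2 m ⟨h₁, h₂⟩
  · rintro ⟨hc⟩ T a b
    refine ⟨hc.desc (Limits.BinaryCofan.mk a b), ⟨?_, ?_⟩, ?_⟩
    · exact hc.fac (Limits.BinaryCofan.mk a b) ⟨Limits.WalkingPair.left⟩
    · exact hc.fac (Limits.BinaryCofan.mk a b) ⟨Limits.WalkingPair.right⟩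
    · rintro m ⟨h₁, h₂⟩
      refine hc.uniq (Limits.BinaryCofan.mk a b) m ?_
      rintro ⟨j⟩
      cases j
      · exact h₁
      · exact h₂

section Preadditive

variable [Preadditive C]

/-- In a preadditive category `IsSum f g h` forces `h = f + g`. -/
theorem IsSum.eq_add {X Y : C} {f g h : X ⟶ Y} (H : IsSum f g h) : h = f + g := by
  obtain ⟨P, i₁, i₂, r₁, r₂, fold, u, hP, h11, h21, h12, h22, hf1, hf2, rfl, rfl, rfl⟩ := H
  have h21' : i₂ ≫ r₁ = 0 := h21.eq_zero
  have h12' : i₁ ≫ r₂ = 0 := h12.eq_zero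
  have hid : 𝟙 P = r₁ ≫ i₁ + r₂ ≫ i₂ := by
    obtain ⟨d, -, hd⟩ := hP P i₁ i₂
    have e1 : 𝟙 P = d := hd _ ⟨by simp, by simp⟩
    have e2 : r₁ ≫ i₁ + r₂ ≫ i₂ = d := by
      refine hd _ ⟨?_, ?_⟩
      · rw [Preadditive.comp_add, ← Category.assoc, ← Category.assoc, h11, h12']; simp
      · rw [Preadditive.comp_add, ← Category.assoc, ← Category.assoc, h21', h22]; simp
    rw [e1, e2]
  calc u ≫ fold = u ≫ 𝟙 P ≫ fold := by simp
    _ = u ≫ (r₁ ≫ i₁ + r₂ ≫ i₂) ≫ fold := by rw [hid]
    _ = u ≫ r₁ + u ≫ r₂ := by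
      rw [Preadditive.add_comp, Category.assoc, Category.assoc, hf1, hf2, Preadditive.comp_add]
      simp

/-- In a preadditive category with a zero object and binary biproducts, `IsSum f g h` says exactly
that `h = f + g`. -/
theorem isSum_iff [Limits.HasZeroObject C] [Limits.HasBinaryBiproducts C] {X Y : C}
    (f g h : X ⟶ Y) : IsSum f g h ↔ h = f + g := by
  refine ⟨IsSum.eq_add, ?_⟩
  rintro rfl
  refine ⟨Y ⊞ Y, Limits.biprod.inl, Limits.biprod.inr, Limits.biprod.fst, Limits.biprod.snd,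
    Limits.biprod.desc (𝟙 Y) (𝟙 Y), Limits.biprod.lift f g, ?_, by simp, ?_, ?_, by simp, by simp,
    by simp, by simp, by simp, ?_⟩
  · intro T a b
    refine ⟨Limits.biprod.desc a b, ⟨by simp, by simp⟩, ?_⟩
    rintro m ⟨rfl, rfl⟩
    ext <;> simp
  · rw [isZeroMor_iff]; simp
  · rw [isZeroMor_iff]; simp
  · simp [Limits.biprod.lift_desc]

end Preadditive

/-- Zero morphisms form a two-sided ideal. -/
theorem IsZeroMor.comp_right {X Y Z : C} {f : X ⟶ Y} (hf : IsZeroMor f) (g : Y ⟶ Z) :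
    IsZeroMor (f ≫ g) := by
  obtain ⟨T, a, b, hT, rfl⟩ := hf
  exact ⟨T, a, b ≫ g, hT, by simp⟩

theorem IsZeroMor.comp_left {X Y Z : C} {g : Y ⟶ Z} (hg : IsZeroMor g) (f : X ⟶ Y) :
    IsZeroMor (f ≫ g) := by
  obtain ⟨T, a, b, hT, rfl⟩ := hg
  exact ⟨T, f ≫ a, b, hT, by simp⟩

theorem isZeroMor_of_isZero_src {X Y : C} (hX : Limits.IsZero X) (f : X ⟶ Y) : IsZeroMor f :=
  ⟨X, 𝟙 X, f, hX, by simp⟩

theorem isZeroMor_of_isZero_tgt {X Y : C} (hY : Limits.IsZero Y) (f : X ⟶ Y) : IsZeroMor f :=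
  ⟨Y, f, 𝟙 Y, hY, by simp⟩

/-- There is at most one zero morphism between two objects. -/
theorem IsZeroMor.unique {X Y : C} {f g : X ⟶ Y} (hf : IsZeroMor f) (hg : IsZeroMor g) : f = g := by
  obtain ⟨T, a, b, hT, rfl⟩ := hf
  obtain ⟨T', a', b', hT', rfl⟩ := hg
  have h1 : a' = a ≫ hT.to_ T' := hT'.eq_of_tgt _ _
  have h2 : hT.to_ T' ≫ b' = b := hT.eq_of_src _ _
  rw [h1, Category.assoc, h2]

end Generic

/-! ### 2. The point spectrum is a zero object -/

namespace Sp

open PSSet

/-- The point spectrum. -/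
def pt : Sp where
  level _ := PSSet.pt
  σ _ := zeroMap _ _
  σ_inj _ m x y _ := by
    induction x using Smash.ind with | h a b => ?_
    induction y using Smash.ind with | h a' b' => ?_
    exact (Smash.mk_left (A := PSSet.pt.obj m) b).trans (Smash.mk_left (A := PSSet.pt.obj m) b').symm

theorem _root_.Claimed.Open.R319.PSSet.hom_ext_to_pt {X : PSSet} (f g : X ⟶ PSSet.pt) : f = g :=
  NatTrans.ext (funext fun _ => Pointed.Hom.ext (funext fun _ => rfl))

/-- The map to the point spectrum. -/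
def toPt (X : Sp) : X ⟶ pt where
  map _ := zeroMap _ _
  comm _ := PSSet.hom_ext_to_pt _ _

/-- The map from the point spectrum. -/
def fromPt (X : Sp) : pt ⟶ X where
  map _ := zeroMap _ _
  comm _ := PSSet.hom_ext_pt_smash _ _

theorem eq_toPt {X : Sp} (f : X ⟶ pt) : f = toPt X :=
  Hom.ext (funext fun _ => PSSet.hom_ext_to_pt _ _)

theorem eq_fromPt {X : Sp} (f : pt ⟶ X) : f = fromPt X :=
  Hom.ext (funext fun _ => PSSet.hom_ext_pt _ _)

end Sp

namespace SH

/-- The zero object of `SH`. -/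
noncomputable abbrev zero : SH := Q.obj Sp.pt

/-- The canonical map to the point spectrum in `SH`. -/
noncomputable def toZero (X : SH) : X ⟶ zero := Q.map (Sp.toPt X.sp)

/-- The canonical map from the point spectrum in `SH`. -/
noncomputable def fromZero (X : SH) : zero ⟶ X := Q.map (Sp.fromPt X.sp)

theorem comp_toZero {X Y : SH} (φ : X ⟶ Y) : φ ≫ toZero Y = toZero X := by
  let P : MorphismProperty SH := fun X Y φ => φ ≫ toZero Y = toZero X
  have hP : P.IsStableUnderComposition := ⟨fun {X Y Z} f g hf hg => by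
    show (f ≫ g) ≫ toZero Z = toZero X
    rw [Category.assoc, show g ≫ toZero Z = toZero Y from hg]; exact hf⟩
  have : P = ⊤ := Localization.Construction.morphismProperty_eq_top' P
    (fun X Y f => by
      show Q.map f ≫ Q.map (Sp.toPt Y) = Q.map (Sp.toPt X)
      rw [← Q.map_comp, Sp.eq_toPt (f ≫ Sp.toPt Y)])
    (fun {X Y} e he => by
      show e.inv ≫ toZero X = toZero Y
      rw [← show e.hom ≫ toZero Y = toZero X from he, e.inv_hom_id_assoc])
  have h : P φ := by rw [this]; trivial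
  exact h

theorem fromZero_comp {X Y : SH} (φ : X ⟶ Y) : fromZero X ≫ φ = fromZero Y := by
  let P : MorphismProperty SH := fun X Y φ => fromZero X ≫ φ = fromZero Y
  have hP : P.IsStableUnderComposition := ⟨fun {X Y Z} f g hf hg => by
    show fromZero X ≫ f ≫ g = fromZero Z
    rw [← Category.assoc, show fromZero X ≫ f = fromZero Y from hf]; exact hg⟩
  have : P = ⊤ := Localization.Construction.morphismProperty_eq_top' P
    (fun X Y f => by
      show Q.map (Sp.fromPt X) ≫ Q.map f = Q.map (Sp.fromPt Y)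
      rw [← Q.map_comp, Sp.eq_fromPt (Sp.fromPt X ≫ f)])
    (fun {X Y} e he => by
      show fromZero Y ≫ e.inv = fromZero X
      rw [← show fromZero X ≫ e.hom = fromZero Y from he, Category.assoc, e.hom_inv_id,
        Category.comp_id])
  have h : P φ := by rw [this]; trivial
  exact h

theorem toZero_zero : toZero zero = 𝟙 zero := by
  show Q.map (Sp.toPt Sp.pt) = 𝟙 _
  rw [← Sp.eq_toPt (𝟙 Sp.pt), Q.map_id]

theorem fromZero_zero : fromZero zero = 𝟙 zero := by
  show Q.map (Sp.fromPt Sp.pt) = 𝟙 _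
  rw [← Sp.eq_fromPt (𝟙 Sp.pt), Q.map_id]

/-- **The point spectrum is a zero object of the stable homotopy category.** -/
theorem isZero_zero : Limits.IsZero zero where
  unique_to Y := ⟨⟨⟨fromZero Y⟩, fun φ => by
    show φ = fromZero Y
    rw [← fromZero_comp φ, fromZero_zero, Category.id_comp]⟩⟩
  unique_from X := ⟨⟨⟨toZero X⟩, fun φ => by
    show φ = toZero X
    rw [← comp_toZero φ, toZero_zero, Category.comp_id]⟩⟩

/-- In `SH` a morphism is zero iff it factors through the point spectrum. -/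
theorem isZeroMor_iff_factors {X Y : SH} (f : X ⟶ Y) :
    IsZeroMor f ↔ ∃ (a : X ⟶ zero) (b : zero ⟶ Y), f = a ≫ b := by
  constructor
  · rintro ⟨T, a, b, hT, rfl⟩
    refine ⟨a ≫ hT.to_ zero, isZero_zero.to_ T ≫ b, ?_⟩
    have : hT.to_ zero ≫ isZero_zero.to_ T = 𝟙 T := hT.eq_of_src _ _
    rw [Category.assoc, ← Category.assoc (hT.to_ zero), this, Category.id_comp]
  · rintro ⟨a, b, rfl⟩
    exact ⟨zero, a, b, isZero_zero, rfl⟩

/-- Between any two spectra there is exactly one zero map. -/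
theorem existsUnique_isZeroMor (X Y : SH) : ∃! f : X ⟶ Y, IsZeroMor f :=
  ⟨toZero X ≫ fromZero Y, ⟨zero, _, _, isZero_zero, rfl⟩, fun _ hg =>
    hg.unique ⟨zero, _, _, isZero_zero, rfl⟩⟩

/-- A spectrum all of whose levels are points is a zero object of `SH`. -/
theorem isZero_of_subsingleton (X : Sp) (h : ∀ n m, Subsingleton ((X.level n).obj m)) :
    Limits.IsZero (Q.obj X) := by
  have e : X ≅ Sp.pt :=
    { hom := Sp.toPt X
      inv := Sp.fromPt X
      hom_inv_id := Sp.Hom.ext (funext fun n => NatTrans.ext (funext fun m =>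
        Pointed.Hom.ext (funext fun x => (h n m).elim _ _)))
      inv_hom_id := (Sp.eq_toPt _).trans (Sp.eq_toPt _).symm }
  exact isZero_zero.of_iso (Q.mapIso e)

/-! ### 3. The zero spectrum -/

theorem subsingleton_π_of_isZero {Z : SH} (hZ : Limits.IsZero Z) (k : ℤ) : Subsingleton (π k Z) :=
  ⟨fun f g => hZ.eq_of_tgt f g⟩

theorem isConnective_zero : IsConnective zero := fun k _ => subsingleton_π_of_isZero isZero_zero k

theorem isBoundedBelow_zero : IsBoundedBelow zero :=
  ⟨0, fun k _ => subsingleton_π_of_isZero isZero_zero k⟩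

theorem isTotallyFinite_of_isZero {Z : SH} (hZ : Limits.IsZero Z) : IsTotallyFinite Z :=
  ⟨fun k => have := subsingleton_π_of_isZero hZ k; inferInstance,
    0, fun k _ => subsingleton_π_of_isZero hZ k⟩

theorem isLocalFor_zero (Ac : SH → Prop) : IsLocalFor Ac zero :=
  fun _ _ f => isZeroMor_of_isZero_tgt isZero_zero f

theorem isPComplete_zero (p : ℕ) : IsPComplete p zero := isLocalFor_zero _

theorem subsingleton_smash_left {A B : Pointed.{0}} (h : Subsingleton A) :
    Subsingleton (Smash A B) :=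
  ⟨fun x y => by
    induction x using Smash.ind with | h a b => ?_
    induction y using Smash.ind with | h a' b' => ?_
    rw [h.elim a A.point, h.elim a' A.point, Smash.mk_left, Smash.mk_left]⟩

theorem subsingleton_smash_right {A B : Pointed.{0}} (h : Subsingleton B) :
    Subsingleton (Smash A B) :=
  ⟨fun x y => by
    induction x using Smash.ind with | h a b => ?_
    induction y using Smash.ind with | h a' b' => ?_
    rw [h.elim b B.point, h.elim b' B.point, Smash.mk_right, Smash.mk_right]⟩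

theorem subsingleton_smashLevel_left (X Y : Sp) (h : ∀ n m, Subsingleton ((X.level n).obj m)) :
    ∀ k a b m, Subsingleton ((Sp.smashLevel X Y k a b).obj m)
  | 0, a, _, m => subsingleton_smash_left (h a m)
  | 1, a, _, m => subsingleton_smash_left (h a m)
  | k + 2, a, b, m => subsingleton_smashLevel_left X Y h k (a + 1) (b + 1) m

theorem subsingleton_smashLevel_right (X Y : Sp) (h : ∀ n m, Subsingleton ((Y.level n).obj m)) :
    ∀ k a b m, Subsingleton ((Sp.smashLevel X Y k a b).obj m)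
  | 0, _, b, m => subsingleton_smash_right (h b m)
  | 1, _, b, m => subsingleton_smash_right (h (b + 1) m)
  | k + 2, a, b, m => subsingleton_smashLevel_right X Y h k (a + 1) (b + 1) m

/-- `0 ∧ X = 0`. -/
theorem isZero_smash_zero_left (X : SH) : Limits.IsZero (smash zero X) :=
  isZero_of_subsingleton _ fun n m =>
    subsingleton_smashLevel_left Sp.pt X.sp (fun _ _ => inferInstanceAs (Subsingleton PUnit)) n 0 0 m

/-- `E ∧ 0 = 0`. -/
theorem isZero_smash_zero_right (E : SH) : Limits.IsZero (smash E zero) :=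
  isZero_of_subsingleton _ fun n m =>
    subsingleton_smashLevel_right E.sp Sp.pt (fun _ _ => inferInstanceAs (Subsingleton PUnit)) n 0 0 m

/-- The zero spectrum is acyclic for every homology theory. -/
theorem isAcyclic_zero (E : SH) : IsAcyclic E zero :=
  fun k => subsingleton_π_of_isZero (isZero_smash_zero_right E) k

theorem isKAcyclic_zero (p j : ℕ) : IsKAcyclic p j zero := fun K _ => isAcyclic_zero K

theorem isLnAcyclic_zero (p n : ℕ) : IsLnAcyclic p n zero := fun j _ => isKAcyclic_zero p j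

/-- The zero spectrum has no type (a non-example). -/
theorem not_hasType_zero (p j : ℕ) : ¬ HasType p zero j := fun h => h.1 (isKAcyclic_zero p j)

/-- The homotopy "groups" of a zero object have exactly one element. -/
theorem card_π_of_isZero {Z : SH} (hZ : Limits.IsZero Z) (k : ℤ) : Nat.card (π k Z) = 1 := by
  have := subsingleton_π_of_isZero hZ k
  have : Nonempty (π k Z) := ⟨hZ.from_ _⟩
  exact Nat.card_eq_one_iff_unique.2 ⟨inferInstance, inferInstance⟩

/-- A zero object is not an `H𝔽_p` (a non-example). -/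
theorem not_isHFp_of_isZero {p : ℕ} (hp : p ≠ 1) {Z : SH} (hZ : Limits.IsZero Z) : ¬ IsHFp p Z :=
  fun h => hp (h.1.symm.trans (card_π_of_isZero hZ 0))

/-- A zero object is not an `Hℚ` (a non-example). -/
theorem not_isHQ_of_isZero {Z : SH} (hZ : Limits.IsZero Z) : ¬ IsHQ Z := by
  rintro ⟨⟨e, -⟩, -⟩
  have := subsingleton_π_of_isZero hZ 0
  exact zero_ne_one (e.symm.injective (Subsingleton.elim (e.symm 0) (e.symm 1)))

/-- A zero object is not a Morava K-theory `K(n)`, for any `n ≥ 0` (a non-example). -/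
theorem not_isMoravaK_of_isZero {p : ℕ} (hp : p ≠ 1) {Z : SH} (hZ : Limits.IsZero Z) :
    ∀ n : ℕ, ¬ IsMoravaK p n Z
  | 0 => not_isHQ_of_isZero hZ
  | _ + 1 => fun ⟨_, _, _, hc, _⟩ =>
      hp (((hc 0).1 (dvd_zero _)).symm.trans (card_π_of_isZero hZ 0))

/-- `π_*(V ∧ 0)` is finite in total for every `V`. -/
theorem isTotallyFinite_smash_zero (V : SH) : IsTotallyFinite (smash V zero) :=
  isTotallyFinite_of_isZero (isZero_smash_zero_right V)

/-! ### 4. Cofibre sequences, `Thick`, `Loc` -/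

/-- `X = X ⟶ *` is a strict cofibre sequence. -/
theorem _root_.Claimed.Open.R319.Sp.isCofSeq_id_toPt (X : Sp) : Sp.IsCofSeq (𝟙 X) (Sp.toPt X) where
  inj _ _ := Function.injective_id
  surj n m := fun _ => ⟨((X.level n).obj m).point, rfl⟩
  ker _ _ y y' := ⟨fun _ => Or.inr ⟨⟨y, rfl⟩, ⟨y', rfl⟩⟩, fun _ => rfl⟩

/-- `* ⟶ X = X` is a strict cofibre sequence. -/
theorem _root_.Claimed.Open.R319.Sp.isCofSeq_fromPt_id (X : Sp) :
    Sp.IsCofSeq (Sp.fromPt X) (𝟙 X) where
  inj _ _ := fun _ _ _ => rfl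
  surj _ _ := fun y => ⟨y, rfl⟩
  ker _ _ y y' := ⟨fun h => Or.inl h, by
    rintro (h | ⟨⟨_, rfl⟩, ⟨_, rfl⟩⟩)
    · exact h
    · rfl⟩

/-- The image in `SH` of a strict cofibre sequence is a cofibre sequence. -/
theorem isCofiberSeq_of_strict {X Y Z : Sp} {i : X ⟶ Y} {q : Y ⟶ Z} (h : Sp.IsCofSeq i q) :
    IsCofiberSeq (Q.map i) (Q.map q) :=
  ⟨X, Y, Z, i, q, Iso.refl _, Iso.refl _, Iso.refl _, h, by simp, by simp⟩

theorem thick_self (B : SH) : Thick B B := Thick.base

theorem thick_zero (B : SH) : Thick B zero := Thick.zero isZero_zero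

theorem thick_Dpow {B X : SH} (h : Thick B X) (a : ℕ) : Thick B ((Dpow a).obj X) := by
  induction a with
  | zero => exact h
  | succ a ih => exact Thick.desusp ih

/-- `Thick` is transitive: `Thick(B)` is the smallest thick subcategory containing `B`. -/
theorem Thick.trans {B C X : SH} (hC : Thick B C) (hX : Thick C X) : Thick B X := by
  induction hX with
  | base => exact hC
  | zero h => exact Thick.zero h
  | iso e _ ih => exact Thick.iso e ih
  | susp _ ih => exact Thick.susp ih
  | desusp _ ih => exact Thick.desusp ih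
  | cofiber u v h _ _ ih₁ ih₂ => exact Thick.cofiber u v h ih₁ ih₂
  | fiber u v h _ _ ih₁ ih₂ => exact Thick.fiber u v h ih₁ ih₂
  | ext u v h _ _ ih₁ ih₂ => exact Thick.ext u v h ih₁ ih₂
  | sum i₁ i₂ h _ _ ih₁ ih₂ => exact Thick.sum i₁ i₂ h ih₁ ih₂
  | retract i r h _ ih => exact Thick.retract i r h ih

/-- The quotient `Y / X` of spectra in `Thick(B)` lies in `Thick(B)`. -/
theorem thick_quotient {B : SH} {X Y Z : Sp} {i : X ⟶ Y} {q : Y ⟶ Z} (h : Sp.IsCofSeq i q)
    (hX : Thick B (Q.obj X)) (hY : Thick B (Q.obj Y)) : Thick B (Q.obj Z) :=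
  Thick.cofiber _ _ (isCofiberSeq_of_strict h) hX hY

/-- The identity of `X` is a localization at the empty class of acyclics... as soon as the zero
spectrum is declared acyclic. -/
theorem isLocalizationFor_id {Ac : SH → Prop} (h0 : Ac zero) {X : SH} (hX : IsLocalFor Ac X) :
    IsLocalizationFor Ac (𝟙 X) :=
  ⟨hX, zero, toZero X, by
    have := isCofiberSeq_of_strict (Sp.isCofSeq_id_toPt X.sp)
    rwa [Q.map_id] at this, h0⟩

theorem towerIter_one {d : ℕ} {F : SH} (v : F ⟶ (Dpow d).obj F) : towerIter v 1 = v :=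
  Category.id_comp _

end SH

end Claimed.Open.R319
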