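import Claimed.Open.R319.SanityOmega

/-!
# Sanity (result 319): from a sequence of strict loop objects `E_i ≅ Ω E_{i+1}` (simplicial abelian groups) to an `Ω`-spectrum in the sense of `Statement.lean`

The version with a sequence `E_0, E_1, …` of `SanityOmega.lean` (there: `E_i = E` for all `i`).
-/

open CategoryTheory Opposite Simplicial

namespace Claimed.Open.R319

open PSSet

/-- Pointed simplicial abelian groups `E_i` with maps `σ_i : E_i ∧ S¹ ⟶ E_{i+1}` whose adjoints `E_i ⟶ Ω E_{i+1}` are ISOMORPHISMS: `g ↦ σ_i ∘ (g ∧ S¹)` is a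
bijection from the pointed maps `A ⟶ E_i` to the pointed maps `A ∧ S¹ ⟶ E_{i+1}`, for every `A`. -/
structure LoopSeq where
  E : ℕ → PSSet
  grp : ∀ i n, AddCommGroup ((E i).obj n)
  map_add : ∀ i {n m : SimplexCategoryᵒᵖ} (φ : n ⟶ m) (x y : (E i).obj n),
    ((E i).map φ).toFun (x + y) = ((E i).map φ).toFun x + ((E i).map φ).toFun y
  σ : ∀ i, smash (E i) S1 ⟶ E (i + 1)
  ex : ∀ i (A : PSSet) (h : smash A S1 ⟶ E (i + 1)), ∃ g : A ⟶ E i, smashMap g (𝟙 S1) ≫ σ i = h
  uniq : ∀ i (A : PSSet) (g g' : A ⟶ E i), smashMap g (𝟙 S1) ≫ σ i = smashMap g' (𝟙 S1) ≫ σ i → g = g'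

namespace LoopSeq

variable (L : LoopSeq)

/-- auxiliary: `Y_0 = *`, `Y_{n+1} = (E_n × Cof Y_n) ∧ S¹` -/
def aux (n : ℕ) : PSSet :=
  match n with
  | 0 => PSSet.pt
  | n + 1 => smash (PSSet.prod (L.E n) (Cof (aux n))) S1

/-- The spectrum: `level n = E_n × Cof Y_n`, so that `level (n+1) = E_{n+1} × Cof (level n ∧ S¹)`; the structure map is `(σ_n ∘ (pr₁ ∧ S¹), unit)`: injective because of
the second component. -/
noncomputable def spectrum : Sp where
  level n := PSSet.prod (L.E n) (Cof (L.aux n))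
  σ n := prodLift (smashMap (prodFst _ _) (𝟙 S1) ≫ L.σ n) (cofUnit (smash (PSSet.prod (L.E n) (Cof (L.aux n))) S1))
  σ_inj _ m := fun _ _ h => cofUnit_injective _ m (congrArg Prod.snd h)

/-- the adjoint of a map `A ∧ S¹ ⟶ E_{i+1}` -/
noncomputable def adj (i : ℕ) {A : PSSet} (h : smash A S1 ⟶ L.E (i + 1)) : A ⟶ L.E i := (L.ex i A h).choose

theorem adj_spec (i : ℕ) {A : PSSet} (h : smash A S1 ⟶ L.E (i + 1)) : smashMap (L.adj i h) (𝟙 S1) ≫ L.σ i = h :=
  (L.ex i A h).choose_spec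

theorem adj_σ (i : ℕ) {A : PSSet} (g : A ⟶ L.E i) : L.adj i (smashMap g (𝟙 S1) ≫ L.σ i) = g :=
  L.uniq i A _ _ (L.adj_spec i _)

theorem adj_homotopic (i : ℕ) {A : PSSet} {a a' : smash A S1 ⟶ L.E (i + 1)} (h : Homotopic a a') :
    Homotopic (L.adj i a) (L.adj i a') := by
  induction h with
  | rel _ _ h =>
    obtain ⟨H, rfl, rfl⟩ := h
    refine .rel _ _ ⟨L.adj i (swapRight A I S1 ≫ H), ?_, ?_⟩
    · refine L.uniq i A _ _ ?_
      rw [adj_spec, ← Category.comp_id (𝟙 S1), smashMap_comp, Category.assoc, adj_spec, ← Category.assoc,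
        smashMap_incl_swapRight]
    · refine L.uniq i A _ _ ?_
      rw [adj_spec, ← Category.comp_id (𝟙 S1), smashMap_comp, Category.assoc, adj_spec, ← Category.assoc,
        smashMap_incl_swapRight]
  | refl _ => exact .refl _
  | symm _ _ _ ih => exact .symm _ _ ih
  | trans _ _ _ _ _ ih ih' => exact .trans _ _ _ ih ih'

/-- the projection of the level `n` to `E_n` -/
def pr (n : ℕ) : L.spectrum.level n ⟶ L.E n := prodFst _ _

/-- the map into the level `n` with components `a` and `0` -/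
def lift (n : ℕ) {A : PSSet} (a : A ⟶ L.E n) : A ⟶ L.spectrum.level n := prodLift a (zeroMap _ _)

theorem lift_pr (n : ℕ) {A : PSSet} (a : A ⟶ L.E n) : L.lift n a ≫ L.pr n = a := rfl

theorem σ_pr (n : ℕ) : L.spectrum.σ n ≫ L.pr (n + 1) = smashMap (L.pr n) (𝟙 S1) ≫ L.σ n := rfl

theorem homotopic_level {n : ℕ} {A : PSSet} {f g : A ⟶ L.spectrum.level n}
    (h : Homotopic (f ≫ L.pr n) (g ≫ L.pr n)) : Homotopic f g :=
  homotopic_prod_cof (X := L.E n) (Y := L.aux n) h

theorem spectrum_σ_pr (n : ℕ) {A : PSSet} (g : A ⟶ L.spectrum.level n) :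
    (smashMap g (𝟙 S1) ≫ L.spectrum.σ n) ≫ L.pr (n + 1) = smashMap (g ≫ L.pr n) (𝟙 S1) ≫ L.σ n := by
  rw [Category.assoc, σ_pr, ← Category.assoc, ← smashMap_comp, Category.comp_id]

theorem isOmega : L.spectrum.IsOmega where
  kan n := by
    let _ := L.grp n
    refine kanComplex_of_addCommGroup _
      (fun m => inferInstanceAs (AddCommGroup ((L.E n).obj m × (∀ k : ℕ, (⦋k⦌ ⟶ m.unop) → (L.aux n).obj (op ⦋k⦌) → ZMod 2)))) ?_
    intro m m' φ x y
    exact Prod.ext (L.map_add n φ x.1 y.1) rfl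
  surj n A h := by
    refine ⟨L.lift n (L.adj n (h ≫ L.pr (n + 1))), L.homotopic_level ?_⟩
    rw [spectrum_σ_pr, lift_pr, adj_spec]
    exact .refl _
  inj n A g g' h := by
    refine L.homotopic_level ?_
    have h1 := L.adj_homotopic n (h.postcomp (L.pr (n + 1)))
    rwa [spectrum_σ_pr, spectrum_σ_pr, adj_σ, adj_σ] at h1

/-- The homotopy classes of maps into the level `n` are the homotopy classes of maps into `E_n`. -/
theorem homotopic_level_iff {n : ℕ} {A : PSSet} {f g : A ⟶ L.spectrum.level n} :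
    Homotopic f g ↔ Homotopic (f ≫ L.pr n) (g ≫ L.pr n) :=
  ⟨fun h => h.postcomp _, L.homotopic_level⟩

end LoopSeq

end Claimed.Open.R319
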