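import Claimed.Open.R319.SanityNotLocalR
import Claimed.Open.R319.SanityOmegaSeq

/-!
# Sanity (result 319): `Ω`-spectra with ADDITIVE structure maps from a sequence of strict loop objects; they are `N`-complete if `N` kills them

* `AddSpec` : an `Ω`-spectrum with a structure of simplicial abelian group on every level for which the structure maps are additive in the first variable.  Sections 3 and 4 of
  `SanityNotLocalR.lean` (there: for `AddLoopG`, one strict loop object `E ≅ Ω E`) hold word for word: `AddSpec.pull_of_isSum` (`IsSum` of `Statement.lean` is the addition of `[-, E]`),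
  `AddSpec.pull_of_isNatMul`, `AddSpec.isPComplete` (if `N` kills all levels then the spectrum is `N`-complete in the sense of `Statement.lean`).
* `LoopSeq.aspec` : the version with additive (and injective) structure maps of `LoopSeq.spectrum` (`SanityOmegaSeq.lean`), `AddSeqG.addSpec`.
-/

open CategoryTheory Opposite Simplicial

namespace Claimed.Open.R319

open PSSet

/-- An `Ω`-spectrum with a structure of simplicial abelian group on every level for which the structure maps are additive in the first variable. -/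
structure AddSpec where
  spec : Sp
  isOmega : spec.IsOmega
  G : ∀ n, AbGrp (spec.level n)
  σ_add : ∀ (n : ℕ) (m : SimplexCategoryᵒᵖ) (x y : (spec.level n).obj m) (s : S1.obj m),
    ((spec.σ n).app m).toFun (Smash.mk ((G n).add x y) s) =
      (G (n + 1)).add (((spec.σ n).app m).toFun (Smash.mk x s)) (((spec.σ n).app m).toFun (Smash.mk y s))

namespace AddSpec

variable (M : AddSpec)

/-- the sum of two maps of spectra into `M.spec` -/
noncomputable def add {X : Sp} (g g' : X ⟶ M.spec) : X ⟶ M.spec where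
  map n := addMapG (M.G n) (g.map n) (g'.map n)
  comm n := NatTrans.ext (funext fun m => Smash.hom_ext fun x s => by
    have h1 := congrArg (fun k => (k.app m).toFun (Smash.mk x s)) (g.comm n)
    have h2 := congrArg (fun k => (k.app m).toFun (Smash.mk x s)) (g'.comm n)
    refine Eq.trans (congrArg₂ (M.G (n + 1)).add h1 h2) ?_
    exact (M.σ_add n m _ _ s).symm)

theorem add_zero {X : Sp} (g : X ⟶ M.spec) : M.add g (Sp.zeroHom X _) = g :=
  Sp.Hom.ext (funext fun _ => addMapG_zero _ _)

theorem zero_add {X : Sp} (g : X ⟶ M.spec) : M.add (Sp.zeroHom X _) g = g :=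
  Sp.Hom.ext (funext fun _ => zero_addMapG _ _)

/-- the `k`-fold sum `g + ⋯ + g` -/
noncomputable def it (k : ℕ) {X : Sp} (g : X ⟶ M.spec) : X ⟶ M.spec :=
  match k with
  | 0 => Sp.zeroHom X _
  | k + 1 => M.add (it k g) g

theorem it_apply (k : ℕ) {X : Sp} (g : X ⟶ M.spec) (n : ℕ) (m : SimplexCategoryᵒᵖ) (a : (X.level n).obj m) :
    (((M.it k g).map n).app m).toFun a = (M.G n).it k (((g.map n).app m).toFun a) := by
  induction k with
  | zero => rfl
  | succ k ih =>
    show (M.G n).add ((((M.it k g).map n).app m).toFun a) _ = _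
    rw [ih]
    rfl

theorem it_eq_zero {N : ℕ} (hN : ∀ n, (M.G n).HasExp N) {X : Sp} (g : X ⟶ M.spec) : M.it N g = Sp.zeroHom X _ :=
  Sp.Hom.ext (funext fun n => NatTrans.ext (funext fun m => Pointed.Hom.ext (funext fun a =>
    (M.it_apply N g n m a).trans (hN n m _))))

theorem homotopic_add_right {X : Sp} (a : X ⟶ M.spec) {g g' : X ⟶ M.spec} (h : Sp.Homotopic g g') :
    Sp.Homotopic (M.add a g) (M.add a g') := by
  induction h with
  | rel _ _ h =>
    obtain ⟨H, rfl, rfl⟩ := h
    exact .rel _ _ ⟨M.add (Sp.proj X ≫ a) H, rfl, rfl⟩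
  | refl _ => exact .refl _
  | symm _ _ _ ih => exact .symm _ _ ih
  | trans _ _ _ _ _ ih ih' => exact .trans _ _ _ ih ih'

theorem homotopic_add_left {X : Sp} {g g' : X ⟶ M.spec} (h : Sp.Homotopic g g') (a : X ⟶ M.spec) :
    Sp.Homotopic (M.add g a) (M.add g' a) := by
  induction h with
  | rel _ _ h =>
    obtain ⟨H, rfl, rfl⟩ := h
    exact .rel _ _ ⟨M.add H (Sp.proj X ≫ a), rfl, rfl⟩
  | refl _ => exact .refl _
  | symm _ _ _ ih => exact .symm _ _ ih
  | trans _ _ _ _ _ ih ih' => exact .trans _ _ _ ih ih'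

/-! ### 4. The addition on `[X, E]`, and its naturality for ALL morphisms of `SH` -/

open SH

/-- the sum of two homotopy classes -/
noncomputable def hadd {X : Sp} : HoClass X M.spec → HoClass X M.spec → HoClass X M.spec :=
  Quot.map₂ M.add (fun a _ _ h => M.homotopic_add_right a h) (fun _ _ a h => M.homotopic_add_left h a)

/-- the class of the zero map -/
noncomputable def hzero (X : Sp) : HoClass X M.spec := Quot.mk _ (Sp.zeroHom X _)

theorem hadd_zero {X : Sp} (x : HoClass X M.spec) : M.hadd x (M.hzero X) = x := by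
  obtain ⟨g⟩ := x
  exact congrArg (Quot.mk _) (M.add_zero g)

theorem zero_hadd {X : Sp} (x : HoClass X M.spec) : M.hadd (M.hzero X) x = x := by
  obtain ⟨g⟩ := x
  exact congrArg (Quot.mk _) (M.zero_add g)

/-- the `k`-fold sum `x + ⋯ + x` -/
noncomputable def hit (k : ℕ) {X : Sp} (x : HoClass X M.spec) : HoClass X M.spec :=
  match k with
  | 0 => M.hzero X
  | k + 1 => M.hadd (hit k x) x

theorem hit_mk (k : ℕ) {X : Sp} (g : X ⟶ M.spec) : M.hit k (Quot.mk _ g) = Quot.mk _ (M.it k g) := by
  induction k with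
  | zero => rfl
  | succ k ih =>
    show M.hadd (M.hit k (Quot.mk _ g)) (Quot.mk _ g) = _
    rw [ih]
    rfl

theorem hit_eq_hzero {N : ℕ} (hN : ∀ n, (M.G n).HasExp N) {X : Sp} (x : HoClass X M.spec) : M.hit N x = M.hzero X := by
  obtain ⟨g⟩ := x
  exact (M.hit_mk N g).trans (congrArg (Quot.mk _) (M.it_eq_zero hN g))

/-- a morphism `ψ : A ⟶ B` of `SH` acts on the homotopy classes of maps into the `Ω`-spectrum -/
noncomputable def pull {A B : SH} (ψ : A ⟶ B) (x : HoClass B.sp M.spec) : HoClass A.sp M.spec :=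
  ((hoLift M.spec M.isOmega).map ψ).unop x

theorem pull_comp {A B C : SH} (φ : A ⟶ B) (ψ : B ⟶ C) (x : HoClass C.sp M.spec) :
    M.pull (φ ≫ ψ) x = M.pull φ (M.pull ψ x) := by
  unfold pull
  rw [CategoryTheory.Functor.map_comp]
  rfl

theorem pull_id {A : SH} (x : HoClass A.sp M.spec) : M.pull (𝟙 A) x = x := by
  unfold pull
  rw [CategoryTheory.Functor.map_id]
  rfl

theorem pull_hadd {A B : SH} (ψ : A ⟶ B) (x y : HoClass B.sp M.spec) :
    M.pull ψ (M.hadd x y) = M.hadd (M.pull ψ x) (M.pull ψ y) := by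
  let P : MorphismProperty SH := fun A B ψ => ∀ x y : HoClass B.sp M.spec,
    M.pull ψ (M.hadd x y) = M.hadd (M.pull ψ x) (M.pull ψ y)
  have hP : P.IsStableUnderComposition := ⟨fun {X Y Z} f g hf hg x y => by
    rw [pull_comp, pull_comp, pull_comp, hg, hf]⟩
  have : P = ⊤ := Localization.Construction.morphismProperty_eq_top' P
    (fun X Y f x y => by
      obtain ⟨g⟩ := x
      obtain ⟨g'⟩ := y
      rfl)
    (fun {X Y} e he x y => by
      have h1 : ∀ z : HoClass (SH.sp X) M.spec, M.pull e.hom (M.pull e.inv z) = z := fun z => by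
        rw [← pull_comp, e.hom_inv_id, pull_id]
      have h2 : ∀ z : HoClass (SH.sp Y) M.spec, M.pull e.inv (M.pull e.hom z) = z := fun z => by
        rw [← pull_comp, e.inv_hom_id, pull_id]
      rw [← h2 (M.hadd (M.pull e.inv x) (M.pull e.inv y)), he, h1, h1])
  have h : P ψ := by rw [this]; trivial
  exact h x y

theorem pull_hzero {A B : SH} (ψ : A ⟶ B) : M.pull ψ (M.hzero B.sp) = M.hzero A.sp := by
  let P : MorphismProperty SH := fun A B ψ => M.pull ψ (M.hzero B.sp) = M.hzero A.sp
  have hP : P.IsStableUnderComposition := ⟨fun {X Y Z} f g hf hg => by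
    show M.pull (f ≫ g) _ = _
    rw [pull_comp, show M.pull g _ = _ from hg, show M.pull f _ = _ from hf]⟩
  have : P = ⊤ := Localization.Construction.morphismProperty_eq_top' P
    (fun X Y f => rfl)
    (fun {X Y} e he => by
      show M.pull e.inv _ = _
      rw [← show M.pull e.hom _ = _ from he, ← pull_comp, e.inv_hom_id, pull_id])
  have h : P ψ := by rw [this]; trivial
  exact h

/-- the class of a morphism `A ⟶ Q E` of `SH` -/
noncomputable def cls {A : SH} (c : A ⟶ Q.obj M.spec) : HoClass A.sp M.spec := toHoClass A.sp M.spec M.isOmega c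

theorem cls_comp {A B : SH} (ψ : A ⟶ B) (c : B ⟶ Q.obj M.spec) : M.cls (ψ ≫ c) = M.pull ψ (M.cls c) :=
  M.pull_comp ψ c _

theorem cls_injective {A : SH} : Function.Injective (M.cls (A := A)) :=
  (homEquiv A.sp M.spec M.isOmega).symm.injective

theorem cls_surjective {A : SH} : Function.Surjective (M.cls (A := A)) :=
  (homEquiv A.sp M.spec M.isOmega).symm.surjective

theorem pull_of_isZeroMor {A B : SH} {z : A ⟶ B} (hz : IsZeroMor z) (x : HoClass B.sp M.spec) :
    M.pull z x = M.hzero A.sp := by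
  obtain ⟨Z, a, b, hZ, rfl⟩ := hz
  have h1 : M.pull b x = M.hzero Z.sp := by
    obtain ⟨c, hc⟩ := M.cls_surjective (M.pull b x)
    obtain ⟨c', hc'⟩ := M.cls_surjective (M.hzero Z.sp)
    rw [← hc, ← hc', hZ.eq_of_src c c']
  rw [pull_comp, h1, pull_hzero]

/-- **`IsSum` is the addition of `[-, E]`.** -/
theorem pull_of_isSum {X Y : SH} {f g h : X ⟶ Y} (H : IsSum f g h) (x : HoClass Y.sp M.spec) :
    M.pull h x = M.hadd (M.pull f x) (M.pull g x) := by
  obtain ⟨P, i₁, i₂, r₁, r₂, fold, u, hP, h11, h21, h12, h22, hf1, hf2, rfl, rfl, rfl⟩ := H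
  obtain ⟨c, rfl⟩ := M.cls_surjective x
  obtain ⟨δ, hδ⟩ := M.cls_surjective (M.hadd (M.pull r₁ (M.cls c)) (M.pull r₂ (M.cls c)))
  have e1 : i₁ ≫ δ = c := by
    apply M.cls_injective
    rw [cls_comp, hδ, pull_hadd, ← pull_comp, ← pull_comp, h11, pull_id, M.pull_of_isZeroMor h12, hadd_zero]
  have e2 : i₂ ≫ δ = c := by
    apply M.cls_injective
    rw [cls_comp, hδ, pull_hadd, ← pull_comp, ← pull_comp, h22, pull_id, M.pull_of_isZeroMor h21, zero_hadd]
  have e3 : δ = fold ≫ c := by
    obtain ⟨d, -, hd⟩ := hP _ c c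
    rw [hd δ ⟨e1, e2⟩, hd (fold ≫ c) ⟨by rw [← Category.assoc, hf1, Category.id_comp],
      by rw [← Category.assoc, hf2, Category.id_comp]⟩]
  rw [pull_comp, ← cls_comp, ← e3, hδ, pull_hadd, ← pull_comp, ← pull_comp]

/-- **`IsNatMul n f` means that `f` acts on `[-, E]` as `x ↦ x + ⋯ + x` (`n` terms).** -/
theorem pull_of_isNatMul {X : SH} (n : ℕ) {f : X ⟶ X} (hf : IsNatMul n f) (x : HoClass X.sp M.spec) :
    M.pull f x = M.hit n x := by
  induction n generalizing f with
  | zero => exact M.pull_of_isZeroMor hf x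
  | succ n ih =>
    obtain ⟨g, hg, hs⟩ := hf
    rw [M.pull_of_isSum hs, ih hg, pull_id]
    rfl

/-- If `N` kills `E` and is invertible on `X` then `[X, E] = 0`. -/
theorem eq_hzero_of_natMulInvertible {N : ℕ} (hN : ∀ n, (M.G n).HasExp N) {X : SH} (hX : NatMulInvertible N X)
    (x : HoClass X.sp M.spec) : x = M.hzero X.sp := by
  obtain ⟨f, hf, hiso⟩ := hX
  have h1 : M.pull (inv f) (M.pull f x) = x := by
    rw [← pull_comp, IsIso.inv_hom_id, pull_id]
  rw [← h1, M.pull_of_isNatMul N hf, M.hit_eq_hzero hN, pull_hzero]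

/-- If `N` kills `E` and is invertible on `X` then there is only one morphism from `X` to `E` in `SH`. -/
theorem subsingleton_of_natMulInvertible {N : ℕ} (hN : ∀ n, (M.G n).HasExp N) {X : SH} (hX : NatMulInvertible N X) :
    Subsingleton (X ⟶ Q.obj M.spec) :=
  ⟨fun _ _ => M.cls_injective
    ((M.eq_hzero_of_natMulInvertible hN hX _).trans (M.eq_hzero_of_natMulInvertible hN hX _).symm)⟩

/-- In `SH(X, E)` the relation `IsSum` of `Statement.lean` is the levelwise addition of maps of spectra. -/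
theorem cls_of_isSum {X : SH} {a b h : X ⟶ Q.obj M.spec} (H : IsSum a b h) :
    M.cls h = M.hadd (M.cls a) (M.cls b) := M.pull_of_isSum H _

/-- If `N` kills `E` then `E` is `N`-complete in the sense of `Statement.lean`. -/
theorem isPComplete {N : ℕ} (hN : ∀ n, (M.G n).HasExp N) : IsPComplete N (Q.obj M.spec) := fun A hA f => by
  have := M.subsingleton_of_natMulInvertible hN hA
  exact ⟨zero, toZero A, fromZero _, isZero_zero, Subsingleton.elim _ _⟩

end AddSpec

/-! ### The additive model of the `Ω`-spectrum of a sequence of strict loop objects -/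

namespace LoopSeq

variable (L : LoopSeq)

/-- auxiliary: `V_0 = *`, `V_{n+1} = E_n × Cof2 V_n` -/
def lv (n : ℕ) : PSSet :=
  match n with
  | 0 => PSSet.pt
  | n + 1 => PSSet.prod (L.E n) (Cof2 (lv n))

/-- The spectrum: `level n = E_n × Cof2 V_n = V_{n+1}`; the structure map is `(σ_n ∘ (pr₁ ∧ S¹), unit2)`: injective because of the second component, and
additive in the first variable. -/
noncomputable def aspec : Sp where
  level n := PSSet.prod (L.E n) (Cof2 (L.lv n))
  σ n := prodLift (smashMap (prodFst _ _) (𝟙 S1) ≫ L.σ n) (unit2 (PSSet.prod (L.E n) (Cof2 (L.lv n))))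
  σ_inj _ m := fun _ _ h => unit2_injective _ m (congrArg Prod.snd h)

/-- the projection of the level `n` to `E_n` -/
def apr (n : ℕ) : L.aspec.level n ⟶ L.E n := prodFst _ _

/-- the map into the level `n` with components `a` and `0` -/
def alift (n : ℕ) {A : PSSet} (a : A ⟶ L.E n) : A ⟶ L.aspec.level n := prodLift a (zeroMap _ _)

theorem alift_apr (n : ℕ) {A : PSSet} (a : A ⟶ L.E n) : L.alift n a ≫ L.apr n = a := rfl

theorem aσ_apr (n : ℕ) : L.aspec.σ n ≫ L.apr (n + 1) = smashMap (L.apr n) (𝟙 S1) ≫ L.σ n := rfl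

theorem homotopic_alevel {n : ℕ} {A : PSSet} {f g : A ⟶ L.aspec.level n}
    (h : Homotopic (f ≫ L.apr n) (g ≫ L.apr n)) : Homotopic f g :=
  homotopic_prod_cof2 (X := L.E n) (V := L.lv n) h

theorem aspec_σ_apr (n : ℕ) {A : PSSet} (g : A ⟶ L.aspec.level n) :
    (smashMap g (𝟙 S1) ≫ L.aspec.σ n) ≫ L.apr (n + 1) = smashMap (g ≫ L.apr n) (𝟙 S1) ≫ L.σ n := by
  rw [Category.assoc, aσ_apr, ← Category.assoc, ← smashMap_comp, Category.comp_id]

variable {L} (S : ∀ i, AbGrp (L.E i))

/-- the group structure of `V_n` -/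
def lvGrp (n : ℕ) : AbGrp (L.lv n) :=
  match n with
  | 0 => AbGrp.ofPt
  | n + 1 => (S n).prod (lvGrp n).cof2

/-- the group structure of the level `n` -/
def levelGrp (n : ℕ) : AbGrp (L.aspec.level n) := (S n).prod (lvGrp S n).cof2

theorem hasExp_lvGrp {N : ℕ} (hS : ∀ i, (S i).HasExp N) (n : ℕ) : (lvGrp S n).HasExp N :=
  match n with
  | 0 => AbGrp.hasExp_ofPt N
  | n + 1 => (hS n).prod (hasExp_lvGrp hS n).cof2

theorem hasExp_levelGrp {N : ℕ} (hS : ∀ i, (S i).HasExp N) (n : ℕ) : (levelGrp S n).HasExp N :=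
  (hS n).prod (hasExp_lvGrp S hS n).cof2

include S in
theorem isOmega_aspec : L.aspec.IsOmega where
  kan n := kanComplex_of_addCommGroup _ (levelGrp S n).grp (fun φ x y => (levelGrp S n).map_add φ x y)
  surj n A h := by
    refine ⟨L.alift n (L.adj n (h ≫ L.apr (n + 1))), L.homotopic_alevel ?_⟩
    rw [aspec_σ_apr, alift_apr, adj_spec]
    exact .refl _
  inj n A g g' h := by
    refine L.homotopic_alevel ?_
    have h1 := L.adj_homotopic n (h.postcomp (L.apr (n + 1)))
    rwa [aspec_σ_apr, aspec_σ_apr, adj_σ, adj_σ] at h1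

/-- the structure maps are additive in the first variable -/
theorem aspec_σ_add (hσ : ∀ (i : ℕ) (m : SimplexCategoryᵒᵖ) (x y : (L.E i).obj m) (s : S1.obj m),
      ((L.σ i).app m).toFun (Smash.mk ((S i).add x y) s) =
        (S (i + 1)).add (((L.σ i).app m).toFun (Smash.mk x s)) (((L.σ i).app m).toFun (Smash.mk y s)))
    (n : ℕ) (m : SimplexCategoryᵒᵖ) (x y : (L.aspec.level n).obj m) (s : S1.obj m) :
    ((L.aspec.σ n).app m).toFun (Smash.mk ((levelGrp S n).add x y) s) =
      (levelGrp S (n + 1)).add (((L.aspec.σ n).app m).toFun (Smash.mk x s)) (((L.aspec.σ n).app m).toFun (Smash.mk y s)) :=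
  Prod.ext (hσ n m x.1 y.1 s) (unit2_addG (levelGrp S n) m x y s)

end LoopSeq

/-- A sequence of strict loop objects with compatible structures of simplicial abelian groups. -/
structure AddSeqG where
  L : LoopSeq
  S : ∀ i, AbGrp (L.E i)
  σ_add : ∀ (i : ℕ) (m : SimplexCategoryᵒᵖ) (x y : (L.E i).obj m) (s : S1.obj m),
    ((L.σ i).app m).toFun (Smash.mk ((S i).add x y) s) =
      (S (i + 1)).add (((L.σ i).app m).toFun (Smash.mk x s)) (((L.σ i).app m).toFun (Smash.mk y s))

/-- The `Ω`-spectrum with additive structure maps of a sequence of strict loop objects. -/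
noncomputable def AddSeqG.addSpec (M : AddSeqG) : AddSpec where
  spec := M.L.aspec
  isOmega := LoopSeq.isOmega_aspec M.S
  G := LoopSeq.levelGrp M.S
  σ_add := LoopSeq.aspec_σ_add M.S M.σ_add

/-- If `N` kills all the `E_i` then the spectrum is `N`-complete in the sense of `Statement.lean`. -/
theorem AddSeqG.isPComplete (M : AddSeqG) {N : ℕ} (hN : ∀ i, (M.S i).HasExp N) : SH.IsPComplete N (Q.obj M.L.aspec) :=
  M.addSpec.isPComplete (LoopSeq.hasExp_levelGrp M.S hN)

end Claimed.Open.R319
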