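import Claimed.Open.R319.SanityHomotopy

/-!
# Sanity (result 319), block M4a: the simplices of `S¹ = Δ[1] / ∂Δ[1]` in terms of the maps `T ⟶ ⦋1⦌` of the simplex category
-/

open CategoryTheory Opposite Simplicial

namespace Claimed.Open.R319

namespace PSSet

/-- The class in `S¹` of the simplex `s : T ⟶ ⦋1⦌` of `Δ[1]`. -/
def S1.mk {n : SimplexCategoryᵒᵖ} (s : n.unop ⟶ ⦋1⦌) : S1.obj n :=
  quot.mk _ (SSet.stdSimplex.objEquiv.symm s)

theorem S1.mk_eq_point {n : SimplexCategoryᵒᵖ} (s : n.unop ⟶ ⦋1⦌) (hs : ¬ Function.Surjective s.toOrderHom) :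
    S1.mk s = (S1.obj n).point :=
  Quotient.sound (Or.inr ⟨Or.inr ⟨_, hs, rfl⟩, Or.inl rfl⟩)

@[elab_as_elim]
theorem S1.ind {n : SimplexCategoryᵒᵖ} {motive : S1.obj n → Prop} (h : ∀ s, motive (S1.mk s)) (x : S1.obj n) :
    motive x := by
  induction x using Quotient.ind with
  | _ o =>
    cases o with
    | none =>
      have hc : ¬ Function.Surjective
          (SimplexCategory.Hom.mk (a := n.unop) (b := ⦋1⦌) (OrderHom.const _ (0 : Fin 2))).toOrderHom := by
        intro hsur
        obtain ⟨i, hi⟩ := hsur 1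
        exact absurd (show (0 : Fin 2) = 1 from hi) (by decide)
      have := h (SimplexCategory.Hom.mk (OrderHom.const _ (0 : Fin 2)))
      rw [S1.mk_eq_point _ hc] at this
      exact this
    | some a =>
      have := h (SSet.stdSimplex.objEquiv a)
      unfold S1.mk at this
      rw [Equiv.symm_apply_apply] at this
      exact this

theorem S1.map_mk {n n' : SimplexCategoryᵒᵖ} (ψ : n ⟶ n') (s : n.unop ⟶ ⦋1⦌) :
    (S1.map ψ).toFun (S1.mk s) = S1.mk (ψ.unop ≫ s) := rfl

/-- A function on the simplices of `Δ[1]` that sends `∂Δ[1]` to the base point induces a function on `S¹`. -/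
def S1.lift {n : SimplexCategoryᵒᵖ} {P : Pointed.{0}} (f : (n.unop ⟶ ⦋1⦌) → P)
    (hf : ∀ s, ¬ Function.Surjective s.toOrderHom → f s = P.point) : S1.obj n → P :=
  Quotient.lift (fun o : Option ((Δ[1] : SSet.{0}).obj n) => o.elim P.point fun a => f (SSet.stdSimplex.objEquiv a)) (by
    have key : ∀ o : Option ((Δ[1] : SSet.{0}).obj n),
        (o = none ∨ ∃ a ∈ (∂Δ[1] : (Δ[1] : SSet.{0}).Subcomplex).obj n, o = some a) →
        (o.elim P.point fun a => f (SSet.stdSimplex.objEquiv a)) = P.point := by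
      rintro o (rfl | ⟨a, ha, rfl⟩)
      · rfl
      · exact hf _ ha
    rintro x y (rfl | ⟨hx, hy⟩)
    · rfl
    · exact (key x hx).trans (key y hy).symm)

theorem S1.lift_mk {n : SimplexCategoryᵒᵖ} {P : Pointed.{0}} (f : (n.unop ⟶ ⦋1⦌) → P)
    (hf : ∀ s, ¬ Function.Surjective s.toOrderHom → f s = P.point) (s : n.unop ⟶ ⦋1⦌) :
    S1.lift f hf (S1.mk s) = f s :=
  congrArg f (Equiv.apply_symm_apply _ s)

theorem S1.lift_point {n : SimplexCategoryᵒᵖ} {P : Pointed.{0}} (f : (n.unop ⟶ ⦋1⦌) → P)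
    (hf : ∀ s, ¬ Function.Surjective s.toOrderHom → f s = P.point) :
    S1.lift f hf (S1.obj n).point = P.point := rfl

/-- Two maps out of `A ∧ S¹` agree if they agree on the classes `a ∧ [s]`. -/
theorem smashS1_hom_ext {A Y : PSSet} {f g : smash A S1 ⟶ Y}
    (h : ∀ (n : SimplexCategoryᵒᵖ) (a : A.obj n) (s : n.unop ⟶ ⦋1⦌),
      (f.app n).toFun (Smash.mk a (S1.mk s)) = (g.app n).toFun (Smash.mk a (S1.mk s))) : f = g :=
  NatTrans.ext (funext fun n => Smash.hom_ext fun a b => by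
    induction b using S1.ind with | h s => exact h n a s)

end PSSet

end Claimed.Open.R319
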