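import Claimed.Open.R319.SanityHomotopy

/-!
# Sanity (result 319), block M2: products of pointed simplicial sets; the cofree contractible simplicial `𝔽₂`-vector space `Cof Y` with an injective map `Y ⟶ Cof Y`
-/

open CategoryTheory Opposite Simplicial

namespace Claimed.Open.R319

namespace PSSet

/-- The product of two pointed simplicial sets. -/
def prod (X Y : PSSet) : PSSet where
  obj n := pprod (X.obj n) (Y.obj n)
  map φ := ⟨fun x => ((X.map φ).toFun x.1, (Y.map φ).toFun x.2), Prod.ext (X.map φ).map_point (Y.map φ).map_point⟩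
  map_id n := Pointed.Hom.ext (funext fun x => by
    show ((X.map (𝟙 n)).toFun x.1, (Y.map (𝟙 n)).toFun x.2) = x
    rw [X.map_id, Y.map_id]; rfl)
  map_comp φ ψ := Pointed.Hom.ext (funext fun x => by
    show ((X.map (φ ≫ ψ)).toFun x.1, (Y.map (φ ≫ ψ)).toFun x.2) = _
    rw [X.map_comp, Y.map_comp]; rfl)

def prodFst (X Y : PSSet) : prod X Y ⟶ X where
  app _ := ⟨fun x => x.1, rfl⟩
  naturality _ _ _ := rfl

def prodSnd (X Y : PSSet) : prod X Y ⟶ Y where
  app _ := ⟨fun x => x.2, rfl⟩
  naturality _ _ _ := rfl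

def prodLift {A X Y : PSSet} (f : A ⟶ X) (g : A ⟶ Y) : A ⟶ prod X Y where
  app n := ⟨fun a => ((f.app n).toFun a, (g.app n).toFun a), Prod.ext (f.app n).map_point (g.app n).map_point⟩
  naturality _ _ φ := Pointed.Hom.ext (funext fun a => Prod.ext
    (congrArg (fun k => k.toFun a) (f.naturality φ)) (congrArg (fun k => k.toFun a) (g.naturality φ)))

theorem prodLift_fst {A X Y : PSSet} (f : A ⟶ X) (g : A ⟶ Y) : prodLift f g ≫ prodFst X Y = f := rfl
theorem prodLift_snd {A X Y : PSSet} (f : A ⟶ X) (g : A ⟶ Y) : prodLift f g ≫ prodSnd X Y = g := rfl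
theorem prod_hom_ext {A X Y : PSSet} {f g : A ⟶ prod X Y} (h1 : f ≫ prodFst X Y = g ≫ prodFst X Y)
    (h2 : f ≫ prodSnd X Y = g ≫ prodSnd X Y) : f = g :=
  NatTrans.ext (funext fun n => Pointed.Hom.ext (funext fun a => Prod.ext
    (congrArg (fun k => (k.app n).toFun a) h1) (congrArg (fun k => (k.app n).toFun a) h2)))

/-- The cofree simplicial `𝔽₂`-vector space on the graded set of simplices of `Y`: a `q`-simplex is an ARBITRARY family of functions
`Y_m → 𝔽₂`, one for each `m` and each operator `⦋m⦌ ⟶ ⦋q⦌`.  A map `B ⟶ Cof Y` is the same as an arbitrary family of pointed functions `B_m → (Y_m → 𝔽₂)`. -/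
def Cof (Y : PSSet) : PSSet where
  obj n := ⟨∀ m : ℕ, (⦋m⦌ ⟶ n.unop) → Y.obj (op ⦋m⦌) → ZMod 2, fun _ _ _ => 0⟩
  map ψ := ⟨fun c m φ => c m (φ ≫ ψ.unop), rfl⟩
  map_id _ := Pointed.Hom.ext (funext fun c => funext fun m => funext fun φ => by
    show c m (φ ≫ 𝟙 _) = c m φ
    rw [Category.comp_id])
  map_comp ψ χ := Pointed.Hom.ext (funext fun c => funext fun m => funext fun φ => by
    show c m (φ ≫ (χ.unop ≫ ψ.unop)) = c m ((φ ≫ χ.unop) ≫ ψ.unop)
    rw [Category.assoc])

open Classical in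
/-- The unit `Y ⟶ Cof Y`: `y ↦ (φ ↦ indicator of φ^* y)`, and the indicator of the base point is `0`. -/
noncomputable def cofUnit (Y : PSSet) : Y ⟶ Cof Y where
  app n := ⟨fun y m φ y' => if y' = (Y.map φ.op).toFun y ∧ y' ≠ (Y.obj (op ⦋m⦌)).point then 1 else 0, by
    funext m φ y'
    rw [(Y.map φ.op).map_point]
    exact if_neg fun h => h.2 h.1⟩
  naturality n n' ψ := by
    refine Pointed.Hom.ext (funext fun y => funext fun m => funext fun φ => funext fun y' => ?_)
    show (if y' = (Y.map φ.op).toFun ((Y.map ψ).toFun y) ∧ y' ≠ (Y.obj (op ⦋m⦌)).point then (1 : ZMod 2) else 0) =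
      if y' = (Y.map (φ ≫ ψ.unop).op).toFun y ∧ y' ≠ (Y.obj (op ⦋m⦌)).point then (1 : ZMod 2) else 0
    have h : (Y.map (φ ≫ ψ.unop).op).toFun y = (Y.map φ.op).toFun ((Y.map ψ).toFun y) := by
      have h1 : (φ ≫ ψ.unop).op = ψ ≫ φ.op := rfl
      rw [h1, Y.map_comp]
      rfl
    rw [h]

open Classical in
theorem cofUnit_apply (Y : PSSet) (n : SimplexCategoryᵒᵖ) (y : Y.obj n) (m : ℕ) (φ : ⦋m⦌ ⟶ n.unop) (y' : Y.obj (op ⦋m⦌)) :
    ((cofUnit Y).app n).toFun y m φ y' =
      if y' = (Y.map φ.op).toFun y ∧ y' ≠ (Y.obj (op ⦋m⦌)).point then 1 else 0 := rfl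

theorem cofUnit_injective (Y : PSSet) (n : SimplexCategoryᵒᵖ) : Function.Injective ((cofUnit Y).app n).toFun := by
  intro y₁ y₂ h
  have key : ∀ y' : Y.obj n, (y' = y₁ ∧ y' ≠ (Y.obj n).point) ↔ (y' = y₂ ∧ y' ≠ (Y.obj n).point) := by
    intro y'
    have h1 := congrFun (congrFun (congrFun h n.unop.len) (𝟙 n.unop)) y'
    have h2 : ∀ y : Y.obj n, (Y.map (𝟙 n.unop).op).toFun y = y := by
      intro y
      have h3 : (𝟙 n.unop).op = 𝟙 n := rfl
      rw [h3, Y.map_id]
      rfl
    rw [cofUnit_apply, cofUnit_apply, h2, h2] at h1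
    constructor
    · intro hp
      by_contra hq
      rw [if_pos hp, if_neg hq] at h1
      exact one_ne_zero h1
    · intro hq
      by_contra hp
      rw [if_neg hp, if_pos hq] at h1
      exact zero_ne_one h1
  by_cases h1 : y₁ = (Y.obj n).point
  · by_cases h2 : y₂ = (Y.obj n).point
    · rw [h1, h2]
    · exact (((key y₂).2 ⟨rfl, h2⟩).1).symm
  · exact ((key y₁).1 ⟨rfl, h1⟩).1

open Classical in
/-- The indicator of the constant simplex `0` of `Δ[1]`. -/
noncomputable def chiZero {n : SimplexCategoryᵒᵖ} (t : (SSet.stdSimplex.{0}.obj (SimplexCategory.mk 1)).obj n) : ZMod 2 :=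
  if t = SSet.stdSimplex.const 1 0 n then 1 else 0

theorem chiZero_const_zero (n : SimplexCategoryᵒᵖ) : chiZero (SSet.stdSimplex.const 1 0 n) = 1 := if_pos rfl

theorem chiZero_const_one (n : SimplexCategoryᵒᵖ) : chiZero (SSet.stdSimplex.const 1 1 n) = 0 := by
  refine if_neg fun h => ?_
  have h1 := congrArg (fun t => (SSet.stdSimplex.objEquiv t).toOrderHom 0) h
  have h2 : (1 : Fin 2) = 0 := h1
  exact absurd h2 (by decide)

/-- The contraction of `Cof Y`, along a map `F : B ⟶ Cof Y`: `(b ∧ t) ↦ ((m, φ) ↦ χ₀(φ^* t) · F(b)(m, φ))`. -/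
noncomputable def cofContr {B Y : PSSet} (F : B ⟶ Cof Y) : smash B I ⟶ Cof Y where
  app n := Smash.lift
    (fun b a => plusLift (P := (Cof Y).obj n)
      (fun t m φ y' => chiZero ((SSet.stdSimplex.{0}.obj (SimplexCategory.mk 1)).map φ.op t) * (F.app n).toFun b m φ y') a)
    (fun a => by
      induction a using plus_ind with
      | h0 => rfl
      | h t =>
        funext m φ y'
        show chiZero _ * (F.app n).toFun (B.obj n).point m φ y' = 0
        rw [(F.app n).map_point]
        exact mul_zero _)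
    (fun _ => rfl)
  naturality n n' ψ := Smash.hom_ext fun b a => by
    induction a using plus_ind with
    | h0 => rfl
    | h t =>
      funext m φ y'
      show chiZero ((SSet.stdSimplex.{0}.obj (SimplexCategory.mk 1)).map φ.op
            ((SSet.stdSimplex.{0}.obj (SimplexCategory.mk 1)).map ψ t)) * (F.app n').toFun ((B.map ψ).toFun b) m φ y' =
        chiZero ((SSet.stdSimplex.{0}.obj (SimplexCategory.mk 1)).map (φ ≫ ψ.unop).op t) * (F.app n).toFun b m (φ ≫ ψ.unop) y'
      have h1 : (F.app n').toFun ((B.map ψ).toFun b) = ((Cof Y).map ψ).toFun ((F.app n).toFun b) :=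
        congrArg (fun k => k.toFun b) (F.naturality ψ)
      rw [h1]
      rfl

/-- `Cof Y` is contractible: every map into it is homotopic to the constant map. -/
theorem cof_homotopic_zero {B Y : PSSet} (F : B ⟶ Cof Y) : Homotopic F (zeroMap B (Cof Y)) := by
  refine Relation.EqvGen.rel _ _ ⟨cofContr F, ?_, ?_⟩
  · refine NatTrans.ext (funext fun n => Pointed.Hom.ext (funext fun b => funext fun m => funext fun φ => funext fun y' => ?_))
    show chiZero ((SSet.stdSimplex.{0}.obj (SimplexCategory.mk 1)).map φ.op (SSet.stdSimplex.const 1 0 n)) * (F.app n).toFun b m φ y' = _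
    have h : (SSet.stdSimplex.{0}.obj (SimplexCategory.mk 1)).map φ.op (SSet.stdSimplex.const 1 0 n) =
        SSet.stdSimplex.const 1 0 (op ⦋m⦌) := rfl
    rw [h, chiZero_const_zero, one_mul]
  · refine NatTrans.ext (funext fun n => Pointed.Hom.ext (funext fun b => funext fun m => funext fun φ => funext fun y' => ?_))
    show chiZero ((SSet.stdSimplex.{0}.obj (SimplexCategory.mk 1)).map φ.op (SSet.stdSimplex.const 1 1 n)) * (F.app n).toFun b m φ y' = 0
    have h : (SSet.stdSimplex.{0}.obj (SimplexCategory.mk 1)).map φ.op (SSet.stdSimplex.const 1 1 n) =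
        SSet.stdSimplex.const 1 1 (op ⦋m⦌) := rfl
    rw [h, chiZero_const_one, zero_mul]

end PSSet

end Claimed.Open.R319
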