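import Claimed.Open.R319.SanityHomotopy

/-!
# Sanity checks for `Statement.lean` (result 319), part 4: examples of symmetric ring spectra

* `sphereRing : SymRing`: the sphere spectrum, with `S^n = (S¹)^{∧ n}`, the symmetric group `Σ_n` permuting the
  smash factors, and the multiplication `S^m ∧ S^n ≅ S^{m+n}` given by concatenation.  This checks that the
  conventions in the axioms of `SymRing` (left actions, block sums of permutations, the shuffle `χ_{n,1}`,
  the transports along `l + m + n = l + (m + n)`, `0 + n = n`, `1 + n = n + 1`) are the right ones.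
* `SymRing.unitHom`: the iterated unit maps of a symmetric ring spectrum `R` form a map of spectra `Σ^∞ S⁰ ⟶ R`.
* `zeroRing : SymRing`, whose underlying spectrum is an `Ω`-spectrum (`isOmega_zeroRing`).
-/

open CategoryTheory Opposite

namespace Claimed.Open.R319

noncomputable section

/-! ### Smash powers of a pointed set -/

/-- The `n`-fold smash power `A^{∧ n}` of a pointed set: `(A^n)₊` modulo the tuples with a coordinate at the
base point.  (`A^{∧ 0}` has two points.) -/
def SmashPow (A : Pointed.{0}) (n : ℕ) : Pointed.{0} :=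
  Collapse ⟨Option (Fin n → A), none⟩ fun o => ∃ x, o = some x ∧ ∃ i, x i = A.point

namespace SmashPow

variable {A B C : Pointed.{0}} {m n : ℕ}

/-- The class `x_0 ∧ ⋯ ∧ x_{n-1}`. -/
def mk (x : Fin n → A) : SmashPow A n := Collapse.mk _ (some x)

theorem mk_eq_point {x : Fin n → A} (h : ∃ i, x i = A.point) : mk x = (SmashPow A n).point :=
  Quotient.sound (Or.inr ⟨Or.inr ⟨x, rfl, h⟩, Or.inl rfl⟩)

theorem mk_eq_point_iff (x : Fin n → A) : mk x = (SmashPow A n).point ↔ ∃ i, x i = A.point := by
  refine ⟨fun h => ?_, mk_eq_point⟩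
  rcases Quotient.exact h with h | ⟨h | ⟨y, hy, hi⟩, -⟩
  · cases h
  · cases h
  · cases hy; exact hi

theorem mk_eq_mk_iff (x y : Fin n → A) :
    mk x = mk y ↔ x = y ∨ ((∃ i, x i = A.point) ∧ ∃ i, y i = A.point) := by
  constructor
  · intro h
    rcases Quotient.exact h with h | ⟨h1 | ⟨x', hx, hi⟩, h2 | ⟨y', hy, hj⟩⟩
    · exact Or.inl (Option.some.inj h)
    · cases h1
    · cases h1
    · cases h2
    · cases hx; cases hy; exact Or.inr ⟨hi, hj⟩
  · rintro (rfl | ⟨h, h'⟩)
    · rfl
    · exact (mk_eq_point h).trans (mk_eq_point h').symm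

@[elab_as_elim]
theorem ind {motive : SmashPow A n → Prop} (h0 : motive (SmashPow A n).point)
    (h : ∀ x, motive (mk x)) (u : SmashPow A n) : motive u :=
  Quotient.ind (fun o => by
    cases o with
    | none => exact h0
    | some x => exact h x) u

/-- Maps out of a smash power. -/
def lift (f : (Fin n → A) → C) (hf : ∀ x, (∃ i, x i = A.point) → f x = C.point) :
    SmashPow A n ⟶ C where
  toFun := Quotient.lift (fun o : Option (Fin n → A) => o.elim C.point f) (by
    have key : ∀ o : Option (Fin n → A),
        (o = none ∨ ∃ x, o = some x ∧ ∃ i, x i = A.point) → o.elim C.point f = C.point := by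
      rintro o (rfl | ⟨x, rfl, hx⟩)
      · rfl
      · exact hf x hx
    rintro o o' (rfl | ⟨h, h'⟩)
    · rfl
    · exact (key o h).trans (key o' h').symm)
  map_point := rfl

theorem hom_ext {f g : SmashPow A n ⟶ C} (h : ∀ x, f.toFun (mk x) = g.toFun (mk x)) : f = g :=
  Pointed.Hom.ext (funext fun u => by
    induction u using ind with
    | h0 => exact f.map_point.trans g.map_point.symm
    | h x => exact h x)

theorem smash_hom_ext {f g : Smash (SmashPow A m) (SmashPow A n) ⟶ C}
    (h : ∀ x y, f.toFun (Smash.mk (mk x) (mk y)) = g.toFun (Smash.mk (mk x) (mk y))) : f = g :=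
  Smash.hom_ext fun u v => by
    induction u using ind with
    | h0 =>
      rw [Smash.mk_left]
      exact f.map_point.trans g.map_point.symm
    | h x =>
      induction v using ind with
      | h0 =>
        rw [Smash.mk_right]
        exact f.map_point.trans g.map_point.symm
      | h y => exact h x y

theorem smash_smash_hom_ext {l : ℕ}
    {f g : Smash (Smash (SmashPow A l) (SmashPow A m)) (SmashPow A n) ⟶ C}
    (h : ∀ x y z, f.toFun (Smash.mk (Smash.mk (mk x) (mk y)) (mk z))
      = g.toFun (Smash.mk (Smash.mk (mk x) (mk y)) (mk z))) : f = g :=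
  Smash.hom_ext fun u w => by
    induction u using Smash.ind with | h u v => ?_
    induction u using ind with
    | h0 =>
      rw [Smash.mk_left, Smash.mk_left]
      exact f.map_point.trans g.map_point.symm
    | h x =>
      induction v using ind with
      | h0 =>
        rw [Smash.mk_right, Smash.mk_left]
        exact f.map_point.trans g.map_point.symm
      | h y =>
        induction w using ind with
        | h0 =>
          rw [Smash.mk_right]
          exact f.map_point.trans g.map_point.symm
        | h z => exact h x y z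

theorem smash_left_hom_ext {f g : Smash (SmashPow A n) B ⟶ C}
    (h : ∀ x b, f.toFun (Smash.mk (mk x) b) = g.toFun (Smash.mk (mk x) b)) : f = g :=
  Smash.hom_ext fun u b => by
    induction u using ind with
    | h0 =>
      rw [Smash.mk_left]
      exact f.map_point.trans g.map_point.symm
    | h x => exact h x b

/-- Functoriality of the smash power. -/
def map (f : A ⟶ B) (n : ℕ) : SmashPow A n ⟶ SmashPow B n :=
  lift (fun x => mk fun i => f.toFun (x i)) fun _ ⟨i, hi⟩ =>
    mk_eq_point ⟨i, (congrArg f.toFun hi).trans f.map_point⟩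

/-- Reindexing the factors along a bijection. -/
def reindex (A : Pointed.{0}) (e : Fin m ≃ Fin n) : SmashPow A n ⟶ SmashPow A m :=
  lift (fun x => mk (x ∘ e)) fun _ ⟨i, hi⟩ =>
    mk_eq_point ⟨e.symm i, (congrArg _ (e.apply_symm_apply i)).trans hi⟩

/-- Concatenation `A^{∧ m} ∧ A^{∧ n} ⟶ A^{∧ (m + n)}`. -/
def append (A : Pointed.{0}) (m n : ℕ) : Smash (SmashPow A m) (SmashPow A n) ⟶ SmashPow A (m + n) :=
  Smash.lift
    (fun u v => (lift (C := SmashPow A (m + n))
      (fun x => (lift (C := SmashPow A (m + n)) (fun y => mk (Fin.append x y))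
        (fun y ⟨i, hi⟩ => mk_eq_point ⟨Fin.natAdd m i, (Fin.append_right x y i).trans hi⟩)).toFun v)
      (fun x ⟨i, hi⟩ => by
        induction v using ind with
        | h0 => rfl
        | h y => exact mk_eq_point ⟨Fin.castAdd n i, (Fin.append_left x y i).trans hi⟩)).toFun u)
    (fun _ => rfl)
    (fun u => by
      induction u using ind with
      | h0 => rfl
      | h x => rfl)

theorem append_mk (x : Fin m → A) (y : Fin n → A) :
    (append A m n).toFun (Smash.mk (mk x) (mk y)) = mk (Fin.append x y) := rfl

end SmashPow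

/-! ### The sphere spectrum as a symmetric ring spectrum -/

namespace PSSet

/-- The `n`-fold smash power `K^{∧ n}` of a pointed simplicial set. -/
def smashPow (K : PSSet) (n : ℕ) : PSSet where
  obj q := SmashPow (K.obj q) n
  map φ := SmashPow.map (K.map φ) n
  map_id q := SmashPow.hom_ext fun x => by
    show SmashPow.mk (fun i => (K.map (𝟙 q)).toFun (x i)) = SmashPow.mk x
    rw [K.map_id]; rfl
  map_comp φ ψ := SmashPow.hom_ext fun x => by
    show SmashPow.mk (fun i => (K.map (φ ≫ ψ)).toFun (x i)) = _
    rw [K.map_comp]; rfl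

/-- Reindexing the factors of a smash power along a bijection. -/
def smashPowReindex (K : PSSet) {m n : ℕ} (e : Fin m ≃ Fin n) : smashPow K n ⟶ smashPow K m where
  app q := SmashPow.reindex (K.obj q) e
  naturality _ _ _ := SmashPow.hom_ext fun _ => rfl

/-- Concatenation `K^{∧ m} ∧ K^{∧ n} ⟶ K^{∧ (m + n)}`. -/
def smashPowAppend (K : PSSet) (m n : ℕ) : smash (smashPow K m) (smashPow K n) ⟶ smashPow K (m + n) where
  app q := SmashPow.append (K.obj q) m n
  naturality _ _ φ := SmashPow.smash_hom_ext fun x y => by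
    show SmashPow.mk (Fin.append (fun i => (K.map φ).toFun (x i)) (fun i => (K.map φ).toFun (y i)))
      = SmashPow.mk (fun i => (K.map φ).toFun (Fin.append x y i))
    congr 1
    funext i
    induction i using Fin.addCases with
    | left i => simp only [Fin.append_left]
    | right i => simp only [Fin.append_right]

theorem eqToHom_smashPow_app (K : PSSet) {a b : ℕ} (h : a = b) (q : SimplexCategoryᵒᵖ)
    (x : Fin a → K.obj q) :
    ((eqToHom (congrArg (smashPow K) h)).app q).toFun (SmashPow.mk x)
      = SmashPow.mk (x ∘ Fin.cast h.symm) := by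
  subst h
  rfl

/-- The unit map `S⁰ ⟶ K^{∧ 0}`. -/
def smashPowUnit₀ (K : PSSet) : S0 ⟶ smashPow K 0 where
  app q := ⟨plusLift (P := SmashPow (K.obj q) 0) fun _ => SmashPow.mk Fin.elim0, rfl⟩
  naturality _ _ φ := Pointed.Hom.ext (funext fun a => by
    induction a using plus_ind with
    | h0 => rfl
    | h s => exact congrArg SmashPow.mk (funext fun i => i.elim0))

/-- The unit map `K ⟶ K^{∧ 1}`. -/
def smashPowUnit₁ (K : PSSet) : K ⟶ smashPow K 1 where
  app _ := ⟨fun s => SmashPow.mk fun _ => s, SmashPow.mk_eq_point ⟨0, rfl⟩⟩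
  naturality _ _ _ := rfl

end PSSet

open PSSet

theorem sphere_act_one (n : ℕ) : smashPowReindex S1 (1 : Equiv.Perm (Fin n)).symm = 𝟙 _ :=
  NatTrans.ext (funext fun _ => SmashPow.hom_ext fun _ => rfl)

theorem sphere_act_mul (n : ℕ) (s t : Equiv.Perm (Fin n)) :
    smashPowReindex S1 (s * t).symm = smashPowReindex S1 t.symm ≫ smashPowReindex S1 s.symm :=
  NatTrans.ext (funext fun _ => SmashPow.hom_ext fun _ => rfl)

theorem sphere_equivariant (m n : ℕ) (s : Equiv.Perm (Fin m)) (t : Equiv.Perm (Fin n)) :
    smashMap (smashPowReindex S1 s.symm) (smashPowReindex S1 t.symm) ≫ smashPowAppend S1 m n =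
      smashPowAppend S1 m n ≫
        smashPowReindex S1 (finSumFinEquiv.permCongr (Equiv.Perm.sumCongr s t)).symm :=
  NatTrans.ext (funext fun q => SmashPow.smash_hom_ext fun x y => by
    show SmashPow.mk (Fin.append (x ∘ s.symm) (y ∘ t.symm)) = SmashPow.mk (Fin.append x y ∘ _)
    congr 1
    funext i
    induction i using Fin.addCases with
    | left i => simp [Equiv.permCongr_def]
    | right i => simp [Equiv.permCongr_def])

theorem sphere_assoc (l m n : ℕ) :
    smashMap (smashPowAppend S1 l m) (𝟙 (smashPow S1 n)) ≫ smashPowAppend S1 (l + m) n ≫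
        eqToHom (congrArg (smashPow S1) (Nat.add_assoc l m n)) =
      PSSet.assoc _ _ _ ≫ smashMap (𝟙 (smashPow S1 l)) (smashPowAppend S1 m n) ≫
        smashPowAppend S1 l (m + n) :=
  NatTrans.ext (funext fun q => SmashPow.smash_smash_hom_ext fun x y z => by
    show ((eqToHom (congrArg (smashPow S1) (Nat.add_assoc l m n))).app q).toFun
        (SmashPow.mk (Fin.append (Fin.append x y) z)) = SmashPow.mk (Fin.append x (Fin.append y z))
    rw [eqToHom_smashPow_app S1 (Nat.add_assoc l m n), Fin.append_assoc]
    exact congrArg SmashPow.mk (funext fun i => by simp))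

theorem sphere_unit_right (n : ℕ) :
    rho (smashPow S1 n) ≫ smashMap (𝟙 (smashPow S1 n)) (smashPowUnit₀ S1) ≫ smashPowAppend S1 n 0
      = 𝟙 _ :=
  NatTrans.ext (funext fun q => SmashPow.hom_ext fun x => by
    show SmashPow.mk (Fin.append x Fin.elim0) = SmashPow.mk x
    rw [Fin.append_elim0]
    rfl)

theorem sphere_unit_left (n : ℕ) :
    lam (smashPow S1 n) ≫ smashMap (smashPowUnit₀ S1) (𝟙 (smashPow S1 n)) ≫ smashPowAppend S1 0 n ≫
      eqToHom (congrArg (smashPow S1) (Nat.zero_add n)) = 𝟙 _ :=
  NatTrans.ext (funext fun q => SmashPow.hom_ext fun x => by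
    show ((eqToHom (congrArg (smashPow S1) (Nat.zero_add n))).app q).toFun
        (SmashPow.mk (Fin.append Fin.elim0 x)) = SmashPow.mk x
    rw [eqToHom_smashPow_app S1 (Nat.zero_add n), Fin.elim0_append]
    exact congrArg SmashPow.mk (funext fun i => by simp))

theorem append_comp_finRotate {α : Type} (n : ℕ) (x : Fin n → α) (s : α) :
    Fin.append x (fun _ : Fin 1 => s) =
      (Fin.append (fun _ : Fin 1 => s) x ∘ Fin.cast (Nat.add_comm 1 n).symm) ∘ finRotate (n + 1) := by
  funext i
  induction i using Fin.lastCases with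
  | last =>
    have h1 : Fin.append x (fun _ : Fin 1 => s) (Fin.last n) = s :=
      Fin.append_right x (fun _ : Fin 1 => s) 0
    have h2 : Fin.cast (Nat.add_comm 1 n).symm (finRotate (n + 1) (Fin.last n)) = Fin.castAdd n 0 := by
      rw [finRotate_last]; rfl
    rw [h1, Function.comp_apply, Function.comp_apply, h2, Fin.append_left]
  | cast j =>
    have h1 : Fin.append x (fun _ : Fin 1 => s) j.castSucc = x j :=
      Fin.append_left x (fun _ : Fin 1 => s) j
    have h2 : Fin.cast (Nat.add_comm 1 n).symm (finRotate (n + 1) j.castSucc) = Fin.natAdd 1 j := by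
      apply Fin.ext
      have := coe_finRotate_of_ne_last (i := j.castSucc) (Fin.castSucc_lt_last j).ne
      simp only [Fin.val_cast, Fin.val_natAdd, this, Fin.val_castSucc]
      exact Nat.add_comm _ _
    rw [h1, Function.comp_apply, Function.comp_apply, h2, Fin.append_right]

theorem sphere_central (n : ℕ) :
    smashMap (𝟙 (smashPow S1 n)) (smashPowUnit₁ S1) ≫ smashPowAppend S1 n 1 ≫
        smashPowReindex S1 (finRotate (n + 1)).symm =
      swap _ _ ≫ smashMap (smashPowUnit₁ S1) (𝟙 (smashPow S1 n)) ≫ smashPowAppend S1 1 n ≫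
        eqToHom (congrArg (smashPow S1) (Nat.add_comm 1 n)) :=
  NatTrans.ext (funext fun q => SmashPow.smash_left_hom_ext fun x s => by
    show SmashPow.mk (Fin.append x (fun _ : Fin 1 => s) ∘ (finRotate (n + 1)).symm) =
      ((eqToHom (congrArg (smashPow S1) (Nat.add_comm 1 n))).app q).toFun
        (SmashPow.mk (Fin.append (fun _ : Fin 1 => s) x))
    rw [eqToHom_smashPow_app S1 (Nat.add_comm 1 n)]
    exact congrArg SmashPow.mk ((Equiv.comp_symm_eq _ _ _).2 (append_comp_finRotate n x s)))

theorem sphere_σ_inj (n : ℕ) (k : SimplexCategoryᵒᵖ) : Function.Injective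
    ((smashMap (𝟙 (smashPow S1 n)) (smashPowUnit₁ S1) ≫ smashPowAppend S1 n 1).app k).toFun := by
  set f := ((smashMap (𝟙 (smashPow S1 n)) (smashPowUnit₁ S1) ≫ smashPowAppend S1 n 1).app k) with hf
  have hmk : ∀ (x : Fin n → S1.obj k) (s : S1.obj k),
      f.toFun (Smash.mk (SmashPow.mk x) s) = SmashPow.mk (Fin.append x fun _ : Fin 1 => s) :=
    fun _ _ => rfl
  have hex : ∀ (x : Fin n → S1.obj k) (s : S1.obj k),
      (∃ i, Fin.append x (fun _ : Fin 1 => s) i = (S1.obj k).point) →
        Smash.mk (SmashPow.mk x) s = (Smash (SmashPow (S1.obj k) n) (S1.obj k)).point := by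
    rintro x s ⟨i, hi⟩
    induction i using Fin.addCases with
    | left i =>
      rw [Fin.append_left] at hi
      rw [SmashPow.mk_eq_point ⟨i, hi⟩, Smash.mk_left]
    | right i =>
      rw [Fin.append_right] at hi
      rw [hi, Smash.mk_right]
  have hcases : ∀ a : Smash (SmashPow (S1.obj k) n) (S1.obj k),
      a = (Smash (SmashPow (S1.obj k) n) (S1.obj k)).point ∨
        ∃ x s, a = Smash.mk (SmashPow.mk x) s := by
    intro a
    induction a using Smash.ind with | h u s => ?_
    induction u using SmashPow.ind with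
    | h0 => exact Or.inl (Smash.mk_left s)
    | h x => exact Or.inr ⟨x, s, rfl⟩
  intro a b hab
  rcases hcases a with rfl | ⟨x, s, rfl⟩ <;> rcases hcases b with rfl | ⟨x', s', rfl⟩
  · rfl
  · have hab' := f.map_point.symm.trans (hab.trans (hmk x' s'))
    exact (hex x' s' ((SmashPow.mk_eq_point_iff _).1 hab'.symm)).symm
  · have hab' := (hmk x s).symm.trans (hab.trans f.map_point)
    exact hex x s ((SmashPow.mk_eq_point_iff _).1 hab')
  · have hab := (hmk x s).symm.trans (hab.trans (hmk x' s'))
    rcases (SmashPow.mk_eq_mk_iff _ _).1 hab with h | ⟨h, h'⟩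
    · have hx : x = x' := funext fun i => by
        have := congrFun h (Fin.castAdd 1 i)
        rwa [Fin.append_left, Fin.append_left] at this
      have hs : s = s' := by
        have := congrFun h (Fin.natAdd n 0)
        rwa [Fin.append_right, Fin.append_right] at this
      rw [hx, hs]
    · exact (hex x s h).trans (hex x' s' h').symm

/-- **The sphere spectrum is a symmetric ring spectrum** in the sense of `SymRing`: `S^n = (S¹)^{∧ n}`, the
symmetric group permutes the factors (`(γ · x)_{γ i} = x_i`), the multiplication is concatenation. -/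
def sphereRing : SymRing where
  level := smashPow S1
  act _ γ := smashPowReindex S1 γ.symm
  act_one := sphere_act_one
  act_mul := sphere_act_mul
  μ := smashPowAppend S1
  ι₀ := smashPowUnit₀ S1
  ι₁ := smashPowUnit₁ S1
  equivariant := sphere_equivariant
  assoc := sphere_assoc
  unit_right := sphere_unit_right
  unit_left := sphere_unit_left
  central := sphere_central
  σ_inj := sphere_σ_inj

/-- For every symmetric ring spectrum `R`, the iterated unit maps `ι_n : S^n ⟶ R_n` form a map of spectra
`Σ^∞ S⁰ ⟶ R`, the unit of `R`. -/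
def SymRing.unitHom (R : SymRing) : Sp.suspSpec S0 ⟶ R.toSp where
  map := R.unit
  comm n := by
    show 𝟙 _ ≫ smashMap (R.unit n) R.ι₁ ≫ R.μ n 1
      = smashMap (R.unit n) (𝟙 S1) ≫ smashMap (𝟙 (R.level n)) R.ι₁ ≫ R.μ n 1
    rw [Category.id_comp, ← Category.assoc, ← smashMap_comp, Category.comp_id, Category.id_comp]

/-! ### The zero ring -/

/-- The zero ring spectrum. -/
def zeroRing : SymRing where
  level _ := PSSet.pt
  act _ _ := 𝟙 _
  act_one _ := rfl
  act_mul _ _ _ := (Category.comp_id _).symm
  μ _ _ := zeroMap _ _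
  ι₀ := zeroMap _ _
  ι₁ := zeroMap _ _
  equivariant _ _ _ _ := PSSet.hom_ext_to_pt _ _
  assoc _ _ _ := PSSet.hom_ext_to_pt _ _
  unit_right _ := PSSet.hom_ext_to_pt _ _
  unit_left _ := PSSet.hom_ext_to_pt _ _
  central _ := PSSet.hom_ext_to_pt _ _
  σ_inj _ m x y _ := by
    induction x using Smash.ind with | h a b => ?_
    induction y using Smash.ind with | h a' b' => ?_
    exact (Smash.mk_left (A := PSSet.pt.obj m) b).trans (Smash.mk_left (A := PSSet.pt.obj m) b').symm

/-- The point is a Kan complex. -/
theorem kanComplex_pt : SSet.KanComplex PSSet.pt.toSSet := by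
  rw [SSet.KanComplex.iff]
  intro n i f _
  have hsub : ∀ (S : SSet.{0}) (a b : S ⟶ PSSet.pt.toSSet), a = b := fun S a b =>
    NatTrans.ext (funext fun _ => by ext x; rfl)
  exact ⟨{ app := fun _ => ↾fun _ => PUnit.unit, naturality := fun _ _ _ => rfl }, fun j hj => hsub _ _ _⟩

/-- A spectrum all of whose levels are the point is an `Ω`-spectrum. -/
theorem isOmega_zeroRing : zeroRing.toSp.IsOmega where
  kan _ := kanComplex_pt
  surj _ _ h := ⟨zeroMap _ _, (PSSet.hom_ext_to_pt _ h) ▸ .refl _⟩
  inj _ _ g g' _ := (PSSet.hom_ext_to_pt g g') ▸ .refl _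

end

end Claimed.Open.R319
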