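import Claimed.Open.R319.Sanity
import Claimed.Open.R319.SanitySphere

/-!
# Sanity checks for `Statement.lean` (result 319), part 5: the words of `CLAIM.md`

Small checked facts behind single sentences of `CLAIM.md`.

1. `isNatMul_iff`, `natMulInvertible_iff`: in a preadditive category with a zero object and binary biproducts
   `IsNatMul n f` says `f = n • 𝟙` and `NatMulInvertible n X` says that `n • 𝟙_X` is invertible.
2. `SH.isZero_D_obj`, `SH.isZero_Dpow_obj`: the desuspension preserves zero objects.
3. `SH.loc_of_isZero`: a localizing subcategory contains the zero objects (the empty coproduct; `Loc` has no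
   separate rule for them), so `0` is `L_n^f`-acyclic; the two localization clauses of `Statement` are met by `0`.
4. `SH.fpTypeLE_zero`: the paper says of the spectra of fp-type at most `n`: "We include the zero spectrum".  So does
   `FpTypeLE`, as soon as an `H𝔽_p` and a finite `p`-local spectrum of type `n + 1` exist.
5. `SH.fpTypeLE_one_zero`: the existence clauses of `Statement` give `FpTypeLE p 1 0`; hence the clause
   `¬ FpTypeLE p 1 X` of `Statement` excludes the trivial candidate `X = 0`.
6. `not_hasHeight_zeroRing`: the zero ring has no height (a non-example).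
-/

open CategoryTheory
open scoped ZeroObject

namespace Claimed.Open.R319

universe v u

/-! ### 1. Multiples of the identity -/

section Generic

variable {C : Type u} [Category.{v} C] [Preadditive C] [Limits.HasZeroObject C]
  [Limits.HasBinaryBiproducts C]

/-- In a preadditive category with a zero object and binary biproducts, `IsNatMul n f` says exactly that
`f = n • 𝟙`. -/
theorem isNatMul_iff {X : C} (n : ℕ) (f : X ⟶ X) : IsNatMul n f ↔ f = n • 𝟙 X := by
  induction n generalizing f with
  | zero => rw [zero_smul]; exact isZeroMor_iff f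
  | succ n ih =>
    constructor
    · rintro ⟨g, hg, hs⟩
      rw [(isSum_iff _ _ _).1 hs, (ih g).1 hg, succ_nsmul]
    · rintro rfl
      exact ⟨n • 𝟙 X, (ih _).2 rfl, (isSum_iff _ _ _).2 (succ_nsmul _ _)⟩

/-- `NatMulInvertible n X` says exactly that `n • 𝟙_X` is an isomorphism. -/
theorem natMulInvertible_iff (n : ℕ) (X : C) : NatMulInvertible n X ↔ IsIso (n • 𝟙 X) := by
  constructor
  · rintro ⟨f, hf, hi⟩
    rwa [(isNatMul_iff n f).1 hf] at hi
  · intro h
    exact ⟨_, (isNatMul_iff n _).2 rfl, h⟩

end Generic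

namespace SH

/-! ### 2. The desuspension preserves zero objects -/

theorem isZero_D_zero : Limits.IsZero (D.obj zero) :=
  isZero_of_subsingleton Sp.pt.D fun n m => by
    cases n with
    | zero => exact inferInstanceAs (Subsingleton PUnit)
    | succ n => exact inferInstanceAs (Subsingleton PUnit)

theorem isZero_D_obj {Z : SH} (hZ : Limits.IsZero Z) : Limits.IsZero (D.obj Z) :=
  isZero_D_zero.of_iso (D.mapIso (hZ.iso isZero_zero))

theorem isZero_Dpow_obj {Z : SH} (hZ : Limits.IsZero Z) : ∀ a : ℕ, Limits.IsZero ((Dpow a).obj Z)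
  | 0 => hZ
  | a + 1 => isZero_D_obj (isZero_Dpow_obj hZ a)

/-! ### 3. Localizing subcategories contain the zero objects -/

/-- A zero object is the coproduct of the empty family; so it lies in every localizing subcategory. -/
theorem loc_of_isZero (G : SH → Prop) {Z : SH} (hZ : Limits.IsZero Z) : Loc G Z :=
  Loc.coprod (J := Empty) (fun j => j.elim) (Limits.Cofan.mk Z fun j => j.elim)
    (Limits.Cofan.IsColimit.mk _ (fun s => hZ.to_ s.pt) (fun _ j => j.elim)
      (fun _ _ _ => hZ.eq_of_src _ _))
    (fun j => j.elim)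

theorem isLnfAcyclic_zero (p n : ℕ) : IsLnfAcyclic p n zero := loc_of_isZero _ isZero_zero

/-- The clause "`L_2^f X ≃ L_2 X`" of `Statement` is met by `X = 0`. -/
theorem finite_localization_clause_zero (p : ℕ) :
    ∃ (Z : SH) (η : zero ⟶ Z),
      IsLocalizationFor (IsLnfAcyclic p 2) η ∧ IsLocalizationFor (IsLnAcyclic p 2) η :=
  ⟨zero, 𝟙 zero, isLocalizationFor_id (isLnfAcyclic_zero p 2) (isLocalFor_zero _),
    isLocalizationFor_id (isLnAcyclic_zero p 2) (isLocalFor_zero _)⟩

/-- The clause "`L_{T(2)} X ≃ L_{K(2)} X`" of `Statement` is met by `X = 0`. -/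
theorem telescope_localization_clause_zero (p : ℕ) :
    ∃ (Z : SH) (η : zero ⟶ Z),
      (∀ T : SH, IsTelescope p 2 T → IsLocalizationFor (IsAcyclic T) η) ∧
        IsLocalizationFor (IsKAcyclic p 2) η :=
  ⟨zero, 𝟙 zero, fun T _ => isLocalizationFor_id (isAcyclic_zero T) (isLocalFor_zero _),
    isLocalizationFor_id (isKAcyclic_zero p 2) (isLocalFor_zero _)⟩

/-! ### 4. "We include the zero spectrum" -/

/-- A zero object is the product of the empty family of shifts of `H`. -/
theorem isFiniteProductOfShifts_of_isZero (H : SH) {P : SH} (hP : Limits.IsZero P) :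
    IsFiniteProductOfShifts H P :=
  ⟨0, fun i => i.elim0, fun i => i.elim0,
    ⟨Limits.Fan.IsLimit.mk _ (fun s => hP.from_ s.pt) (fun _ j => j.elim0)
      (fun _ _ _ => hP.eq_of_tgt _ _)⟩⟩

/-- `H^*(0; 𝔽_p) = 0` is finitely presented (no generators, no relations). -/
theorem hasFinitelyPresentedCohomology_zero {p : ℕ} (hH : ∃ H : SH, IsHFp p H) :
    HasFinitelyPresentedCohomology p zero := by
  obtain ⟨H, hH⟩ := hH
  refine ⟨H, zero, zero, 0, 𝟙 zero, 𝟙 zero, hH, isFiniteProductOfShifts_of_isZero H isZero_zero,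
    isFiniteProductOfShifts_of_isZero H isZero_zero, ?_, ?_⟩
  · intro a b y
    exact ⟨y, ((isZero_Dpow_obj isZero_zero a).eq_of_src _ _)⟩
  · intro a b g
    exact ⟨fun _ => ⟨g, (isZero_Dpow_obj isZero_zero a).eq_of_src _ _⟩,
      fun _ => isZeroMor_of_isZero_src (isZero_Dpow_obj isZero_zero a) _⟩

/-- The zero spectrum is an fp-spectrum. -/
theorem isFp_zero {p : ℕ} (hH : ∃ H : SH, IsHFp p H) : IsFp p zero :=
  ⟨isBoundedBelow_zero, isPComplete_zero p, hasFinitelyPresentedCohomology_zero hH⟩

/-- **"We include the zero spectrum"** (paper, Section 1.1): the zero spectrum has fp-type at most `n`, as soon as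
the objects in terms of which fp-type is defined exist. -/
theorem fpTypeLE_zero {p n : ℕ} (hH : ∃ H : SH, IsHFp p H)
    (hV : ∃ V : SH, IsFinitePLocal p V ∧ HasType p V (n + 1)) : FpTypeLE p n zero := by
  obtain ⟨V, hV, hT⟩ := hV
  exact ⟨isFp_zero hH, V, hV, hT, isTotallyFinite_smash_zero V⟩

/-! ### 5. The trivial candidate `X = 0` is excluded by `Statement` -/

/-- The existence clauses of `Statement` (a telescope `T(2)`, a standard form of `BP⟨2⟩_p^∧`) contain an `H𝔽_p` and a
finite `p`-local spectrum of type `2`; so they give `FpTypeLE p 1 0`. -/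
theorem fpTypeLE_one_zero {p : ℕ} (hT : ∃ T : SH, IsTelescope p 2 T) (hB : ∃ B : SH, IsBP2 p B) :
    FpTypeLE p 1 zero := by
  obtain ⟨T, d, F, v, j, -, hF, hF2, -, -⟩ := hT
  obtain ⟨B, hB⟩ := hB
  obtain ⟨H, -, -, -, -, hH, -⟩ := hB.cohomology
  exact fpTypeLE_zero ⟨H, hH⟩ ⟨F, hF, hF2⟩

/-- Hence the clause "exact fp-type two" of `Statement` is not met by `X = 0`. -/
theorem not_exact_fpType_two_zero {p : ℕ} (hT : ∃ T : SH, IsTelescope p 2 T)
    (hB : ∃ B : SH, IsBP2 p B) : ¬ (FpTypeLE p 2 zero ∧ ¬ FpTypeLE p 1 zero) :=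
  fun h => h.2 (fpTypeLE_one_zero hT hB)

/-- The generator lies in its thick subcategory: `X = B` is excluded by the clause `X ∉ Thick(B)`. -/
theorem not_forall_not_thick_self {p : ℕ} {B : SH} (hB : IsBP2 p B) :
    ¬ ∀ B' : SH, IsBP2 p B' → ¬ Thick B' B :=
  fun h => h B hB Thick.base

end SH

/-! ### 6. The zero ring has no height -/

/-- Over the zero ring every class vanishes, so the second half of `HasHeight` fails (a non-example). -/
theorem not_hasHeight_zeroRing (x : KZ2 ⟶ zeroRing.level 2) (p n : ℕ) :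
    ¬ zeroRing.HasHeight x p n := by
  rintro ⟨-, L, g, -, h⟩
  exact h (PSSet.hom_ext_to_pt (g ≫ KZ2.mul p ≫ x) (PSSet.zeroMap _ _) ▸ .refl _)

end Claimed.Open.R319
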