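import Claimed.Open.R319.SanityHF2R
import Claimed.Open.R319.SanityWords

/-!
# Sanity (result 319): the mod `p` cohomology of `H𝔽_p` is finitely presented (one generator, no relation); the hypothesis `∃ H, IsHFp p H` of `SanityWords.lean` is discharged

* `SH.hasFinitelyPresentedCohomology_of_isHFp` : `IsHFp p H → HasFinitelyPresentedCohomology p H` (a NON-ZERO example: `hasFinitelyPresentedCohomology_HCR_zero`);
* `SH.isFp_of_isHFp` : an `H𝔽_p` that is `p`-complete is an fp-spectrum;
* `SH.isFp_zero_all`, `SH.hasFinitelyPresentedCohomology_zero_all` : the statements of `SanityWords.lean` on the zero spectrum without their hypothesis.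
-/

open CategoryTheory Opposite Simplicial

namespace Claimed.Open.R319

namespace SH

/-- `H` is the product of the one-element family `(Σ^0 H)`. -/
theorem isFiniteProductOfShifts_self (H : SH) : IsFiniteProductOfShifts H H :=
  ⟨1, fun _ => 0, fun _ => 𝟙 H,
    ⟨Limits.Fan.IsLimit.mk _ (fun s => s.proj 0)
      (fun s j => by
        obtain rfl : j = 0 := Subsingleton.elim _ _
        exact Category.comp_id _)
      (fun s m hm => by
        have := hm 0
        exact (Category.comp_id m).symm.trans this)⟩⟩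

/-- Two zero morphisms are equal; here: a zero morphism factors through any map to a zero object. -/
theorem isZeroMor_eq_comp_of_isZero {X Y W : SH} {g : X ⟶ Y} (hg : IsZeroMor g) (hW : Limits.IsZero W) (r : X ⟶ W) :
    g = r ≫ hW.to_ Y := by
  obtain ⟨Z, a, b, hZ, rfl⟩ := hg
  rw [hZ.eq_of_src b (hZ.to_ W ≫ hW.to_ Y), ← Category.assoc, hW.eq_of_tgt (a ≫ hZ.to_ W) r]

theorem Dpow_map_id_comp (a : ℕ) {X Y : SH} (y : (Dpow a).obj X ⟶ Y) : (Dpow a).map (𝟙 X) ≫ y = y := by
  rw [CategoryTheory.Functor.map_id, Category.id_comp]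

/-- **`H^*(H𝔽_p; 𝔽_p)` is finitely presented over the Steenrod algebra**: it is free on the fundamental class (generator `𝟙 : H ⟶ H`, no relation). -/
theorem hasFinitelyPresentedCohomology_of_isHFp {p : ℕ} {H : SH} (hH : IsHFp p H) : HasFinitelyPresentedCohomology p H := by
  refine ⟨H, H, zero, 0, 𝟙 H, isZero_zero.from_ H, hH, isFiniteProductOfShifts_self H,
    isFiniteProductOfShifts_of_isZero H isZero_zero, ?_, ?_⟩
  · intro a b y
    exact ⟨y, (Dpow_map_id_comp a (X := H) y).symm⟩
  · intro a b g
    have e : (Dpow a).map (𝟙 H) ≫ g = g := Dpow_map_id_comp a (X := H) g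
    constructor
    · intro hg
      have hg' : IsZeroMor g := e ▸ hg
      exact ⟨_, isZeroMor_eq_comp_of_isZero hg' (isZero_Dpow_obj isZero_zero a) _⟩
    · rintro ⟨h, rfl⟩
      refine (e.symm ▸ ?_ : IsZeroMor ((Dpow a).map (𝟙 H) ≫ (Dpow a).map (isZero_zero.from_ H) ≫ h))
      exact ⟨_, _, h, isZero_Dpow_obj isZero_zero a, rfl⟩

theorem isBoundedBelow_of_isHFp {p : ℕ} {H : SH} (hH : IsHFp p H) : IsBoundedBelow H :=
  ⟨0, fun k hk => hH.2 k hk.ne⟩

theorem isConnective_of_isHFp {p : ℕ} {H : SH} (hH : IsHFp p H) : IsConnective H :=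
  fun k hk => hH.2 k hk.ne

/-- An `H𝔽_p` that is `p`-complete is an fp-spectrum. -/
theorem isFp_of_isHFp {p : ℕ} {H : SH} (hH : IsHFp p H) (hc : IsPComplete p H) : IsFp p H :=
  ⟨isBoundedBelow_of_isHFp hH, hc, hasFinitelyPresentedCohomology_of_isHFp hH⟩

/-- `hasFinitelyPresentedCohomology_zero` without its hypothesis. -/
theorem hasFinitelyPresentedCohomology_zero_all (p : ℕ) : HasFinitelyPresentedCohomology p zero :=
  hasFinitelyPresentedCohomology_zero (exists_isHFp p)

/-- `isFp_zero` without its hypothesis: the zero spectrum is an fp-spectrum. -/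
theorem isFp_zero_all (p : ℕ) : IsFp p zero := isFp_zero (exists_isHFp p)

end SH

/-- A non-zero spectrum whose mod `p` cohomology is finitely presented over the Steenrod algebra, for every `p`. -/
theorem hasFinitelyPresentedCohomology_HCR_zero (p : ℕ) : SH.HasFinitelyPresentedCohomology p (Q.obj (HCR (ZMod p) 0)) :=
  SH.hasFinitelyPresentedCohomology_of_isHFp (isHFp_HCR_zero p)

end Claimed.Open.R319
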