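import Claimed.Open.R319.SanityAddSeq
import Claimed.Open.R319.SanityFp

/-!
# Sanity (result 319): **a NON-ZERO fp-spectrum**: `H𝔽_p` is `p`-complete, hence an fp-spectrum in the sense of `Statement.lean`, for every prime `p`

`HA R a` is the model with ADDITIVE structure maps (`LoopSeq.aspec`, `SanityAddSeq.lean`) of the `Ω`-spectrum `HCR R a` with the levels `GEMR R (a + n)`
(the structure maps of `HCR R a` are not additive, so that the completeness proof of `SanityNotLocalR.lean` does not apply to it).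

* `LoopSeq.piEquivAspec` : the two models have the same homotopy groups;  `isHFp_HA_zero (p) : SH.IsHFp p (Q.obj (HA (ZMod p) 0))`;
* `isPComplete_HA (p) (a)` : `HA (ZMod p) a` is `p`-complete: **`H𝔽_p` is `p`-complete**;
* **`isFp_HA_zero (p) : SH.IsFp p (Q.obj (HA (ZMod p) 0))`** (with `SH.isFp_of_isHFp` of `SanityFp.lean`);
* `exists_isFp_not_isZero` : a non-zero, connective, `p`-complete fp-spectrum, for every `p ≠ 1`;  `isTotallyFinite_HA_zero`.
-/

open CategoryTheory Opposite Simplicial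

namespace Claimed.Open.R319

open PSSet

/-! ### 1. The two models of the `Ω`-spectrum of a sequence of strict loop objects have the same homotopy groups -/

namespace LoopSeq

variable (L : LoopSeq)

/-- `[A, (aspec)_n] ≃ [A, E_n]` -/
noncomputable def hoEquivAspec (n : ℕ) (A : PSSet) : PSSet.HoClass A (L.aspec.level n) ≃ PSSet.HoClass A (L.E n) where
  toFun := Quot.map (fun f => f ≫ L.apr n) fun _ _ h => h.postcomp _
  invFun := Quot.map (fun a => L.alift n a) fun _ _ h => L.homotopic_alevel h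
  left_inv := by
    rintro ⟨f⟩
    exact Quot.sound (L.homotopic_alevel (.refl _))
  right_inv := by
    rintro ⟨a⟩
    rfl

/-- `[A, (spectrum)_n] ≃ [A, E_n]` -/
noncomputable def hoEquivSpectrum (n : ℕ) (A : PSSet) : PSSet.HoClass A (L.spectrum.level n) ≃ PSSet.HoClass A (L.E n) where
  toFun := Quot.map (fun f => f ≫ L.pr n) fun _ _ h => h.postcomp _
  invFun := Quot.map (fun a => L.lift n a) fun _ _ h => L.homotopic_level h
  left_inv := by
    rintro ⟨f⟩
    exact Quot.sound (L.homotopic_level (.refl _))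
  right_inv := by
    rintro ⟨a⟩
    rfl

/-- The two models have the same homotopy groups. -/
noncomputable def piEquivAspec (hA : L.aspec.IsOmega) (k : ℤ) : SH.π k (Q.obj L.aspec) ≃ SH.π k (Q.obj L.spectrum) :=
  match k with
  | Int.ofNat k => (SH.piEquivNonneg k L.aspec hA).trans
      (((L.hoEquivAspec 0 (Sph k)).trans (L.hoEquivSpectrum 0 (Sph k)).symm).trans (SH.piEquivNonneg k L.spectrum L.isOmega).symm)
  | Int.negSucc k => (SH.piEquivNeg k L.aspec hA).trans
      (((L.hoEquivAspec (k + 1) S0).trans (L.hoEquivSpectrum (k + 1) S0).symm).trans (SH.piEquivNeg k L.spectrum L.isOmega).symm)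

theorem isHFp_aspec (hA : L.aspec.IsOmega) {p : ℕ} (h : SH.IsHFp p (Q.obj L.spectrum)) : SH.IsHFp p (Q.obj L.aspec) :=
  ⟨(Nat.card_congr (L.piEquivAspec hA 0)).trans h.1, fun k hk =>
    have := h.2 k hk
    (L.piEquivAspec hA k).subsingleton⟩

end LoopSeq

/-! ### 2. The additive model `HA R a` -/

section HA

variable (R : Type) [CommRing R]

/-- the structure of simplicial abelian group of `GEMR R d` -/
def abGrpGEMR (d : ℤ) : AbGrp (GEMR R d) where
  grp n := inferInstanceAs (AddCommGroup (grCocyclesR R d n.unop))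
  point_eq _ := rfl
  map_add _ _ _ := rfl

theorem abGrpGEMR_it (d : ℤ) (k : ℕ) {n : SimplexCategoryᵒᵖ} (x : (GEMR R d).obj n) (m : ℕ) (φ : ⦋m⦌ ⟶ n.unop)
    (l : List (⦋m⦌ ⟶ ⦋1⦌)) : ((abGrpGEMR R d).it k x).1 m φ l = (k : R) * x.1 m φ l := by
  induction k with
  | zero =>
    show (0 : R) = ((0 : ℕ) : R) * x.1 m φ l
    rw [Nat.cast_zero, zero_mul]
  | succ k ih =>
    show ((abGrpGEMR R d).it k x).1 m φ l + x.1 m φ l = _
    rw [ih, Nat.cast_succ]
    ring

theorem hasExp_abGrpGEMR {N : ℕ} (hN : (N : R) = 0) (d : ℤ) : (abGrpGEMR R d).HasExp N := fun _ x =>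
  Subtype.ext (funext fun m => funext fun φ => funext fun l => by
    rw [abGrpGEMR_it, hN, zero_mul]
    rfl)

theorem σGR_add {d d' : ℤ} (hd : d' = d + 1) (m : SimplexCategoryᵒᵖ) (x y : (GEMR R d).obj m) (s : S1.obj m) :
    ((σGR R hd).app m).toFun (Smash.mk ((abGrpGEMR R d).add x y) s) =
      (abGrpGEMR R d').add (((σGR R hd).app m).toFun (Smash.mk x s)) (((σGR R hd).app m).toFun (Smash.mk y s)) := by
  have h := congrArg Subtype.val (σEMR_add R m (((gemιR R d).app m).toFun x) (((gemιR R d).app m).toFun y) s)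
  exact Subtype.ext h

/-- The sequence `GEMR R a, GEMR R (a + 1), …` with its structures of simplicial abelian groups. -/
def addSeqGEMR (a : ℤ) : AddSeqG where
  L := loopGEMR R a
  S i := abGrpGEMR R (a + i)
  σ_add i m x y s := σGR_add R (by push_cast; ring) m x y s

/-- The `Ω`-spectrum with the levels `GEMR R (a + n)` (up to a contractible factor) and with additive structure maps. -/
noncomputable def HA (a : ℤ) : Sp := (loopGEMR R a).aspec

theorem isOmega_HA (a : ℤ) : (HA R a).IsOmega := LoopSeq.isOmega_aspec (addSeqGEMR R a).S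

/-- `π_k (HA R a) ≃ π_k (HCR R a)` -/
noncomputable def piEquivHA (a k : ℤ) : SH.π k (Q.obj (HA R a)) ≃ SH.π k (Q.obj (HCR R a)) :=
  (loopGEMR R a).piEquivAspec (isOmega_HA R a) k

/-- **`π_k (HA R a) = 0` for `k ≠ a`.** -/
theorem subsingleton_π_HA_of_ne (a k : ℤ) (h : k ≠ a) : Subsingleton (SH.π k (Q.obj (HA R a))) :=
  have := subsingleton_π_HCR_of_ne R a k h
  (piEquivHA R a k).subsingleton

/-- **`π_0 (HA R 0) ≃ R`.** -/
noncomputable def piZeroEquivHA : SH.π 0 (Q.obj (HA R 0)) ≃ R := (piEquivHA R 0 0).trans (piZeroEquivHCR R)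

/-- If `N = 0` in `R` then `HA R a` is `N`-complete. -/
theorem isPComplete_HA_of {N : ℕ} (hN : (N : R) = 0) (a : ℤ) : SH.IsPComplete N (Q.obj (HA R a)) :=
  (addSeqGEMR R a).isPComplete fun i => hasExp_abGrpGEMR R hN (a + i)

theorem isBoundedBelow_HA (a : ℤ) : SH.IsBoundedBelow (Q.obj (HA R a)) :=
  ⟨a, fun k hk => subsingleton_π_HA_of_ne R a k (ne_of_lt hk)⟩

theorem isConnective_HA {a : ℤ} (ha : 0 ≤ a) : SH.IsConnective (Q.obj (HA R a)) :=
  fun k hk => subsingleton_π_HA_of_ne R a k (ne_of_lt (lt_of_lt_of_le hk ha))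

theorem isTotallyFinite_HA_zero [Finite R] : SH.IsTotallyFinite (Q.obj (HA R 0)) := by
  refine ⟨fun k => ?_, 0, fun k hk => subsingleton_π_HA_of_ne R 0 k (by
    rintro rfl
    simp at hk)⟩
  by_cases hk : k = 0
  · subst hk
    exact Finite.of_equiv R (piZeroEquivHA R).symm
  · have := subsingleton_π_HA_of_ne R 0 k hk
    infer_instance

end HA

/-- **`HA (ZMod p) 0` is an Eilenberg--Mac Lane spectrum `H𝔽_p` in the sense of `Statement.lean`.** -/
theorem isHFp_HA_zero (p : ℕ) : SH.IsHFp p (Q.obj (HA (ZMod p) 0)) :=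
  (loopGEMR (ZMod p) 0).isHFp_aspec (isOmega_HA (ZMod p) 0) (isHFp_HCR_zero p)

/-- **`H𝔽_p` (and its shifts) are `p`-complete in the sense of `Statement.lean`.** -/
theorem isPComplete_HA (p : ℕ) (a : ℤ) : SH.IsPComplete p (Q.obj (HA (ZMod p) a)) :=
  isPComplete_HA_of (ZMod p) (ZMod.natCast_self p) a

/-! ### 3. `H𝔽_p` is an fp-spectrum -/

/-- **`H𝔽_p` is an fp-spectrum in the sense of `Statement.lean`.** -/
theorem isFp_HA_zero (p : ℕ) : SH.IsFp p (Q.obj (HA (ZMod p) 0)) :=
  SH.isFp_of_isHFp (isHFp_HA_zero p) (isPComplete_HA p 0)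

/-- **A NON-ZERO fp-spectrum, for every `p ≠ 1`** (in particular for every prime `p`); it is connective, `p`-complete and its homotopy is finite in total if `p ≠ 0`. -/
theorem exists_isFp_not_isZero {p : ℕ} (hp : p ≠ 1) :
    ∃ X : SH, SH.IsFp p X ∧ SH.IsConnective X ∧ SH.IsPComplete p X ∧ ¬ Limits.IsZero X :=
  ⟨Q.obj (HA (ZMod p) 0), isFp_HA_zero p, isConnective_HA (ZMod p) le_rfl, isPComplete_HA p 0,
    fun h => SH.not_isHFp_of_isZero hp h (isHFp_HA_zero p)⟩

end Claimed.Open.R319
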