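import Claimed.Open.R319.SanityNontrivial

/-!
# Sanity (result 319): the graded pieces `GEM d` (`d ∈ ℤ`) of the simplicial group of stable mod 2 cocycles

`GEM d ⊆ EM` consists of the stable cocycles that are homogeneous of degree `d` (`z(m, φ, l) = 0` unless `m = length l + d`) and NORMALIZED (they vanish on the
degenerate simplices of `Δ[q] × Δ[1]^k`).  The structure map of `EM` restricts to `GEM d ∧ S¹ ⟶ GEM (d + 1)`, adjoint to an isomorphism `GEM d ≅ Ω GEM (d + 1)`
(`σG`, `σG_ex`, `σG_uniq`); `GEM d` has only one vertex for `d > 0` (`IsGrCocycle.eq_zero_of_pos`), so that the only pointed map `S^k ⟶ GEM d` is the constant one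
for `k < d` (`Sph_hom_GEM_eq_zero`); the fundamental cocycle lies in `GEM 0` (`fundG`, `fundSphG`, `not_homotopic_fundSphG`).
-/

open CategoryTheory Opposite Simplicial

namespace Claimed.Open.R319

open PSSet

/-- A stable cocycle that is homogeneous of degree `d` and normalized. -/
structure IsGrCocycle (d : ℤ) {T : SimplexCategory} (z : Coch T) : Prop where
  st : IsStCocycle z
  graded : ∀ (m : ℕ) (φ : ⦋m⦌ ⟶ T) (l : List (⦋m⦌ ⟶ ⦋1⦌)), (m : ℤ) ≠ l.length + d → z m φ l = 0
  normal : ∀ (m : ℕ) (j : Fin (m + 1)) (φ : ⦋m⦌ ⟶ T) (l : List (⦋m⦌ ⟶ ⦋1⦌)),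
    z (m + 1) (SimplexCategory.σ j ≫ φ) (l.map fun s => SimplexCategory.σ j ≫ s) = 0

/-- The group of the normalized stable cocycles of degree `d`. -/
def grCocycles (d : ℤ) (T : SimplexCategory) : AddSubgroup (Coch T) where
  carrier := {z | IsGrCocycle d z}
  zero_mem' := ⟨(stCocycles T).zero_mem, fun _ _ _ _ => rfl, fun _ _ _ _ => rfl⟩
  add_mem' {a b} ha hb := ⟨(stCocycles T).add_mem ha.st hb.st, fun m φ l h => by
      show a m φ l + b m φ l = 0
      rw [ha.graded m φ l h, hb.graded m φ l h, add_zero],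
    fun m j φ l => by
      show a (m + 1) _ _ + b (m + 1) _ _ = 0
      rw [ha.normal m j φ l, hb.normal m j φ l, add_zero]⟩
  neg_mem' {a} ha := ⟨(stCocycles T).neg_mem ha.st, fun m φ l h => by
      show - a m φ l = 0
      rw [ha.graded m φ l h, neg_zero],
    fun m j φ l => by
      show - a (m + 1) _ _ = 0
      rw [ha.normal m j φ l, neg_zero]⟩

theorem IsGrCocycle.comp {d : ℤ} {T T' : SimplexCategory} {z : Coch T} (hz : IsGrCocycle d z) (ψ : T' ⟶ T) :
    IsGrCocycle d (T := T') fun m φ l => z m (φ ≫ ψ) l where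
  st := hz.st.comp ψ
  graded m φ l h := hz.graded m _ l h
  normal m j φ l := by
    simpa only [Category.assoc] using hz.normal m j (φ ≫ ψ) l

/-- The pointed simplicial abelian group of the normalized stable cocycles of degree `d`. -/
def GEM (d : ℤ) : PSSet where
  obj n := ⟨grCocycles d n.unop, 0⟩
  map ψ := ⟨fun z => ⟨fun m φ l => z.1 m (φ ≫ ψ.unop) l, IsGrCocycle.comp z.2 ψ.unop⟩, Subtype.ext rfl⟩
  map_id _ := Pointed.Hom.ext (funext fun z => Subtype.ext (funext fun m => funext fun φ => by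
    show z.1 m (φ ≫ 𝟙 _) = z.1 m φ
    rw [Category.comp_id]))
  map_comp ψ χ := Pointed.Hom.ext (funext fun z => Subtype.ext (funext fun m => funext fun φ => by
    show z.1 m (φ ≫ (χ.unop ≫ ψ.unop)) = z.1 m ((φ ≫ χ.unop) ≫ ψ.unop)
    rw [Category.assoc]))

/-- The inclusion `GEM d ⟶ EM`. -/
def gemι (d : ℤ) : GEM d ⟶ EM where
  app _ := ⟨fun z => ⟨z.1, z.2.st⟩, rfl⟩
  naturality _ _ _ := rfl

theorem gemι_cancel {d : ℤ} {A : PSSet} {g g' : A ⟶ GEM d} (h : g ≫ gemι d = g' ≫ gemι d) : g = g' :=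
  NatTrans.ext (funext fun n => Pointed.Hom.ext (funext fun a => Subtype.ext
    (congrArg (fun k : A ⟶ EM => ((k.app n).toFun a).1) h)))

theorem gemι_isGr {d : ℤ} {A : PSSet} (g : A ⟶ GEM d) (n : SimplexCategoryᵒᵖ) (a : A.obj n) :
    IsGrCocycle d (((g ≫ gemι d).app n).toFun a).1 := ((g.app n).toFun a).2

/-- A map into `EM` with values in `GEM d` is a map into `GEM d`. -/
def gemLift {A : PSSet} (d : ℤ) (g : A ⟶ EM) (hg : ∀ n (a : A.obj n), IsGrCocycle d ((g.app n).toFun a).1) : A ⟶ GEM d where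
  app n := ⟨fun a => ⟨((g.app n).toFun a).1, hg n a⟩,
    Subtype.ext (congrArg (fun w : EM.obj n => w.1) (g.app n).map_point)⟩
  naturality n n' ψ := Pointed.Hom.ext (funext fun a => Subtype.ext
    (congrArg (fun k : A.obj n ⟶ EM.obj n' => (k.toFun a).1) (g.naturality ψ)))

theorem gemLift_ι {A : PSSet} (d : ℤ) (g : A ⟶ EM) (hg : ∀ n (a : A.obj n), IsGrCocycle d ((g.app n).toFun a).1) :
    gemLift d g hg ≫ gemι d = g := rfl

/-! ### The structure maps -/

theorem σEM_isGr {d d' : ℤ} (hd : d' = d + 1) (n : SimplexCategoryᵒᵖ) (x : (smash (GEM d) S1).obj n) :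
    IsGrCocycle d' (((smashMap (gemι d) (𝟙 S1) ≫ σEM).app n).toFun x).1 := by
  induction x using Smash.ind with | h z b => ?_
  induction b using S1.ind with | h s => ?_
  have e : ∀ (m : ℕ) (φ : ⦋m⦌ ⟶ n.unop) (l : List (⦋m⦌ ⟶ ⦋1⦌)),
      (((smashMap (gemι d) (𝟙 S1) ≫ σEM).app n).toFun (Smash.mk z (S1.mk s))).1 m φ l = z.1 m φ ((φ ≫ s) :: l) :=
    fun m φ l => σEM_mk (((gemι d).app n).toFun z) s m φ l
  refine ⟨(((smashMap (gemι d) (𝟙 S1) ≫ σEM).app n).toFun (Smash.mk z (S1.mk s))).2, fun m φ l h => ?_, fun m j φ l => ?_⟩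
  · rw [e]
    refine z.2.graded m φ _ ?_
    rw [List.length_cons]
    push_cast
    omega
  · rw [e]
    have := z.2.normal m j φ ((φ ≫ s) :: l)
    simpa only [List.map_cons, Category.assoc] using this

/-- The structure map `GEM d ∧ S¹ ⟶ GEM (d + 1)`. -/
def σG {d d' : ℤ} (hd : d' = d + 1) : smash (GEM d) S1 ⟶ GEM d' :=
  gemLift d' (smashMap (gemι d) (𝟙 S1) ≫ σEM) (σEM_isGr hd)

theorem σG_ι {d d' : ℤ} (hd : d' = d + 1) : σG hd ≫ gemι d' = smashMap (gemι d) (𝟙 S1) ≫ σEM := rfl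

/-- two consecutive degeneracies and a `tau`: everything factors through one degeneracy -/
theorem exists_σ_factor {m : ℕ} (j : Fin (m + 1)) (j' : Fin (m + 2)) :
    ∃ (i : Fin (m + 2)) (χ : ⦋m + 1⦌ ⟶ ⦋m⦌) (t : ⦋m + 1⦌ ⟶ ⦋1⦌),
      SimplexCategory.σ j' ≫ SimplexCategory.σ j = SimplexCategory.σ i ≫ χ ∧ tau j' = SimplexCategory.σ i ≫ t := by
  by_cases h : j'.val ≤ j.val
  · refine ⟨j.succ, SimplexCategory.σ ⟨j'.val, by omega⟩, prismTheta (j'.val + 1), ?_, ?_⟩
    · apply prism_hom_ext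
      intro v
      simp only [prism_comp_apply, prism_σ_apply, Fin.val_succ]
      split_ifs <;> omega
    · rw [diag_σ_theta, diag_tau_eq_theta, if_neg (by rw [Fin.val_succ]; omega)]
  · refine ⟨j.castSucc, SimplexCategory.σ ⟨j'.val - 1, by omega⟩, prismTheta j'.val, ?_, ?_⟩
    · apply prism_hom_ext
      intro v
      simp only [prism_comp_apply, prism_σ_apply, Fin.val_castSucc]
      split_ifs <;> omega
    · rw [diag_σ_theta, diag_tau_eq_theta, if_pos (by rw [Fin.val_castSucc]; omega)]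

theorem adjCoch_isGr {A : PSSet} (H : smash A S1 ⟶ EM) {d d' : ℤ} (hd : d' = d + 1)
    (hH : ∀ n (x : (smash A S1).obj n), IsGrCocycle d' ((H.app n).toFun x).1) {n : SimplexCategoryᵒᵖ} (a : A.obj n) :
    IsGrCocycle d (adjCoch H a) where
  st := adjCoch_isStCocycle H a
  graded m φ l h := by
    cases l with
    | nil =>
      show ∑ j : Fin (m + 1), (hval H a (SimplexCategory.σ j ≫ φ) (tau j)).1 (m + 1) (𝟙 _) [] = 0
      refine Finset.sum_eq_zero fun j _ => (hH _ _).graded (m + 1) _ _ ?_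
      rw [List.length_nil] at h ⊢
      push_cast at h ⊢
      omega
    | cons t l' =>
      show (hval H a φ t).1 m (𝟙 _) l' = 0
      refine (hH _ _).graded m _ _ ?_
      rw [List.length_cons] at h
      push_cast at h
      omega
  normal m j φ l := by
    cases l with
    | nil =>
      show ∑ j' : Fin (m + 2), (hval H a (SimplexCategory.σ j' ≫ SimplexCategory.σ j ≫ φ) (tau j')).1 (m + 2) (𝟙 _) [] = 0
      refine Finset.sum_eq_zero fun j' _ => ?_
      obtain ⟨i, χ, t, e1, e2⟩ := exists_σ_factor j j'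
      rw [← Category.assoc, e1, e2, Category.assoc, hval_nat, Category.id_comp]
      have := (hH _ (Smash.mk ((A.map (χ ≫ φ).op).toFun a) (S1.mk (n := op ⦋m + 1⦌) t))).normal (m + 1) i (𝟙 _) []
      rw [Category.comp_id] at this
      exact this
    | cons t l' =>
      show (hval H a (SimplexCategory.σ j ≫ φ) (SimplexCategory.σ j ≫ t)).1 (m + 1) (𝟙 _) (l'.map fun s => SimplexCategory.σ j ≫ s) = 0
      rw [hval_nat, Category.id_comp]
      have := (hH _ (Smash.mk ((A.map φ.op).toFun a) (S1.mk (n := op ⦋m⦌) t))).normal m j (𝟙 _) l'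
      rw [Category.comp_id] at this
      exact this

/-- `GEM d ≅ Ω GEM (d + 1)`: existence of the adjoint -/
theorem σG_ex {d d' : ℤ} (hd : d' = d + 1) (A : PSSet) (h : smash A S1 ⟶ GEM d') :
    ∃ g : A ⟶ GEM d, smashMap g (𝟙 S1) ≫ σG hd = h := by
  have hg : ∀ n (a : A.obj n), IsGrCocycle d (((adjEM (h ≫ gemι d')).app n).toFun a).1 :=
    fun n a => adjCoch_isGr (h ≫ gemι d') hd (gemι_isGr h) a
  refine ⟨gemLift d (adjEM (h ≫ gemι d')) hg, gemι_cancel ?_⟩
  rw [Category.assoc, σG_ι, ← Category.assoc, ← smashMap_comp, gemLift_ι, Category.comp_id, adjEM_spec]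

/-- `GEM d ≅ Ω GEM (d + 1)`: uniqueness of the adjoint -/
theorem σG_uniq {d d' : ℤ} (hd : d' = d + 1) (A : PSSet) (g g' : A ⟶ GEM d)
    (h : smashMap g (𝟙 S1) ≫ σG hd = smashMap g' (𝟙 S1) ≫ σG hd) : g = g' := by
  refine gemι_cancel (σEM_uniq _ _ ?_)
  have h' := congrArg (fun k => k ≫ gemι d') h
  simp only [Category.assoc, σG_ι] at h'
  rw [← Category.assoc, ← smashMap_comp, Category.comp_id, ← Category.assoc, ← smashMap_comp, Category.comp_id] at h'
  exact h'

/-! ### `GEM d` has only one vertex for `d > 0`; maps `S^k ⟶ GEM d` for `k < d` -/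

theorem exists_tau_not_mem {m : ℕ} (l : List (⦋m + 1⦌ ⟶ ⦋1⦌)) (h : l.length < m + 1) : ∃ j : Fin (m + 1), tau j ∉ l := by
  classical
  by_contra hc
  push Not at hc
  have h1 : (Finset.univ.image (tau (m := m))) ⊆ l.toFinset := by
    intro s hs
    obtain ⟨j, _, rfl⟩ := Finset.mem_image.1 hs
    exact List.mem_toFinset.2 (hc j)
  have h2 := Finset.card_le_card h1
  rw [Finset.card_image_of_injective _ diag_tau_injective, Finset.card_univ, Fintype.card_fin] at h2
  have h3 := List.toFinset_card_le l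
  omega

/-- a simplex of `Δ[1]` different from `tau j` is degenerate along `σ j` -/
theorem σ_δ_of_ne_tau {m : ℕ} (j : Fin (m + 1)) (s : ⦋m + 1⦌ ⟶ ⦋1⦌) (h : s ≠ tau j) :
    SimplexCategory.σ j ≫ SimplexCategory.δ j.succ ≫ s = s := by
  obtain ⟨c, hc, rfl⟩ := diag_exists_theta s
  have hne : c ≠ j.val + 1 := by
    rintro rfl
    exact h (diag_tau_eq_theta j).symm
  rw [diag_δ_theta, diag_σ_theta]
  congr 1
  rw [Fin.val_succ]
  split_ifs <;> omega

/-- `tau j` is not degenerate along `σ j` -/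
theorem σ_comp_ne_tau {m : ℕ} (j : Fin (m + 1)) (s : ⦋m⦌ ⟶ ⦋1⦌) : SimplexCategory.σ j ≫ s ≠ tau j := by
  obtain ⟨c, hc, rfl⟩ := diag_exists_theta s
  rw [diag_σ_theta, diag_tau_eq_theta]
  intro h
  have h1 := j.isLt
  have := diag_theta_inj (by split_ifs <;> omega) (by omega) h
  split_ifs at this <;> omega

/-- A normalized stable cocycle of degree `d > 0` on the point is zero: the simplices of `Δ[1]^k` of dimension `> k` are degenerate. -/
theorem IsGrCocycle.eq_zero_of_pos {d : ℤ} (hd : 0 < d) {z : Coch ⦋0⦌} (hz : IsGrCocycle d z) : z = 0 := by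
  funext m φ l
  by_cases h : (m : ℤ) = l.length + d
  · obtain ⟨m', rfl⟩ : ∃ m', m = m' + 1 := ⟨m - 1, by omega⟩
    obtain ⟨j, hj⟩ := exists_tau_not_mem l (by push_cast at h; omega)
    have e1 : φ = SimplexCategory.σ j ≫ (SimplexCategory.δ j.succ ≫ φ) := by
      apply prism_hom_ext
      intro v
      exact congrArg Fin.val (Subsingleton.elim (α := Fin 1) _ _)
    have e2 : l = (l.map fun s => SimplexCategory.δ j.succ ≫ s).map fun s => SimplexCategory.σ j ≫ s := by
      rw [List.map_map]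
      refine ((List.map_congr_left fun s hs => ?_).trans (List.map_id l)).symm
      exact σ_δ_of_ne_tau j s (fun e => hj (e ▸ hs))
    rw [e1, e2]
    exact hz.normal m' j _ _
  · exact hz.graded m φ l h

/-- every simplex of `S⁰` other than the base point is the degeneracy of the vertex -/
theorem S0_mk_eq (n : SimplexCategoryᵒᵖ) (s : (Δ[0] : SSet.{0}).obj n) :
    (quot.mk ⊥ s : S0.obj n) = (S0.map (n.unop.const ⦋0⦌ 0).op).toFun (S0.vertex (op ⦋0⦌)) := by
  refine congrArg (fun t => (quot.mk ⊥ t : S0.obj n)) ?_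
  apply SSet.stdSimplex.objEquiv.injective
  apply SimplexCategory.Hom.ext
  apply OrderHom.ext
  funext v
  exact Subsingleton.elim (α := Fin 1) _ _

/-- For `d > 0` the only pointed map `S⁰ ⟶ GEM d` is the constant map. -/
theorem S0_hom_GEM_eq_zero {d : ℤ} (hd : 0 < d) (f : S0 ⟶ GEM d) : f = zeroMap S0 (GEM d) := by
  have hv : (f.app (op ⦋0⦌)).toFun (S0.vertex (op ⦋0⦌)) = ((GEM d).obj (op ⦋0⦌)).point :=
    Subtype.ext (IsGrCocycle.eq_zero_of_pos hd ((f.app (op ⦋0⦌)).toFun (S0.vertex (op ⦋0⦌))).2)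
  refine NatTrans.ext (funext fun n => Pointed.Hom.ext (funext fun x => ?_))
  induction x using plus_ind with
  | h0 => exact (f.app n).map_point
  | h s =>
    have e := congrArg (fun k : S0.obj (op ⦋0⦌) ⟶ (GEM d).obj n => k.toFun (S0.vertex (op ⦋0⦌)))
      (f.naturality (n.unop.const ⦋0⦌ 0).op)
    have e' : (f.app n).toFun ((S0.map (n.unop.const ⦋0⦌ 0).op).toFun (S0.vertex (op ⦋0⦌)))
        = ((GEM d).map (n.unop.const ⦋0⦌ 0).op).toFun ((f.app (op ⦋0⦌)).toFun (S0.vertex (op ⦋0⦌))) := e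
    rw [hv] at e'
    exact (congrArg (f.app n).toFun (S0_mk_eq n s)).trans (e'.trans ((GEM d).map _).map_point)

/-- **For `k < d` the only pointed map `S^k ⟶ GEM d` is the constant map.** -/
theorem Sph_hom_GEM_eq_zero (k : ℕ) : ∀ (d : ℤ), (k : ℤ) < d → ∀ f : Sph k ⟶ GEM d, f = zeroMap (Sph k) (GEM d) := by
  induction k with
  | zero => exact fun d hd f => S0_hom_GEM_eq_zero (by simpa using hd) f
  | succ k ih =>
    intro d hd f
    obtain ⟨g, hg⟩ := σG_ex (d := d - 1) (d' := d) (by ring) (Sph k) f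
    rw [ih (d - 1) (by push_cast at hd; omega) g] at hg
    exact hg.symm.trans (smashMap_zeroMap_comp (A := Sph k) _)

/-! ### The fundamental classes -/

theorem diag_length (m : ℕ) : (diag m).length = m := by
  rw [diag_eq_ofFn, List.length_ofFn]

theorem fundCoch_isGr (T : SimplexCategory) : IsGrCocycle 0 (fundCoch T) where
  st := fundCoch_isStCocycle T
  graded m _ l h := if_neg (by
    rintro rfl
    rw [diag_length, add_zero] at h
    exact h rfl)
  normal m j _ l := if_neg (fun h => by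
    have h1 : tau j ∈ diag (m + 1) := List.mem_ofFn.2 ⟨j, rfl⟩
    rw [← h] at h1
    obtain ⟨s, _, hs⟩ := List.mem_map.1 h1
    exact σ_comp_ne_tau j s hs)

/-- The fundamental class `S⁰ ⟶ GEM 0`. -/
def fundG : S0 ⟶ GEM 0 :=
  gemLift 0 fundMap fun n a => by
    induction a using plus_ind with
    | h0 => exact (grCocycles 0 n.unop).zero_mem
    | h s => exact fundCoch_isGr n.unop

/-- The fundamental class `S^k ⟶ GEM k`. -/
def fundSphG (k : ℕ) : Sph k ⟶ GEM k :=
  match k with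
  | 0 => fundG
  | k + 1 => smashMap (fundSphG k) (𝟙 S1) ≫ σG (Nat.cast_succ k)

theorem fundSphG_ι (k : ℕ) : fundSphG k ≫ gemι k = fundSph k :=
  match k with
  | 0 => rfl
  | k + 1 => by
    show (smashMap (fundSphG k) (𝟙 S1) ≫ σG (Nat.cast_succ k)) ≫ gemι _ = smashMap (fundSph k) (𝟙 S1) ≫ σEM
    rw [Category.assoc, σG_ι, ← Category.assoc, ← smashMap_comp, Category.comp_id, fundSphG_ι k]

/-- The fundamental class `S^k ⟶ GEM k` is not null homotopic. -/
theorem not_homotopic_fundSphG (k : ℕ) : ¬ PSSet.Homotopic (fundSphG k) (zeroMap (Sph k) (GEM k)) := fun h =>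
  not_homotopic_fundSph k (by
    have h' := h.postcomp (gemι k)
    rwa [fundSphG_ι] at h')

end Claimed.Open.R319
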