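import Claimed.Open.R319.Sanity
import Claimed.Open.R319.SanityGraded
import Claimed.Open.R319.SanityOmegaSeq

/-!
# Sanity (result 319): `Ω`-spectra `HC a` (`a ∈ ℤ`) with `π_k = 0` for `k < a` and `π_a ≠ 0`

`HC a` is the `Ω`-spectrum with the levels `GEM a, GEM (a + 1), …` (normalized stable mod 2 cocycles of degree `a + n`).  Consequences:

* `isConnective_HC`, `not_isZero_HC` : `IsConnective` has a NON-ZERO example;  `not_isConnective_HC` : and a non-example that is bounded below;
* `isBoundedBelow_HC`, `not_isBoundedBelow_specEM` : `IsBoundedBelow` has non-zero examples and a non-example;  `not_isTotallyFinite_specEM`;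
* `sphere_iso_iff` : the spheres `S^a`, `a ∈ ℤ`, of `SH` are pairwise NOT isomorphic (`not_iso_D_sphere_zero`);  `HC_iso_iff` : neither are the `HC a`;
* `exists_not_isZeroMor_sphere_HC` : a map `S^a ⟶ HC a` that is not a zero map.
-/

open CategoryTheory Opposite Simplicial

namespace Claimed.Open.R319

open PSSet

/-- The sequence `GEM a, GEM (a + 1), …` of strict loop objects. -/
def loopGEM (a : ℤ) : LoopSeq where
  E i := GEM (a + i)
  grp i n := inferInstanceAs (AddCommGroup (grCocycles (a + i) n.unop))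
  map_add _ _ _ _ _ _ := rfl
  σ i := σG (by push_cast; ring)
  ex i A h := σG_ex _ A h
  uniq i A g g' := σG_uniq _ A g g'

/-- The `Ω`-spectrum with the levels `GEM (a + n)` (up to a contractible factor). -/
noncomputable def HC (a : ℤ) : Sp := (loopGEM a).spectrum

theorem isOmega_HC (a : ℤ) : (HC a).IsOmega := (loopGEM a).isOmega

/-- `[S^k, (HC a)_n]` is a point for `k < a + n`. -/
theorem subsingleton_hoClass_HC (a : ℤ) (n k : ℕ) (h : (k : ℤ) < a + n) :
    Subsingleton (PSSet.HoClass (Sph k) ((HC a).level n)) :=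
  ⟨by
    rintro ⟨f⟩ ⟨g⟩
    have key : ∀ f g : Sph k ⟶ (loopGEM a).spectrum.level n, PSSet.Homotopic f g := fun f g => by
      refine (loopGEM a).homotopic_level ?_
      have e1 : f ≫ (loopGEM a).pr n = zeroMap (Sph k) (GEM (a + n)) := Sph_hom_GEM_eq_zero k _ h _
      have e2 : g ≫ (loopGEM a).pr n = zeroMap (Sph k) (GEM (a + n)) := Sph_hom_GEM_eq_zero k _ h _
      rw [e1, e2]
      exact .refl _
    exact Quot.sound (key f g)⟩

/-- **`π_k (HC a) = 0` for `k < a`.** -/
theorem subsingleton_π_HC (a k : ℤ) (h : k < a) : Subsingleton (SH.π k (Q.obj (HC a))) :=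
  match k, h with
  | Int.ofNat k, h =>
    have := subsingleton_hoClass_HC a 0 k (by simpa using h)
    (SH.piEquivNonneg k (HC a) (isOmega_HC a)).subsingleton
  | Int.negSucc k, h =>
    have : Subsingleton (PSSet.HoClass S0 ((HC a).level (k + 1))) := subsingleton_hoClass_HC a (k + 1) 0 (by
      rw [Int.negSucc_eq] at h
      push_cast
      omega)
    (SH.piEquivNeg k (HC a) (isOmega_HC a)).subsingleton

theorem exists_not_homotopic_GEM (k : ℕ) (d : ℤ) (h : d = k) :
    ∃ f : Sph k ⟶ GEM d, ¬ PSSet.Homotopic f (zeroMap (Sph k) (GEM d)) := by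
  subst h
  exact ⟨fundSphG k, not_homotopic_fundSphG k⟩

/-- `[S^k, (HC a)_n]` has two different elements for `k = a + n`. -/
theorem exists_hoClass_HC_ne (a : ℤ) (n k : ℕ) (h : a + n = k) :
    ∃ x y : PSSet.HoClass (Sph k) ((HC a).level n), x ≠ y := by
  obtain ⟨f, hf⟩ := exists_not_homotopic_GEM k (a + n) h
  refine ⟨Quot.mk _ ((loopGEM a).lift n f), Quot.mk _ (zeroMap (Sph k) _), fun e => hf ?_⟩
  exact (PSSet.homotopic_of_quot_eq e).postcomp ((loopGEM a).pr n)

/-- **`π_a (HC a)` has two different elements.** -/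
theorem exists_π_HC_ne (a : ℤ) : ∃ x y : SH.π a (Q.obj (HC a)), x ≠ y :=
  match a with
  | Int.ofNat a => by
    obtain ⟨x, y, hxy⟩ := exists_hoClass_HC_ne (Int.ofNat a) 0 a (by simp)
    let e := SH.piEquivNonneg a (HC (Int.ofNat a)) (isOmega_HC _)
    exact ⟨e.symm x, e.symm y, fun h => hxy (e.symm.injective h)⟩
  | Int.negSucc a => by
    obtain ⟨x, y, hxy⟩ := exists_hoClass_HC_ne (Int.negSucc a) (a + 1) 0 (by
      rw [Int.negSucc_eq]
      push_cast
      omega)
    let e := SH.piEquivNeg a (HC (Int.negSucc a)) (isOmega_HC _)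
    exact ⟨e.symm x, e.symm y, fun h => hxy (e.symm.injective h)⟩

theorem not_isZero_HC (a : ℤ) : ¬ Limits.IsZero (Q.obj (HC a)) := fun h => by
  obtain ⟨x, y, hxy⟩ := exists_π_HC_ne a
  exact hxy (h.eq_of_tgt x y)

/-- **A non-zero connective spectrum.** -/
theorem isConnective_HC {a : ℤ} (ha : 0 ≤ a) : SH.IsConnective (Q.obj (HC a)) :=
  fun k hk => subsingleton_π_HC a k (lt_of_lt_of_le hk ha)

/-- Non-zero spectra that are bounded below. -/
theorem isBoundedBelow_HC (a : ℤ) : SH.IsBoundedBelow (Q.obj (HC a)) :=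
  ⟨a, fun k hk => subsingleton_π_HC a k hk⟩

/-- A spectrum that is bounded below and not connective. -/
theorem not_isConnective_HC {a : ℤ} (ha : a < 0) : ¬ SH.IsConnective (Q.obj (HC a)) := fun h => by
  obtain ⟨x, y, hxy⟩ := exists_π_HC_ne a
  exact hxy ((h a ha).elim x y)

/-- A spectrum that is not bounded below. -/
theorem not_isBoundedBelow_specEM : ¬ SH.IsBoundedBelow (Q.obj specEM) := by
  rintro ⟨N, h⟩
  obtain ⟨x, y, hxy⟩ := exists_π_specEM_ne (N - 1)
  exact hxy ((h (N - 1) (by omega)).elim x y)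

theorem not_isConnective_specEM : ¬ SH.IsConnective (Q.obj specEM) := fun h => by
  obtain ⟨x, y, hxy⟩ := exists_π_specEM_ne (-1)
  exact hxy ((h (-1) (by omega)).elim x y)

theorem not_isTotallyFinite_specEM : ¬ SH.IsTotallyFinite (Q.obj specEM) := by
  rintro ⟨-, N, h⟩
  obtain ⟨x, y, hxy⟩ := exists_π_specEM_ne (|N| + 1)
  refine hxy ((h (|N| + 1) ?_).elim x y)
  have h1 := le_abs_self N
  have h2 := le_abs_self (|N| + 1)
  omega

/-- **The spheres `S^a`, `a ∈ ℤ`, are pairwise not isomorphic in `SH`.** -/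
theorem sphere_iso_iff (a b : ℤ) : Nonempty (SH.sphere a ≅ SH.sphere b) ↔ a = b := by
  have key : ∀ a b : ℤ, a < b → ¬ Nonempty (SH.sphere a ≅ SH.sphere b) := by
    rintro a b hab ⟨e⟩
    obtain ⟨x, y, hxy⟩ := exists_π_HC_ne b
    have := subsingleton_π_HC b a hab
    have h : e.hom ≫ x = e.hom ≫ y := Subsingleton.elim (α := SH.π a (Q.obj (HC b))) _ _
    exact hxy ((cancel_epi e.hom).1 h)
  constructor
  · intro h
    rcases lt_trichotomy a b with hab | hab | hab
    · exact absurd h (key a b hab)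
    · exact hab
    · exact absurd (h.map Iso.symm) (key b a hab)
  · rintro rfl
    exact ⟨Iso.refl _⟩

/-- The desuspension of the sphere spectrum is not isomorphic to the sphere spectrum. -/
theorem not_iso_D_sphere_zero : ¬ Nonempty (SH.D.obj (SH.sphere 0) ≅ SH.sphere 0) := fun h => by
  have h' : Nonempty (SH.sphere (Int.negSucc 0) ≅ SH.sphere 0) := h
  have := (sphere_iso_iff _ _).1 h'
  omega

/-- The spectra `HC a`, `a ∈ ℤ`, are pairwise not isomorphic in `SH`. -/
theorem HC_iso_iff (a b : ℤ) : Nonempty (Q.obj (HC a) ≅ Q.obj (HC b)) ↔ a = b := by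
  have key : ∀ a b : ℤ, a < b → ¬ Nonempty (Q.obj (HC a) ≅ Q.obj (HC b)) := by
    rintro a b hab ⟨e⟩
    obtain ⟨x, y, hxy⟩ := exists_π_HC_ne a
    have := subsingleton_π_HC b a hab
    have h : x ≫ e.hom = y ≫ e.hom := Subsingleton.elim (α := SH.π a (Q.obj (HC b))) _ _
    exact hxy ((cancel_mono e.hom).1 h)
  constructor
  · intro h
    rcases lt_trichotomy a b with hab | hab | hab
    · exact absurd h (key a b hab)
    · exact hab
    · exact absurd (h.map Iso.symm) (key b a hab)
  · rintro rfl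
    exact ⟨Iso.refl _⟩

/-- There is a map `S^a ⟶ HC a` that is not a zero map. -/
theorem exists_not_isZeroMor_sphere_HC (a : ℤ) : ∃ x : SH.sphere a ⟶ Q.obj (HC a), ¬ IsZeroMor x := by
  obtain ⟨x, y, hxy⟩ := exists_π_HC_ne a
  by_contra hc
  push Not at hc
  exact hxy ((hc x).unique (hc y))

end Claimed.Open.R319
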