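import Claimed.Open.R319.SanityDiag

/-!
# Sanity (result 319), block R2: the indicators of the diagonal simplices of the cubes form a stable cocycle, with SIGNS (coefficients in any commutative ring)
-/

open CategoryTheory Simplicial

namespace Claimed.Open.R319

/-- Telescoping. -/
theorem diag_telescopeR {R : Type} [CommRing R] (H : ℕ → R) (N : ℕ) :
    ∑ k ∈ Finset.range N, (H k - H (k + 1)) = H 0 - H N := by
  induction N with
  | zero => simp
  | succ N ih =>
    rw [Finset.sum_range_succ, ih]
    ring

theorem diag_arithR (R : Type) [CommRing R] (m : ℕ) (c : Fin m → ℕ) :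
    ∑ i : Fin (m + 2),
      (-1 : R) ^ i.val * (if ∀ a : Fin m, (if i.val < c a then c a - 1 else c a) = a.val + 1 then (1 : R) else 0)
        = 0 := by
  classical
  set Q : ℕ → Prop := fun i => ∀ a : Fin m, (if i < c a then c a - 1 else c a) = a.val + 1 with hQdef
  set Hp : ℕ → Prop := fun k => 1 ≤ k ∧ k ≤ m + 1 ∧
    ∀ a : Fin m, c a = if a.val + 2 ≤ k then a.val + 1 else a.val + 2 with hHdef
  have hsum : ∑ i : Fin (m + 2), (-1) ^ i.val * (if Q i.val then (1 : R) else 0) =
      ∑ i ∈ Finset.range (m + 2), (-1) ^ i * (if Q i then (1 : R) else 0) :=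
    Fin.sum_univ_eq_sum_range (fun i => (-1) ^ i * if Q i then (1 : R) else 0) (m + 2)
  show ∑ i : Fin (m + 2), (-1) ^ i.val * (if Q i.val then (1 : R) else 0) = 0
  rw [hsum]
  have hterm : ∀ i ∈ Finset.range (m + 2), (-1) ^ i * (if Q i then (1 : R) else 0) =
      ((-1) ^ i * if Hp i then (1 : R) else 0) - ((-1) ^ (i + 1) * if Hp (i + 1) then (1 : R) else 0) := by
    intro i hi
    have hi' : i < m + 2 := Finset.mem_range.1 hi
    have h1 : Hp i → Q i := by
      rintro ⟨h1, h2, hc⟩ a
      have := a.isLt
      rw [hc a]
      split_ifs <;> omega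
    have h2 : Hp (i + 1) → Q i := by
      rintro ⟨h1, h2, hc⟩ a
      have := a.isLt
      rw [hc a]
      split_ifs <;> omega
    have h4 : ¬ (Hp i ∧ Hp (i + 1)) := by
      rintro ⟨⟨h1, h2, hc⟩, ⟨_, h2', hc'⟩⟩
      have e1 := hc ⟨i - 1, by omega⟩
      have e2 := hc' ⟨i - 1, by omega⟩
      rw [e1] at e2
      simp only at e2
      split_ifs at e2 <;> omega
    have h3 : Q i → Hp i ∨ Hp (i + 1) := by
      intro hQ
      have hQ' : ∀ a : Fin m, (c a = a.val + 2 ∧ i ≤ a.val + 1) ∨ (c a = a.val + 1 ∧ a.val + 1 ≤ i) := by
        intro a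
        have := hQ a
        split_ifs at this <;> omega
      by_cases hi0 : i = 0
      · right
        refine ⟨by omega, by omega, fun a => ?_⟩
        have := hQ' a
        split_ifs <;> omega
      by_cases him : i = m + 1
      · left
        refine ⟨by omega, by omega, fun a => ?_⟩
        have := hQ' a
        have := a.isLt
        split_ifs <;> omega
      have hlt : i - 1 < m := by omega
      rcases hQ' ⟨i - 1, hlt⟩ with ⟨h, _⟩ | ⟨h, _⟩
      · left
        refine ⟨by omega, by omega, fun a => ?_⟩
        have ha := hQ' a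
        by_cases hEq : a.val = i - 1
        · have : a = ⟨i - 1, hlt⟩ := Fin.ext hEq
          rw [this, h]
          simp only
          split_ifs <;> omega
        · split_ifs <;> omega
      · right
        refine ⟨by omega, by omega, fun a => ?_⟩
        have ha := hQ' a
        by_cases hEq : a.val = i - 1
        · have : a = ⟨i - 1, hlt⟩ := Fin.ext hEq
          rw [this, h]
          simp only
          split_ifs <;> omega
        · split_ifs <;> omega
    by_cases hA : Hp i
    · have hB : ¬ Hp (i + 1) := fun hB => h4 ⟨hA, hB⟩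
      rw [if_pos (h1 hA), if_pos hA, if_neg hB, mul_zero, sub_zero]
    · by_cases hB : Hp (i + 1)
      · rw [if_pos (h2 hB), if_neg hA, if_pos hB, pow_succ]
        ring
      · have hq : ¬ Q i := fun hq => (h3 hq).elim hA hB
        rw [if_neg hq, if_neg hA, if_neg hB, mul_zero, mul_zero, sub_zero]
  rw [Finset.sum_congr rfl hterm, diag_telescopeR (fun k => (-1) ^ k * if Hp k then (1 : R) else 0) (m + 2)]
  have e0 : ¬ Hp 0 := by rintro ⟨h, _⟩; omega
  have e1 : ¬ Hp (m + 2) := by rintro ⟨_, h, _⟩; omega
  simp only [if_neg e0, if_neg e1, mul_zero, sub_zero]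

/-- signed version of `diag_cocycle`: the `i` with `δ_i^* l = diag m` are none or two ADJACENT ones -/
theorem diag_cocycleR (R : Type) [CommRing R] (m : ℕ) (l : List (⦋m + 1⦌ ⟶ ⦋1⦌)) :
    ∑ i : Fin (m + 2), (-1 : R) ^ (i : ℕ) *
      (if l.map (fun s => SimplexCategory.δ i ≫ s) = diag m then (1 : R) else 0) = 0 := by
  classical
  by_cases hlen : l.length = m
  · choose c hc hcs using fun a : Fin m => diag_exists_theta (l[a.val]'(by have := a.isLt; omega))
    have hl : l = List.ofFn (fun a : Fin m => prismTheta (m := m + 1) (c a)) := by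
      apply List.ext_getElem
      · simp [hlen]
      · intro k h1 h2
        rw [List.getElem_ofFn]
        exact hcs ⟨k, by omega⟩
    have key : ∀ i : Fin (m + 2), (l.map (fun s => SimplexCategory.δ i ≫ s) = diag m) ↔
        ∀ a : Fin m, (if i.val < c a then c a - 1 else c a) = a.val + 1 := by
      intro i
      rw [hl, diag_eq_ofFn, List.map_ofFn, List.ofFn_inj]
      constructor
      · intro h a
        have h' := congrFun h a
        simp only [Function.comp, diag_δ_theta] at h'
        have h1 := hc a
        have h2 := a.isLt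
        have h3 := i.isLt
        exact diag_theta_inj (by split_ifs <;> omega) (by omega) h'
      · intro h
        funext a
        simp only [Function.comp, diag_δ_theta, h a]
    simp only [key]
    exact diag_arithR R m c
  · apply Finset.sum_eq_zero
    intro i _
    rw [if_neg, mul_zero]
    intro h
    apply hlen
    have := congrArg List.length h
    simpa [diag_eq_ofFn] using this

/-- signed version of `diag_prism`: only `j = m` contributes, with the sign `(-1)^(m + m) = 1` -/
theorem diag_prismR (R : Type) [CommRing R] (m : ℕ) (l : List (⦋m⦌ ⟶ ⦋1⦌)) :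
    (if l = diag m then (1 : R) else 0) =
      ∑ j : Fin (m + 1), (-1 : R) ^ (m + (j : ℕ)) *
        (if l.map (fun s => SimplexCategory.σ j ≫ s) ++ [tau j] = diag (m + 1) then (1 : R) else 0) := by
  classical
  rw [Finset.sum_eq_single (Fin.last m)]
  · have hinj : Function.Injective (fun s : ⦋m⦌ ⟶ ⦋1⦌ => SimplexCategory.σ (Fin.last m) ≫ s) :=
      fun s s' h => (cancel_epi (SimplexCategory.σ (Fin.last m))).1 h
    have : (l.map (fun s => SimplexCategory.σ (Fin.last m) ≫ s) ++ [tau (Fin.last m)] = diag (m + 1)) ↔
        l = diag m := by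
      rw [diag_succ, List.append_left_inj, (List.map_injective_iff.2 hinj).eq_iff]
    simp only [this]
    rw [Fin.val_last, Even.neg_one_pow ⟨m, rfl⟩, one_mul]
  · intro j _ hj
    rw [if_neg, mul_zero]
    intro h
    rw [diag_succ] at h
    have h' := (List.append_inj' h rfl).2
    exact hj (diag_tau_injective (List.singleton_inj.1 h'))
  · intro h
    exact absurd (Finset.mem_univ _) h

end Claimed.Open.R319
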