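import Claimed.Open.R319.SanityPrism

/-!
# Sanity (result 319), block R1: the prism operator preserves relative cocycles, with SIGNS (coefficients in any commutative ring)
-/

open CategoryTheory Simplicial

namespace Claimed.Open.R319

section aux

variable {R : Type} [CommRing R]

/-- Telescoping. -/
theorem prism_telescopeR (H : ℕ → R) (N : ℕ) :
    ∑ k ∈ Finset.range N, (H k - H (k + 1)) = H 0 - H N := by
  induction N with
  | zero => simp
  | succ N ih =>
    rw [Finset.sum_range_succ, ih]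
    ring

theorem prism_sign {n : ℕ} (j' : Fin (n + 2)) (l : Fin (n + 1)) :
    ((j'.castSucc.succAbove (j'.succAbove l)).val + j'.val) =
      ((j'.succAbove l).val + (l.predAbove j').val) + 1 := by
  simp only [prism_val_succAbove, prism_val_predAbove, Fin.val_castSucc]
  split_ifs <;> omega

/-- The prism operator preserves cocycles, first form.  `f` is a cochain of degree `n + 1` on `Δ[T] × Δ[1]` with coefficients in `R` that vanishes on `Δ[T] × ∂Δ[1]` (`hV`) and is a
cocycle (`hC`).  Then `(P f)(χ) = ∑ j, (-1)^j f (σ j ≫ χ) (tau j)` is a cocycle of degree `n` on `Δ[T]`. -/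
theorem prism_cocycleR_aux {n : ℕ} (T : SimplexCategory) (f : (⦋n + 1⦌ ⟶ T) → (⦋n + 1⦌ ⟶ ⦋1⦌) → R)
    (hV : ∀ ψ s, ¬ Function.Surjective s.toOrderHom → f ψ s = 0)
    (hC : ∀ (ψ : ⦋n + 2⦌ ⟶ T) (s : ⦋n + 2⦌ ⟶ ⦋1⦌),
      ∑ i : Fin (n + 3), (-1) ^ i.val * f (SimplexCategory.δ i ≫ ψ) (SimplexCategory.δ i ≫ s) = 0)
    (ψ : ⦋n + 1⦌ ⟶ T) :
    ∑ i : Fin (n + 2), ∑ j : Fin (n + 1),
      (-1) ^ (i.val + j.val) * f (SimplexCategory.σ j ≫ SimplexCategory.δ i ≫ ψ) (tau j) = 0 := by
  -- the summand of the claim, as a function of the pair `(i, j)`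
  set G : Fin (n + 2) × Fin (n + 1) → R :=
    fun p => (-1) ^ (p.1.val + p.2.val) * f (SimplexCategory.σ p.2 ≫ SimplexCategory.δ p.1 ≫ ψ) (tau p.2) with hG
  set H : ℕ → R := fun c => f ψ (prismTheta c) with hH
  -- one row of the cocycle condition
  have row : ∀ j' : Fin (n + 2),
      (H j'.val - H (j'.val + 1)) - ∑ l : Fin (n + 1), G (j'.succAbove l, l.predAbove j') = 0 := by
    intro j'
    have h := hC (SimplexCategory.σ j' ≫ ψ) (tau j')
    rw [Fin.sum_univ_succAbove _ j'.castSucc, Fin.sum_univ_succAbove _ j',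
      Fin.succAbove_castSucc_self] at h
    rw [← Category.assoc, SimplexCategory.δ_comp_σ_self, Category.id_comp, prism_δ_castSucc_tau,
      ← Category.assoc (SimplexCategory.δ j'.succ), SimplexCategory.δ_comp_σ_succ, Category.id_comp,
      prism_δ_succ_tau] at h
    have h' := congrArg (fun x => (-1) ^ j'.val * x) h
    simp only [mul_zero, mul_add, Finset.mul_sum] at h'
    rw [← h']
    have s1 : ((-1 : R) ^ j'.val * ((-1) ^ j'.castSucc.val * f ψ (prismTheta j'.val))) = H j'.val := by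
      rw [Fin.val_castSucc, ← mul_assoc, ← pow_add, Even.neg_one_pow ⟨j'.val, rfl⟩, one_mul]
    have s2 : ((-1 : R) ^ j'.val * ((-1) ^ j'.succ.val * f ψ (prismTheta (j'.val + 1)))) = - H (j'.val + 1) := by
      rw [Fin.val_succ, ← mul_assoc, ← pow_add, ← add_assoc, pow_succ, Even.neg_one_pow ⟨j'.val, rfl⟩]
      simp [hH]
    rw [s1, s2]
    have s3 : ∑ l : Fin (n + 1), (-1 : R) ^ j'.val * ((-1) ^ (j'.castSucc.succAbove (j'.succAbove l)).val *
          f (SimplexCategory.δ (j'.castSucc.succAbove (j'.succAbove l)) ≫ SimplexCategory.σ j' ≫ ψ)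
            (SimplexCategory.δ (j'.castSucc.succAbove (j'.succAbove l)) ≫ tau j'))
        = - ∑ l : Fin (n + 1), G (j'.succAbove l, l.predAbove j') := by
      rw [← Finset.sum_neg_distrib]
      refine Finset.sum_congr rfl fun l _ => ?_
      rw [← Category.assoc, prism_δ_σ, prism_δ_tau, Category.assoc, ← mul_assoc, ← pow_add,
        add_comm j'.val, prism_sign, pow_succ]
      simp [hG]
    rw [s3]
    ring
  -- sum over the rows
  have total := Finset.sum_congr (s₁ := (Finset.univ : Finset (Fin (n + 2)))) rfl fun j' _ => row j'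
  rw [Finset.sum_sub_distrib, Finset.sum_const_zero,
    Fin.sum_univ_eq_sum_range (fun k => H k - H (k + 1)) (n + 2), prism_telescopeR] at total
  have h0 : H 0 = 0 := hV _ _ prismTheta_zero_not_surjective
  have h1 : H (n + 2) = 0 := hV _ _ prismTheta_last_not_surjective
  rw [h0, h1, sub_zero, zero_sub, neg_eq_zero] at total
  -- re-indexing
  have e1 : ∑ j' : Fin (n + 2), ∑ l : Fin (n + 1), G (j'.succAbove l, l.predAbove j') =
      ∑ p : Fin (n + 2) × Fin (n + 1), G (p.1.succAbove p.2, p.2.predAbove p.1) :=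
    (Fintype.sum_prod_type
      (fun p : Fin (n + 2) × Fin (n + 1) => G (p.1.succAbove p.2, p.2.predAbove p.1))).symm
  have e2 : ∑ i : Fin (n + 2), ∑ j : Fin (n + 1),
      (-1) ^ (i.val + j.val) * f (SimplexCategory.σ j ≫ SimplexCategory.δ i ≫ ψ) (tau j) =
      ∑ p : Fin (n + 2) × Fin (n + 1), G p := (Fintype.sum_prod_type G).symm
  have e3 : ∑ p : Fin (n + 2) × Fin (n + 1), G (p.1.succAbove p.2, p.2.predAbove p.1) =
      ∑ p : Fin (n + 2) × Fin (n + 1), G p := Equiv.sum_comp (prism_involutive n).toPerm G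
  rw [e2, ← e3, ← e1]
  exact total

end aux

/-- **The prism operator preserves cocycles** (signed version of `prism_cocycle`).  `f` is a cochain of degree `n + 1` on `Δ[T] × Δ[1]` with coefficients in `R` that
vanishes on `Δ[T] × ∂Δ[1]` (`hV`) and is a cocycle (`hC`).  Then `(P f)(χ) = ∑ j, (-1)^(n + j) f (σ j ≫ χ) (tau j)` is a cocycle of degree `n` on `Δ[T]`. -/
theorem prism_cocycleR {R : Type} [CommRing R] {n : ℕ} (T : SimplexCategory)
    (f : (⦋n + 1⦌ ⟶ T) → (⦋n + 1⦌ ⟶ ⦋1⦌) → R)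
    (hV : ∀ ψ s, ¬ Function.Surjective s.toOrderHom → f ψ s = 0)
    (hC : ∀ (ψ : ⦋n + 2⦌ ⟶ T) (s : ⦋n + 2⦌ ⟶ ⦋1⦌),
      ∑ i : Fin (n + 3), (-1 : R) ^ (i : ℕ) * f (SimplexCategory.δ i ≫ ψ) (SimplexCategory.δ i ≫ s) = 0)
    (ψ : ⦋n + 1⦌ ⟶ T) :
    ∑ i : Fin (n + 2), (-1 : R) ^ (i : ℕ) *
      ∑ j : Fin (n + 1), (-1 : R) ^ (n + (j : ℕ)) * f (SimplexCategory.σ j ≫ SimplexCategory.δ i ≫ ψ) (tau j) = 0 := by
  have h := congrArg (fun x => (-1 : R) ^ n * x) (prism_cocycleR_aux T f hV hC ψ)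
  simp only [mul_zero, Finset.mul_sum] at h
  rw [← h]
  refine Finset.sum_congr rfl fun i _ => ?_
  rw [Finset.mul_sum]
  refine Finset.sum_congr rfl fun j _ => ?_
  rw [pow_add, pow_add]
  ring

end Claimed.Open.R319
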