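import Claimed.Open.R319.SanityNontrivial
import Claimed.Open.R319.SanityPrismR
import Claimed.Open.R319.SanityDiagR

/-!
# Sanity (result 319), block R3: the pointed simplicial abelian group `EMR R` of stable cocycles with coefficients in a commutative ring `R`, with `EMR R ≅ Ω (EMR R)` strictly
(the signed version of `SanityEM.lean` and of the first half of `SanityNontrivial.lean`)
-/

open CategoryTheory Opposite Simplicial

namespace Claimed.Open.R319

open PSSet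

variable (R : Type) [CommRing R]

/-- Cochains (of all degrees `m`) with coefficients in `R` on the simplicial sets `Δ[T] × Δ[1]^k` (all `k`: the length of the list). -/
abbrev CochR (T : SimplexCategory) : Type := ∀ m : ℕ, (⦋m⦌ ⟶ T) → List (⦋m⦌ ⟶ ⦋1⦌) → R

variable {R}

/-- A stable cocycle: it vanishes on `Δ[T] × ∂(Δ[1]^k)`, it is a cocycle, and its part on `Δ[T] × Δ[1]^k` is the image under the prism
operator (integration along the last coordinate) of its part on `Δ[T] × Δ[1]^(k+1)`. -/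
structure IsStCocycleR {T : SimplexCategory} (z : CochR R T) : Prop where
  vanish : ∀ (m : ℕ) (φ : ⦋m⦌ ⟶ T) (l : List (⦋m⦌ ⟶ ⦋1⦌)), (∃ s ∈ l, ¬ Function.Surjective s.toOrderHom) → z m φ l = 0
  cocycle : ∀ (m : ℕ) (φ : ⦋m + 1⦌ ⟶ T) (l : List (⦋m + 1⦌ ⟶ ⦋1⦌)),
    ∑ i : Fin (m + 2), (-1 : R) ^ (i : ℕ) * z m (SimplexCategory.δ i ≫ φ) (l.map fun s => SimplexCategory.δ i ≫ s) = 0
  prism : ∀ (m : ℕ) (φ : ⦋m⦌ ⟶ T) (l : List (⦋m⦌ ⟶ ⦋1⦌)),
    z m φ l = ∑ j : Fin (m + 1), (-1 : R) ^ (m + (j : ℕ)) *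
      z (m + 1) (SimplexCategory.σ j ≫ φ) (l.map (fun s => SimplexCategory.σ j ≫ s) ++ [tau j])

variable (R)

/-- The group of stable cocycles. -/
def stCocyclesR (T : SimplexCategory) : AddSubgroup (CochR R T) where
  carrier := {z | IsStCocycleR z}
  zero_mem' := ⟨fun _ _ _ _ => rfl, fun _ _ _ => by simp, fun _ _ _ => by simp⟩
  add_mem' {a b} ha hb := ⟨fun m φ l h => by
      show a m φ l + b m φ l = 0
      rw [ha.vanish m φ l h, hb.vanish m φ l h, add_zero],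
    fun m φ l => by
      show ∑ i : Fin (m + 2), (-1 : R) ^ (i : ℕ) * (a m _ _ + b m _ _) = 0
      simp only [mul_add]
      rw [Finset.sum_add_distrib, ha.cocycle m φ l, hb.cocycle m φ l, add_zero],
    fun m φ l => by
      show a m φ l + b m φ l = ∑ j : Fin (m + 1), (-1 : R) ^ (m + (j : ℕ)) * (a (m + 1) _ _ + b (m + 1) _ _)
      simp only [mul_add]
      rw [Finset.sum_add_distrib, ← ha.prism m φ l, ← hb.prism m φ l]⟩
  neg_mem' {a} ha := ⟨fun m φ l h => by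
      show - a m φ l = 0
      rw [ha.vanish m φ l h, neg_zero],
    fun m φ l => by
      show ∑ i : Fin (m + 2), (-1 : R) ^ (i : ℕ) * (- a m _ _) = 0
      simp only [mul_neg]
      rw [Finset.sum_neg_distrib, ha.cocycle m φ l, neg_zero],
    fun m φ l => by
      show - a m φ l = ∑ j : Fin (m + 1), (-1 : R) ^ (m + (j : ℕ)) * (- a (m + 1) _ _)
      simp only [mul_neg]
      rw [Finset.sum_neg_distrib, ← ha.prism m φ l]⟩

variable {R}

theorem IsStCocycleR.comp {T T' : SimplexCategory} {z : CochR R T} (hz : IsStCocycleR z) (ψ : T' ⟶ T) :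
    IsStCocycleR (T := T') fun m φ l => z m (φ ≫ ψ) l where
  vanish m φ l h := hz.vanish m _ l h
  cocycle m φ l := by
    simpa only [Category.assoc] using hz.cocycle m (φ ≫ ψ) l
  prism m φ l := by
    simpa only [Category.assoc] using hz.prism m (φ ≫ ψ) l

variable (R)

/-- The pointed simplicial abelian group of stable cocycles. -/
def EMR : PSSet where
  obj n := ⟨stCocyclesR R n.unop, 0⟩
  map ψ := ⟨fun z => ⟨fun m φ l => z.1 m (φ ≫ ψ.unop) l, IsStCocycleR.comp z.2 ψ.unop⟩, Subtype.ext rfl⟩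
  map_id _ := Pointed.Hom.ext (funext fun z => Subtype.ext (funext fun m => funext fun φ => by
    show z.1 m (φ ≫ 𝟙 _) = z.1 m φ
    rw [Category.comp_id]))
  map_comp ψ χ := Pointed.Hom.ext (funext fun z => Subtype.ext (funext fun m => funext fun φ => by
    show z.1 m (φ ≫ (χ.unop ≫ ψ.unop)) = z.1 m ((φ ≫ χ.unop) ≫ ψ.unop)
    rw [Category.assoc]))

instance instAddCommGroupEMR (n : SimplexCategoryᵒᵖ) : AddCommGroup ((EMR R).obj n) :=
  inferInstanceAs (AddCommGroup (stCocyclesR R n.unop))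

variable {R}

theorem EMR_map_val {n n' : SimplexCategoryᵒᵖ} (ψ : n ⟶ n') (z : (EMR R).obj n) (m : ℕ) (φ : ⦋m⦌ ⟶ n'.unop)
    (l : List (⦋m⦌ ⟶ ⦋1⦌)) : (((EMR R).map ψ).toFun z).1 m φ l = z.1 m (φ ≫ ψ.unop) l := rfl

theorem EMR_point_val (n : SimplexCategoryᵒᵖ) (m : ℕ) (φ : ⦋m⦌ ⟶ n.unop)
    (l : List (⦋m⦌ ⟶ ⦋1⦌)) : (((EMR R).obj n).point).1 m φ l = 0 := rfl

/-- naturality of a map into `EMR`, evaluated -/
theorem EMR_nat {A : PSSet} (g : A ⟶ EMR R) {n n' : SimplexCategoryᵒᵖ} (ψ : n ⟶ n') (a : A.obj n) (m : ℕ) (φ : ⦋m⦌ ⟶ n'.unop)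
    (l : List (⦋m⦌ ⟶ ⦋1⦌)) : ((g.app n').toFun ((A.map ψ).toFun a)).1 m φ l = ((g.app n).toFun a).1 m (φ ≫ ψ.unop) l :=
  congrArg (fun k : A.obj n ⟶ (EMR R).obj n' => (k.toFun a).1 m φ l) (g.naturality ψ)

/-- `z ∧ [s] ↦ (graph of s)^* z` -/
theorem IsStCocycleR.cons {T : SimplexCategory} {z : CochR R T} (hz : IsStCocycleR z) (s : T ⟶ ⦋1⦌) :
    IsStCocycleR (T := T) fun m φ l => z m φ ((φ ≫ s) :: l) where
  vanish m φ l h := hz.vanish m _ _ (by
    obtain ⟨t, ht, h⟩ := h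
    exact ⟨t, List.mem_cons_of_mem _ ht, h⟩)
  cocycle m φ l := by
    simpa only [Category.assoc, List.map_cons] using hz.cocycle m φ ((φ ≫ s) :: l)
  prism m φ l := by
    simpa only [Category.assoc, List.map_cons, List.cons_append] using hz.prism m φ ((φ ≫ s) :: l)

/-- `(graph of s)^* z` as an element of `EMR` -/
def consCocR {n : SimplexCategoryᵒᵖ} (z : (EMR R).obj n) (s : n.unop ⟶ ⦋1⦌) : (EMR R).obj n :=
  ⟨fun m φ l => z.1 m φ ((φ ≫ s) :: l), IsStCocycleR.cons z.2 s⟩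

theorem consCocR_boundary {n : SimplexCategoryᵒᵖ} (z : (EMR R).obj n) (s : n.unop ⟶ ⦋1⦌)
    (hs : ¬ Function.Surjective s.toOrderHom) : consCocR z s = ((EMR R).obj n).point :=
  Subtype.ext (funext fun m => funext fun φ => funext fun _ =>
    z.2.vanish m φ _ ⟨φ ≫ s, List.mem_cons_self, fun h => hs (Function.Surjective.of_comp h)⟩)

/-- `z ∧ x ↦ σ (z ∧ x)` -/
def σFunR {n : SimplexCategoryᵒᵖ} (z : (EMR R).obj n) : S1.obj n → (EMR R).obj n :=
  S1.lift (consCocR z) (consCocR_boundary z)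

theorem σFunR_mk {n : SimplexCategoryᵒᵖ} (z : (EMR R).obj n) (s : n.unop ⟶ ⦋1⦌) : σFunR z (S1.mk s) = consCocR z s :=
  S1.lift_mk _ _ s

variable (R)

/-- The structure map `EMR ∧ S¹ ⟶ EMR`, `z ∧ [s] ↦ (m φ l ↦ z m φ ((φ ≫ s) :: l))` (port of `σEM`). -/
def σEMR : smash (EMR R) S1 ⟶ EMR R where
  app n := Smash.lift (C := (EMR R).obj n) σFunR
    (by
      intro b
      induction b using S1.ind with | h s => ?_
      exact (σFunR_mk _ s).trans rfl)
    (fun z => rfl)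
  naturality n n' ψ := Smash.hom_ext fun z b => by
    induction b using S1.ind with | h s => ?_
    show σFunR (((EMR R).map ψ).toFun z) ((S1.map ψ).toFun (S1.mk s)) = ((EMR R).map ψ).toFun (σFunR z (S1.mk s))
    rw [S1.map_mk, σFunR_mk, σFunR_mk]
    refine Subtype.ext (funext fun m => funext fun φ => funext fun l => ?_)
    show z.1 m (φ ≫ ψ.unop) ((φ ≫ ψ.unop ≫ s) :: l) = z.1 m (φ ≫ ψ.unop) (((φ ≫ ψ.unop) ≫ s) :: l)
    rw [Category.assoc]

variable {R} in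
theorem σEMR_mk {n : SimplexCategoryᵒᵖ} (z : (EMR R).obj n) (s : n.unop ⟶ ⦋1⦌) (m : ℕ) (φ : ⦋m⦌ ⟶ n.unop)
    (l : List (⦋m⦌ ⟶ ⦋1⦌)) : (((σEMR R).app n).toFun (Smash.mk z (S1.mk s))).1 m φ l = z.1 m φ ((φ ≫ s) :: l) :=
  congrArg (fun w : (EMR R).obj n => w.1 m φ l) (σFunR_mk z s)

/-- EXIT 1 -/
theorem σEMR_add (m : SimplexCategoryᵒᵖ) (x y : (EMR R).obj m) (s : S1.obj m) :
    ((σEMR R).app m).toFun (Smash.mk (x + y) s) =
      ((σEMR R).app m).toFun (Smash.mk x s) + ((σEMR R).app m).toFun (Smash.mk y s) := by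
  induction s using S1.ind with | h s => ?_
  show σFunR (x + y) (S1.mk s) = σFunR x (S1.mk s) + σFunR y (S1.mk s)
  rw [σFunR_mk, σFunR_mk, σFunR_mk]
  rfl

/-! ### The adjoint of a map `A ∧ S¹ ⟶ EMR` -/

section adjR

variable {R}
variable {A : PSSet} (h : smash A S1 ⟶ EMR R)

/-- the element `h (φ^* a ∧ [s])` of `EMR_m` -/
def hvalR {n : SimplexCategoryᵒᵖ} (a : A.obj n) {m : ℕ} (φ : ⦋m⦌ ⟶ n.unop) (s : ⦋m⦌ ⟶ ⦋1⦌) : (EMR R).obj (op ⦋m⦌) :=
  (h.app (op ⦋m⦌)).toFun (Smash.mk ((A.map φ.op).toFun a) (S1.mk (n := op ⦋m⦌) s))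

theorem hvalR_nat {n : SimplexCategoryᵒᵖ} (a : A.obj n) {m k : ℕ} (φ : ⦋m⦌ ⟶ n.unop) (s : ⦋m⦌ ⟶ ⦋1⦌) (χ : ⦋k⦌ ⟶ ⦋m⦌)
    (k' : ℕ) (θ : ⦋k'⦌ ⟶ ⦋k⦌) (l : List (⦋k'⦌ ⟶ ⦋1⦌)) :
    (hvalR h a (χ ≫ φ) (χ ≫ s)).1 k' θ l = (hvalR h a φ s).1 k' (θ ≫ χ) l := by
  have key := EMR_nat h χ.op (Smash.mk ((A.map φ.op).toFun a) (S1.mk (n := op ⦋m⦌) s)) k' θ l
  have e : ((smash A S1).map χ.op).toFun (Smash.mk ((A.map φ.op).toFun a) (S1.mk (n := op ⦋m⦌) s))
      = Smash.mk ((A.map (χ ≫ φ).op).toFun a) (S1.mk (n := op ⦋k⦌) (χ ≫ s)) := by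
    show Smash.mk ((A.map χ.op).toFun ((A.map φ.op).toFun a)) ((S1.map χ.op).toFun (S1.mk (n := op ⦋m⦌) s)) = _
    rw [S1.map_mk, op_comp, A.map_comp]
    rfl
  rw [e] at key
  exact key

theorem hvalR_boundary {n : SimplexCategoryᵒᵖ} (a : A.obj n) {m : ℕ} (φ : ⦋m⦌ ⟶ n.unop) (s : ⦋m⦌ ⟶ ⦋1⦌)
    (hs : ¬ Function.Surjective s.toOrderHom) : hvalR h a φ s = ((EMR R).obj (op ⦋m⦌)).point := by
  unfold hvalR
  rw [S1.mk_eq_point (n := op ⦋m⦌) s hs, Smash.mk_right]
  exact (h.app (op ⦋m⦌)).map_point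

theorem hvalR_point {n : SimplexCategoryᵒᵖ} {m : ℕ} (φ : ⦋m⦌ ⟶ n.unop) (s : ⦋m⦌ ⟶ ⦋1⦌) :
    hvalR h (A.obj n).point φ s = ((EMR R).obj (op ⦋m⦌)).point := by
  unfold hvalR
  rw [(A.map φ.op).map_point, Smash.mk_left]
  exact (h.app (op ⦋m⦌)).map_point

theorem hvalR_map {n n' : SimplexCategoryᵒᵖ} (ψ : n ⟶ n') (a : A.obj n) {m : ℕ} (φ : ⦋m⦌ ⟶ n'.unop) (s : ⦋m⦌ ⟶ ⦋1⦌) :
    hvalR h ((A.map ψ).toFun a) φ s = hvalR h a (φ ≫ ψ.unop) s := by
  unfold hvalR
  have e : (A.map φ.op).toFun ((A.map ψ).toFun a) = (A.map (φ ≫ ψ.unop).op).toFun a := by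
    rw [op_comp, A.map_comp]
    rfl
  rw [e]

/-- the cochain `g(a)`, where `g` is the adjoint of `h` -/
def adjCochR {n : SimplexCategoryᵒᵖ} (a : A.obj n) : CochR R n.unop := fun m φ l =>
  match l with
  | [] => ∑ j : Fin (m + 1), (-1 : R) ^ (m + (j : ℕ)) * (hvalR h a (SimplexCategory.σ j ≫ φ) (tau j)).1 (m + 1) (𝟙 _) []
  | s :: l' => (hvalR h a φ s).1 m (𝟙 _) l'

theorem adjCochR_isStCocycleR {n : SimplexCategoryᵒᵖ} (a : A.obj n) : IsStCocycleR (adjCochR h a) where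
  vanish m φ l hl := by
    obtain ⟨s, hs, hns⟩ := hl
    cases l with
    | nil => exact absurd hs (List.not_mem_nil)
    | cons t l' =>
      show (hvalR h a φ t).1 m (𝟙 _) l' = 0
      rcases List.mem_cons.1 hs with rfl | hs
      · rw [hvalR_boundary h a φ s hns]
        rfl
      · exact (hvalR h a φ t).2.vanish m _ l' ⟨s, hs, hns⟩
  cocycle m φ l := by
    cases l with
    | nil =>
      exact prism_cocycleR n.unop (fun ψ s => (hvalR h a ψ s).1 (m + 1) (𝟙 _) [])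
        (fun ψ s hs => by
          show (hvalR h a ψ s).1 (m + 1) (𝟙 _) [] = 0
          rw [hvalR_boundary h a ψ s hs]
          rfl)
        (fun ψ s => by
          have key := (hvalR h a ψ s).2.cocycle (m + 1) (𝟙 _) []
          refine Eq.trans (Finset.sum_congr rfl fun i _ => ?_) key
          show _ * (hvalR h a (SimplexCategory.δ i ≫ ψ) (SimplexCategory.δ i ≫ s)).1 (m + 1) (𝟙 _) [] = _
          rw [hvalR_nat, Category.id_comp, Category.comp_id]
          rfl) φ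
    | cons t l' =>
      have key := (hvalR h a φ t).2.cocycle m (𝟙 _) l'
      refine Eq.trans (Finset.sum_congr rfl fun i _ => ?_) key
      show _ * (hvalR h a (SimplexCategory.δ i ≫ φ) (SimplexCategory.δ i ≫ t)).1 m (𝟙 _) _ = _
      rw [hvalR_nat, Category.id_comp, Category.comp_id]
  prism m φ l := by
    cases l with
    | nil => rfl
    | cons t l' =>
      have key := (hvalR h a φ t).2.prism m (𝟙 _) l'
      refine Eq.trans key (Finset.sum_congr rfl fun j _ => ?_)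
      show _ = _ * (hvalR h a (SimplexCategory.σ j ≫ φ) (SimplexCategory.σ j ≫ t)).1 (m + 1) (𝟙 _) _
      rw [hvalR_nat, Category.id_comp, Category.comp_id]
      rfl

/-- The adjoint `A ⟶ EMR` of `h : A ∧ S¹ ⟶ EMR`. -/
def adjEMR : A ⟶ EMR R where
  app n := ⟨fun a => ⟨adjCochR h a, adjCochR_isStCocycleR h a⟩, Subtype.ext (funext fun m => funext fun φ => funext fun l => by
    cases l with
    | nil =>
      show ∑ j : Fin (m + 1), (-1 : R) ^ (m + (j : ℕ)) *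
        (hvalR h (A.obj n).point (SimplexCategory.σ j ≫ φ) (tau j)).1 (m + 1) (𝟙 _) [] = 0
      refine Finset.sum_eq_zero fun j _ => ?_
      rw [hvalR_point]
      exact mul_zero _
    | cons t l' =>
      show (hvalR h (A.obj n).point φ t).1 m (𝟙 _) l' = 0
      rw [hvalR_point]
      rfl)⟩
  naturality n n' ψ := Pointed.Hom.ext (funext fun a => Subtype.ext (funext fun m => funext fun φ => funext fun l => by
    cases l with
    | nil =>
      show ∑ j : Fin (m + 1), (-1 : R) ^ (m + (j : ℕ)) *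
          (hvalR h ((A.map ψ).toFun a) (SimplexCategory.σ j ≫ φ) (tau j)).1 (m + 1) (𝟙 _) []
        = ∑ j : Fin (m + 1), (-1 : R) ^ (m + (j : ℕ)) *
          (hvalR h a (SimplexCategory.σ j ≫ φ ≫ ψ.unop) (tau j)).1 (m + 1) (𝟙 _) []
      refine Finset.sum_congr rfl fun j _ => ?_
      rw [hvalR_map, Category.assoc]
    | cons t l' =>
      show (hvalR h ((A.map ψ).toFun a) φ t).1 m (𝟙 _) l' = (hvalR h a (φ ≫ ψ.unop) t).1 m (𝟙 _) l'
      rw [hvalR_map]))

theorem adjEMR_spec : smashMap (adjEMR h) (𝟙 S1) ≫ σEMR R = h :=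
  smashS1_hom_ext fun n a s => Subtype.ext (funext fun m => funext fun φ => funext fun l => by
    refine (σEMR_mk ((adjEMR h).app n |>.toFun a) s m φ l).trans ?_
    show (hvalR h a φ (φ ≫ s)).1 m (𝟙 _) l = _
    have key := EMR_nat h φ.op (Smash.mk a (S1.mk s)) m (𝟙 _) l
    rw [Category.id_comp] at key
    refine Eq.trans ?_ key
    have e : ((smash A S1).map φ.op).toFun (Smash.mk a (S1.mk s))
        = Smash.mk ((A.map φ.op).toFun a) (S1.mk (n := op ⦋m⦌) (φ ≫ s)) := by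
      show Smash.mk ((A.map φ.op).toFun a) ((S1.map φ.op).toFun (S1.mk s)) = _
      rw [S1.map_mk]
      rfl
    rw [e]
    rfl)

end adjR

variable {R} in
theorem σEMR_uniq {A : PSSet} (g g' : A ⟶ EMR R)
    (hg : smashMap g (𝟙 S1) ≫ σEMR R = smashMap g' (𝟙 S1) ≫ σEMR R) : g = g' := by
  have key : ∀ (n : SimplexCategoryᵒᵖ) (a : A.obj n) (s : n.unop ⟶ ⦋1⦌) (m : ℕ) (φ : ⦋m⦌ ⟶ n.unop) (l : List (⦋m⦌ ⟶ ⦋1⦌)),
      ((g.app n).toFun a).1 m φ ((φ ≫ s) :: l) = ((g'.app n).toFun a).1 m φ ((φ ≫ s) :: l) := by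
    intro n a s m φ l
    have e := congrArg (fun k : smash A S1 ⟶ EMR R => ((k.app n).toFun (Smash.mk a (S1.mk s))).1 m φ l) hg
    exact (σEMR_mk _ s m φ l).symm.trans (e.trans (σEMR_mk _ s m φ l))
  have cons : ∀ (n : SimplexCategoryᵒᵖ) (a : A.obj n) (m : ℕ) (φ : ⦋m⦌ ⟶ n.unop) (t : ⦋m⦌ ⟶ ⦋1⦌) (l : List (⦋m⦌ ⟶ ⦋1⦌)),
      ((g.app n).toFun a).1 m φ (t :: l) = ((g'.app n).toFun a).1 m φ (t :: l) := by
    intro n a m φ t l
    have e1 := EMR_nat g φ.op a m (𝟙 _) (t :: l)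
    have e2 := EMR_nat g' φ.op a m (𝟙 _) (t :: l)
    rw [Category.id_comp] at e1 e2
    have e3 := key (op ⦋m⦌) ((A.map φ.op).toFun a) t m (𝟙 _) l
    rw [Category.id_comp] at e3
    exact e1.symm.trans (e3.trans e2)
  refine NatTrans.ext (funext fun n => Pointed.Hom.ext (funext fun a => Subtype.ext (funext fun m => funext fun φ => funext fun l => ?_)))
  cases l with
  | nil =>
    rw [((g.app n).toFun a).2.prism m φ [], ((g'.app n).toFun a).2.prism m φ []]
    exact Finset.sum_congr rfl fun j _ => congrArg _ (cons n a (m + 1) _ _ _)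
  | cons t l' => exact cons n a m φ t l'

/-- EXIT 2: `EMR R` with `σEMR R` is a strict loop object. -/
def loopEMR : LoopData where
  E := EMR R
  grp n := instAddCommGroupEMR R n
  map_add _ _ _ := rfl
  σ := σEMR R
  ex _ h := ⟨adjEMR h, adjEMR_spec h⟩
  uniq _ g g' := σEMR_uniq g g'

/-- The fundamental stable cocycle: the indicator of the diagonal simplices of the cubes `Δ[1]^m`. -/
def fundCochR (T : SimplexCategory) : CochR R T := fun m _ l => if l = diag m then 1 else 0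

theorem fundCochR_isStCocycleR (T : SimplexCategory) : IsStCocycleR (fundCochR R T) where
  vanish m _ l h := if_neg (by
    rintro rfl
    obtain ⟨s, hs, hns⟩ := h
    exact hns (diag_surjective m s hs))
  cocycle m _ l := diag_cocycleR R m l
  prism m _ l := diag_prismR R m l

/-- The fundamental stable cocycle as a simplex of `EMR`. -/
def fundR (n : SimplexCategoryᵒᵖ) : (EMR R).obj n := ⟨fundCochR R n.unop, fundCochR_isStCocycleR R n.unop⟩

/-- The map `S⁰ ⟶ EMR` that sends the point different from the base point to the fundamental stable cocycle. -/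
def fundMapR : S0 ⟶ EMR R where
  app n := ⟨plusLift (P := (EMR R).obj n) fun _ => fundR R n, rfl⟩
  naturality n n' ψ := Pointed.Hom.ext (funext fun x => by
    induction x using plus_ind with
    | h0 => rfl
    | h s => rfl)

variable {R}

/-- The invariant of a map `S⁰ ⟶ EMR`: the value of the cocycle `f(vertex)` at the point. -/
def inv0R (f : S0 ⟶ EMR R) : R := ((f.app (op ⦋0⦌)).toFun (S0.vertex _)).1 0 (𝟙 _) []

theorem inv0R_fundMapR : inv0R (fundMapR R) = 1 := rfl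

theorem inv0R_zeroMap : inv0R (zeroMap S0 (EMR R)) = 0 := rfl

theorem inv0R_eq_of_homotopy {f g : S0 ⟶ EMR R} (h : PSSet.Homotopy f g) : inv0R f = inv0R g := by
  obtain ⟨H, rfl, rfl⟩ := h
  let x : (smash S0 I).obj (op ⦋1⦌) := Smash.mk (S0.vertex _) (quot.mk _ (SSet.stdSimplex.objEquiv.symm (𝟙 ⦋1⦌)))
  have c := ((H.app (op ⦋1⦌)).toFun x).2.cocycle 0 (𝟙 _) []
  rw [Fin.sum_univ_two] at c
  have e : ∀ i : Fin 2, ((H.app (op ⦋0⦌)).toFun (((smash S0 I).map (SimplexCategory.δ i).op).toFun x)).1 0 (𝟙 _) []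
      = ((H.app (op ⦋1⦌)).toFun x).1 0 (SimplexCategory.δ i ≫ 𝟙 _) [] := by
    intro i
    have := EMR_nat H (SimplexCategory.δ i).op x 0 (𝟙 _) []
    rw [Category.id_comp] at this
    rw [Category.comp_id]
    exact this
  have e0 : ((smash S0 I).map (SimplexCategory.δ (0 : Fin 2)).op).toFun x = ((incl S0 1).app (op ⦋0⦌)).toFun (S0.vertex _) :=
    congrArg (fun t => Smash.mk (S0.vertex (op ⦋0⦌)) (quot.mk (S := Δ[1]) ⊥ t)) stdSimplex_face_zero
  have e1 : ((smash S0 I).map (SimplexCategory.δ (1 : Fin 2)).op).toFun x = ((incl S0 0).app (op ⦋0⦌)).toFun (S0.vertex _) :=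
    congrArg (fun t => Smash.mk (S0.vertex (op ⦋0⦌)) (quot.mk (S := Δ[1]) ⊥ t)) stdSimplex_face_one
  have c' : (-1 : R) ^ ((0 : Fin 2) : ℕ) * inv0R (incl S0 1 ≫ H) + (-1 : R) ^ ((1 : Fin 2) : ℕ) * inv0R (incl S0 0 ≫ H) = 0 := by
    refine Eq.trans ?_ c
    refine congrArg₂ (· + ·) (congrArg _ ?_) (congrArg _ ?_)
    · refine Eq.trans ?_ (e 0)
      rw [e0]
      rfl
    · refine Eq.trans ?_ (e 1)
      rw [e1]
      rfl
  simp only [Fin.val_zero, Fin.val_one, pow_zero, pow_one, one_mul, neg_mul] at c'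
  exact (add_neg_eq_zero.1 c').symm

/-- EXIT 3 -/
theorem inv0R_eq_of_homotopic {f g : S0 ⟶ EMR R} (h : PSSet.Homotopic f g) : inv0R f = inv0R g := by
  induction h with
  | rel _ _ h => exact inv0R_eq_of_homotopy h
  | refl _ => rfl
  | symm _ _ _ ih => exact ih.symm
  | trans _ _ _ _ _ ih ih' => exact ih.trans ih'

variable (R)

/-- The fundamental class `S^k ⟶ EMR`: the `k`-fold suspension of `fundMapR`, followed by the structure maps. -/
def fundSphR (k : ℕ) : Sph k ⟶ EMR R :=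
  match k with
  | 0 => fundMapR R
  | k + 1 => smashMap (fundSphR k) (𝟙 S1) ≫ σEMR R

/-- EXIT 4 -/
theorem not_homotopic_fundSphR [Nontrivial R] (k : ℕ) : ¬ PSSet.Homotopic (fundSphR R k) (zeroMap (Sph k) (EMR R)) :=
  match k with
  | 0 => fun h => by
    have h' : PSSet.Homotopic (fundMapR R) (zeroMap S0 (EMR R)) := h
    have := inv0R_eq_of_homotopic h'
    rw [inv0R_fundMapR, inv0R_zeroMap] at this
    exact one_ne_zero this
  | k + 1 => fun h => by
    have h1 := (loopEMR R).adj_homotopic (A := Sph k) h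
    have e1 : (loopEMR R).adj (A := Sph k) (fundSphR R (k + 1)) = fundSphR R k := (loopEMR R).adj_σ (fundSphR R k)
    have e2 : (loopEMR R).adj (A := Sph k) (zeroMap (Sph (k + 1)) (EMR R)) = zeroMap (Sph k) (EMR R) := by
      have e3 := (loopEMR R).adj_σ (zeroMap (Sph k) (EMR R))
      have e4 : smashMap (zeroMap (Sph k) (EMR R)) (𝟙 S1) ≫ (loopEMR R).σ = zeroMap (Sph (k + 1)) (EMR R) :=
        smashMap_zeroMap_comp (A := Sph k) (σEMR R)
      exact (congrArg ((loopEMR R).adj (A := Sph k)) e4).symm.trans e3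
    rw [e1, e2] at h1
    exact not_homotopic_fundSphR k h1

end Claimed.Open.R319
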