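import Claimed.Open.R319.SanityGraded
import Claimed.Open.R319.SanityEMR

/-!
# Sanity (result 319), block R5: the graded pieces `GEMR R d` (`d ∈ ℤ`) of the simplicial group of stable cocycles with coefficients in a commutative ring `R`

The version with coefficients in `R` of `SanityGraded.lean` (there: `R = ZMod 2`).  `GEMR R d ⊆ EMR R` consists of the stable cocycles that are homogeneous of degree `d`
(`z(m, φ, l) = 0` unless `m = length l + d`) and NORMALIZED.  The structure map of `EMR R` restricts to `GEMR R d ∧ S¹ ⟶ GEMR R (d + 1)`, adjoint to an isomorphism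
`GEMR R d ≅ Ω GEMR R (d + 1)` (`σGR`, `σGR_ex`, `σGR_uniq`); `GEMR R d` has only one vertex for `d > 0`, so that the only pointed map `S^k ⟶ GEMR R d` is the constant one for `k < d`
(`Sph_hom_GEMR_eq_zero`); the fundamental cocycle lies in `GEMR R 0` (`fundGR`, `fundSphGR`, `not_homotopic_fundSphGR`).
-/

open CategoryTheory Opposite Simplicial

namespace Claimed.Open.R319

open PSSet

variable {R : Type} [CommRing R]

/-- A stable cocycle that is homogeneous of degree `d` and normalized. -/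
structure IsGrCocycleR (d : ℤ) {T : SimplexCategory} (z : CochR R T) : Prop where
  st : IsStCocycleR z
  graded : ∀ (m : ℕ) (φ : ⦋m⦌ ⟶ T) (l : List (⦋m⦌ ⟶ ⦋1⦌)), (m : ℤ) ≠ l.length + d → z m φ l = 0
  normal : ∀ (m : ℕ) (j : Fin (m + 1)) (φ : ⦋m⦌ ⟶ T) (l : List (⦋m⦌ ⟶ ⦋1⦌)),
    z (m + 1) (SimplexCategory.σ j ≫ φ) (l.map fun s => SimplexCategory.σ j ≫ s) = 0

/-- The group of the normalized stable cocycles of degree `d`. -/
def grCocyclesR (R : Type) [CommRing R] (d : ℤ) (T : SimplexCategory) : AddSubgroup (CochR R T) where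
  carrier := {z | IsGrCocycleR d z}
  zero_mem' := ⟨(stCocyclesR R T).zero_mem, fun _ _ _ _ => rfl, fun _ _ _ _ => rfl⟩
  add_mem' {a b} ha hb := ⟨(stCocyclesR R T).add_mem ha.st hb.st, fun m φ l h => by
      show a m φ l + b m φ l = 0
      rw [ha.graded m φ l h, hb.graded m φ l h, add_zero],
    fun m j φ l => by
      show a (m + 1) _ _ + b (m + 1) _ _ = 0
      rw [ha.normal m j φ l, hb.normal m j φ l, add_zero]⟩
  neg_mem' {a} ha := ⟨(stCocyclesR R T).neg_mem ha.st, fun m φ l h => by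
      show - a m φ l = 0
      rw [ha.graded m φ l h, neg_zero],
    fun m j φ l => by
      show - a (m + 1) _ _ = 0
      rw [ha.normal m j φ l, neg_zero]⟩

theorem IsGrCocycleR.comp {d : ℤ} {T T' : SimplexCategory} {z : CochR R T} (hz : IsGrCocycleR d z) (ψ : T' ⟶ T) :
    IsGrCocycleR d (T := T') fun m φ l => z m (φ ≫ ψ) l where
  st := hz.st.comp ψ
  graded m φ l h := hz.graded m _ l h
  normal m j φ l := by
    simpa only [Category.assoc] using hz.normal m j (φ ≫ ψ) l

/-- The pointed simplicial abelian group of the normalized stable cocycles of degree `d`. -/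
def GEMR (R : Type) [CommRing R] (d : ℤ) : PSSet where
  obj n := ⟨grCocyclesR R d n.unop, 0⟩
  map ψ := ⟨fun z => ⟨fun m φ l => z.1 m (φ ≫ ψ.unop) l, IsGrCocycleR.comp z.2 ψ.unop⟩, Subtype.ext rfl⟩
  map_id _ := Pointed.Hom.ext (funext fun z => Subtype.ext (funext fun m => funext fun φ => by
    show z.1 m (φ ≫ 𝟙 _) = z.1 m φ
    rw [Category.comp_id]))
  map_comp ψ χ := Pointed.Hom.ext (funext fun z => Subtype.ext (funext fun m => funext fun φ => by
    show z.1 m (φ ≫ (χ.unop ≫ ψ.unop)) = z.1 m ((φ ≫ χ.unop) ≫ ψ.unop)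
    rw [Category.assoc]))

/-- The inclusion `GEMR R d ⟶ EMR R`. -/
def gemιR (R : Type) [CommRing R] (d : ℤ) : GEMR R d ⟶ EMR R where
  app _ := ⟨fun z => ⟨z.1, z.2.st⟩, rfl⟩
  naturality _ _ _ := rfl

theorem gemιR_cancel {d : ℤ} {A : PSSet} {g g' : A ⟶ GEMR R d} (h : g ≫ gemιR R d = g' ≫ gemιR R d) : g = g' :=
  NatTrans.ext (funext fun n => Pointed.Hom.ext (funext fun a => Subtype.ext
    (congrArg (fun k : A ⟶ EMR R => ((k.app n).toFun a).1) h)))

theorem gemιR_isGr {d : ℤ} {A : PSSet} (g : A ⟶ GEMR R d) (n : SimplexCategoryᵒᵖ) (a : A.obj n) :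
    IsGrCocycleR d (((g ≫ gemιR R d).app n).toFun a).1 := ((g.app n).toFun a).2

/-- A map into `EMR R` with values in `GEMR R d` is a map into `GEMR R d`. -/
def gemLiftR {A : PSSet} (d : ℤ) (g : A ⟶ EMR R) (hg : ∀ n (a : A.obj n), IsGrCocycleR d ((g.app n).toFun a).1) : A ⟶ GEMR R d where
  app n := ⟨fun a => ⟨((g.app n).toFun a).1, hg n a⟩,
    Subtype.ext (congrArg (fun w : (EMR R).obj n => w.1) (g.app n).map_point)⟩
  naturality n n' ψ := Pointed.Hom.ext (funext fun a => Subtype.ext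
    (congrArg (fun k : A.obj n ⟶ (EMR R).obj n' => (k.toFun a).1) (g.naturality ψ)))

theorem gemLiftR_ι {A : PSSet} (d : ℤ) (g : A ⟶ EMR R) (hg : ∀ n (a : A.obj n), IsGrCocycleR d ((g.app n).toFun a).1) :
    gemLiftR d g hg ≫ gemιR R d = g := rfl

/-! ### The structure maps -/

theorem σEMR_isGr {d d' : ℤ} (hd : d' = d + 1) (n : SimplexCategoryᵒᵖ) (x : (smash (GEMR R d) S1).obj n) :
    IsGrCocycleR d' (((smashMap (gemιR R d) (𝟙 S1) ≫ σEMR R).app n).toFun x).1 := by
  induction x using Smash.ind with | h z b => ?_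
  induction b using S1.ind with | h s => ?_
  have e : ∀ (m : ℕ) (φ : ⦋m⦌ ⟶ n.unop) (l : List (⦋m⦌ ⟶ ⦋1⦌)),
      (((smashMap (gemιR R d) (𝟙 S1) ≫ σEMR R).app n).toFun (Smash.mk z (S1.mk s))).1 m φ l = z.1 m φ ((φ ≫ s) :: l) :=
    fun m φ l => σEMR_mk (((gemιR R d).app n).toFun z) s m φ l
  refine ⟨(((smashMap (gemιR R d) (𝟙 S1) ≫ σEMR R).app n).toFun (Smash.mk z (S1.mk s))).2, fun m φ l h => ?_, fun m j φ l => ?_⟩
  · rw [e]
    refine z.2.graded m φ _ ?_
    rw [List.length_cons]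
    push_cast
    omega
  · rw [e]
    have := z.2.normal m j φ ((φ ≫ s) :: l)
    simpa only [List.map_cons, Category.assoc] using this

/-- The structure map `GEMR R d ∧ S¹ ⟶ GEMR R (d + 1)`. -/
def σGR (R : Type) [CommRing R] {d d' : ℤ} (hd : d' = d + 1) : smash (GEMR R d) S1 ⟶ GEMR R d' :=
  gemLiftR d' (smashMap (gemιR R d) (𝟙 S1) ≫ σEMR R) (σEMR_isGr hd)

theorem σGR_ι {d d' : ℤ} (hd : d' = d + 1) : σGR R hd ≫ gemιR R d' = smashMap (gemιR R d) (𝟙 S1) ≫ σEMR R := rfl

theorem adjCochR_isGr {A : PSSet} (H : smash A S1 ⟶ EMR R) {d d' : ℤ} (hd : d' = d + 1)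
    (hH : ∀ n (x : (smash A S1).obj n), IsGrCocycleR d' ((H.app n).toFun x).1) {n : SimplexCategoryᵒᵖ} (a : A.obj n) :
    IsGrCocycleR d (adjCochR H a) where
  st := adjCochR_isStCocycleR H a
  graded m φ l h := by
    cases l with
    | nil =>
      show ∑ j : Fin (m + 1), (-1 : R) ^ (m + (j : ℕ)) * (hvalR H a (SimplexCategory.σ j ≫ φ) (tau j)).1 (m + 1) (𝟙 _) [] = 0
      refine Finset.sum_eq_zero fun j _ => mul_eq_zero_of_right _ ((hH _ _).graded (m + 1) _ _ ?_)
      rw [List.length_nil] at h ⊢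
      push_cast at h ⊢
      omega
    | cons t l' =>
      show (hvalR H a φ t).1 m (𝟙 _) l' = 0
      refine (hH _ _).graded m _ _ ?_
      rw [List.length_cons] at h
      push_cast at h
      omega
  normal m j φ l := by
    cases l with
    | nil =>
      show ∑ j' : Fin (m + 2), (-1 : R) ^ (m + 1 + (j' : ℕ)) *
        (hvalR H a (SimplexCategory.σ j' ≫ SimplexCategory.σ j ≫ φ) (tau j')).1 (m + 2) (𝟙 _) [] = 0
      refine Finset.sum_eq_zero fun j' _ => mul_eq_zero_of_right _ ?_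
      obtain ⟨i, χ, t, e1, e2⟩ := exists_σ_factor j j'
      rw [← Category.assoc, e1, e2, Category.assoc, hvalR_nat, Category.id_comp]
      have := (hH _ (Smash.mk ((A.map (χ ≫ φ).op).toFun a) (S1.mk (n := op ⦋m + 1⦌) t))).normal (m + 1) i (𝟙 _) []
      rw [Category.comp_id] at this
      exact this
    | cons t l' =>
      show (hvalR H a (SimplexCategory.σ j ≫ φ) (SimplexCategory.σ j ≫ t)).1 (m + 1) (𝟙 _) (l'.map fun s => SimplexCategory.σ j ≫ s) = 0
      rw [hvalR_nat, Category.id_comp]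
      have := (hH _ (Smash.mk ((A.map φ.op).toFun a) (S1.mk (n := op ⦋m⦌) t))).normal m j (𝟙 _) l'
      rw [Category.comp_id] at this
      exact this

/-- `GEMR R d ≅ Ω GEMR R (d + 1)`: existence of the adjoint -/
theorem σGR_ex {d d' : ℤ} (hd : d' = d + 1) (A : PSSet) (h : smash A S1 ⟶ GEMR R d') :
    ∃ g : A ⟶ GEMR R d, smashMap g (𝟙 S1) ≫ σGR R hd = h := by
  have hg : ∀ n (a : A.obj n), IsGrCocycleR d (((adjEMR (h ≫ gemιR R d')).app n).toFun a).1 :=
    fun n a => adjCochR_isGr (h ≫ gemιR R d') hd (gemιR_isGr h) a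
  refine ⟨gemLiftR d (adjEMR (h ≫ gemιR R d')) hg, gemιR_cancel ?_⟩
  rw [Category.assoc, σGR_ι, ← Category.assoc, ← smashMap_comp, gemLiftR_ι, Category.comp_id, adjEMR_spec]

/-- `GEMR R d ≅ Ω GEMR R (d + 1)`: uniqueness of the adjoint -/
theorem σGR_uniq {d d' : ℤ} (hd : d' = d + 1) (A : PSSet) (g g' : A ⟶ GEMR R d)
    (h : smashMap g (𝟙 S1) ≫ σGR R hd = smashMap g' (𝟙 S1) ≫ σGR R hd) : g = g' := by
  refine gemιR_cancel (σEMR_uniq _ _ ?_)
  have h' := congrArg (fun k => k ≫ gemιR R d') h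
  simp only [Category.assoc, σGR_ι] at h'
  rw [← Category.assoc, ← smashMap_comp, Category.comp_id, ← Category.assoc, ← smashMap_comp, Category.comp_id] at h'
  exact h'

/-! ### `GEMR R d` has only one vertex for `d > 0`; maps `S^k ⟶ GEMR R d` for `k < d` -/

/-- A normalized stable cocycle of degree `d > 0` on the point is zero: the simplices of `Δ[1]^k` of dimension `> k` are degenerate. -/
theorem IsGrCocycleR.eq_zero_of_pos {d : ℤ} (hd : 0 < d) {z : CochR R ⦋0⦌} (hz : IsGrCocycleR d z) : z = 0 := by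
  funext m φ l
  by_cases h : (m : ℤ) = l.length + d
  · obtain ⟨m', rfl⟩ : ∃ m', m = m' + 1 := ⟨m - 1, by omega⟩
    obtain ⟨j, hj⟩ := exists_tau_not_mem l (by push_cast at h; omega)
    have e1 : φ = SimplexCategory.σ j ≫ (SimplexCategory.δ j.succ ≫ φ) := by
      apply prism_hom_ext
      intro v
      exact congrArg Fin.val (Subsingleton.elim (α := Fin 1) _ _)
    have e2 : l = (l.map fun s => SimplexCategory.δ j.succ ≫ s).map fun s => SimplexCategory.σ j ≫ s := by
      rw [List.map_map]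
      refine ((List.map_congr_left fun s hs => ?_).trans (List.map_id l)).symm
      exact σ_δ_of_ne_tau j s (fun e => hj (e ▸ hs))
    rw [e1, e2]
    exact hz.normal m' j _ _
  · exact hz.graded m φ l h

/-- For `d > 0` the only pointed map `S⁰ ⟶ GEMR R d` is the constant map. -/
theorem S0_hom_GEMR_eq_zero {d : ℤ} (hd : 0 < d) (f : S0 ⟶ GEMR R d) : f = zeroMap S0 (GEMR R d) := by
  have hv : (f.app (op ⦋0⦌)).toFun (S0.vertex (op ⦋0⦌)) = ((GEMR R d).obj (op ⦋0⦌)).point :=
    Subtype.ext (IsGrCocycleR.eq_zero_of_pos hd ((f.app (op ⦋0⦌)).toFun (S0.vertex (op ⦋0⦌))).2)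
  refine NatTrans.ext (funext fun n => Pointed.Hom.ext (funext fun x => ?_))
  induction x using plus_ind with
  | h0 => exact (f.app n).map_point
  | h s =>
    have e := congrArg (fun k : S0.obj (op ⦋0⦌) ⟶ (GEMR R d).obj n => k.toFun (S0.vertex (op ⦋0⦌)))
      (f.naturality (n.unop.const ⦋0⦌ 0).op)
    have e' : (f.app n).toFun ((S0.map (n.unop.const ⦋0⦌ 0).op).toFun (S0.vertex (op ⦋0⦌)))
        = ((GEMR R d).map (n.unop.const ⦋0⦌ 0).op).toFun ((f.app (op ⦋0⦌)).toFun (S0.vertex (op ⦋0⦌))) := e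
    rw [hv] at e'
    exact (congrArg (f.app n).toFun (S0_mk_eq n s)).trans (e'.trans ((GEMR R d).map _).map_point)

/-- **For `k < d` the only pointed map `S^k ⟶ GEMR R d` is the constant map.** -/
theorem Sph_hom_GEMR_eq_zero (k : ℕ) : ∀ (d : ℤ), (k : ℤ) < d → ∀ f : Sph k ⟶ GEMR R d, f = zeroMap (Sph k) (GEMR R d) := by
  induction k with
  | zero => exact fun d hd f => S0_hom_GEMR_eq_zero (by simpa using hd) f
  | succ k ih =>
    intro d hd f
    obtain ⟨g, hg⟩ := σGR_ex (d := d - 1) (d' := d) (by ring) (Sph k) f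
    rw [ih (d - 1) (by push_cast at hd; omega) g] at hg
    exact hg.symm.trans (smashMap_zeroMap_comp (A := Sph k) _)

/-! ### The fundamental classes -/

theorem fundCochR_isGr (T : SimplexCategory) : IsGrCocycleR 0 (fundCochR R T) where
  st := fundCochR_isStCocycleR R T
  graded m _ l h := if_neg (by
    rintro rfl
    rw [diag_length, add_zero] at h
    exact h rfl)
  normal m j _ l := if_neg (fun h => by
    have h1 : tau j ∈ diag (m + 1) := List.mem_ofFn.2 ⟨j, rfl⟩
    rw [← h] at h1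
    obtain ⟨s, _, hs⟩ := List.mem_map.1 h1
    exact σ_comp_ne_tau j s hs)

/-- The fundamental class `S⁰ ⟶ GEMR R 0`. -/
def fundGR (R : Type) [CommRing R] : S0 ⟶ GEMR R 0 :=
  gemLiftR 0 (fundMapR R) fun n a => by
    induction a using plus_ind with
    | h0 => exact (grCocyclesR R 0 n.unop).zero_mem
    | h s => exact fundCochR_isGr n.unop

/-- The fundamental class `S^k ⟶ GEMR R k`. -/
def fundSphGR (R : Type) [CommRing R] (k : ℕ) : Sph k ⟶ GEMR R k :=
  match k with
  | 0 => fundGR R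
  | k + 1 => smashMap (fundSphGR R k) (𝟙 S1) ≫ σGR R (Nat.cast_succ k)

theorem fundSphGR_ι (k : ℕ) : fundSphGR R k ≫ gemιR R k = fundSphR R k :=
  match k with
  | 0 => rfl
  | k + 1 => by
    show (smashMap (fundSphGR R k) (𝟙 S1) ≫ σGR R (Nat.cast_succ k)) ≫ gemιR R _ = smashMap (fundSphR R k) (𝟙 S1) ≫ σEMR R
    rw [Category.assoc, σGR_ι, ← Category.assoc, ← smashMap_comp, Category.comp_id, fundSphGR_ι k]

/-- The fundamental class `S^k ⟶ GEMR R k` is not null homotopic. -/
theorem not_homotopic_fundSphGR [Nontrivial R] (k : ℕ) : ¬ PSSet.Homotopic (fundSphGR R k) (zeroMap (Sph k) (GEMR R k)) := fun h =>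
  not_homotopic_fundSphR R k (by
    have h' := h.postcomp (gemιR R k)
    rwa [fundSphGR_ι] at h')

end Claimed.Open.R319
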