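import Claimed.Open.R319.SanityConnective
import Claimed.Open.R319.SanityGradedR

/-!
# Sanity (result 319): the `Ω`-spectra `HCR R a` with the levels `GEMR R (a + n)`; `π_k (HCR R a) = 0` for `k < a`
(the version with coefficients in a commutative ring `R` of the first part of `SanityConnective.lean`)
-/

open CategoryTheory Opposite Simplicial

namespace Claimed.Open.R319

open PSSet

/-- The sequence `GEMR R a, GEMR R (a + 1), …` of strict loop objects. -/
def loopGEMR (R : Type) [CommRing R] (a : ℤ) : LoopSeq where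
  E i := GEMR R (a + i)
  grp i n := inferInstanceAs (AddCommGroup (grCocyclesR R (a + i) n.unop))
  map_add _ _ _ _ _ _ := rfl
  σ i := σGR R (by push_cast; ring)
  ex i A h := σGR_ex _ A h
  uniq i A g g' := σGR_uniq _ A g g'

/-- The `Ω`-spectrum with the levels `GEMR R (a + n)` (up to a contractible factor). -/
noncomputable def HCR (R : Type) [CommRing R] (a : ℤ) : Sp := (loopGEMR R a).spectrum

theorem isOmega_HCR (R : Type) [CommRing R] (a : ℤ) : (HCR R a).IsOmega := (loopGEMR R a).isOmega

variable (R : Type) [CommRing R]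

theorem subsingleton_hoClass_HCR (a : ℤ) (n k : ℕ) (h : (k : ℤ) < a + n) :
    Subsingleton (PSSet.HoClass (Sph k) ((HCR R a).level n)) :=
  ⟨by
    rintro ⟨f⟩ ⟨g⟩
    have key : ∀ f g : Sph k ⟶ (loopGEMR R a).spectrum.level n, PSSet.Homotopic f g := fun f g => by
      refine (loopGEMR R a).homotopic_level ?_
      have e1 : f ≫ (loopGEMR R a).pr n = zeroMap (Sph k) (GEMR R (a + n)) := Sph_hom_GEMR_eq_zero k _ h _
      have e2 : g ≫ (loopGEMR R a).pr n = zeroMap (Sph k) (GEMR R (a + n)) := Sph_hom_GEMR_eq_zero k _ h _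
      rw [e1, e2]
      exact .refl _
    exact Quot.sound (key f g)⟩

theorem subsingleton_π_HCR (a k : ℤ) (h : k < a) : Subsingleton (SH.π k (Q.obj (HCR R a))) :=
  match k, h with
  | Int.ofNat k, h =>
    have := subsingleton_hoClass_HCR R a 0 k (by simpa using h)
    (SH.piEquivNonneg k (HCR R a) (isOmega_HCR R a)).subsingleton
  | Int.negSucc k, h =>
    have : Subsingleton (PSSet.HoClass S0 ((HCR R a).level (k + 1))) := subsingleton_hoClass_HCR R a (k + 1) 0 (by
      rw [Int.negSucc_eq] at h
      push_cast
      omega)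
    (SH.piEquivNeg k (HCR R a) (isOmega_HCR R a)).subsingleton

end Claimed.Open.R319
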