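import Claimed.Open.R319.SanityGraded

/-!
# Sanity (result 319): the stable mod 2 cochains of the cubes `(Δ[1], ∂Δ[1])^k` are acyclic outside the fundamental class

`Cub` = mod 2 cochains on all the cubes; the list of the coordinates is written in REVERSED order (the prism operator acts on the head of the list).
For a stable normalized relative cocycle `z` with `z 0 [] = 0` a stable normalized relative cochain `cubY z` with coboundary `z` is written down:
`cubY z = h z + ι (cubY z)`, where `h` is the partial integral along the first coordinate of the list and `ι` the cross product with the fundamental cocycle of `Δ[1]`.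
-/

open CategoryTheory Opposite Simplicial

namespace Claimed.Open.R319

/-- Mod 2 cochains on the cubes `Δ[1]^k` (all `k`: the length of the list). -/
abbrev Cub : Type := ∀ m : ℕ, List (⦋m⦌ ⟶ ⦋1⦌) → ZMod 2

/-- The pullback of a simplex of a cube along a simplicial operator. -/
abbrev pbl {m m' : ℕ} (χ : ⦋m'⦌ ⟶ ⦋m⦌) (r : List (⦋m⦌ ⟶ ⦋1⦌)) : List (⦋m'⦌ ⟶ ⦋1⦌) := r.map fun s => χ ≫ s

theorem pbl_pbl {m m' m'' : ℕ} (χ' : ⦋m''⦌ ⟶ ⦋m'⦌) (χ : ⦋m'⦌ ⟶ ⦋m⦌) (r : List (⦋m⦌ ⟶ ⦋1⦌)) :
    pbl χ' (pbl χ r) = pbl (χ' ≫ χ) r := by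
  simp [pbl, List.map_map, Function.comp_def, Category.assoc]

theorem pbl_id {m : ℕ} (r : List (⦋m⦌ ⟶ ⦋1⦌)) : pbl (𝟙 _) r = r := by
  simp [pbl]

/-- A stable normalized relative cochain. -/
structure IsCubCochain (y : Cub) : Prop where
  vanish : ∀ (m : ℕ) (r : List (⦋m⦌ ⟶ ⦋1⦌)), (∃ s ∈ r, ¬ Function.Surjective s.toOrderHom) → y m r = 0
  normal : ∀ (m : ℕ) (j : Fin (m + 1)) (r : List (⦋m⦌ ⟶ ⦋1⦌)), y (m + 1) (pbl (SimplexCategory.σ j) r) = 0
  prism : ∀ (m : ℕ) (r : List (⦋m⦌ ⟶ ⦋1⦌)), y m r = ∑ j : Fin (m + 1), y (m + 1) (tau j :: pbl (SimplexCategory.σ j) r)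

/-- `z` is the coboundary of `y` (in positive degrees). -/
def IsCubCobd (y z : Cub) : Prop :=
  ∀ (m : ℕ) (r : List (⦋m + 1⦌ ⟶ ⦋1⦌)), ∑ i : Fin (m + 2), y m (pbl (SimplexCategory.δ i) r) = z (m + 1) r

/-- The number of zeros of a simplex of `Δ[1]`. -/
noncomputable def nz {m : ℕ} (s : ⦋m⦌ ⟶ ⦋1⦌) : ℕ := (diag_exists_theta s).choose

theorem nz_le {m : ℕ} (s : ⦋m⦌ ⟶ ⦋1⦌) : nz s ≤ m + 1 := (diag_exists_theta s).choose_spec.1

theorem theta_nz {m : ℕ} (s : ⦋m⦌ ⟶ ⦋1⦌) : prismTheta (nz s) = s := (diag_exists_theta s).choose_spec.2.symm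

theorem nz_theta {m c : ℕ} (hc : c ≤ m + 1) : nz (prismTheta (m := m) c) = c :=
  diag_theta_inj (nz_le _) hc (theta_nz _)

theorem nz_tau {m : ℕ} (j : Fin (m + 1)) : nz (tau j) = j.val + 1 := by
  rw [diag_tau_eq_theta, nz_theta (by have := j.isLt; omega)]

theorem nz_δ {m : ℕ} (i : Fin (m + 2)) (s : ⦋m + 1⦌ ⟶ ⦋1⦌) :
    nz (SimplexCategory.δ i ≫ s) = if i.val < nz s then nz s - 1 else nz s := by
  conv_lhs => rw [← theta_nz s, diag_δ_theta]
  have h1 := nz_le s
  have h2 := i.isLt
  exact nz_theta (by split_ifs <;> omega)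

theorem nz_σ {m : ℕ} (j : Fin (m + 1)) (s : ⦋m⦌ ⟶ ⦋1⦌) :
    nz (SimplexCategory.σ j ≫ s) = if j.val < nz s then nz s + 1 else nz s := by
  conv_lhs => rw [← theta_nz s, diag_σ_theta]
  have h1 := nz_le s
  have h2 := j.isLt
  exact nz_theta (by split_ifs <;> omega)

theorem nz_inj {m : ℕ} {s t : ⦋m⦌ ⟶ ⦋1⦌} (h : nz s = nz t) : s = t := by
  rw [← theta_nz s, ← theta_nz t, h]

/-- a simplex of `Δ[1]` is not in the boundary iff `1 ≤ nz s ≤ m` -/
theorem surjective_iff_nz {m : ℕ} (s : ⦋m⦌ ⟶ ⦋1⦌) : Function.Surjective s.toOrderHom ↔ 1 ≤ nz s ∧ nz s ≤ m := by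
  have hv : ∀ v : Fin (m + 1), (s.toOrderHom v).val = if v.val < nz s then 0 else 1 := by
    intro v
    conv_lhs => rw [← theta_nz s]
    exact prismTheta_apply (nz s) v
  constructor
  · intro h
    obtain ⟨v0, h0⟩ := h 0
    obtain ⟨v1, h1⟩ := h 1
    have e0 := hv v0
    have e1 := hv v1
    rw [h0] at e0
    rw [h1] at e1
    have hv0 : v0.val < m + 1 := v0.isLt
    have hv1 : v1.val < m + 1 := v1.isLt
    constructor
    · by_contra hc
      rw [if_neg (by omega)] at e0
      simp at e0
    · by_contra hc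
      rw [if_pos (by omega)] at e1
      simp at e1
  · rintro ⟨h1, h2⟩ y
    have hy : y.val < 2 := y.isLt
    by_cases h0 : y.val = 0
    · refine ⟨(⟨0, Nat.succ_pos m⟩ : Fin (m + 1)), Fin.ext ?_⟩
      rw [hv, if_pos (by show 0 < nz s; omega), h0]
    · refine ⟨(⟨m, Nat.lt_succ_self m⟩ : Fin (m + 1)), Fin.ext ?_⟩
      rw [hv, if_neg (by show ¬ m < nz s; omega)]
      omega

/-- The partial integral of `z` along the first coordinate of the list, from `0` to the `b`-th vertex. -/
def cubH (z : Cub) (m : ℕ) (r : List (⦋m⦌ ⟶ ⦋1⦌)) (b : ℕ) : ZMod 2 :=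
  ∑ a : Fin (m + 1), if a.val < b then z (m + 1) (tau a :: pbl (SimplexCategory.σ a) r) else 0

/-- The primitive. -/
noncomputable def cubY (z : Cub) : Cub := fun m =>
  match m with
  | 0 => fun _ => 0
  | m + 1 => fun r =>
    match r with
    | [] => 0
    | s :: r => (if nz s ≤ m + 1 then cubH z (m + 1) r (nz s) else 0) +
        (if nz s = m + 1 then cubY z m (pbl (SimplexCategory.δ (Fin.last (m + 1))) r) else 0)

theorem cubY_zero (z : Cub) (r : List (⦋0⦌ ⟶ ⦋1⦌)) : cubY z 0 r = 0 := rfl

theorem cubY_nil (z : Cub) (m : ℕ) : cubY z m [] = 0 := by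
  cases m <;> rfl

theorem cubY_cons (z : Cub) (m : ℕ) (s : ⦋m + 1⦌ ⟶ ⦋1⦌) (r : List (⦋m + 1⦌ ⟶ ⦋1⦌)) :
    cubY z (m + 1) (s :: r) = (if nz s ≤ m + 1 then cubH z (m + 1) r (nz s) else 0) +
        (if nz s = m + 1 then cubY z m (pbl (SimplexCategory.δ (Fin.last (m + 1))) r) else 0) := rfl

/-! ### The leaves -/

/-- LEAF A0: the coboundary of the partial integral of a relative cocycle. -/
theorem cubH_cobd (z : Cub)
    (hv : ∀ (m : ℕ) (r : List (⦋m⦌ ⟶ ⦋1⦌)), (∃ s ∈ r, ¬ Function.Surjective s.toOrderHom) → z m r = 0)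
    (hc : IsCubCobd z 0) (m : ℕ) (r : List (⦋m + 1⦌ ⟶ ⦋1⦌)) (b : ℕ) (hb : b ≤ m + 2) :
    ∑ i : Fin (m + 2), cubH z m (pbl (SimplexCategory.δ i) r) (if i.val < b then b - 1 else b)
      = z (m + 1) (prismTheta b :: r) := by
  -- the summand of the claim, as a function of the pair `(i, j)`
  set G : Fin (m + 2) × Fin (m + 1) → ZMod 2 :=
    fun p => z (m + 1) (tau p.2 :: pbl (SimplexCategory.σ p.2) (pbl (SimplexCategory.δ p.1) r)) with hG
  set H : ℕ → ZMod 2 := fun c => z (m + 1) (prismTheta c :: r) with hH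
  -- one row of the cocycle condition
  have row : ∀ j' : Fin (m + 2),
      (H j'.val + H (j'.val + 1)) + ∑ l : Fin (m + 1), G (j'.succAbove l, l.predAbove j') = 0 := by
    intro j'
    have h : ∑ i : Fin (m + 3), z (m + 1) ((SimplexCategory.δ i ≫ tau j') ::
        pbl (SimplexCategory.δ i ≫ SimplexCategory.σ j') r) = 0 := by
      have h := hc (m + 1) (tau j' :: pbl (SimplexCategory.σ j') r)
      rw [show (0 : Cub) (m + 1 + 1) (tau j' :: pbl (SimplexCategory.σ j') r) = 0 from rfl] at h
      rw [← h]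
      refine Finset.sum_congr rfl fun i _ => ?_
      rw [← pbl_pbl]
      rfl
    rw [Fin.sum_univ_succAbove _ j'.castSucc, Fin.sum_univ_succAbove _ j',
      Fin.succAbove_castSucc_self] at h
    rw [SimplexCategory.δ_comp_σ_self, prism_δ_castSucc_tau, SimplexCategory.δ_comp_σ_succ,
      prism_δ_succ_tau, pbl_id] at h
    rw [← h, add_assoc]
    congr 2
    refine Finset.sum_congr rfl fun l _ => ?_
    rw [prism_δ_σ, prism_δ_tau, ← pbl_pbl]
  -- the sum over the rows `j' < b`
  have total : ∑ j' : Fin (m + 2), ((if j'.val < b then H j'.val + H (j'.val + 1) else 0) +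
      ∑ l : Fin (m + 1), if j'.val < b then G (j'.succAbove l, l.predAbove j') else 0) = 0 := by
    refine Finset.sum_eq_zero fun j' _ => ?_
    by_cases hj : j'.val < b
    · simp only [if_pos hj]
      exact row j'
    · simp only [if_neg hj, Finset.sum_const_zero, add_zero]
  have tel : ∑ j' : Fin (m + 2), (if j'.val < b then H j'.val + H (j'.val + 1) else 0) = H b := by
    rw [Fin.sum_univ_eq_sum_range (fun k => if k < b then H k + H (k + 1) else 0) (m + 2),
      ← Finset.sum_filter]
    have hf : (Finset.range (m + 2)).filter (fun k => k < b) = Finset.range b := by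
      ext k
      simp only [Finset.mem_filter, Finset.mem_range]
      omega
    rw [hf, prism_telescope]
    have h0 : H 0 = 0 := hv _ _ ⟨_, List.mem_cons_self, prismTheta_zero_not_surjective⟩
    rw [h0, zero_add]
  rw [Finset.sum_add_distrib, tel] at total
  -- re-indexing
  set G' : Fin (m + 2) × Fin (m + 1) → ZMod 2 :=
    fun p => if p.2.val < (if p.1.val < b then b - 1 else b) then G p else 0 with hG'
  have e1 : ∑ j' : Fin (m + 2), ∑ l : Fin (m + 1),
      (if j'.val < b then G (j'.succAbove l, l.predAbove j') else 0) =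
      ∑ p : Fin (m + 2) × Fin (m + 1), G' (p.1.succAbove p.2, p.2.predAbove p.1) := by
    rw [Fintype.sum_prod_type]
    refine Finset.sum_congr rfl fun j' _ => Finset.sum_congr rfl fun l _ => ?_
    have hiff : ((l.predAbove j').val < (if (j'.succAbove l).val < b then b - 1 else b)) ↔ j'.val < b := by
      simp only [prism_val_succAbove, prism_val_predAbove]
      split_ifs <;> omega
    simp only [hG', hiff]
  have e2 : ∑ i : Fin (m + 2), cubH z m (pbl (SimplexCategory.δ i) r) (if i.val < b then b - 1 else b) =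
      ∑ p : Fin (m + 2) × Fin (m + 1), G' p := by
    rw [Fintype.sum_prod_type]
    rfl
  have e3 : ∑ p : Fin (m + 2) × Fin (m + 1), G' (p.1.succAbove p.2, p.2.predAbove p.1) =
      ∑ p : Fin (m + 2) × Fin (m + 1), G' p := Equiv.sum_comp (prism_involutive m).toPerm G'
  rw [e2, ← e3, ← e1]
  have h2 := CharTwo.add_self_eq_zero (H b)
  linear_combination total - h2

/-- LEAF B: the cross product with the fundamental cocycle of `Δ[1]` is a chain map. -/
theorem cub_iota_cobd {m : ℕ} (F : List (⦋m⦌ ⟶ ⦋1⦌) → ZMod 2) (b : ℕ) (r : List (⦋m + 2⦌ ⟶ ⦋1⦌)) :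
    ∑ i : Fin (m + 3), (if (if i.val < b then b - 1 else b) = m + 1 then
        F (pbl (SimplexCategory.δ (Fin.last (m + 1))) (pbl (SimplexCategory.δ i) r)) else 0)
      = if b = m + 2 then ∑ i : Fin (m + 2), F (pbl (SimplexCategory.δ i) (pbl (SimplexCategory.δ (Fin.last (m + 2))) r)) else 0 := by
  simp only [pbl_pbl]
  by_cases h2 : b = m + 2
  · subst h2
    rw [if_pos rfl, Fin.sum_univ_castSucc]
    have hl : (if (if (Fin.last (m + 2)).val < m + 2 then m + 2 - 1 else m + 2) = m + 1 then
        F (pbl (SimplexCategory.δ (Fin.last (m + 1)) ≫ SimplexCategory.δ (Fin.last (m + 2))) r) else 0) = 0 := by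
      rw [if_neg]
      rw [if_neg (by simp)]
      omega
    rw [hl, add_zero]
    refine Finset.sum_congr rfl fun i _ => ?_
    have h1 : (i.castSucc : Fin (m + 3)).val < m + 2 := by
      simp only [Fin.val_castSucc]
      exact i.isLt
    rw [if_pos h1, if_pos (by omega)]
    have h3 := SimplexCategory.δ_comp_δ (i := i) (j := Fin.last (m + 1)) (Fin.le_last i)
    rw [Fin.succ_last] at h3
    rw [h3]
  · rw [if_neg h2]
    by_cases h1 : b = m + 1
    · subst h1
      rw [Fin.sum_univ_castSucc, Fin.sum_univ_castSucc]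
      have hs : ∀ i : Fin (m + 1), (if (if (i.castSucc.castSucc : Fin (m + 3)).val < m + 1 then m + 1 - 1 else m + 1) = m + 1 then
          F (pbl (SimplexCategory.δ (Fin.last (m + 1)) ≫ SimplexCategory.δ i.castSucc.castSucc) r) else 0) = 0 := by
        intro i
        rw [if_neg]
        have h1 : (i.castSucc.castSucc : Fin (m + 3)).val < m + 1 := by
          simp only [Fin.val_castSucc]
          exact i.isLt
        rw [if_pos h1]
        omega
      rw [Finset.sum_eq_zero fun i _ => hs i, zero_add]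
      have ha : ¬ ((Fin.last (m + 1)).castSucc : Fin (m + 3)).val < m + 1 := by simp
      have hb : ¬ (Fin.last (m + 2)).val < m + 1 := by simp
      rw [if_neg ha, if_neg hb, if_pos rfl, if_pos rfl, SimplexCategory.δ_comp_δ_self, Fin.succ_last]
      exact CharTwo.add_self_eq_zero _
    · refine Finset.sum_eq_zero fun i _ => ?_
      rw [if_neg]
      have := i.isLt
      split_ifs <;> omega

/-- a pullback of a simplex in the boundary of `Δ[1]` is in the boundary -/
theorem not_surjective_comp {m m' : ℕ} (χ : ⦋m'⦌ ⟶ ⦋m⦌) {s : ⦋m⦌ ⟶ ⦋1⦌} (hs : ¬ Function.Surjective s.toOrderHom) :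
    ¬ Function.Surjective (χ ≫ s).toOrderHom := fun h => hs (Function.Surjective.of_comp h)

theorem exists_not_surjective_pbl {m m' : ℕ} (χ : ⦋m'⦌ ⟶ ⦋m⦌) {r : List (⦋m⦌ ⟶ ⦋1⦌)}
    (h : ∃ s ∈ r, ¬ Function.Surjective s.toOrderHom) : ∃ s ∈ pbl χ r, ¬ Function.Surjective s.toOrderHom := by
  obtain ⟨s, hs, hns⟩ := h
  exact ⟨χ ≫ s, List.mem_map.2 ⟨s, hs, rfl⟩, not_surjective_comp χ hns⟩

/-- the partial integral vanishes on the boundary -/
theorem cubH_vanish (z : Cub) (hz : IsCubCochain z) (m : ℕ) (r : List (⦋m⦌ ⟶ ⦋1⦌))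
    (h : ∃ s ∈ r, ¬ Function.Surjective s.toOrderHom) (b : ℕ) : cubH z m r b = 0 := by
  refine Finset.sum_eq_zero fun a _ => ?_
  split_ifs
  · obtain ⟨s, hs, hns⟩ := exists_not_surjective_pbl (SimplexCategory.σ a) h
    exact hz.vanish _ _ ⟨s, List.mem_cons_of_mem _ hs, hns⟩
  · rfl

/-- the partial integral vanishes on the degenerate simplices -/
theorem cubH_normal (z : Cub) (hz : IsCubCochain z) (m : ℕ) (j : Fin (m + 1)) (r : List (⦋m⦌ ⟶ ⦋1⦌)) (b : ℕ) :
    cubH z (m + 1) (pbl (SimplexCategory.σ j) r) b = 0 := by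
  refine Finset.sum_eq_zero fun a _ => ?_
  split_ifs
  · obtain ⟨i, χ, t, h1, h2⟩ := exists_σ_factor j a
    have e : (tau a :: pbl (SimplexCategory.σ a) (pbl (SimplexCategory.σ j) r)) = pbl (SimplexCategory.σ i) (t :: pbl χ r) := by
      rw [pbl_pbl, h1, h2, ← pbl_pbl]
      rfl
    rw [e]
    exact hz.normal (m + 1) i _
  · rfl

/-- LEAF C1 -/
theorem cubY_vanish (z : Cub) (hz : IsCubCochain z) (m : ℕ) (r : List (⦋m⦌ ⟶ ⦋1⦌))
    (h : ∃ s ∈ r, ¬ Function.Surjective s.toOrderHom) : cubY z m r = 0 := by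
  induction m with
  | zero => rfl
  | succ m ih =>
    cases r with
    | nil => rfl
    | cons s r =>
      rw [cubY_cons]
      obtain ⟨t, ht, hns⟩ := h
      rcases List.mem_cons.1 ht with rfl | ht
      · rw [surjective_iff_nz] at hns
        have h1 := nz_le t
        by_cases h0 : nz t = 0
        · rw [h0, if_pos (Nat.zero_le _), if_neg (by omega), add_zero]
          exact Finset.sum_eq_zero fun a _ => if_neg (Nat.not_lt_zero _)
        · rw [if_neg (by omega), if_neg (by omega), add_zero]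
      · rw [cubH_vanish z hz (m + 1) r ⟨t, ht, hns⟩, ih _ (exists_not_surjective_pbl _ ⟨t, ht, hns⟩)]
        simp

/-- the last face of a degeneracy that is not the last one -/
theorem δ_last_σ {m : ℕ} (j : Fin (m + 2)) (hj : j.val < m + 1) :
    SimplexCategory.δ (Fin.last (m + 2)) ≫ SimplexCategory.σ j =
      SimplexCategory.σ (⟨j.val, hj⟩ : Fin (m + 1)) ≫ SimplexCategory.δ (Fin.last (m + 1)) := by
  apply prism_hom_ext
  intro v
  have := v.isLt
  simp only [prism_comp_apply, prism_δ_apply, prism_σ_apply, Fin.val_last]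
  split_ifs <;> omega

/-- LEAF C2 -/
theorem cubY_normal (z : Cub) (hz : IsCubCochain z) (m : ℕ) (j : Fin (m + 1)) (r : List (⦋m⦌ ⟶ ⦋1⦌)) :
    cubY z (m + 1) (pbl (SimplexCategory.σ j) r) = 0 := by
  induction m with
  | zero =>
    cases r with
    | nil => rfl
    | cons s r =>
      show cubY z (0 + 1) ((SimplexCategory.σ j ≫ s) :: pbl (SimplexCategory.σ j) r) = 0
      rw [cubY_cons, cubH_normal z hz, cubY_zero]
      simp
  | succ m ih =>
    cases r with
    | nil => rfl
    | cons s r =>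
      show cubY z (m + 1 + 1) ((SimplexCategory.σ j ≫ s) :: pbl (SimplexCategory.σ j) r) = 0
      rw [cubY_cons, cubH_normal z hz]
      by_cases h : nz (SimplexCategory.σ j ≫ s) = m + 1 + 1
      · have hj : j.val < m + 1 := by
          rw [nz_σ] at h
          have h1 := nz_le s
          have h2 := j.isLt
          split_ifs at h <;> omega
        rw [pbl_pbl, δ_last_σ j hj, ← pbl_pbl, ih]
        simp
      · rw [if_neg h]
        simp

/-- LEAF C3 -/
theorem cubY_prism (z : Cub) (hz : IsCubCochain z) (m : ℕ) (r : List (⦋m⦌ ⟶ ⦋1⦌)) :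
    cubY z m r = ∑ j : Fin (m + 1), cubY z (m + 1) (tau j :: pbl (SimplexCategory.σ j) r) := by
  rw [Finset.sum_eq_single (Fin.last m)]
  · rw [cubY_cons, cubH_normal z hz, nz_tau, Fin.val_last, if_pos rfl, pbl_pbl]
    have e : SimplexCategory.δ (Fin.last (m + 1)) ≫ SimplexCategory.σ (Fin.last m) = 𝟙 _ := by
      rw [← Fin.succ_last]
      exact SimplexCategory.δ_comp_σ_succ
    rw [e, pbl_id]
    simp
  · intro j _ hj
    have hne : ¬ (j.val + 1 = m + 1) := fun h => hj (Fin.ext (by rw [Fin.val_last]; omega))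
    rw [cubY_cons, cubH_normal z hz, nz_tau, if_neg hne]
    simp
  · intro h
    exact absurd (Finset.mem_univ _) h

theorem cubH_full (z : Cub) (hz : IsCubCochain z) (m : ℕ) (r : List (⦋m⦌ ⟶ ⦋1⦌)) (b : ℕ) (hb : m + 1 ≤ b) :
    cubH z m r b = z m r := by
  rw [hz.prism m r]
  refine Finset.sum_congr rfl fun a _ => ?_
  rw [if_pos (by have := a.isLt; omega)]

theorem cubH_zero (z : Cub) (m : ℕ) (r : List (⦋m⦌ ⟶ ⦋1⦌)) : cubH z m r 0 = 0 := by
  simp [cubH]

theorem cub_zero_eq_zero (z : Cub) (hz : IsCubCochain z) (h0 : z 0 [] = 0) (r : List (⦋0⦌ ⟶ ⦋1⦌)) : z 0 r = 0 := by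
  cases r with
  | nil => exact h0
  | cons s r =>
    refine hz.vanish 0 _ ⟨s, List.mem_cons_self, fun h => ?_⟩
    have := Fintype.card_le_of_surjective _ h
    simp at this

/-- LEAF D (uses A0, B, C1) -/
theorem cubY_cobd (z : Cub) (hz : IsCubCochain z) (hc : IsCubCobd z 0) (h0 : z 0 [] = 0) : IsCubCobd (cubY z) z := by
  intro m
  induction m with
  | zero =>
    intro r
    cases r with
    | nil =>
      simp only [List.map_nil, cubY_nil, Finset.sum_const_zero]
      exact (hz.normal 0 0 []).symm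
    | cons s r =>
      simp only [cubY_zero, Finset.sum_const_zero]
      have hA := cubH_cobd z hz.vanish hc 0 r (nz s) (nz_le s)
      rw [theta_nz] at hA
      rw [← hA]
      refine (Finset.sum_eq_zero fun i _ => ?_).symm
      generalize (if i.val < nz s then nz s - 1 else nz s) = b
      by_cases hb : 1 ≤ b
      · rw [cubH_full z hz 0 _ b hb, cub_zero_eq_zero z hz h0]
      · obtain rfl : b = 0 := by omega
        exact cubH_zero z 0 _
  | succ m ih =>
    intro r
    cases r with
    | nil =>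
      simp only [List.map_nil, cubY_nil, Finset.sum_const_zero]
      exact (hz.normal (m + 1) 0 []).symm
    | cons s r =>
      have hb := nz_le s
      have hA := cubH_cobd z hz.vanish hc (m + 1) r (nz s) hb
      rw [theta_nz] at hA
      have hB := cub_iota_cobd (cubY z m) (nz s) r
      have hL : ∀ i : Fin (m + 3), cubY z (m + 1) (pbl (SimplexCategory.δ i) (s :: r))
          = (if (if i.val < nz s then nz s - 1 else nz s) ≤ m + 1 then
              cubH z (m + 1) (pbl (SimplexCategory.δ i) r) (if i.val < nz s then nz s - 1 else nz s) else 0)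
            + (if (if i.val < nz s then nz s - 1 else nz s) = m + 1 then
              cubY z m (pbl (SimplexCategory.δ (Fin.last (m + 1))) (pbl (SimplexCategory.δ i) r)) else 0) := by
        intro i
        show cubY z (m + 1) ((SimplexCategory.δ i ≫ s) :: pbl (SimplexCategory.δ i) r) = _
        rw [cubY_cons, nz_δ]
      rw [Finset.sum_congr rfl fun i _ => hL i, Finset.sum_add_distrib, hB, ← hA]
      rcases (by omega : nz s ≤ m + 1 ∨ nz s = m + 2 ∨ nz s = m + 3) with h | h | h
      · rw [if_neg (by omega), add_zero]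
        refine Finset.sum_congr rfl fun i _ => ?_
        rw [if_pos (by split_ifs <;> omega)]
      · rw [if_pos h, ih]
        have key : ∀ i : Fin (m + 3), (if (if i.val < nz s then nz s - 1 else nz s) ≤ m + 1 then
              cubH z (m + 1) (pbl (SimplexCategory.δ i) r) (if i.val < nz s then nz s - 1 else nz s) else 0)
            = cubH z (m + 1) (pbl (SimplexCategory.δ i) r) (if i.val < nz s then nz s - 1 else nz s)
              + (if i = Fin.last (m + 2) then z (m + 1) (pbl (SimplexCategory.δ (Fin.last (m + 2))) r) else 0) := by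
          intro i
          by_cases hi : i = Fin.last (m + 2)
          · subst hi
            have h1 : ¬ (Fin.last (m + 2)).val < nz s := by
              rw [h]
              simp
            rw [if_pos rfl, if_neg h1, if_neg (by omega), cubH_full z hz _ _ _ (by omega)]
            exact (CharTwo.add_self_eq_zero _).symm
          · have h1 : i.val < nz s := by
              have h2 := i.isLt
              have h3 : i.val ≠ m + 2 := fun h' => hi (Fin.ext h')
              omega
            rw [if_neg hi, add_zero, if_pos h1, if_pos (by omega)]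
        rw [Finset.sum_congr rfl fun i _ => key i, Finset.sum_add_distrib, Finset.sum_ite_eq' Finset.univ,
          if_pos (Finset.mem_univ _), add_assoc, CharTwo.add_self_eq_zero, add_zero]
      · rw [if_neg (by omega), add_zero]
        have h1 : ∀ i : Fin (m + 3), (if i.val < nz s then nz s - 1 else nz s) = m + 2 := by
          intro i
          have h2 := i.isLt
          rw [if_pos (by omega)]
          omega
        simp only [h1]
        rw [Finset.sum_eq_zero fun i _ => if_neg (by omega)]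
        rw [Finset.sum_congr rfl fun i _ => cubH_full z hz (m + 1) _ (m + 2) le_rfl]
        exact (hc (m + 1) r).symm

theorem cubY_isCubCochain (z : Cub) (hz : IsCubCochain z) : IsCubCochain (cubY z) :=
  ⟨cubY_vanish z hz, cubY_normal z hz, cubY_prism z hz⟩

end Claimed.Open.R319
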