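import Claimed.Open.R319.SanityCube

/-!
# Sanity (result 319): the stable cochains of the cubes `(Δ[1], ∂Δ[1])^k` with coefficients in a commutative ring `R` are acyclic outside the fundamental class
(the signed version of `SanityCube.lean`; `pbl`, `nz` and their lemmas are taken from there)

Signs: coboundary `∑_i (-1)^i`, prism operator `∑_j (-1)^(m+j)` (as in `SanityEMR.lean`; with these signs the prism operator COMMUTES with the coboundary on relative cochains).
`cubYR z = ± h z + ι (cubYR z)`: in degree `m + 1` the partial integral `h` enters with the sign `(-1)^m`, the cross product `ι` with the fundamental cocycle of `Δ[1]` with the sign `+`.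
-/

open CategoryTheory Opposite Simplicial

namespace Claimed.Open.R319

/-- Cochains with coefficients in `R` on the cubes `Δ[1]^k` (all `k`: the length of the list). -/
abbrev CubR (R : Type) : Type := ∀ m : ℕ, List (⦋m⦌ ⟶ ⦋1⦌) → R

variable {R : Type} [CommRing R]

/-- A stable normalized relative cochain. -/
structure IsCubCochainR (y : CubR R) : Prop where
  vanish : ∀ (m : ℕ) (r : List (⦋m⦌ ⟶ ⦋1⦌)), (∃ s ∈ r, ¬ Function.Surjective s.toOrderHom) → y m r = 0
  normal : ∀ (m : ℕ) (j : Fin (m + 1)) (r : List (⦋m⦌ ⟶ ⦋1⦌)), y (m + 1) (pbl (SimplexCategory.σ j) r) = 0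
  prism : ∀ (m : ℕ) (r : List (⦋m⦌ ⟶ ⦋1⦌)),
    y m r = ∑ j : Fin (m + 1), (-1 : R) ^ (m + (j : ℕ)) * y (m + 1) (tau j :: pbl (SimplexCategory.σ j) r)

/-- `z` is the coboundary of `y` (in positive degrees). -/
def IsCubCobdR (y z : CubR R) : Prop :=
  ∀ (m : ℕ) (r : List (⦋m + 1⦌ ⟶ ⦋1⦌)),
    ∑ i : Fin (m + 2), (-1 : R) ^ (i : ℕ) * y m (pbl (SimplexCategory.δ i) r) = z (m + 1) r

/-- The partial integral of `z` along the first coordinate of the list, from `0` to the `b`-th vertex. -/
def cubHR (z : CubR R) (m : ℕ) (r : List (⦋m⦌ ⟶ ⦋1⦌)) (b : ℕ) : R :=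
  ∑ a : Fin (m + 1), if a.val < b then (-1 : R) ^ (m + (a : ℕ)) * z (m + 1) (tau a :: pbl (SimplexCategory.σ a) r) else 0

/-- The primitive. -/
noncomputable def cubYR (z : CubR R) : CubR R := fun m =>
  match m with
  | 0 => fun _ => 0
  | m + 1 => fun r =>
    match r with
    | [] => 0
    | s :: r => (if nz s ≤ m + 1 then (-1 : R) ^ m * cubHR z (m + 1) r (nz s) else 0) +
        (if nz s = m + 1 then cubYR z m (pbl (SimplexCategory.δ (Fin.last (m + 1))) r) else 0)

theorem cubYR_zero (z : CubR R) (r : List (⦋0⦌ ⟶ ⦋1⦌)) : cubYR z 0 r = 0 := rfl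

theorem cubYR_nil (z : CubR R) (m : ℕ) : cubYR z m [] = 0 := by
  cases m <;> rfl

theorem cubYR_cons (z : CubR R) (m : ℕ) (s : ⦋m + 1⦌ ⟶ ⦋1⦌) (r : List (⦋m + 1⦌ ⟶ ⦋1⦌)) :
    cubYR z (m + 1) (s :: r) = (if nz s ≤ m + 1 then (-1 : R) ^ m * cubHR z (m + 1) r (nz s) else 0) +
        (if nz s = m + 1 then cubYR z m (pbl (SimplexCategory.δ (Fin.last (m + 1))) r) else 0) := rfl

/-! ### The leaves -/

/-- LEAF A0R: the coboundary of the partial integral of a relative cocycle. -/
theorem cubHR_cobd (z : CubR R)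
    (hv : ∀ (m : ℕ) (r : List (⦋m⦌ ⟶ ⦋1⦌)), (∃ s ∈ r, ¬ Function.Surjective s.toOrderHom) → z m r = 0)
    (hc : IsCubCobdR z 0) (m : ℕ) (r : List (⦋m + 1⦌ ⟶ ⦋1⦌)) (b : ℕ) (hb : b ≤ m + 2) :
    ∑ i : Fin (m + 2), (-1 : R) ^ (i : ℕ) * cubHR z m (pbl (SimplexCategory.δ i) r) (if i.val < b then b - 1 else b)
      = (-1 : R) ^ (m + 1) * z (m + 1) (prismTheta b :: r) := by
  -- the summand of the claim (without the factor `(-1)^m`), as a function of the pair `(i, j)`
  set G : Fin (m + 2) × Fin (m + 1) → R :=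
    fun p => (-1) ^ (p.1.val + p.2.val) *
      z (m + 1) (tau p.2 :: pbl (SimplexCategory.σ p.2) (pbl (SimplexCategory.δ p.1) r)) with hG
  set H : ℕ → R := fun c => z (m + 1) (prismTheta c :: r) with hH
  have sign : ∀ (j' : Fin (m + 2)) (l : Fin (m + 1)),
      ((j'.castSucc.succAbove (j'.succAbove l)).val + j'.val) =
        ((j'.succAbove l).val + (l.predAbove j').val) + 1 := by
    intro j' l
    simp only [prism_val_succAbove, prism_val_predAbove, Fin.val_castSucc]
    split_ifs <;> omega
  have tele : ∀ N : ℕ, ∑ k ∈ Finset.range N, (H k - H (k + 1)) = H 0 - H N := by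
    intro N
    induction N with
    | zero => simp
    | succ N ih =>
      rw [Finset.sum_range_succ, ih]
      ring
  -- one row of the cocycle condition
  have row : ∀ j' : Fin (m + 2),
      (H j'.val - H (j'.val + 1)) - ∑ l : Fin (m + 1), G (j'.succAbove l, l.predAbove j') = 0 := by
    intro j'
    have h : ∑ i : Fin (m + 3), (-1 : R) ^ (i : ℕ) * z (m + 1) ((SimplexCategory.δ i ≫ tau j') ::
        pbl (SimplexCategory.δ i ≫ SimplexCategory.σ j') r) = 0 := by
      have h := hc (m + 1) (tau j' :: pbl (SimplexCategory.σ j') r)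
      rw [show (0 : CubR R) (m + 1 + 1) (tau j' :: pbl (SimplexCategory.σ j') r) = 0 from rfl] at h
      rw [← h]
      refine Finset.sum_congr rfl fun i _ => ?_
      rw [← pbl_pbl]
      rfl
    rw [Fin.sum_univ_succAbove _ j'.castSucc, Fin.sum_univ_succAbove _ j',
      Fin.succAbove_castSucc_self] at h
    rw [SimplexCategory.δ_comp_σ_self, prism_δ_castSucc_tau, SimplexCategory.δ_comp_σ_succ,
      prism_δ_succ_tau, pbl_id] at h
    have h' := congrArg (fun x => (-1 : R) ^ j'.val * x) h
    simp only [mul_zero, mul_add, Finset.mul_sum] at h'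
    rw [← h']
    have s1 : ((-1 : R) ^ j'.val * ((-1) ^ j'.castSucc.val * z (m + 1) (prismTheta j'.val :: r))) = H j'.val := by
      rw [Fin.val_castSucc, ← mul_assoc, ← pow_add, Even.neg_one_pow ⟨j'.val, rfl⟩, one_mul]
    have s2 : ((-1 : R) ^ j'.val * ((-1) ^ j'.succ.val * z (m + 1) (prismTheta (j'.val + 1) :: r)))
        = - H (j'.val + 1) := by
      rw [Fin.val_succ, ← mul_assoc, ← pow_add, ← add_assoc, pow_succ, Even.neg_one_pow ⟨j'.val, rfl⟩]
      simp [hH]
    rw [s1, s2]
    have s3 : ∑ l : Fin (m + 1), (-1 : R) ^ j'.val * ((-1) ^ (j'.castSucc.succAbove (j'.succAbove l)).val *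
          z (m + 1) ((SimplexCategory.δ (j'.castSucc.succAbove (j'.succAbove l)) ≫ tau j') ::
            pbl (SimplexCategory.δ (j'.castSucc.succAbove (j'.succAbove l)) ≫ SimplexCategory.σ j') r))
        = - ∑ l : Fin (m + 1), G (j'.succAbove l, l.predAbove j') := by
      rw [← Finset.sum_neg_distrib]
      refine Finset.sum_congr rfl fun l _ => ?_
      rw [prism_δ_σ, prism_δ_tau, ← pbl_pbl, ← mul_assoc, ← pow_add, add_comm j'.val, sign, pow_succ]
      simp [hG]
    rw [s3]
    ring
  -- the sum over the rows `j' < b`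
  have total : ∑ j' : Fin (m + 2), ((if j'.val < b then H j'.val - H (j'.val + 1) else 0) -
      ∑ l : Fin (m + 1), if j'.val < b then G (j'.succAbove l, l.predAbove j') else 0) = 0 := by
    refine Finset.sum_eq_zero fun j' _ => ?_
    by_cases hj : j'.val < b
    · simp only [if_pos hj]
      exact row j'
    · simp only [if_neg hj, Finset.sum_const_zero, sub_zero]
  have tel : ∑ j' : Fin (m + 2), (if j'.val < b then H j'.val - H (j'.val + 1) else 0) = - H b := by
    rw [Fin.sum_univ_eq_sum_range (fun k => if k < b then H k - H (k + 1) else 0) (m + 2),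
      ← Finset.sum_filter]
    have hf : (Finset.range (m + 2)).filter (fun k => k < b) = Finset.range b := by
      ext k
      simp only [Finset.mem_filter, Finset.mem_range]
      omega
    rw [hf, tele]
    have h0 : H 0 = 0 := hv _ _ ⟨_, List.mem_cons_self, prismTheta_zero_not_surjective⟩
    rw [h0, zero_sub]
  rw [Finset.sum_sub_distrib, tel] at total
  -- re-indexing
  set G' : Fin (m + 2) × Fin (m + 1) → R :=
    fun p => if p.2.val < (if p.1.val < b then b - 1 else b) then G p else 0 with hG'
  have e1 : ∑ j' : Fin (m + 2), ∑ l : Fin (m + 1),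
      (if j'.val < b then G (j'.succAbove l, l.predAbove j') else 0) =
      ∑ p : Fin (m + 2) × Fin (m + 1), G' (p.1.succAbove p.2, p.2.predAbove p.1) := by
    rw [Fintype.sum_prod_type]
    refine Finset.sum_congr rfl fun j' _ => Finset.sum_congr rfl fun l _ => ?_
    have hiff : ((l.predAbove j').val < (if (j'.succAbove l).val < b then b - 1 else b)) ↔ j'.val < b := by
      simp only [prism_val_succAbove, prism_val_predAbove]
      split_ifs <;> omega
    simp only [hG', hiff]
  have e2 : ∑ i : Fin (m + 2), (-1 : R) ^ (i : ℕ) *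
      cubHR z m (pbl (SimplexCategory.δ i) r) (if i.val < b then b - 1 else b) =
      (-1 : R) ^ m * ∑ p : Fin (m + 2) × Fin (m + 1), G' p := by
    rw [Fintype.sum_prod_type, Finset.mul_sum]
    refine Finset.sum_congr rfl fun i _ => ?_
    rw [cubHR, Finset.mul_sum, Finset.mul_sum]
    refine Finset.sum_congr rfl fun a _ => ?_
    simp only [hG', hG]
    by_cases hcond : a.val < (if i.val < b then b - 1 else b)
    · rw [if_pos hcond, if_pos hcond, pow_add, pow_add]
      ring
    · rw [if_neg hcond, if_neg hcond, mul_zero, mul_zero]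
  have e3 : ∑ p : Fin (m + 2) × Fin (m + 1), G' (p.1.succAbove p.2, p.2.predAbove p.1) =
      ∑ p : Fin (m + 2) × Fin (m + 1), G' p := Equiv.sum_comp (prism_involutive m).toPerm G'
  rw [e2, ← e3, ← e1]
  have h3 : ∑ j' : Fin (m + 2), ∑ l : Fin (m + 1),
      (if j'.val < b then G (j'.succAbove l, l.predAbove j') else 0) = - H b := by
    linear_combination - total
  rw [h3, pow_succ]
  ring

/-- LEAF BR: the cross product with the fundamental cocycle of `Δ[1]` is a chain map. -/
theorem cub_iota_cobdR {m : ℕ} (F : List (⦋m⦌ ⟶ ⦋1⦌) → R) (b : ℕ) (r : List (⦋m + 2⦌ ⟶ ⦋1⦌)) :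
    ∑ i : Fin (m + 3), (-1 : R) ^ (i : ℕ) * (if (if i.val < b then b - 1 else b) = m + 1 then
        F (pbl (SimplexCategory.δ (Fin.last (m + 1))) (pbl (SimplexCategory.δ i) r)) else 0)
      = if b = m + 2 then ∑ i : Fin (m + 2), (-1 : R) ^ (i : ℕ) *
          F (pbl (SimplexCategory.δ i) (pbl (SimplexCategory.δ (Fin.last (m + 2))) r)) else 0 := by
  simp only [pbl_pbl]
  by_cases h2 : b = m + 2
  · subst h2
    rw [if_pos rfl, Fin.sum_univ_castSucc]
    have hl : (if (if (Fin.last (m + 2)).val < m + 2 then m + 2 - 1 else m + 2) = m + 1 then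
        F (pbl (SimplexCategory.δ (Fin.last (m + 1)) ≫ SimplexCategory.δ (Fin.last (m + 2))) r) else 0) = 0 := by
      rw [if_neg]
      rw [if_neg (by simp)]
      omega
    rw [hl, mul_zero, add_zero]
    refine Finset.sum_congr rfl fun i _ => ?_
    have h1 : (i.castSucc : Fin (m + 3)).val < m + 2 := by
      simp only [Fin.val_castSucc]
      exact i.isLt
    rw [if_pos h1, if_pos (by omega)]
    have h3 := SimplexCategory.δ_comp_δ (i := i) (j := Fin.last (m + 1)) (Fin.le_last i)
    rw [Fin.succ_last] at h3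
    rw [h3, Fin.val_castSucc]
  · rw [if_neg h2]
    by_cases h1 : b = m + 1
    · subst h1
      rw [Fin.sum_univ_castSucc, Fin.sum_univ_castSucc]
      have hs : ∀ i : Fin (m + 1), (if (if (i.castSucc.castSucc : Fin (m + 3)).val < m + 1 then m + 1 - 1 else m + 1) = m + 1 then
          F (pbl (SimplexCategory.δ (Fin.last (m + 1)) ≫ SimplexCategory.δ i.castSucc.castSucc) r) else 0) = 0 := by
        intro i
        rw [if_neg]
        have h1 : (i.castSucc.castSucc : Fin (m + 3)).val < m + 1 := by
          simp only [Fin.val_castSucc]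
          exact i.isLt
        rw [if_pos h1]
        omega
      rw [Finset.sum_eq_zero fun i _ => by rw [hs i, mul_zero], zero_add]
      have ha : ¬ ((Fin.last (m + 1)).castSucc : Fin (m + 3)).val < m + 1 := by simp
      have hb : ¬ (Fin.last (m + 2)).val < m + 1 := by simp
      rw [if_neg ha, if_neg hb, if_pos rfl, if_pos rfl, SimplexCategory.δ_comp_δ_self, Fin.succ_last,
        Fin.val_castSucc, Fin.val_last, Fin.val_last]
      ring
    · refine Finset.sum_eq_zero fun i _ => ?_
      rw [if_neg, mul_zero]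
      have := i.isLt
      split_ifs <;> omega

/-- the partial integral vanishes on the boundary -/
theorem cubHR_vanish (z : CubR R) (hz : IsCubCochainR z) (m : ℕ) (r : List (⦋m⦌ ⟶ ⦋1⦌))
    (h : ∃ s ∈ r, ¬ Function.Surjective s.toOrderHom) (b : ℕ) : cubHR z m r b = 0 := by
  refine Finset.sum_eq_zero fun a _ => ?_
  split_ifs
  · obtain ⟨s, hs, hns⟩ := exists_not_surjective_pbl (SimplexCategory.σ a) h
    rw [hz.vanish _ _ ⟨s, List.mem_cons_of_mem _ hs, hns⟩, mul_zero]
  · rfl

/-- the partial integral vanishes on the degenerate simplices -/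
theorem cubHR_normal (z : CubR R) (hz : IsCubCochainR z) (m : ℕ) (j : Fin (m + 1)) (r : List (⦋m⦌ ⟶ ⦋1⦌)) (b : ℕ) :
    cubHR z (m + 1) (pbl (SimplexCategory.σ j) r) b = 0 := by
  refine Finset.sum_eq_zero fun a _ => ?_
  split_ifs
  · obtain ⟨i, χ, t, h1, h2⟩ := exists_σ_factor j a
    have e : (tau a :: pbl (SimplexCategory.σ a) (pbl (SimplexCategory.σ j) r)) = pbl (SimplexCategory.σ i) (t :: pbl χ r) := by
      rw [pbl_pbl, h1, h2, ← pbl_pbl]
      rfl
    rw [e, hz.normal (m + 1) i _, mul_zero]
  · rfl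

/-- LEAF C1R -/
theorem cubYR_vanish (z : CubR R) (hz : IsCubCochainR z) (m : ℕ) (r : List (⦋m⦌ ⟶ ⦋1⦌))
    (h : ∃ s ∈ r, ¬ Function.Surjective s.toOrderHom) : cubYR z m r = 0 := by
  induction m with
  | zero => rfl
  | succ m ih =>
    cases r with
    | nil => rfl
    | cons s r =>
      rw [cubYR_cons]
      obtain ⟨t, ht, hns⟩ := h
      rcases List.mem_cons.1 ht with rfl | ht
      · rw [surjective_iff_nz] at hns
        have h1 := nz_le t
        by_cases h0 : nz t = 0
        · rw [h0, if_pos (Nat.zero_le _), if_neg (by omega), add_zero]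
          have e : cubHR z (m + 1) r 0 = 0 := Finset.sum_eq_zero fun a _ => if_neg (Nat.not_lt_zero _)
          rw [e, mul_zero]
        · rw [if_neg (by omega), if_neg (by omega), add_zero]
      · rw [cubHR_vanish z hz (m + 1) r ⟨t, ht, hns⟩, ih _ (exists_not_surjective_pbl _ ⟨t, ht, hns⟩)]
        simp

/-- LEAF C2R -/
theorem cubYR_normal (z : CubR R) (hz : IsCubCochainR z) (m : ℕ) (j : Fin (m + 1)) (r : List (⦋m⦌ ⟶ ⦋1⦌)) :
    cubYR z (m + 1) (pbl (SimplexCategory.σ j) r) = 0 := by
  induction m with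
  | zero =>
    cases r with
    | nil => rfl
    | cons s r =>
      show cubYR z (0 + 1) ((SimplexCategory.σ j ≫ s) :: pbl (SimplexCategory.σ j) r) = 0
      rw [cubYR_cons, cubHR_normal z hz, cubYR_zero]
      simp
  | succ m ih =>
    cases r with
    | nil => rfl
    | cons s r =>
      show cubYR z (m + 1 + 1) ((SimplexCategory.σ j ≫ s) :: pbl (SimplexCategory.σ j) r) = 0
      rw [cubYR_cons, cubHR_normal z hz]
      by_cases h : nz (SimplexCategory.σ j ≫ s) = m + 1 + 1
      · have hj : j.val < m + 1 := by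
          rw [nz_σ] at h
          have h1 := nz_le s
          have h2 := j.isLt
          split_ifs at h <;> omega
        rw [pbl_pbl, δ_last_σ j hj, ← pbl_pbl, ih]
        simp
      · rw [if_neg h]
        simp

/-- LEAF C3R -/
theorem cubYR_prism (z : CubR R) (hz : IsCubCochainR z) (m : ℕ) (r : List (⦋m⦌ ⟶ ⦋1⦌)) :
    cubYR z m r = ∑ j : Fin (m + 1), (-1 : R) ^ (m + (j : ℕ)) * cubYR z (m + 1) (tau j :: pbl (SimplexCategory.σ j) r) := by
  rw [Finset.sum_eq_single (Fin.last m)]
  · rw [cubYR_cons, cubHR_normal z hz, nz_tau, Fin.val_last, if_pos rfl, pbl_pbl]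
    have e : SimplexCategory.δ (Fin.last (m + 1)) ≫ SimplexCategory.σ (Fin.last m) = 𝟙 _ := by
      rw [← Fin.succ_last]
      exact SimplexCategory.δ_comp_σ_succ
    have e2 : (-1 : R) ^ (m + m) = 1 := Even.neg_one_pow ⟨m, rfl⟩
    rw [e, pbl_id, e2]
    simp
  · intro j _ hj
    have hne : ¬ (j.val + 1 = m + 1) := fun h => hj (Fin.ext (by rw [Fin.val_last]; omega))
    rw [cubYR_cons, cubHR_normal z hz, nz_tau, if_neg hne]
    simp
  · intro h
    exact absurd (Finset.mem_univ _) h

theorem cubHR_full (z : CubR R) (hz : IsCubCochainR z) (m : ℕ) (r : List (⦋m⦌ ⟶ ⦋1⦌)) (b : ℕ) (hb : m + 1 ≤ b) :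
    cubHR z m r b = z m r := by
  rw [hz.prism m r]
  refine Finset.sum_congr rfl fun a _ => ?_
  rw [if_pos (by have := a.isLt; omega)]

theorem cubHR_zero (z : CubR R) (m : ℕ) (r : List (⦋m⦌ ⟶ ⦋1⦌)) : cubHR z m r 0 = 0 := by
  simp [cubHR]

theorem cubR_zero_eq_zero (z : CubR R) (hz : IsCubCochainR z) (h0 : z 0 [] = 0) (r : List (⦋0⦌ ⟶ ⦋1⦌)) : z 0 r = 0 := by
  cases r with
  | nil => exact h0
  | cons s r =>
    refine hz.vanish 0 _ ⟨s, List.mem_cons_self, fun h => ?_⟩
    have := Fintype.card_le_of_surjective _ h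
    simp at this

/-- LEAF DR (uses A0R, BR) -/
theorem cubYR_cobd (z : CubR R) (hz : IsCubCochainR z) (hc : IsCubCobdR z 0) (h0 : z 0 [] = 0) :
    IsCubCobdR (cubYR z) z := by
  intro m
  induction m with
  | zero =>
    intro r
    cases r with
    | nil =>
      simp only [List.map_nil, cubYR_nil, mul_zero, Finset.sum_const_zero]
      exact (hz.normal 0 0 []).symm
    | cons s r =>
      simp only [cubYR_zero, mul_zero, Finset.sum_const_zero]
      have hA := cubHR_cobd z hz.vanish hc 0 r (nz s) (nz_le s)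
      rw [theta_nz] at hA
      have h1 : ∑ i : Fin (0 + 2), (-1 : R) ^ (i : ℕ) *
          cubHR z 0 (pbl (SimplexCategory.δ i) r) (if i.val < nz s then nz s - 1 else nz s) = 0 := by
        refine Finset.sum_eq_zero fun i _ => ?_
        generalize (if i.val < nz s then nz s - 1 else nz s) = b
        by_cases hb : 1 ≤ b
        · rw [cubHR_full z hz 0 _ b hb, cubR_zero_eq_zero z hz h0, mul_zero]
        · obtain rfl : b = 0 := by omega
          rw [cubHR_zero z 0 _, mul_zero]
      rw [h1] at hA
      have h2 : z (0 + 1) (s :: r) = (-1 : R) ^ (0 + 1) * ((-1 : R) ^ (0 + 1) * z (0 + 1) (s :: r)) := by ring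
      rw [h2, ← hA, mul_zero]
  | succ m ih =>
    intro r
    cases r with
    | nil =>
      simp only [List.map_nil, cubYR_nil, mul_zero, Finset.sum_const_zero]
      exact (hz.normal (m + 1) 0 []).symm
    | cons s r =>
      have hb := nz_le s
      have hA := cubHR_cobd z hz.vanish hc (m + 1) r (nz s) hb
      rw [theta_nz] at hA
      have hA' : z (m + 1 + 1) (s :: r) = (-1 : R) ^ m * ∑ i : Fin (m + 1 + 2), (-1 : R) ^ (i : ℕ) *
          cubHR z (m + 1) (pbl (SimplexCategory.δ i) r) (if i.val < nz s then nz s - 1 else nz s) := by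
        rw [hA, ← mul_assoc, ← pow_add, (by ring : m + (m + 1 + 1) = 2 * (m + 1)), pow_mul, neg_one_sq, one_pow, one_mul]
      have hB := cub_iota_cobdR (cubYR z m) (nz s) r
      have hL : ∀ i : Fin (m + 3), (-1 : R) ^ (i : ℕ) * cubYR z (m + 1) (pbl (SimplexCategory.δ i) (s :: r))
          = (-1 : R) ^ (i : ℕ) * (if (if i.val < nz s then nz s - 1 else nz s) ≤ m + 1 then
              (-1 : R) ^ m * cubHR z (m + 1) (pbl (SimplexCategory.δ i) r) (if i.val < nz s then nz s - 1 else nz s) else 0)
            + (-1 : R) ^ (i : ℕ) * (if (if i.val < nz s then nz s - 1 else nz s) = m + 1 then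
              cubYR z m (pbl (SimplexCategory.δ (Fin.last (m + 1))) (pbl (SimplexCategory.δ i) r)) else 0) := by
        intro i
        rw [← mul_add]
        congr 1
        show cubYR z (m + 1) ((SimplexCategory.δ i ≫ s) :: pbl (SimplexCategory.δ i) r) = _
        rw [cubYR_cons, nz_δ]
      rw [Finset.sum_congr rfl fun i _ => hL i, Finset.sum_add_distrib, hB]
      rcases (by omega : nz s ≤ m + 1 ∨ nz s = m + 2 ∨ nz s = m + 3) with h | h | h
      · rw [if_neg (by omega), add_zero, hA', Finset.mul_sum]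
        refine Finset.sum_congr rfl fun i _ => ?_
        rw [if_pos (by split_ifs <;> omega)]
        ring
      · rw [if_pos h, ih, hA', Finset.mul_sum]
        have key : ∀ i : Fin (m + 3), (-1 : R) ^ (i : ℕ) * (if (if i.val < nz s then nz s - 1 else nz s) ≤ m + 1 then
              (-1 : R) ^ m * cubHR z (m + 1) (pbl (SimplexCategory.δ i) r) (if i.val < nz s then nz s - 1 else nz s) else 0)
            = (-1 : R) ^ m * ((-1 : R) ^ (i : ℕ) * cubHR z (m + 1) (pbl (SimplexCategory.δ i) r) (if i.val < nz s then nz s - 1 else nz s))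
              + (if i = Fin.last (m + 2) then - z (m + 1) (pbl (SimplexCategory.δ (Fin.last (m + 2))) r) else 0) := by
          intro i
          by_cases hi : i = Fin.last (m + 2)
          · subst hi
            have h1 : ¬ (Fin.last (m + 2)).val < nz s := by
              rw [h]
              simp
            rw [if_pos rfl, if_neg h1, if_neg (by omega), cubHR_full z hz _ _ _ (by omega), Fin.val_last, mul_zero,
              ← mul_assoc, ← pow_add, (by ring : m + (m + 2) = 2 * (m + 1)), pow_mul, neg_one_sq, one_pow, one_mul,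
              add_neg_cancel]
          · have h1 : i.val < nz s := by
              have h2 := i.isLt
              have h3 : i.val ≠ m + 2 := fun h' => hi (Fin.ext h')
              omega
            rw [if_neg hi, add_zero, if_pos h1, if_pos (by omega)]
            ring
        rw [Finset.sum_congr rfl fun i _ => key i, Finset.sum_add_distrib, Finset.sum_ite_eq' Finset.univ,
          if_pos (Finset.mem_univ _), add_assoc, neg_add_cancel, add_zero]
      · rw [if_neg (by omega), add_zero]
        have h1 : ∀ i : Fin (m + 3), (if i.val < nz s then nz s - 1 else nz s) = m + 2 := by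
          intro i
          have h2 := i.isLt
          rw [if_pos (by omega)]
          omega
        simp only [h1]
        rw [Finset.sum_eq_zero fun i _ => by rw [if_neg (by omega), mul_zero]]
        refine (hz.vanish _ _ ⟨s, List.mem_cons_self, fun hs => ?_⟩).symm
        have := ((surjective_iff_nz s).1 hs).2
        omega

theorem cubYR_isCubCochainR (z : CubR R) (hz : IsCubCochainR z) : IsCubCochainR (cubYR z) :=
  ⟨cubYR_vanish z hz, cubYR_normal z hz, cubYR_prism z hz⟩

end Claimed.Open.R319
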