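import Claimed.Open.R319.SanityNontrivial

/-!
# Sanity (result 319): the handicrafted smash product is the right one on suspension spectra: `Σ^∞ K ∧ Σ^∞ L ≅ Σ^∞ (K ∧ L)`

* `Sp.isIso_of_bijective` : a map of spectra that is bijective in every level and every simplicial degree is an isomorphism of spectra;
* `Sp.bijective_suspLift` : if `g : K ⟶ E_0` and all the structure maps of `E` are bijective, `Σ^∞ K ⟶ E` is bijective in every level;
* **`SH.smashSuspIso : Σ^∞ K ∧ Σ^∞ L ≅ Σ^∞ (K ∧ L)`** in `SH`;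
* **`SH.smashSphereIso : S ∧ S ≅ S`**, `SH.sphereSmashSuspIso : S ∧ Σ^∞ K ≅ Σ^∞ K`, `SH.suspSmashSphereIso : Σ^∞ K ∧ S ≅ Σ^∞ K`;
* **`SH.smashSphereNatIso : S^a ∧ S^b ≅ S^{a+b}`** (`a, b ≥ 0`);
* **`SH.not_isAcyclic_sphere_sphere`, `SH.not_isAcyclic_sphere_nat`** : the spheres are not acyclic for the spheres (non-examples of `IsAcyclic`).
-/

open CategoryTheory Opposite

namespace Claimed.Open.R319

open PSSet

/-- A map of pointed simplicial sets that is bijective in every simplicial degree. -/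
def PSSet.IsBij {X Y : PSSet} (f : X ⟶ Y) : Prop := ∀ m, Function.Bijective (f.app m).toFun

namespace PSSet.IsBij

theorem id (X : PSSet) : IsBij (𝟙 X) := fun _ => Function.bijective_id

theorem comp {X Y Z : PSSet} {f : X ⟶ Y} {g : Y ⟶ Z} (hf : IsBij f) (hg : IsBij g) : IsBij (f ≫ g) :=
  fun m => (hg m).comp (hf m)

theorem smashMap {X X' Y Y' : PSSet} {f : X ⟶ X'} {g : Y ⟶ Y'} (hf : IsBij f) (hg : IsBij g) : IsBij (smashMap f g) :=
  fun m => ⟨Smash.map_injective (f := f.app m) (g := g.app m) (hf m).1 (hg m).1, fun y => by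
    induction y using Smash.ind with | h a b => ?_
    obtain ⟨a', rfl⟩ := (hf m).2 a
    obtain ⟨b', rfl⟩ := (hg m).2 b
    exact ⟨Smash.mk a' b', rfl⟩⟩

theorem assoc (X Y Z : PSSet) : IsBij (PSSet.assoc X Y Z) :=
  fun m => ⟨Smash.assoc_injective _ _ _, fun y => by
    induction y using Smash.ind with | h a bc => ?_
    induction bc using Smash.ind with | h b c => ?_
    exact ⟨Smash.mk (Smash.mk a b) c, rfl⟩⟩

theorem swapRight (X Y Z : PSSet) : IsBij (PSSet.swapRight X Y Z) :=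
  fun m => ⟨Smash.swapRight_injective _ _ _, fun y => by
    induction y using Smash.ind with | h ac b => ?_
    induction ac using Smash.ind with | h a c => ?_
    exact ⟨Smash.mk (Smash.mk a b) c, rfl⟩⟩

theorem _root_.Claimed.Open.R319.S0_mk_ne_point (m : SimplexCategoryᵒᵖ) (s : (SSet.stdSimplex.{0}.obj (SimplexCategory.mk 0)).obj m) :
    (quot.mk ⊥ s : S0.obj m) ≠ (S0.obj m).point := fun h =>
  Bool.noConfusion (congrArg (plusLift (P := ⟨Bool, false⟩) fun _ => true) h)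

theorem _root_.Claimed.Open.R319.S0_simplex_eq (m : SimplexCategoryᵒᵖ) (s t : (SSet.stdSimplex.{0}.obj (SimplexCategory.mk 0)).obj m) : s = t := by
  apply SSet.stdSimplex.objEquiv.injective
  apply SimplexCategory.Hom.ext
  apply OrderHom.ext
  funext v
  exact Subsingleton.elim (α := Fin 1) _ _

theorem rho (X : PSSet) : IsBij (PSSet.rho X) := fun m =>
  ⟨fun x x' h => by
    rcases (Smash.mk_eq_mk_iff _ _ _ _).1 h with ⟨h1, -⟩ | ⟨h1, h2⟩
    · exact h1
    · rcases h1 with h1 | h1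
      · rcases h2 with h2 | h2
        · exact h1.trans h2.symm
        · exact absurd h2 (S0_mk_ne_point m _)
      · exact absurd h1 (S0_mk_ne_point m _),
  fun y => by
    induction y using Smash.ind with | h x b => ?_
    induction b using plus_ind with
    | h0 => exact ⟨(X.obj m).point, ((PSSet.rho X).app m).map_point.trans (Smash.mk_right x).symm⟩
    | h s => exact ⟨x, congrArg (fun t => Smash.mk x (quot.mk ⊥ t : S0.obj m)) (S0_simplex_eq m _ s)⟩⟩

theorem lam (X : PSSet) : IsBij (PSSet.lam X) := fun m =>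
  ⟨fun x x' h => by
    rcases (Smash.mk_eq_mk_iff _ _ _ _).1 h with ⟨-, h1⟩ | ⟨h1, h2⟩
    · exact h1
    · rcases h1 with h1 | h1
      · exact absurd h1 (S0_mk_ne_point m _)
      · rcases h2 with h2 | h2
        · exact absurd h2 (S0_mk_ne_point m _)
        · exact h1.trans h2.symm,
  fun y => by
    induction y using Smash.ind with | h b x => ?_
    induction b using plus_ind with
    | h0 => exact ⟨(X.obj m).point, ((PSSet.lam X).app m).map_point.trans (Smash.mk_left x).symm⟩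
    | h s => exact ⟨x, congrArg (fun t => Smash.mk (quot.mk ⊥ t : S0.obj m) x) (S0_simplex_eq m _ s)⟩⟩

/-- A bijective map of pointed simplicial sets is an isomorphism. -/
theorem isIso {X Y : PSSet} {f : X ⟶ Y} (hf : IsBij f) : IsIso f := by
  have : ∀ m, IsIso (f.app m) := fun m => by
    let e := Equiv.ofBijective _ (hf m)
    refine ⟨⟨⟨e.symm, ?_⟩, ?_, ?_⟩⟩
    · exact e.symm_apply_eq.2 (f.app m).map_point.symm
    · apply Pointed.Hom.ext
      funext x
      exact e.symm_apply_apply x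
    · apply Pointed.Hom.ext
      funext x
      exact e.apply_symm_apply x
  exact NatIso.isIso_of_isIso_app f

end PSSet.IsBij

namespace Sp

/-- **A map of spectra that is bijective in every level and every simplicial degree is an isomorphism of spectra.** -/
theorem isIso_of_bijective {X Y : Sp} (f : X ⟶ Y) (h : ∀ n, IsBij (f.map n)) : IsIso f := by
  have hi : ∀ n, IsIso (f.map n) := fun n => (h n).isIso
  have hs' : ∀ n, smashMap (inv (f.map n)) (𝟙 S1) ≫ smashMap (f.map n) (𝟙 S1) = 𝟙 _ := fun n => by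
    rw [← smashMap_comp, IsIso.inv_hom_id, Category.comp_id, smashMap_id]
  let g : Y ⟶ X := ⟨fun n => inv (f.map n), fun n => by
    have e := f.comm n
    rw [IsIso.comp_inv_eq, Category.assoc, e, ← Category.assoc, hs', Category.id_comp]⟩
  refine ⟨g, ?_, ?_⟩
  · apply Sp.Hom.ext
    funext n
    exact IsIso.hom_inv_id (f.map n)
  · apply Sp.Hom.ext
    funext n
    exact IsIso.inv_hom_id (f.map n)

theorem bijective_suspLift {K : PSSet} {E : Sp} (g : K ⟶ E.level 0) (hg : IsBij g) (hE : ∀ n, IsBij (E.σ n)) :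
    ∀ n, IsBij ((suspLift g).map n)
  | 0 => hg
  | n + 1 => ((bijective_suspLift g hg hE n).smashMap (IsBij.id S1)).comp (hE n)

theorem bijective_smashσ (X Y : Sp) (hX : ∀ n, IsBij (X.σ n)) (hY : ∀ n, IsBij (Y.σ n)) :
    ∀ m a b, IsBij (smashσ X Y m a b)
  | 0, _, b => (IsBij.assoc _ _ _).comp ((IsBij.id _).smashMap (hY b))
  | 1, a, _ => (IsBij.swapRight _ _ _).comp ((hX a).smashMap (IsBij.id _))
  | m + 2, a, b => bijective_smashσ X Y hX hY m (a + 1) (b + 1)

theorem bijective_suspSpec_σ (K : PSSet) (n : ℕ) : IsBij ((suspSpec K).σ n) := IsBij.id _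

/-- The map of spectra `Σ^∞ A ⟶ Σ^∞ K ∧ Σ^∞ L` that extends `g : A ⟶ K ∧ L`. -/
def toSmashSusp {A K L : PSSet} (g : A ⟶ PSSet.smash K L) : suspSpec A ⟶ Sp.smash (suspSpec K) (suspSpec L) :=
  suspLift (E := Sp.smash (suspSpec K) (suspSpec L)) g

theorem isIso_toSmashSusp {A K L : PSSet} (g : A ⟶ PSSet.smash K L) (hg : IsBij g) : IsIso (toSmashSusp g) :=
  isIso_of_bijective _ (bijective_suspLift (E := Sp.smash (suspSpec K) (suspSpec L)) g hg
    (fun n => bijective_smashσ _ _ (bijective_suspSpec_σ K) (bijective_suspSpec_σ L) n 0 0))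

end Sp

namespace SH

/-- `Σ^∞ A ≅ Σ^∞ K ∧ Σ^∞ L` in `SH` for a bijective map `A ⟶ K ∧ L`. -/
noncomputable def smashSuspIsoOf {A K L : PSSet} (g : A ⟶ PSSet.smash K L) (hg : IsBij g) :
    smash (Q.obj (Sp.suspSpec K)) (Q.obj (Sp.suspSpec L)) ≅ Q.obj (Sp.suspSpec A) :=
  have := Sp.isIso_toSmashSusp g hg
  (Q.mapIso (asIso (Sp.toSmashSusp g))).symm

/-- **`Σ^∞ K ∧ Σ^∞ L ≅ Σ^∞ (K ∧ L)` in `SH`.** -/
noncomputable def smashSuspIso (K L : PSSet) :
    smash (Q.obj (Sp.suspSpec K)) (Q.obj (Sp.suspSpec L)) ≅ Q.obj (Sp.suspSpec (PSSet.smash K L)) :=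
  smashSuspIsoOf (𝟙 _) (IsBij.id _)

/-- `S ∧ Σ^∞ K ≅ Σ^∞ K`. -/
noncomputable def sphereSmashSuspIso (K : PSSet) : smash (sphere 0) (Q.obj (Sp.suspSpec K)) ≅ Q.obj (Sp.suspSpec K) :=
  smashSuspIsoOf (K := S0) (PSSet.lam K) (IsBij.lam K)

/-- `Σ^∞ K ∧ S ≅ Σ^∞ K`. -/
noncomputable def suspSmashSphereIso (K : PSSet) : smash (Q.obj (Sp.suspSpec K)) (sphere 0) ≅ Q.obj (Sp.suspSpec K) :=
  smashSuspIsoOf (L := S0) (PSSet.rho K) (IsBij.rho K)

/-- **`S ∧ S ≅ S`.** -/
noncomputable def smashSphereIso : smash (sphere 0) (sphere 0) ≅ sphere 0 := sphereSmashSuspIso S0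

/-- The bijection `S^{a+b} ⟶ S^a ∧ S^b`. -/
def _root_.Claimed.Open.R319.PSSet.sphSmash (a : ℕ) : ∀ b : ℕ, Sph (a + b) ⟶ PSSet.smash (Sph a) (Sph b)
  | 0 => PSSet.rho (Sph a)
  | b + 1 => smashMap (PSSet.sphSmash a b) (𝟙 S1) ≫ PSSet.assoc (Sph a) (Sph b) S1

theorem _root_.Claimed.Open.R319.PSSet.isBij_sphSmash (a : ℕ) : ∀ b : ℕ, IsBij (PSSet.sphSmash a b)
  | 0 => IsBij.rho _
  | b + 1 => ((PSSet.isBij_sphSmash a b).smashMap (IsBij.id S1)).comp (IsBij.assoc _ _ _)

/-- **`S^a ∧ S^b ≅ S^{a+b}`** for `a, b ≥ 0`. -/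
noncomputable def smashSphereNatIso (a b : ℕ) : smash (sphere (Int.ofNat a)) (sphere (Int.ofNat b)) ≅ sphere (Int.ofNat (a + b)) :=
  smashSuspIsoOf (PSSet.sphSmash a b) (PSSet.isBij_sphSmash a b)

/-- `π_k (S^k)` has two different elements. -/
theorem not_subsingleton_π_sphere (k : ℤ) : ¬ Subsingleton (π k (sphere k)) := fun h => by
  obtain ⟨z, ⟨Z, a, b, hZ, hz⟩, -⟩ := existsUnique_isZeroMor (sphere k) (sphere k)
  have e : 𝟙 (sphere k) = z := Subsingleton.elim (α := π k (sphere k)) _ _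
  exact not_isZero_sphere k (hZ.of_iso ⟨a, b, (e.trans hz).symm, hZ.eq_of_src _ _⟩)

/-- **No sphere `S^b` is acyclic for a sphere `S^a`** (`a, b ≥ 0`): non-examples of `IsAcyclic`. -/
theorem not_isAcyclic_sphere_nat (a b : ℕ) : ¬ IsAcyclic (sphere (Int.ofNat a)) (sphere (Int.ofNat b)) := fun h => by
  have h0 := h (Int.ofNat (a + b))
  refine not_subsingleton_π_sphere (Int.ofNat (a + b)) ⟨fun x y => ?_⟩
  have e : x ≫ (smashSphereNatIso a b).inv = y ≫ (smashSphereNatIso a b).inv := Subsingleton.elim _ _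
  exact (cancel_mono _).1 e

/-- **The sphere spectrum is not acyclic for the sphere spectrum.** -/
theorem not_isAcyclic_sphere_sphere : ¬ IsAcyclic (sphere 0) (sphere 0) := fun h => by
  have h0 := h 0
  refine not_isZeroMor_id_sphere_zero ?_
  obtain ⟨z, hz, -⟩ := existsUnique_isZeroMor (sphere 0) (sphere 0)
  have e : 𝟙 (sphere 0) ≫ smashSphereIso.inv = z ≫ smashSphereIso.inv := Subsingleton.elim (α := π 0 (smash (sphere 0) (sphere 0))) _ _
  rw [(cancel_mono smashSphereIso.inv).1 e]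
  exact hz

end SH

end Claimed.Open.R319
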