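import Claimed.Open.R319.SanityWedge

/-!
# Sanity (result 319): composition distributes over `IsSum` in `SH`

A sequel of `SanityWedge.lean` (the wedge of spectra is the coproduct in `SH`; `SH.isSum_iff_exists_hom`).

* `SH.wd_eq_wedgeHom`, `SH.wd_pr₁`, `SH.wd_pr₂` : the "projections" `(𝟙, 0)`, `(0, 𝟙) : Y ∨ Y ⟶ Y` are natural for all morphisms of `SH`;
* **`SH.isSum_comp_right`** : `h = f + g` implies `t h = t f + t g`, **`SH.isSum_comp_left`** : `h = f + g` implies `h k = f k + g k`, for all morphisms `t`, `k` of `SH`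
  (the formal inverses of stable equivalences included);
* `SH.isSum_symm` : `h = f + g` implies `h = g + f`;
* **`SH.isSum_conj`, `SH.isNatMul_conj`, `SH.natMulInvertible_of_iso`, `SH.isPLocal_of_iso`, `SH.isPComplete_of_iso`** : `IsSum`, `IsNatMul n`, `NatMulInvertible n`, `IsPLocal p`,
  `IsPComplete p` are invariant under the isomorphisms of `SH`;
* `SH.isPComplete_one_iff` : `IsPComplete 1 X ↔ IsZero X` (every spectrum is "acyclic" for `p = 1`: the hypothesis `p ≠ 1` of `exists_isPComplete_not_isZero` is needed).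
-/

open CategoryTheory Opposite

namespace Claimed.Open.R319

namespace SH

theorem wl_id (A B : SH) : wl (𝟙 A) B = 𝟙 (wob A B) := (wedgeL B.sp).map_id A

theorem wr_id (T B : SH) : wr T (𝟙 B) = 𝟙 (wob T B) := (wedgeR T.sp).map_id B

theorem wd_eq_wedgeHom {Z T : SH} (d : Z ⟶ T) : wd d = wedgeHom d d := by
  have h := wedgeHom_comp (𝟙 Z) (𝟙 Z) d
  rwa [wedgeHom, wl_id, wr_id, Category.id_comp, Category.id_comp, Category.id_comp] at h

theorem wd_pr₁ {Z T : SH} (d : Z ⟶ T) : wd d ≫ pr₁ T = pr₁ Z ≫ d := by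
  rw [wd_eq_wedgeHom]
  refine wob_hom_ext ?_ ?_
  · rw [← Category.assoc, il_wedgeHom, Category.assoc, il_pr₁, Category.comp_id, ← Category.assoc, il_pr₁, Category.id_comp]
  · rw [← Category.assoc, ir_wedgeHom, Category.assoc, ir_pr₁, comp_zeroHom, ← Category.assoc, ir_pr₁, zeroHom_comp]

theorem wd_pr₂ {Z T : SH} (d : Z ⟶ T) : wd d ≫ pr₂ T = pr₂ Z ≫ d := by
  rw [wd_eq_wedgeHom]
  refine wob_hom_ext ?_ ?_
  · rw [← Category.assoc, il_wedgeHom, Category.assoc, il_pr₂, comp_zeroHom, ← Category.assoc, il_pr₂, zeroHom_comp]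
  · rw [← Category.assoc, ir_wedgeHom, Category.assoc, ir_pr₂, Category.comp_id, ← Category.assoc, ir_pr₂, Category.id_comp]

/-- **Composition on the right distributes over sums**: `h = f + g` implies `t h = t f + t g`, for every morphism `t` of `SH`. -/
theorem isSum_comp_right {X Y Y' : SH} {f g h : X ⟶ Y} (H : IsSum f g h) (t : Y ⟶ Y') : IsSum (f ≫ t) (g ≫ t) (h ≫ t) := by
  obtain ⟨u, rfl, rfl, rfl⟩ := (isSum_iff_exists_hom f g h).1 H
  have h1 := isSum_of_hom (u ≫ wd t)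
  rwa [Category.assoc, Category.assoc, Category.assoc, wd_pr₁, wd_pr₂, wd_fo, ← Category.assoc, ← Category.assoc,
    ← Category.assoc] at h1

/-- **Composition on the left distributes over sums**: `h = f + g` implies `h k = f k + g k`. -/
theorem isSum_comp_left {X' X Y : SH} {f g h : X ⟶ Y} (H : IsSum f g h) (k : X' ⟶ X) : IsSum (k ≫ f) (k ≫ g) (k ≫ h) := by
  obtain ⟨u, rfl, rfl, rfl⟩ := (isSum_iff_exists_hom f g h).1 H
  have h1 := isSum_of_hom (k ≫ u)
  rwa [Category.assoc, Category.assoc, Category.assoc] at h1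

/-- **The sum is commutative**: `h = f + g` implies `h = g + f`. -/
theorem isSum_symm {X Y : SH} {f g h : X ⟶ Y} : IsSum f g h → IsSum g f h := by
  rintro ⟨P, i₁, i₂, r₁, r₂, fold, u, hc, h1, h2, h3, h4, h5, h6, h7, h8, h9⟩
  refine ⟨P, i₂, i₁, r₂, r₁, fold, u, fun T b a => ?_, h4, h3, h2, h1, h6, h5, h8, h7, h9⟩
  obtain ⟨d, ⟨e1, e2⟩, hu⟩ := hc T a b
  exact ⟨d, ⟨e2, e1⟩, fun d' e => hu d' ⟨e.2, e.1⟩⟩

/-- `IsSum` is invariant under isomorphisms of the source and of the target. -/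
theorem isSum_conj {X X' Y Y' : SH} (a : X' ≅ X) (b : Y ≅ Y') (f g h : X ⟶ Y) :
    IsSum (a.hom ≫ f ≫ b.hom) (a.hom ≫ g ≫ b.hom) (a.hom ≫ h ≫ b.hom) ↔ IsSum f g h := by
  constructor
  · intro H
    have h1 := isSum_comp_left (isSum_comp_right H b.inv) a.inv
    simpa using h1
  · intro H
    exact isSum_comp_left (isSum_comp_right H b.hom) a.hom

/-- `n · 𝟙` is transported by isomorphisms. -/
theorem isNatMul_conj {X Y : SH} (e : X ≅ Y) : ∀ (n : ℕ) {f : X ⟶ X}, IsNatMul n f → IsNatMul n (e.inv ≫ f ≫ e.hom)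
  | 0, _, hf => (hf.comp_right e.hom).comp_left e.inv
  | n + 1, f, ⟨g, hg, hs⟩ => ⟨e.inv ≫ g ≫ e.hom, isNatMul_conj e n hg, by
      have h1 := (isSum_conj e.symm e g (𝟙 X) f).2 hs
      simpa using h1⟩

/-- "`n` is invertible on `X`" is invariant under isomorphisms of `SH`. -/
theorem natMulInvertible_of_iso {X Y : SH} (e : X ≅ Y) {n : ℕ} : NatMulInvertible n X → NatMulInvertible n Y := by
  rintro ⟨f, hf, hi⟩
  exact ⟨e.inv ≫ f ≫ e.hom, isNatMul_conj e n hf, inferInstance⟩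

/-- `IsPLocal p` is invariant under isomorphisms of `SH`. -/
theorem isPLocal_of_iso {X Y : SH} (e : X ≅ Y) {p : ℕ} (h : IsPLocal p X) : IsPLocal p Y := fun ℓ hℓ hne =>
  natMulInvertible_of_iso e (h ℓ hℓ hne)

/-- `IsPComplete p` is invariant under isomorphisms of `SH`. -/
theorem isPComplete_of_iso {X Y : SH} (e : X ≅ Y) {p : ℕ} (h : IsPComplete p X) : IsPComplete p Y := fun A hA f => by
  have h1 := (h A hA (f ≫ e.inv)).comp_right e.hom
  simpa using h1

/-- For `p = 1` the only `p`-complete spectra are the zero objects. -/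
theorem isPComplete_one_iff (X : SH) : IsPComplete 1 X ↔ Limits.IsZero X := by
  constructor
  · intro h
    obtain ⟨Z, a, b, hZ, e⟩ := h X (natMulInvertible_one X) (𝟙 X)
    exact hZ.of_iso ⟨a, b, e.symm, hZ.eq_of_src _ _⟩
  · intro h A _ f
    exact isZeroMor_of_isZero_tgt h f

end SH

end Claimed.Open.R319
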