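import Claimed.Open.R319.SanityIdeal
import Claimed.Open.R319.SanitySumComp
import Claimed.Open.R319.SanitySmash

/-!
# Sanity (result 319): the desuspension is additive, and `LeftIdeal` is a left ideal

* `Sp.isIso_dWedge` : the canonical map of spectra `D X ∨ D Y ⟶ D (X ∨ Y)` is an isomorphism;
* `SH.isCoprod_D_map` : `D` preserves the coproduct `A ∨ B` of `SH`;
* **`SH.isSum_D_map`, `SH.isSum_Dpow_map`** : `IsSum f g h → IsSum (Σ^{-k} f) (Σ^{-k} g) (Σ^{-k} h)`;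
  `SH.isNatMul_Dpow_map`, `SH.natMulInvertible_Dpow_obj` (`n · 𝟙` and "`n` is invertible" pass to desuspensions), `SH.isPLocal_Dpow_obj`;
* `SH.isSum_act` : `c · (a + b) = c · a + c · b`;
* **`SH.LeftIdeal.act_mem`** : `LeftIdeal Q₀ Q₁ Q₂` is closed under left multiplication by all operations: the inductive predicate used in `IsBP2` is a left ideal of `𝒜`.
-/

open CategoryTheory

namespace Claimed.Open.R319

namespace Sp

/-- The canonical map `D X ∨ D Y ⟶ D (X ∨ Y)`. -/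
noncomputable def dWedge (X Y : Sp) : wedge X.D Y.D ⟶ (wedge X Y).D :=
  desc (Dfun.map (inl X Y)) (Dfun.map (inr X Y))

theorem inl_dWedge (X Y : Sp) : inl X.D Y.D ≫ dWedge X Y = Dfun.map (inl X Y) := inl_desc _ _

theorem inr_dWedge (X Y : Sp) : inr X.D Y.D ≫ dWedge X Y = Dfun.map (inr X Y) := inr_desc _ _

theorem isIso_dWedge (X Y : Sp) : IsIso (dWedge X Y) := by
  refine isIso_of_bijective _ fun n => ?_
  cases n with
  | zero =>
    intro m
    refine ⟨fun x y _ => Subtype.ext (Prod.ext rfl rfl), fun y => ⟨Wedge.inl PUnit.unit, rfl⟩⟩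
  | succ n =>
    have : (dWedge X Y).map (n + 1) = 𝟙 _ :=
      PSSet.wedge_hom_ext ((PSSet.inl_desc _ _).trans (Category.comp_id _).symm)
        ((PSSet.inr_desc _ _).trans (Category.comp_id _).symm)
    rw [this]
    exact PSSet.IsBij.id _

end Sp

namespace SH

theorem dadd_isCoprod_comp_iso {A B P P' : SH} {i₁ : A ⟶ P} {i₂ : B ⟶ P} (h : IsCoprod i₁ i₂)
    (e : P ⟶ P') [IsIso e] : IsCoprod (i₁ ≫ e) (i₂ ≫ e) := fun T a b => by
  obtain ⟨d, ⟨h1, h2⟩, hu⟩ := h T a b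
  refine ⟨inv e ≫ d, ⟨by simp [h1], by simp [h2]⟩, fun d' hd' => ?_⟩
  have := hu (e ≫ d') ⟨by rw [← Category.assoc]; exact hd'.1, by rw [← Category.assoc]; exact hd'.2⟩
  rw [← this]
  simp

/-- `D` preserves the coproduct `A ∨ B`. -/
theorem isCoprod_D_map (A B : SH) : IsCoprod (D.map (il A B)) (D.map (ir A B)) := by
  have := Sp.isIso_dWedge A.sp B.sp
  have h := dadd_isCoprod_comp_iso (isCoprod_wedge A.sp.D B.sp.D) (Q.map (Sp.dWedge A.sp B.sp))
  have e1 : Q.map (Sp.inl A.sp.D B.sp.D) ≫ Q.map (Sp.dWedge A.sp B.sp) = D.map (il A B) :=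
    (Q.map_comp _ _).symm.trans (congrArg Q.map (Sp.inl_dWedge _ _))
  have e2 : Q.map (Sp.inr A.sp.D B.sp.D) ≫ Q.map (Sp.dWedge A.sp B.sp) = D.map (ir A B) :=
    (Q.map_comp _ _).symm.trans (congrArg Q.map (Sp.inr_dWedge _ _))
  rw [e1, e2] at h
  exact h

theorem dadd_isZeroMor_D_map {X Y : SH} {f : X ⟶ Y} (hf : IsZeroMor f) : IsZeroMor (D.map f) := by
  obtain ⟨W, a, b, hW, rfl⟩ := hf
  exact ⟨D.obj W, D.map a, D.map b, isZero_D_obj hW, Functor.map_comp _ _ _⟩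

/-- **The desuspension is additive.** -/
theorem isSum_D_map {X Y : SH} {f g h : X ⟶ Y} (H : IsSum f g h) :
    IsSum (D.map f) (D.map g) (D.map h) := by
  obtain ⟨u, rfl, rfl, rfl⟩ := (isSum_iff_exists_hom f g h).1 H
  refine ⟨D.obj (wob Y Y), D.map (il Y Y), D.map (ir Y Y), D.map (pr₁ Y), D.map (pr₂ Y),
    D.map (fo Y), D.map u, isCoprod_D_map Y Y, ?_, ?_, ?_, ?_, ?_, ?_, ?_, ?_, ?_⟩
  · rw [← D.map_comp, il_pr₁, D.map_id]
  · rw [← D.map_comp, ir_pr₁]; exact dadd_isZeroMor_D_map (isZeroMor_zeroHom Y Y)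
  · rw [← D.map_comp, il_pr₂]; exact dadd_isZeroMor_D_map (isZeroMor_zeroHom Y Y)
  · rw [← D.map_comp, ir_pr₂, D.map_id]
  · rw [← D.map_comp, il_fo, D.map_id]
  · rw [← D.map_comp, ir_fo, D.map_id]
  · exact (D.map_comp _ _).symm
  · exact (D.map_comp _ _).symm
  · exact (D.map_comp _ _).symm

theorem isSum_Dpow_map (k : ℕ) {X Y : SH} {f g h : X ⟶ Y} (H : IsSum f g h) :
    IsSum ((Dpow k).map f) ((Dpow k).map g) ((Dpow k).map h) := by
  induction k with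
  | zero => exact H
  | succ k ih => exact isSum_D_map ih

theorem isNatMul_Dpow_map (k : ℕ) {X : SH} : ∀ (n : ℕ) {f : X ⟶ X}, IsNatMul n f →
    IsNatMul n ((Dpow k).map f)
  | 0, _, hf => idl_isZeroMor_Dpow_map k hf
  | n + 1, _, ⟨g, hg, hs⟩ => ⟨(Dpow k).map g, isNatMul_Dpow_map k n hg, by
      have := isSum_Dpow_map k hs
      rwa [(Dpow k).map_id] at this⟩

theorem natMulInvertible_Dpow_obj (k : ℕ) {n : ℕ} {X : SH} (h : NatMulInvertible n X) :
    NatMulInvertible n ((Dpow k).obj X) := by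
  obtain ⟨f, hf, hi⟩ := h
  exact ⟨(Dpow k).map f, isNatMul_Dpow_map k n hf, inferInstance⟩

theorem isPLocal_Dpow_obj (k : ℕ) {p : ℕ} {X : SH} (h : IsPLocal p X) :
    IsPLocal p ((Dpow k).obj X) := fun ℓ hℓ hne => natMulInvertible_Dpow_obj k (h ℓ hℓ hne)

/-- `c · (a + b) = c · a + c · b`. -/
theorem isSum_act {X H : SH} {k l n : ℕ} (h : l + k = n) (c : (Dpow k).obj H ⟶ H)
    {a b s : (Dpow l).obj X ⟶ H} (hs : IsSum a b s) : IsSum (act h c a) (act h c b) (act h c s) :=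
  isSum_comp_left (isSum_comp_right (isSum_Dpow_map k hs) c) _

/-- **`LeftIdeal` is closed under left multiplication.** -/
theorem LeftIdeal.act_mem {H : SH} {d₀ d₁ d₂ : ℕ} (Q₀ : (Dpow d₀).obj H ⟶ H)
    (Q₁ : (Dpow d₁).obj H ⟶ H) (Q₂ : (Dpow d₂).obj H ⟶ H) {k' n : ℕ}
    (c' : (Dpow k').obj H ⟶ H) {a : (Dpow n).obj H ⟶ H} (ha : LeftIdeal Q₀ Q₁ Q₂ n a) :
    ∀ {n' : ℕ} (h' : n + k' = n'), LeftIdeal Q₀ Q₁ Q₂ n' (act h' c' a) := by
  induction ha with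
  | zero a ha => exact fun h' => LeftIdeal.act_zero Q₀ Q₁ Q₂ h' c' ha
  | gen₀ h c => exact fun h' => LeftIdeal.act_gen₀ Q₀ Q₁ Q₂ h h' c c'
  | gen₁ h c => exact fun h' => LeftIdeal.act_gen₁ Q₀ Q₁ Q₂ h h' c c'
  | gen₂ h c => exact fun h' => LeftIdeal.act_gen₂ Q₀ Q₁ Q₂ h h' c c'
  | add a b s _ _ hs iha ihb =>
    exact fun h' => LeftIdeal.add _ _ _ (iha h') (ihb h') (isSum_act h' c' hs)

end SH

end Claimed.Open.R319
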