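import Claimed.Open.R319.SanityCompleteR

/-!
# Sanity (result 319): in `π_0 (HA R 0) ≃ R` the relation `IsSum` of `Statement.lean` is the addition of `R`; `HA ℚ 0` is an `Hℚ` as soon as sums exist in `π_0`

* `piZeroHA R : π_0 (HA R 0) ≃ R` : the value at the point of the cocycle that is the image of the vertex of `S⁰` (explicit);
* `piZeroHA_of_isSum` : `IsSum f g h → e h = e f + e g` (unconditional: `AddSpec.cls_of_isSum`);
* `isSum_iff_piZeroHA` : `IsSum f g h ↔ e h = e f + e g`, if any two elements of `π_0` of any spectrum have a sum (`hsum`);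
* `isHQ_HA_of_sums` : then `SH.IsHQ (Q.obj (HA ℚ 0))`, i.e. `IsMoravaK p 0`.
-/

open CategoryTheory Opposite Simplicial

namespace Claimed.Open.R319

open PSSet

variable (R : Type) [CommRing R]

/-- `[S⁰, GEMR R d] ≃ R` for `d = 0`: the value at the point. -/
noncomputable def hoClassGEMREquiv (d : ℤ) (h : d = 0) : PSSet.HoClass S0 (GEMR R d) ≃ R :=
  Equiv.ofBijective
    (Quot.lift (fun f => inv0R (f ≫ gemιR R d)) fun _ _ hfg => inv0R_eq_of_homotopic (hfg.postcomp (gemιR R d)))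
    ⟨by
      rintro ⟨f⟩ ⟨g⟩ hfg
      exact Quot.sound (homotopic_S0_GEMR f g hfg),
    fun c => by
      obtain ⟨f, hf⟩ := exists_inv0R_GEMR d h c
      exact ⟨Quot.mk _ f, hf⟩⟩

/-- The invariant of a homotopy class of maps of spectra `Σ^∞ S⁰ ⟶ HA R 0`. -/
noncomputable def invHA : SH.HoClass (Sp.suspSpec S0) (HA R 0) ≃ R :=
  (SH.suspHoEquiv S0 (HA R 0)).trans
    (((loopGEMR R 0).hoEquivAspec 0 S0).trans (hoClassGEMREquiv R (0 + (0 : ℕ)) (by simp)))

theorem invHA_mk (g : Sp.suspSpec S0 ⟶ HA R 0) :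
    invHA R (Quot.mk _ g) = inv0R ((g.map 0 ≫ (loopGEMR R 0).apr 0) ≫ gemιR R (0 + (0 : ℕ))) := rfl

/-- The invariant is additive. -/
theorem invHA_hadd (x y : SH.HoClass (Sp.suspSpec S0) (HA R 0)) :
    invHA R ((addSeqGEMR R 0).addSpec.hadd x y) = invHA R x + invHA R y := by
  obtain ⟨g⟩ := x
  obtain ⟨g'⟩ := y
  rfl

/-- **`π_0 (HA R 0) ≃ R`**: the value at the point. -/
noncomputable def piZeroHA : SH.π 0 (Q.obj (HA R 0)) ≃ R :=
  (SH.homEquiv (Sp.suspSpec S0) (HA R 0) (isOmega_HA R 0)).symm.trans (invHA R)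

theorem piZeroHA_eq (c : SH.π 0 (Q.obj (HA R 0))) : piZeroHA R c = invHA R ((addSeqGEMR R 0).addSpec.cls c) := rfl

/-- **In `π_0 (HA R 0) = R` the relation `IsSum` implies the addition of `R`.** -/
theorem piZeroHA_of_isSum {f g h : SH.π 0 (Q.obj (HA R 0))} (H : IsSum f g h) :
    piZeroHA R h = piZeroHA R f + piZeroHA R g := by
  have h1 : invHA R ((addSeqGEMR R 0).addSpec.cls h)
      = invHA R ((addSeqGEMR R 0).addSpec.hadd ((addSeqGEMR R 0).addSpec.cls f) ((addSeqGEMR R 0).addSpec.cls g)) :=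
    congrArg (invHA R) ((addSeqGEMR R 0).addSpec.cls_of_isSum H)
  exact h1.trans (invHA_hadd R _ _)

/-- The sum of two elements of `π_0 (HA R 0)` is unique. -/
theorem isSum_unique_HA {f g h h' : SH.π 0 (Q.obj (HA R 0))} (H : IsSum f g h) (H' : IsSum f g h') : h = h' :=
  (piZeroHA R).injective ((piZeroHA_of_isSum R H).trans (piZeroHA_of_isSum R H').symm)

/-- If sums exist in `π_0` then `IsSum` is the addition of `R` on `π_0 (HA R 0) = R`. -/
theorem isSum_iff_piZeroHA (hsum : ∀ (Y : SH) (f g : SH.sphere 0 ⟶ Y), ∃ h, IsSum f g h)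
    (f g h : SH.π 0 (Q.obj (HA R 0))) : IsSum f g h ↔ piZeroHA R h = piZeroHA R f + piZeroHA R g := by
  refine ⟨piZeroHA_of_isSum R, fun e => ?_⟩
  obtain ⟨h', H'⟩ := hsum _ f g
  have : h' = h := (piZeroHA R).injective ((piZeroHA_of_isSum R H').trans e.symm)
  exact this ▸ H'

/-- **If sums exist in `π_0` then `HA ℚ 0` is an Eilenberg--Mac Lane spectrum `Hℚ` in the sense of `Statement.lean`.** -/
theorem isHQ_HA_of_sums (hsum : ∀ (Y : SH) (f g : SH.sphere 0 ⟶ Y), ∃ h, IsSum f g h) : SH.IsHQ (Q.obj (HA ℚ 0)) :=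
  ⟨⟨piZeroHA ℚ, isSum_iff_piZeroHA ℚ hsum⟩, fun k hk => subsingleton_π_HA_of_ne ℚ 0 k hk⟩

/-- Then `HA ℚ 0` is a Morava K-theory `K(0)` at every prime. -/
theorem isMoravaK_zero_HA_of_sums (hsum : ∀ (Y : SH) (f g : SH.sphere 0 ⟶ Y), ∃ h, IsSum f g h) (p : ℕ) :
    SH.IsMoravaK p 0 (Q.obj (HA ℚ 0)) := isHQ_HA_of_sums hsum

end Claimed.Open.R319
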