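import Claimed.Open.R319.SanityHF2R

/-!
# Sanity (result 319): the two triangles of `S¹ ∧ S¹`: every pair of elements of `R` is realized by two maps `S⁰ ⟶ GEMR R 0` whose double suspensions have disjoint supports
-/

open CategoryTheory Opposite Simplicial

namespace Claimed.Open.R319

open PSSet

variable (R : Type) [CommRing R]

theorem σGR_mk {d d' : ℤ} (hd : d' = d + 1) {n : SimplexCategoryᵒᵖ} (w : (GEMR R d).obj n) (s : n.unop ⟶ ⦋1⦌) (m : ℕ)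
    (φ : ⦋m⦌ ⟶ n.unop) (l : List (⦋m⦌ ⟶ ⦋1⦌)) :
    (((σGR R hd).app n).toFun (Smash.mk w (S1.mk s))).1 m φ l = w.1 m φ ((φ ≫ s) :: l) :=
  σEMR_mk (((gemιR R d).app n).toFun w) s m φ l

/-- The double suspension of a map `S⁰ ⟶ GEMR R d`. -/
def susG {d0 d1 d2 : ℤ} (h1 : d1 = d0 + 1) (h2 : d2 = d1 + 1) (z : S0 ⟶ GEMR R d0) :
    PSSet.smash (PSSet.smash S0 S1) S1 ⟶ GEMR R d2 :=
  smashMap (smashMap z (𝟙 S1) ≫ σGR R h1) (𝟙 S1) ≫ σGR R h2

theorem susG_mk {d0 d1 d2 : ℤ} (h1 : d1 = d0 + 1) (h2 : d2 = d1 + 1) (z : S0 ⟶ GEMR R d0) {n : SimplexCategoryᵒᵖ}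
    (x : S0.obj n) (s t : n.unop ⟶ ⦋1⦌) (m : ℕ) (φ : ⦋m⦌ ⟶ n.unop) (l : List (⦋m⦌ ⟶ ⦋1⦌)) :
    (((susG R h1 h2 z).app n).toFun (Smash.mk (Smash.mk x (S1.mk s)) (S1.mk t))).1 m φ l
      = ((z.app n).toFun x).1 m φ ((φ ≫ s) :: (φ ≫ t) :: l) :=
  (σGR_mk R h2 _ t m φ l).trans (σGR_mk R h1 _ s m φ _)

theorem val_eq_of_nz {m : ℕ} (s : ⦋m⦌ ⟶ ⦋1⦌) (v : Fin (m + 1)) : (s.toOrderHom v).val = if v.val < nz s then 0 else 1 := by
  conv_lhs => rw [← theta_nz s]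
  exact prismTheta_apply (nz s) v

/-- The order of two simplices of `Δ[1]` is preserved by all simplicial operators. -/
theorem nz_comp_le {k m : ℕ} (φ : ⦋m⦌ ⟶ ⦋k⦌) {s t : ⦋k⦌ ⟶ ⦋1⦌} (h : nz s ≤ nz t) : nz (φ ≫ s) ≤ nz (φ ≫ t) := by
  by_contra hc
  have h1 := nz_le (φ ≫ s)
  let v : Fin (m + 1) := ⟨nz (φ ≫ t), by omega⟩
  have e1 := val_eq_of_nz (φ ≫ s) v
  have e2 := val_eq_of_nz (φ ≫ t) v
  rw [if_pos (show v.val < nz (φ ≫ s) by show nz (φ ≫ t) < _; omega), prism_comp_apply, val_eq_of_nz] at e1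
  rw [if_neg (show ¬ v.val < nz (φ ≫ t) from lt_irrefl _), prism_comp_apply, val_eq_of_nz] at e2
  split_ifs at e1 e2
  omega

theorem nz_lt_of_cons_cons_eq_diag {m : ℕ} {a b : ⦋m⦌ ⟶ ⦋1⦌} {l : List (⦋m⦌ ⟶ ⦋1⦌)} (h : a :: b :: l = diag m) :
    nz a < nz b := by
  match m, a, b, l, h with
  | 0, _, _, _, h => exact absurd h (by simp [diag])
  | 1, _, _, _, h =>
    have := congrArg List.length h
    simp [diag] at this
  | m + 2, a, b, l, h =>
    have h' : a :: b :: l = tau 0 :: tau (Fin.succ 0) :: List.ofFn (fun j : Fin m => tau j.succ.succ) := by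
      rw [h]
      simp [diag, List.ofFn_succ]
    injection h' with h1 h2
    injection h2 with h2 h3
    rw [h1, h2, nz_tau, nz_tau]
    simp

/-- The multiples of the fundamental class. -/
def cfund (c : R) : S0 ⟶ GEMR R 0 := fundGR R ≫ smulGR c 0

theorem cfund_vertex (c : R) (n : SimplexCategoryᵒᵖ) (m : ℕ) (φ : ⦋m⦌ ⟶ n.unop) (l : List (⦋m⦌ ⟶ ⦋1⦌)) :
    (((cfund R c).app n).toFun (S0.vertex n)).1 m φ l = c * (if l = diag m then 1 else 0) := rfl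

theorem cfund_of_ne (c : R) (n : SimplexCategoryᵒᵖ) (x : S0.obj n) (m : ℕ) (φ : ⦋m⦌ ⟶ n.unop) (l : List (⦋m⦌ ⟶ ⦋1⦌))
    (h : l ≠ diag m) : (((cfund R c).app n).toFun x).1 m φ l = 0 := by
  induction x using plus_ind with
  | h0 => exact mul_zero c
  | h s =>
    show c * (if l = diag m then 1 else 0) = 0
    rw [if_neg h, mul_zero]

theorem S0_app_vertex {X : PSSet} (k : S0 ⟶ X) (n : SimplexCategoryᵒᵖ) :
    (k.app n).toFun (S0.vertex n) = (X.map (n.unop.const ⦋0⦌ 0).op).toFun ((k.app (op ⦋0⦌)).toFun (S0.vertex (op ⦋0⦌))) := by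
  have e := congrArg (fun u : S0.obj (op ⦋0⦌) ⟶ X.obj n => u.toFun (S0.vertex (op ⦋0⦌))) (k.naturality (n.unop.const ⦋0⦌ 0).op)
  exact (congrArg (k.app n).toFun (S0_mk_eq n _)).trans e

theorem exists_disjoint_aux {d1 d2 : ℤ} (h1 : d1 = 0 + 1) (h2 : d2 = d1 + 1) (c c' : R) : ∃ zf zg : S0 ⟶ GEMR R 0,
    inv0R (zf ≫ gemιR R 0) = c ∧ inv0R (zg ≫ gemιR R 0) = c' ∧
    ∀ n (a : (PSSet.smash (PSSet.smash S0 S1) S1).obj n),
      ((susG R h1 h2 zf).app n).toFun a = ((GEMR R d2).obj n).point ∨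
      ((susG R h1 h2 zg).app n).toFun a = ((GEMR R d2).obj n).point := by
  obtain ⟨g1, hg1⟩ := σGR_ex h2 (PSSet.smash S0 S1) (swapRight S0 S1 S1 ≫ susG R h1 h2 (cfund R (-c')))
  obtain ⟨zg, hzg⟩ := σGR_ex h1 S0 g1
  have hsus : susG R h1 h2 zg = swapRight S0 S1 S1 ≫ susG R h1 h2 (cfund R (-c')) := by
    unfold susG
    rw [hzg, hg1]
    rfl
  have hval : ∀ {n : SimplexCategoryᵒᵖ} (x : S0.obj n) (s t : n.unop ⟶ ⦋1⦌) (m : ℕ) (φ : ⦋m⦌ ⟶ n.unop) (l : List (⦋m⦌ ⟶ ⦋1⦌)),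
      (((susG R h1 h2 zg).app n).toFun (Smash.mk (Smash.mk x (S1.mk s)) (S1.mk t))).1 m φ l
        = (((cfund R (-c')).app n).toFun x).1 m φ ((φ ≫ t) :: (φ ≫ s) :: l) := by
    intro n x s t m φ l
    rw [hsus]
    exact susG_mk R h1 h2 (cfund R (-c')) x t s m φ l
  refine ⟨cfund R c, zg, mul_one c, ?_, ?_⟩
  · obtain ⟨Z, hZ⟩ : ∃ Z : (GEMR R 0).obj (op ⦋0⦌), Z = (zg.app (op ⦋0⦌)).toFun (S0.vertex (op ⦋0⦌)) := ⟨_, rfl⟩
    show ((zg.app (op ⦋0⦌)).toFun (S0.vertex (op ⦋0⦌))).1 0 (𝟙 _) [] = c'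
    rw [← hZ]
    have key : ∀ (ψ : ⦋2⦌ ⟶ ⦋0⦌) (s t : ⦋2⦌ ⟶ ⦋1⦌), Z.1 2 ψ [s, t] = (-c') * (if [t, s] = diag 2 then 1 else 0) := by
      intro ψ s t
      have e := hval (n := op ⦋2⦌) (S0.vertex (op ⦋2⦌)) s t 2 (𝟙 _) []
      rw [susG_mk, S0_app_vertex, cfund_vertex, ← hZ] at e
      simp only [Category.id_comp] at e
      rw [← e]
      exact congrArg (fun χ : ⦋2⦌ ⟶ ⦋0⦌ => Z.1 2 χ [s, t]) (hom_pt_eq _ _)
    have d2 : diag 2 = [tau 0, tau 1] := by simp [diag, List.ofFn_succ]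
    have t1 : SimplexCategory.σ (0 : Fin 2) ≫ tau (0 : Fin 1) = tau (1 : Fin 2) := by
      apply nz_inj
      rw [nz_σ, nz_tau, nz_tau]
      simp
    have t2 : tau (1 : Fin 2) ≠ tau (0 : Fin 2) := fun h => by
      have := congrArg nz h
      rw [nz_tau, nz_tau] at this
      simp at this
    have p0 := Z.2.st.prism 0 (𝟙 _) []
    have p1 := Z.2.st.prism 1 (SimplexCategory.σ 0 ≫ 𝟙 _) [tau 0]
    rw [Fin.sum_univ_one] at p0
    rw [Fin.sum_univ_two] at p1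
    simp only [List.map_nil, List.nil_append, List.map_cons, List.cons_append] at p0 p1
    rw [key, key, t1, d2, if_pos rfl, if_neg (fun h => t2 (List.cons.inj h).1)] at p1
    rw [p0, p1]
    simp
  · intro n a
    obtain ⟨k, rfl⟩ : ∃ k, n = op ⦋k⦌ := ⟨n.unop.len, rfl⟩
    induction a using Smash.ind with | h a t => ?_
    induction a using Smash.ind with | h x s => ?_
    induction s using S1.ind with | h s => ?_
    induction t using S1.ind with | h t => ?_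
    rcases le_total (nz (m := k) s) (nz (m := k) t) with h | h
    · refine Or.inr (Subtype.ext (funext fun m => funext fun φ => funext fun l => ?_))
      rw [hval]
      refine cfund_of_ne R _ _ x m φ _ fun e => ?_
      have := nz_lt_of_cons_cons_eq_diag e
      have := nz_comp_le (k := k) φ h
      omega
    · refine Or.inl (Subtype.ext (funext fun m => funext fun φ => funext fun l => ?_))
      rw [susG_mk]
      refine cfund_of_ne R _ _ x m φ _ fun e => ?_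
      have := nz_lt_of_cons_cons_eq_diag e
      have := nz_comp_le (k := k) φ h
      omega

end Claimed.Open.R319
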