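import Claimed.Open.R319.SanityPinch
import Claimed.Open.R319.SanityHQ
import Claimed.Open.R319.SanityTwoTri

/-!
# Sanity (result 319): **an example of `IsHQ`** (`= IsMoravaK p 0`): `HA ℚ 0`; the addition `IsSum` on `π_0 (HA R 0)` IS the addition of `R`, for every commutative ring `R`

Sums exist in `π_0 (HA R 0)`: the simplicial set `S¹ ∧ S¹` has two non-degenerate `2`-simplices (the two triangles of the square); the double suspension of `c •` (fundamental class) is supported on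
one of them, and there is a map with the invariant `c'` whose double suspension is supported on the other one (`exists_disjoint`, `SanityTwoTri.lean`).  Two maps with disjoint supports are
the two components of a map into the wedge (`PSSet.pinchMap`), and a map `S⁰ ∧ S¹ ∧ S¹ ⟶ Y_2` is a morphism `S ⟶ Y` of `SH` (`SH.bracket`, `SanityPinch.lean`).

* `exists_isSum_HA` : any two elements of `π_0 (HA R 0)` have a sum;
* **`isSum_HA_iff : IsSum f g h ↔ piZeroHA R h = piZeroHA R f + piZeroHA R g`**;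
* **`isHQ_HA_zero : SH.IsHQ (Q.obj (HA ℚ 0))`**, **`exists_isMoravaK_zero (p) : ∃ K, SH.IsMoravaK p 0 K`**.
-/

open CategoryTheory Opposite Simplicial

namespace Claimed.Open.R319

open PSSet

variable (R : Type) [CommRing R]

theorem piZeroHA_Q (g : Sp.suspSpec S0 ⟶ HA R 0) :
    piZeroHA R (Q.map g : SH.sphere 0 ⟶ Q.obj (HA R 0)) = inv0R ((g.map 0 ≫ (loopGEMR R 0).apr 0) ≫ gemιR R (0 + (0 : ℕ))) := by
  have e : (SH.homEquiv (Sp.suspSpec S0) (HA R 0) (isOmega_HA R 0)).symm (Q.map g) = Quot.mk _ g :=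
    Equiv.symm_apply_apply _ (Quot.mk _ g)
  show invHA R ((SH.homEquiv (Sp.suspSpec S0) (HA R 0) (isOmega_HA R 0)).symm (Q.map g)) = _
  rw [e]
  rfl

/-- The double suspension of a map `S⁰ ⟶ GEMR R 0`. -/
noncomputable def sus2 (z : S0 ⟶ (loopGEMR R 0).E 0) : PSSet.smash (PSSet.smash S0 S1) S1 ⟶ (loopGEMR R 0).E 2 :=
  smashMap (smashMap z (𝟙 S1) ≫ (loopGEMR R 0).σ 0) (𝟙 S1) ≫ (loopGEMR R 0).σ 1

/-- **The two triangles of `S¹ ∧ S¹`**: every pair of elements of `R` is realized by two maps whose double suspensions have disjoint supports. -/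
theorem exists_disjoint (c c' : R) : ∃ zf zg : S0 ⟶ (loopGEMR R 0).E 0,
    inv0R (zf ≫ gemιR R (0 + (0 : ℕ))) = c ∧ inv0R (zg ≫ gemιR R (0 + (0 : ℕ))) = c' ∧
    ∀ n (a : (PSSet.smash (PSSet.smash S0 S1) S1).obj n),
      ((sus2 R zf).app n).toFun a = (((loopGEMR R 0).E 2).obj n).point ∨
      ((sus2 R zg).app n).toFun a = (((loopGEMR R 0).E 2).obj n).point :=
  exists_disjoint_aux R (d1 := 0 + ((0 + 1 : ℕ) : ℤ)) (d2 := 0 + ((1 + 1 : ℕ) : ℤ)) (by push_cast) (by push_cast) c c'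

/-- The class of `Σ^∞ S⁰ ⟶ HA R 0` given by `z` is the bracket of the lift of its double suspension. -/
theorem bracket_alift_sus2 (z : S0 ⟶ (loopGEMR R 0).E 0) :
    SH.bracket (K := S0) (Y := HA R 0) ((loopGEMR R 0).alift 2 (sus2 R z)) =
      Q.map (Sp.suspLift (K := S0) (E := HA R 0) ((loopGEMR R 0).alift 0 z)) := by
  rw [← SH.bracket_map_two (K := S0) (Sp.suspLift (K := S0) (E := HA R 0) ((loopGEMR R 0).alift 0 z))]
  refine SH.bracket_eq_of_homotopic ((loopGEMR R 0).homotopic_alevel ?_)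
  have e : (Sp.suspLift (K := S0) (E := HA R 0) ((loopGEMR R 0).alift 0 z)).map 2 ≫ (loopGEMR R 0).apr 2 = sus2 R z := by
    show (smashMap (smashMap ((loopGEMR R 0).alift 0 z) (𝟙 S1) ≫ (loopGEMR R 0).aspec.σ 0) (𝟙 S1) ≫ (loopGEMR R 0).aspec.σ 1)
      ≫ (loopGEMR R 0).apr 2 = _
    rw [(loopGEMR R 0).aspec_σ_apr 1, (loopGEMR R 0).aspec_σ_apr 0]
    rfl
  have h : PSSet.Homotopic (sus2 R z) (sus2 R z) := .refl _
  exact e.symm ▸ h

/-- **Sums exist in `π_0 (HA R 0)`.** -/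
theorem exists_isSum_HA (f g : SH.π 0 (Q.obj (HA R 0))) : ∃ s, IsSum f g s := by
  obtain ⟨zf, zg, hf, hg, hd⟩ := exists_disjoint R (piZeroHA R f) (piZeroHA R g)
  have ef : f = SH.bracket (K := S0) (Y := HA R 0) ((loopGEMR R 0).alift 2 (sus2 R zf)) := by
    rw [bracket_alift_sus2]
    exact (piZeroHA R).injective (((piZeroHA_Q R (Sp.suspLift (K := S0) (E := HA R 0) ((loopGEMR R 0).alift 0 zf))).trans hf).symm)
  have eg : g = SH.bracket (K := S0) (Y := HA R 0) ((loopGEMR R 0).alift 2 (sus2 R zg)) := by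
    rw [bracket_alift_sus2]
    exact (piZeroHA R).injective (((piZeroHA_Q R (Sp.suspLift (K := S0) (E := HA R 0) ((loopGEMR R 0).alift 0 zg))).trans hg).symm)
  rw [ef, eg]
  refine SH.exists_isSum_bracket (K := S0) (Y := HA R 0) _ _ fun n a => ?_
  rcases hd n a with h | h
  · exact Or.inl (Prod.ext h rfl)
  · exact Or.inr (Prod.ext h rfl)

/-- **The addition `IsSum` of `Statement.lean` on `π_0 (HA R 0)` is the addition of `R`.** -/
theorem isSum_HA_iff (f g h : SH.π 0 (Q.obj (HA R 0))) : IsSum f g h ↔ piZeroHA R h = piZeroHA R f + piZeroHA R g := by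
  refine ⟨piZeroHA_of_isSum R, fun H => ?_⟩
  obtain ⟨s, hs⟩ := exists_isSum_HA R f g
  have : s = h := (piZeroHA R).injective ((piZeroHA_of_isSum R hs).trans H.symm)
  exact this ▸ hs

/-- **`HA ℚ 0` is an Eilenberg--Mac Lane spectrum `Hℚ` in the sense of `Statement.lean`.** -/
theorem isHQ_HA_zero : SH.IsHQ (Q.obj (HA ℚ 0)) :=
  ⟨⟨piZeroHA ℚ, isSum_HA_iff ℚ⟩, fun k hk => subsingleton_π_HA_of_ne ℚ 0 k hk⟩

/-- **The clause `∃ K, IsMoravaK p 0 K` of `Statement`.** -/
theorem exists_isMoravaK_zero (p : ℕ) : ∃ K : SH, SH.IsMoravaK p 0 K := ⟨_, isHQ_HA_zero⟩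

end Claimed.Open.R319
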