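import Claimed.Open.R319.SanityPinchTri
import Claimed.Open.R319.SanityHQ2

/-!
# Sanity (result 319): the degree `π_0 S ⟶ ℤ`; the multiples `n · 𝟙` of the identity of the sphere spectrum exist and are pairwise different

* `piZeroHA_of_isZeroMor` : the zero map `S ⟶ HA R 0` has the invariant `0`;
* `piZeroHA_of_isNatMul` : if `IsNatMul n f` on the sphere spectrum, then `f^*` is the multiplication by `n` on `π_0 (HA R 0) ≃ R`;
* `degS : π_0 S → ℤ` (composition with the class `S ⟶ HA ℤ 0` of invariant `1`), **`degS_of_isSum`** (additive for `IsSum`), `degS_id`, **`degS_of_isNatMul : IsNatMul n f → degS f = n`**;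
* **`exists_isNatMul_sphere_degS`** : for every `n` there is `f` with `IsNatMul n f`, and it has the degree `n`; `degS_comp_of_isNatMul`;
* **`infinite_π_zero_sphere`**, `not_isTotallyFinite_sphere_zero`, `not_isHFp_sphere_zero` : `π_0 S` is infinite, the sphere spectrum is not totally finite and not an `H𝔽_p`;
* **`not_isHQ_sphere_zero`** : the sphere spectrum is not an `Hℚ` (`𝟙` is not divisible by `2`);
* `not_isIso_of_isNatMul_sphere` (`n ≠ 1`), `existsUnique_isSum_HA`.
-/

open CategoryTheory Opposite Simplicial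

namespace Claimed.Open.R319

variable (R : Type) [CommRing R]

/-- The zero map `S ⟶ HA R 0` has the invariant `0`. -/
theorem piZeroHA_of_isZeroMor {z : SH.π 0 (Q.obj (HA R 0))} (hz : IsZeroMor z) : piZeroHA R z = 0 := by
  have h := piZeroHA_of_isSum R (SH.isSum_zero_right z hz)
  exact left_eq_add.1 h

/-- **On `π_0 (HA R 0) ≃ R` the map `n · 𝟙` of the sphere spectrum induces the multiplication by `n`.** -/
theorem piZeroHA_of_isNatMul (x : SH.π 0 (Q.obj (HA R 0))) (n : ℕ) : ∀ f : SH.sphere 0 ⟶ SH.sphere 0, IsNatMul n f →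
    piZeroHA R (f ≫ x : SH.sphere 0 ⟶ Q.obj (HA R 0)) = n • piZeroHA R x := by
  induction n with
  | zero =>
    intro f hf
    rw [zero_smul]
    exact piZeroHA_of_isZeroMor R (IsZeroMor.comp_right hf x)
  | succ n ih =>
    rintro f ⟨g, hg, hs⟩
    have h1 := piZeroHA_of_isSum R (SH.isSum_comp_right hs x)
    rw [ih g hg, Category.id_comp] at h1
    rw [h1, succ_nsmul]

/-- The class `S ⟶ HA ℤ 0` of invariant `1`. -/
noncomputable def unitHZ : SH.sphere 0 ⟶ Q.obj (HA ℤ 0) := (piZeroHA ℤ).symm 1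

/-- **The degree of a self-map of the sphere spectrum.** -/
noncomputable def degS (f : SH.sphere 0 ⟶ SH.sphere 0) : ℤ := piZeroHA ℤ (f ≫ unitHZ : SH.sphere 0 ⟶ Q.obj (HA ℤ 0))

theorem degS_id : degS (𝟙 _) = 1 := by
  unfold degS
  rw [Category.id_comp]
  exact (piZeroHA ℤ).apply_symm_apply 1

/-- **The degree is additive.** -/
theorem degS_of_isSum {f g h : SH.sphere 0 ⟶ SH.sphere 0} (H : IsSum f g h) : degS h = degS f + degS g :=
  piZeroHA_of_isSum ℤ (SH.isSum_comp_right H unitHZ)

theorem degS_of_isZeroMor {f : SH.sphere 0 ⟶ SH.sphere 0} (hf : IsZeroMor f) : degS f = 0 :=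
  piZeroHA_of_isZeroMor ℤ (IsZeroMor.comp_right hf unitHZ)

/-- **`n · 𝟙` has the degree `n`.** -/
theorem degS_of_isNatMul {n : ℕ} {f : SH.sphere 0 ⟶ SH.sphere 0} (hf : IsNatMul n f) : degS f = n := by
  have h := piZeroHA_of_isNatMul ℤ unitHZ n f hf
  have e : piZeroHA ℤ unitHZ = 1 := (piZeroHA ℤ).apply_symm_apply 1
  rw [e] at h
  exact h.trans (by simp)

/-- **Every multiple `n · 𝟙` of the identity of the sphere spectrum exists, and it has the degree `n`.** -/
theorem exists_isNatMul_sphere_degS (n : ℕ) : ∃ f : SH.sphere 0 ⟶ SH.sphere 0, IsNatMul n f ∧ degS f = n := by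
  obtain ⟨f, hf⟩ := SH.exists_isNatMul_sphere n
  exact ⟨f, hf, degS_of_isNatMul hf⟩

/-- The degree is surjective onto the natural numbers. -/
theorem exists_degS_eq (n : ℕ) : ∃ f : SH.sphere 0 ⟶ SH.sphere 0, degS f = n := by
  obtain ⟨f, -, hf⟩ := exists_isNatMul_sphere_degS n
  exact ⟨f, hf⟩

/-- The degree is multiplicative on the multiples of the identity: `(n · 𝟙) ≫ f` has the degree `n · deg f`. -/
theorem degS_comp_of_isNatMul {n : ℕ} {g : SH.sphere 0 ⟶ SH.sphere 0} (hg : IsNatMul n g) (f : SH.sphere 0 ⟶ SH.sphere 0) :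
    degS (g ≫ f) = n * degS f := by
  have h := piZeroHA_of_isNatMul ℤ (f ≫ unitHZ : SH.sphere 0 ⟶ Q.obj (HA ℤ 0)) n g hg
  unfold degS
  rw [Category.assoc]
  exact h.trans (by simp)

/-- `π_0 S` is infinite. -/
theorem infinite_π_zero_sphere : Infinite (SH.π 0 (SH.sphere 0)) := by
  choose F hF using exists_degS_eq
  refine Infinite.of_injective (fun n : ℕ => (F n : SH.π 0 (SH.sphere 0))) fun n m h => ?_
  have h' : F n = F m := h
  have := (hF n).symm.trans ((congrArg degS h').trans (hF m))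
  exact_mod_cast this

/-- The sphere spectrum is not totally finite. -/
theorem not_isTotallyFinite_sphere_zero : ¬ SH.IsTotallyFinite (SH.sphere 0) := fun h =>
  have := infinite_π_zero_sphere
  have := h.1 0
  not_finite (SH.π 0 (SH.sphere 0))

/-- The sphere spectrum is not an `H𝔽_p`. -/
theorem not_isHFp_sphere_zero {p : ℕ} (hp : p ≠ 0) : ¬ SH.IsHFp p (SH.sphere 0) := fun h =>
  have := infinite_π_zero_sphere
  hp (h.1.symm.trans Nat.card_eq_zero_of_infinite)

/-- **The sphere spectrum is not an `Hℚ`**: `𝟙` is not divisible by `2` in `π_0 S`, as its degree is `1`. -/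
theorem not_isHQ_sphere_zero : ¬ SH.IsHQ (SH.sphere 0) := by
  rintro ⟨⟨e, he⟩, -⟩
  have h : IsSum (e.symm (e (𝟙 _) / 2)) (e.symm (e (𝟙 _) / 2)) (𝟙 (SH.sphere 0) : SH.π 0 (SH.sphere 0)) := by
    rw [he, e.apply_symm_apply]
    ring
  have h2 := degS_of_isSum h
  rw [degS_id] at h2
  omega

/-- `n · 𝟙` is not an isomorphism of the sphere spectrum for `n ≠ 1` (and it exists: `SH.exists_isNatMul_sphere`). -/
theorem not_isIso_of_isNatMul_sphere {n : ℕ} (hn : n ≠ 1) {f : SH.sphere 0 ⟶ SH.sphere 0} (hf : IsNatMul n f) : ¬ IsIso f := fun h =>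
  hn ((natMulInvertible_sphere_iff n 0).1 ⟨f, hf, h⟩)

/-- Any two elements of `π_0 (HA R 0)` have exactly one sum. -/
theorem existsUnique_isSum_HA (f g : SH.π 0 (Q.obj (HA R 0))) : ∃! h, IsSum f g h := by
  obtain ⟨h, H⟩ := exists_isSum_HA R f g
  exact ⟨h, H, fun h' H' => isSum_unique_HA R H' H⟩

end Claimed.Open.R319
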