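import Claimed.Open.R319.SanityDegree

/-!
# Sanity (result 319): the degree `degS : π_0 S → ℤ` is multiplicative

* `degHomS f : ℤ →+ ℤ` : the action of `f : S ⟶ S` on `π_0 (HA ℤ 0) ≃ ℤ` is additive (`isSum_HA_iff`, `SH.isSum_comp_left`);
* `piZeroHA_comp` : `f` acts on `π_0 (HA ℤ 0) ≃ ℤ` as the multiplication by `degS f`;
* **`degS_comp : degS (f ≫ g) = degS f * degS g`**;  `isUnit_degS_of_isIso` : an automorphism of the sphere spectrum has the degree `±1` (`degS_eq_of_isIso`).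
-/

open CategoryTheory Opposite Simplicial

namespace Claimed.Open.R319

/-- The action of a self-map of `S` on `π_0 (HA ℤ 0) ≃ ℤ`, as an additive map. -/
noncomputable def degHomS (f : SH.sphere 0 ⟶ SH.sphere 0) : ℤ →+ ℤ :=
  AddMonoidHom.mk' (fun x => piZeroHA ℤ (f ≫ (piZeroHA ℤ).symm x : SH.sphere 0 ⟶ Q.obj (HA ℤ 0))) fun x y =>
    piZeroHA_of_isSum ℤ (SH.isSum_comp_left ((isSum_HA_iff ℤ ((piZeroHA ℤ).symm x) ((piZeroHA ℤ).symm y) ((piZeroHA ℤ).symm (x + y))).2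
      (by rw [Equiv.apply_symm_apply, Equiv.apply_symm_apply, Equiv.apply_symm_apply])) f)

/-- **A self-map of `S` acts on `π_0 (HA ℤ 0) ≃ ℤ` as the multiplication by its degree.** -/
theorem piZeroHA_comp (f : SH.sphere 0 ⟶ SH.sphere 0) (c : SH.π 0 (Q.obj (HA ℤ 0))) :
    piZeroHA ℤ (f ≫ c : SH.sphere 0 ⟶ Q.obj (HA ℤ 0)) = piZeroHA ℤ c * degS f := by
  have h1 : degHomS f (piZeroHA ℤ c) = piZeroHA ℤ (f ≫ c : SH.sphere 0 ⟶ Q.obj (HA ℤ 0)) := by
    show piZeroHA ℤ (f ≫ (piZeroHA ℤ).symm (piZeroHA ℤ c) : SH.sphere 0 ⟶ Q.obj (HA ℤ 0)) = _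
    rw [Equiv.symm_apply_apply]
  have h2 : degHomS f (piZeroHA ℤ c) = piZeroHA ℤ c • degHomS f 1 := by
    rw [← map_zsmul, smul_eq_mul, mul_one]
  rw [← h1, h2, smul_eq_mul]
  rfl

/-- **The degree is multiplicative.** -/
theorem degS_comp (f g : SH.sphere 0 ⟶ SH.sphere 0) : degS (f ≫ g) = degS f * degS g := by
  unfold degS
  rw [Category.assoc, piZeroHA_comp, mul_comm]
  rfl

/-- An automorphism of `S` has an invertible degree. -/
theorem isUnit_degS_of_isIso (f : SH.sphere 0 ⟶ SH.sphere 0) [IsIso f] : IsUnit (degS f) :=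
  IsUnit.of_mul_eq_one (degS (inv f)) (by rw [← degS_comp, IsIso.hom_inv_id, degS_id])

/-- **An automorphism of the sphere spectrum has the degree `1` or `-1`.** -/
theorem degS_eq_of_isIso (f : SH.sphere 0 ⟶ SH.sphere 0) [IsIso f] : degS f = 1 ∨ degS f = -1 :=
  Int.isUnit_iff.1 (isUnit_degS_of_isIso f)

end Claimed.Open.R319
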