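import Claimed.Open.R319.SanityPrism

/-!
# Sanity (result 319), block M3b: the fundamental cocycles of the cubes `(Δ[1], ∂Δ[1])^m` (mod 2)
-/

open CategoryTheory Opposite Simplicial

namespace Claimed.Open.R319

/-- The "diagonal" top simplex of the cube `Δ[1]^m`: the list `[tau 0, …, tau (m-1)]` of maps `⦋m⦌ ⟶ ⦋1⦌`. -/
def diag (m : ℕ) : List (⦋m⦌ ⟶ ⦋1⦌) :=
  match m with
  | 0 => []
  | m + 1 => List.ofFn fun j : Fin (m + 1) => tau j

/-! ### Maps to `⦋1⦌` are counted by their number of zeros -/

theorem diag_val_lt_two {n : ℕ} (s : ⦋n⦌ ⟶ ⦋1⦌) (w : Fin (n + 1)) : (s.toOrderHom w).val < 2 :=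
  (s.toOrderHom w).isLt

/-- Every simplex of `Δ[1]` is a `prismTheta c`. -/
theorem diag_exists_theta {n : ℕ} (s : ⦋n⦌ ⟶ ⦋1⦌) : ∃ c, c ≤ n + 1 ∧ s = prismTheta c := by
  classical
  have hex : ∃ c, ∀ w : Fin (n + 1), c ≤ w.val → (s.toOrderHom w).val = 1 :=
    ⟨n + 1, fun w hw => absurd w.isLt (by omega)⟩
  refine ⟨Nat.find hex, ?_, ?_⟩
  · exact Nat.find_min' hex (fun w hw => absurd w.isLt (by omega))
  · apply prism_hom_ext
    intro v
    rw [prismTheta_apply]
    split_ifs with h
    · have h' := Nat.find_min hex h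
      simp only [not_forall] at h'
      obtain ⟨w, hw, hw1⟩ := h'
      have hmono : s.toOrderHom v ≤ s.toOrderHom w := s.toOrderHom.monotone (Fin.le_def.2 hw)
      have h2 := diag_val_lt_two s w
      have h3 := Fin.le_def.1 hmono
      omega
    · exact Nat.find_spec hex v (by omega)

theorem diag_theta_inj {n c c' : ℕ} (hc : c ≤ n + 1) (hc' : c' ≤ n + 1)
    (h : prismTheta (m := n) c = prismTheta c') : c = c' := by
  by_contra hne
  rcases Nat.lt_or_gt_of_ne hne with hlt | hlt
  · have h1 := prismTheta_apply (m := n) c ⟨c, by omega⟩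
    have h2 := prismTheta_apply (m := n) c' ⟨c, by omega⟩
    rw [h] at h1
    rw [h1] at h2
    simp [hlt] at h2
  · have h1 := prismTheta_apply (m := n) c ⟨c', by omega⟩
    have h2 := prismTheta_apply (m := n) c' ⟨c', by omega⟩
    rw [h] at h1
    rw [h1] at h2
    simp [hlt] at h2

theorem diag_δ_theta {n : ℕ} (i : Fin (n + 2)) (c : ℕ) :
    SimplexCategory.δ i ≫ prismTheta (m := n + 1) c =
      prismTheta (if i.val < c then c - 1 else c) := by
  apply prism_hom_ext
  intro v
  simp only [prism_comp_apply, prism_δ_apply, prismTheta_apply]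
  split_ifs <;> omega

theorem diag_σ_theta {n : ℕ} (j : Fin (n + 1)) (c : ℕ) :
    SimplexCategory.σ j ≫ prismTheta (m := n) c =
      prismTheta (if j.val < c then c + 1 else c) := by
  apply prism_hom_ext
  intro v
  simp only [prism_comp_apply, prism_σ_apply, prismTheta_apply]
  split_ifs <;> omega

theorem diag_tau_eq_theta {n : ℕ} (j : Fin (n + 1)) : tau j = prismTheta (j.val + 1) := by
  apply prism_hom_ext
  intro v
  simp only [prism_tau_apply, prismTheta_apply]
  split_ifs <;> omega

theorem diag_eq_ofFn (m : ℕ) :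
    diag m = List.ofFn (fun a : Fin m => prismTheta (m := m) (a.val + 1)) := by
  cases m with
  | zero => simp [diag]
  | succ m =>
    simp only [diag]
    congr 1
    funext j
    exact diag_tau_eq_theta j

theorem diag_surjective (m : ℕ) : ∀ s ∈ diag m, Function.Surjective s.toOrderHom := by
  intro s hs
  rw [diag_eq_ofFn, List.mem_ofFn] at hs
  obtain ⟨a, rfl⟩ := hs
  intro y
  have hy : y.val < 2 := y.isLt
  have ha := a.isLt
  by_cases h0 : y.val = 0
  · refine ⟨(⟨0, Nat.succ_pos m⟩ : Fin (m + 1)), Fin.ext ?_⟩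
    rw [prismTheta_apply, h0]
    simp
  · refine ⟨(⟨m, Nat.lt_succ_self m⟩ : Fin (m + 1)), Fin.ext ?_⟩
    rw [prismTheta_apply, if_neg (by show ¬ m < a.val + 1; omega)]
    omega

/-! ### The arithmetic of the cocycle condition -/

theorem diag_arith (m : ℕ) (c : Fin m → ℕ) :
    ∑ i : Fin (m + 2),
      (if ∀ a : Fin m, (if i.val < c a then c a - 1 else c a) = a.val + 1 then (1 : ZMod 2) else 0)
        = 0 := by
  classical
  set Q : ℕ → Prop := fun i => ∀ a : Fin m, (if i < c a then c a - 1 else c a) = a.val + 1 with hQdef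
  set Hp : ℕ → Prop := fun k => 1 ≤ k ∧ k ≤ m + 1 ∧
    ∀ a : Fin m, c a = if a.val + 2 ≤ k then a.val + 1 else a.val + 2 with hHdef
  have hsum : ∑ i : Fin (m + 2), (if Q i.val then (1 : ZMod 2) else 0) =
      ∑ i ∈ Finset.range (m + 2), (if Q i then (1 : ZMod 2) else 0) :=
    Fin.sum_univ_eq_sum_range (fun i => if Q i then (1 : ZMod 2) else 0) (m + 2)
  show ∑ i : Fin (m + 2), (if Q i.val then (1 : ZMod 2) else 0) = 0
  rw [hsum]
  have hterm : ∀ i ∈ Finset.range (m + 2), (if Q i then (1 : ZMod 2) else 0) =
      (if Hp i then (1 : ZMod 2) else 0) + (if Hp (i + 1) then (1 : ZMod 2) else 0) := by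
    intro i hi
    have hi' : i < m + 2 := Finset.mem_range.1 hi
    have h1 : Hp i → Q i := by
      rintro ⟨h1, h2, hc⟩ a
      have := a.isLt
      rw [hc a]
      split_ifs <;> omega
    have h2 : Hp (i + 1) → Q i := by
      rintro ⟨h1, h2, hc⟩ a
      have := a.isLt
      rw [hc a]
      split_ifs <;> omega
    have h4 : ¬ (Hp i ∧ Hp (i + 1)) := by
      rintro ⟨⟨h1, h2, hc⟩, ⟨_, h2', hc'⟩⟩
      have e1 := hc ⟨i - 1, by omega⟩
      have e2 := hc' ⟨i - 1, by omega⟩
      rw [e1] at e2
      simp only at e2
      split_ifs at e2 <;> omega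
    have h3 : Q i → Hp i ∨ Hp (i + 1) := by
      intro hQ
      have hQ' : ∀ a : Fin m, (c a = a.val + 2 ∧ i ≤ a.val + 1) ∨ (c a = a.val + 1 ∧ a.val + 1 ≤ i) := by
        intro a
        have := hQ a
        split_ifs at this <;> omega
      by_cases hi0 : i = 0
      · right
        refine ⟨by omega, by omega, fun a => ?_⟩
        have := hQ' a
        split_ifs <;> omega
      by_cases him : i = m + 1
      · left
        refine ⟨by omega, by omega, fun a => ?_⟩
        have := hQ' a
        have := a.isLt
        split_ifs <;> omega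
      have hlt : i - 1 < m := by omega
      rcases hQ' ⟨i - 1, hlt⟩ with ⟨h, _⟩ | ⟨h, _⟩
      · left
        refine ⟨by omega, by omega, fun a => ?_⟩
        have ha := hQ' a
        by_cases hEq : a.val = i - 1
        · have : a = ⟨i - 1, hlt⟩ := Fin.ext hEq
          rw [this, h]
          simp only
          split_ifs <;> omega
        · split_ifs <;> omega
      · right
        refine ⟨by omega, by omega, fun a => ?_⟩
        have ha := hQ' a
        by_cases hEq : a.val = i - 1
        · have : a = ⟨i - 1, hlt⟩ := Fin.ext hEq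
          rw [this, h]
          simp only
          split_ifs <;> omega
        · split_ifs <;> omega
    by_cases hA : Hp i
    · have hB : ¬ Hp (i + 1) := fun hB => h4 ⟨hA, hB⟩
      rw [if_pos (h1 hA), if_pos hA, if_neg hB, add_zero]
    · by_cases hB : Hp (i + 1)
      · rw [if_pos (h2 hB), if_neg hA, if_pos hB, zero_add]
      · have hq : ¬ Q i := fun hq => (h3 hq).elim hA hB
        rw [if_neg hq, if_neg hA, if_neg hB, add_zero]
  rw [Finset.sum_congr rfl hterm, prism_telescope (fun k => if Hp k then (1 : ZMod 2) else 0) (m + 2)]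
  have e0 : ¬ Hp 0 := by rintro ⟨h, _⟩; omega
  have e1 : ¬ Hp (m + 2) := by rintro ⟨_, h, _⟩; omega
  simp only [if_neg e0, if_neg e1, add_zero]

/-- the indicator of the diagonal simplex is a cocycle -/
theorem diag_cocycle (m : ℕ) (l : List (⦋m + 1⦌ ⟶ ⦋1⦌)) :
    ∑ i : Fin (m + 2), (if l.map (fun s => SimplexCategory.δ i ≫ s) = diag m then (1 : ZMod 2) else 0) = 0 := by
  classical
  by_cases hlen : l.length = m
  · choose c hc hcs using fun a : Fin m => diag_exists_theta (l[a.val]'(by have := a.isLt; omega))
    have hl : l = List.ofFn (fun a : Fin m => prismTheta (m := m + 1) (c a)) := by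
      apply List.ext_getElem
      · simp [hlen]
      · intro k h1 h2
        rw [List.getElem_ofFn]
        exact hcs ⟨k, by omega⟩
    have key : ∀ i : Fin (m + 2), (l.map (fun s => SimplexCategory.δ i ≫ s) = diag m) ↔
        ∀ a : Fin m, (if i.val < c a then c a - 1 else c a) = a.val + 1 := by
      intro i
      rw [hl, diag_eq_ofFn, List.map_ofFn, List.ofFn_inj]
      constructor
      · intro h a
        have h' := congrFun h a
        simp only [Function.comp, diag_δ_theta] at h'
        have h1 := hc a
        have h2 := a.isLt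
        have h3 := i.isLt
        exact diag_theta_inj (by split_ifs <;> omega) (by omega) h'
      · intro h
        funext a
        simp only [Function.comp, diag_δ_theta, h a]
    simp only [key]
    exact diag_arith m c
  · apply Finset.sum_eq_zero
    intro i _
    rw [if_neg]
    intro h
    apply hlen
    have := congrArg List.length h
    simpa [diag_eq_ofFn] using this

theorem diag_tau_injective {m : ℕ} : Function.Injective (tau (m := m)) := by
  intro j j' h
  rw [diag_tau_eq_theta, diag_tau_eq_theta] at h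
  have h1 := j.isLt
  have h2 := j'.isLt
  have := diag_theta_inj (by omega) (by omega) h
  exact Fin.ext (by omega)

theorem diag_succ (m : ℕ) :
    diag (m + 1) = (diag m).map (fun s => SimplexCategory.σ (Fin.last m) ≫ s) ++ [tau (Fin.last m)] := by
  rw [diag_eq_ofFn (m + 1), diag_eq_ofFn m, List.ofFn_succ', List.map_ofFn, List.concat_eq_append]
  congr 1
  · congr 1
    funext a
    have := a.isLt
    simp only [Function.comp, diag_σ_theta, Fin.val_last, Fin.val_castSucc]
    rw [if_neg (by omega)]
  · rw [diag_tau_eq_theta]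

/-- the indicators of the diagonal simplices are compatible with the prism operator -/
theorem diag_prism (m : ℕ) (l : List (⦋m⦌ ⟶ ⦋1⦌)) :
    (if l = diag m then (1 : ZMod 2) else 0) =
      ∑ j : Fin (m + 1), (if l.map (fun s => SimplexCategory.σ j ≫ s) ++ [tau j] = diag (m + 1) then (1 : ZMod 2) else 0) := by
  classical
  rw [Finset.sum_eq_single (Fin.last m)]
  · have hinj : Function.Injective (fun s : ⦋m⦌ ⟶ ⦋1⦌ => SimplexCategory.σ (Fin.last m) ≫ s) :=
      fun s s' h => (cancel_epi (SimplexCategory.σ (Fin.last m))).1 h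
    have : (l.map (fun s => SimplexCategory.σ (Fin.last m) ≫ s) ++ [tau (Fin.last m)] = diag (m + 1)) ↔
        l = diag m := by
      rw [diag_succ, List.append_left_inj, (List.map_injective_iff.2 hinj).eq_iff]
    simp only [this]
  · intro j _ hj
    rw [if_neg]
    intro h
    rw [diag_succ] at h
    have h' := (List.append_inj' h rfl).2
    exact hj (diag_tau_injective (List.singleton_inj.1 h'))
  · intro h
    exact absurd (Finset.mem_univ _) h

end Claimed.Open.R319
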