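import Claimed.Open.R319.SanityOmega
import Claimed.Open.R319.SanityDiag
import Claimed.Open.R319.SanityCircle

/-!
# Sanity (result 319), block M4: the pointed simplicial abelian group `EM` of stable mod 2 cocycles, with `EM ≅ Ω EM` strictly
-/

open CategoryTheory Opposite Simplicial

namespace Claimed.Open.R319

open PSSet

/-- Mod 2 cochains (of all degrees `m`) on the simplicial sets `Δ[T] × Δ[1]^k` (all `k`: the length of the list). -/
abbrev Coch (T : SimplexCategory) : Type := ∀ m : ℕ, (⦋m⦌ ⟶ T) → List (⦋m⦌ ⟶ ⦋1⦌) → ZMod 2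

/-- A stable cocycle: it vanishes on `Δ[T] × ∂(Δ[1]^k)`, it is a cocycle, and its part on `Δ[T] × Δ[1]^k` is the image under the prism
operator (integration along the last coordinate) of its part on `Δ[T] × Δ[1]^(k+1)`. -/
structure IsStCocycle {T : SimplexCategory} (z : Coch T) : Prop where
  vanish : ∀ (m : ℕ) (φ : ⦋m⦌ ⟶ T) (l : List (⦋m⦌ ⟶ ⦋1⦌)), (∃ s ∈ l, ¬ Function.Surjective s.toOrderHom) → z m φ l = 0
  cocycle : ∀ (m : ℕ) (φ : ⦋m + 1⦌ ⟶ T) (l : List (⦋m + 1⦌ ⟶ ⦋1⦌)),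
    ∑ i : Fin (m + 2), z m (SimplexCategory.δ i ≫ φ) (l.map fun s => SimplexCategory.δ i ≫ s) = 0
  prism : ∀ (m : ℕ) (φ : ⦋m⦌ ⟶ T) (l : List (⦋m⦌ ⟶ ⦋1⦌)),
    z m φ l = ∑ j : Fin (m + 1), z (m + 1) (SimplexCategory.σ j ≫ φ) (l.map (fun s => SimplexCategory.σ j ≫ s) ++ [tau j])

/-- The group of stable cocycles. -/
def stCocycles (T : SimplexCategory) : AddSubgroup (Coch T) where
  carrier := {z | IsStCocycle z}
  zero_mem' := ⟨fun _ _ _ _ => rfl, fun _ _ _ => by simp, fun _ _ _ => by simp⟩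
  add_mem' {a b} ha hb := ⟨fun m φ l h => by
      show a m φ l + b m φ l = 0
      rw [ha.vanish m φ l h, hb.vanish m φ l h, add_zero],
    fun m φ l => by
      show ∑ i : Fin (m + 2), (a m _ _ + b m _ _) = 0
      rw [Finset.sum_add_distrib, ha.cocycle m φ l, hb.cocycle m φ l, add_zero],
    fun m φ l => by
      show a m φ l + b m φ l = ∑ j : Fin (m + 1), (a (m + 1) _ _ + b (m + 1) _ _)
      rw [Finset.sum_add_distrib, ← ha.prism m φ l, ← hb.prism m φ l]⟩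
  neg_mem' {a} ha := ⟨fun m φ l h => by
      show - a m φ l = 0
      rw [ha.vanish m φ l h, neg_zero],
    fun m φ l => by
      show ∑ i : Fin (m + 2), (- a m _ _) = 0
      rw [Finset.sum_neg_distrib, ha.cocycle m φ l, neg_zero],
    fun m φ l => by
      show - a m φ l = ∑ j : Fin (m + 1), (- a (m + 1) _ _)
      rw [Finset.sum_neg_distrib, ← ha.prism m φ l]⟩

theorem IsStCocycle.comp {T T' : SimplexCategory} {z : Coch T} (hz : IsStCocycle z) (ψ : T' ⟶ T) :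
    IsStCocycle (T := T') fun m φ l => z m (φ ≫ ψ) l where
  vanish m φ l h := hz.vanish m _ l h
  cocycle m φ l := by
    simpa only [Category.assoc] using hz.cocycle m (φ ≫ ψ) l
  prism m φ l := by
    simpa only [Category.assoc] using hz.prism m (φ ≫ ψ) l

/-- The pointed simplicial abelian group of stable cocycles. -/
def EM : PSSet where
  obj n := ⟨stCocycles n.unop, 0⟩
  map ψ := ⟨fun z => ⟨fun m φ l => z.1 m (φ ≫ ψ.unop) l, IsStCocycle.comp z.2 ψ.unop⟩, Subtype.ext rfl⟩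
  map_id _ := Pointed.Hom.ext (funext fun z => Subtype.ext (funext fun m => funext fun φ => by
    show z.1 m (φ ≫ 𝟙 _) = z.1 m φ
    rw [Category.comp_id]))
  map_comp ψ χ := Pointed.Hom.ext (funext fun z => Subtype.ext (funext fun m => funext fun φ => by
    show z.1 m (φ ≫ (χ.unop ≫ ψ.unop)) = z.1 m ((φ ≫ χ.unop) ≫ ψ.unop)
    rw [Category.assoc]))

theorem EM_map_val {n n' : SimplexCategoryᵒᵖ} (ψ : n ⟶ n') (z : EM.obj n) (m : ℕ) (φ : ⦋m⦌ ⟶ n'.unop)
    (l : List (⦋m⦌ ⟶ ⦋1⦌)) : ((EM.map ψ).toFun z).1 m φ l = z.1 m (φ ≫ ψ.unop) l := rfl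

theorem EM_point_val (n : SimplexCategoryᵒᵖ) (m : ℕ) (φ : ⦋m⦌ ⟶ n.unop)
    (l : List (⦋m⦌ ⟶ ⦋1⦌)) : ((EM.obj n).point).1 m φ l = 0 := rfl

/-- naturality of a map into `EM`, evaluated -/
theorem EM_nat {A : PSSet} (g : A ⟶ EM) {n n' : SimplexCategoryᵒᵖ} (ψ : n ⟶ n') (a : A.obj n) (m : ℕ) (φ : ⦋m⦌ ⟶ n'.unop)
    (l : List (⦋m⦌ ⟶ ⦋1⦌)) : ((g.app n').toFun ((A.map ψ).toFun a)).1 m φ l = ((g.app n).toFun a).1 m (φ ≫ ψ.unop) l :=
  congrArg (fun k : A.obj n ⟶ EM.obj n' => (k.toFun a).1 m φ l) (g.naturality ψ)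

/-- `z ∧ [s] ↦ (graph of s)^* z` -/
theorem IsStCocycle.cons {T : SimplexCategory} {z : Coch T} (hz : IsStCocycle z) (s : T ⟶ ⦋1⦌) :
    IsStCocycle (T := T) fun m φ l => z m φ ((φ ≫ s) :: l) where
  vanish m φ l h := hz.vanish m _ _ (by
    obtain ⟨t, ht, h⟩ := h
    exact ⟨t, List.mem_cons_of_mem _ ht, h⟩)
  cocycle m φ l := by
    simpa only [Category.assoc, List.map_cons] using hz.cocycle m φ ((φ ≫ s) :: l)
  prism m φ l := by
    simpa only [Category.assoc, List.map_cons, List.cons_append] using hz.prism m φ ((φ ≫ s) :: l)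

/-- `(graph of s)^* z` as an element of `EM` -/
def consCoc {n : SimplexCategoryᵒᵖ} (z : EM.obj n) (s : n.unop ⟶ ⦋1⦌) : EM.obj n :=
  ⟨fun m φ l => z.1 m φ ((φ ≫ s) :: l), IsStCocycle.cons z.2 s⟩

theorem consCoc_boundary {n : SimplexCategoryᵒᵖ} (z : EM.obj n) (s : n.unop ⟶ ⦋1⦌)
    (hs : ¬ Function.Surjective s.toOrderHom) : consCoc z s = (EM.obj n).point :=
  Subtype.ext (funext fun m => funext fun φ => funext fun _ =>
    z.2.vanish m φ _ ⟨φ ≫ s, List.mem_cons_self, fun h => hs (Function.Surjective.of_comp h)⟩)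

/-- `z ∧ x ↦ σ (z ∧ x)` -/
def σFun {n : SimplexCategoryᵒᵖ} (z : EM.obj n) : S1.obj n → EM.obj n :=
  S1.lift (consCoc z) (consCoc_boundary z)

theorem σFun_mk {n : SimplexCategoryᵒᵖ} (z : EM.obj n) (s : n.unop ⟶ ⦋1⦌) : σFun z (S1.mk s) = consCoc z s :=
  S1.lift_mk _ _ s

/-- The structure map `EM ∧ S¹ ⟶ EM`. -/
def σEM : smash EM S1 ⟶ EM where
  app n := Smash.lift (C := EM.obj n) σFun
    (by
      intro b
      induction b using S1.ind with | h s => ?_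
      exact (σFun_mk _ s).trans rfl)
    (fun z => rfl)
  naturality n n' ψ := Smash.hom_ext fun z b => by
    induction b using S1.ind with | h s => ?_
    show σFun ((EM.map ψ).toFun z) ((S1.map ψ).toFun (S1.mk s)) = (EM.map ψ).toFun (σFun z (S1.mk s))
    rw [S1.map_mk, σFun_mk, σFun_mk]
    refine Subtype.ext (funext fun m => funext fun φ => funext fun l => ?_)
    show z.1 m (φ ≫ ψ.unop) ((φ ≫ ψ.unop ≫ s) :: l) = z.1 m (φ ≫ ψ.unop) (((φ ≫ ψ.unop) ≫ s) :: l)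
    rw [Category.assoc]

theorem σEM_mk {n : SimplexCategoryᵒᵖ} (z : EM.obj n) (s : n.unop ⟶ ⦋1⦌) (m : ℕ) (φ : ⦋m⦌ ⟶ n.unop)
    (l : List (⦋m⦌ ⟶ ⦋1⦌)) : ((σEM.app n).toFun (Smash.mk z (S1.mk s))).1 m φ l = z.1 m φ ((φ ≫ s) :: l) :=
  congrArg (fun w : EM.obj n => w.1 m φ l) (σFun_mk z s)

/-! ### The adjoint of a map `A ∧ S¹ ⟶ EM` -/

section adj

variable {A : PSSet} (h : smash A S1 ⟶ EM)

/-- the element `h (φ^* a ∧ [s])` of `EM_m` -/
def hval {n : SimplexCategoryᵒᵖ} (a : A.obj n) {m : ℕ} (φ : ⦋m⦌ ⟶ n.unop) (s : ⦋m⦌ ⟶ ⦋1⦌) : EM.obj (op ⦋m⦌) :=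
  (h.app (op ⦋m⦌)).toFun (Smash.mk ((A.map φ.op).toFun a) (S1.mk (n := op ⦋m⦌) s))

theorem hval_nat {n : SimplexCategoryᵒᵖ} (a : A.obj n) {m k : ℕ} (φ : ⦋m⦌ ⟶ n.unop) (s : ⦋m⦌ ⟶ ⦋1⦌) (χ : ⦋k⦌ ⟶ ⦋m⦌)
    (k' : ℕ) (θ : ⦋k'⦌ ⟶ ⦋k⦌) (l : List (⦋k'⦌ ⟶ ⦋1⦌)) :
    (hval h a (χ ≫ φ) (χ ≫ s)).1 k' θ l = (hval h a φ s).1 k' (θ ≫ χ) l := by
  have key := EM_nat h χ.op (Smash.mk ((A.map φ.op).toFun a) (S1.mk (n := op ⦋m⦌) s)) k' θ l
  have e : ((smash A S1).map χ.op).toFun (Smash.mk ((A.map φ.op).toFun a) (S1.mk (n := op ⦋m⦌) s))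
      = Smash.mk ((A.map (χ ≫ φ).op).toFun a) (S1.mk (n := op ⦋k⦌) (χ ≫ s)) := by
    show Smash.mk ((A.map χ.op).toFun ((A.map φ.op).toFun a)) ((S1.map χ.op).toFun (S1.mk (n := op ⦋m⦌) s)) = _
    rw [S1.map_mk, op_comp, A.map_comp]
    rfl
  rw [e] at key
  exact key

theorem hval_boundary {n : SimplexCategoryᵒᵖ} (a : A.obj n) {m : ℕ} (φ : ⦋m⦌ ⟶ n.unop) (s : ⦋m⦌ ⟶ ⦋1⦌)
    (hs : ¬ Function.Surjective s.toOrderHom) : hval h a φ s = (EM.obj (op ⦋m⦌)).point := by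
  unfold hval
  rw [S1.mk_eq_point (n := op ⦋m⦌) s hs, Smash.mk_right]
  exact (h.app (op ⦋m⦌)).map_point

theorem hval_point {n : SimplexCategoryᵒᵖ} {m : ℕ} (φ : ⦋m⦌ ⟶ n.unop) (s : ⦋m⦌ ⟶ ⦋1⦌) :
    hval h (A.obj n).point φ s = (EM.obj (op ⦋m⦌)).point := by
  unfold hval
  rw [(A.map φ.op).map_point, Smash.mk_left]
  exact (h.app (op ⦋m⦌)).map_point

theorem hval_map {n n' : SimplexCategoryᵒᵖ} (ψ : n ⟶ n') (a : A.obj n) {m : ℕ} (φ : ⦋m⦌ ⟶ n'.unop) (s : ⦋m⦌ ⟶ ⦋1⦌) :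
    hval h ((A.map ψ).toFun a) φ s = hval h a (φ ≫ ψ.unop) s := by
  unfold hval
  have e : (A.map φ.op).toFun ((A.map ψ).toFun a) = (A.map (φ ≫ ψ.unop).op).toFun a := by
    rw [op_comp, A.map_comp]
    rfl
  rw [e]

/-- the cochain `g(a)`, where `g` is the adjoint of `h` -/
def adjCoch {n : SimplexCategoryᵒᵖ} (a : A.obj n) : Coch n.unop := fun m φ l =>
  match l with
  | [] => ∑ j : Fin (m + 1), (hval h a (SimplexCategory.σ j ≫ φ) (tau j)).1 (m + 1) (𝟙 _) []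
  | s :: l' => (hval h a φ s).1 m (𝟙 _) l'

theorem adjCoch_isStCocycle {n : SimplexCategoryᵒᵖ} (a : A.obj n) : IsStCocycle (adjCoch h a) where
  vanish m φ l hl := by
    obtain ⟨s, hs, hns⟩ := hl
    cases l with
    | nil => exact absurd hs (List.not_mem_nil)
    | cons t l' =>
      show (hval h a φ t).1 m (𝟙 _) l' = 0
      rcases List.mem_cons.1 hs with rfl | hs
      · rw [hval_boundary h a φ s hns]
        rfl
      · exact (hval h a φ t).2.vanish m _ l' ⟨s, hs, hns⟩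
  cocycle m φ l := by
    cases l with
    | nil =>
      exact prism_cocycle n.unop (fun ψ s => (hval h a ψ s).1 (m + 1) (𝟙 _) [])
        (fun ψ s hs => by
          show (hval h a ψ s).1 (m + 1) (𝟙 _) [] = 0
          rw [hval_boundary h a ψ s hs]
          rfl)
        (fun ψ s => by
          have key := (hval h a ψ s).2.cocycle (m + 1) (𝟙 _) []
          refine Eq.trans (Finset.sum_congr rfl fun i _ => ?_) key
          show (hval h a (SimplexCategory.δ i ≫ ψ) (SimplexCategory.δ i ≫ s)).1 (m + 1) (𝟙 _) [] = _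
          rw [hval_nat, Category.id_comp, Category.comp_id]
          rfl) φ
    | cons t l' =>
      have key := (hval h a φ t).2.cocycle m (𝟙 _) l'
      refine Eq.trans (Finset.sum_congr rfl fun i _ => ?_) key
      show (hval h a (SimplexCategory.δ i ≫ φ) (SimplexCategory.δ i ≫ t)).1 m (𝟙 _) _ = _
      rw [hval_nat, Category.id_comp, Category.comp_id]
  prism m φ l := by
    cases l with
    | nil => rfl
    | cons t l' =>
      have key := (hval h a φ t).2.prism m (𝟙 _) l'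
      refine Eq.trans key (Finset.sum_congr rfl fun j _ => ?_)
      show _ = (hval h a (SimplexCategory.σ j ≫ φ) (SimplexCategory.σ j ≫ t)).1 (m + 1) (𝟙 _) _
      rw [hval_nat, Category.id_comp, Category.comp_id]
      rfl

/-- The adjoint `A ⟶ EM` of `h : A ∧ S¹ ⟶ EM`. -/
def adjEM : A ⟶ EM where
  app n := ⟨fun a => ⟨adjCoch h a, adjCoch_isStCocycle h a⟩, Subtype.ext (funext fun m => funext fun φ => funext fun l => by
    cases l with
    | nil =>
      show ∑ j : Fin (m + 1), (hval h (A.obj n).point (SimplexCategory.σ j ≫ φ) (tau j)).1 (m + 1) (𝟙 _) [] = 0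
      refine Finset.sum_eq_zero fun j _ => ?_
      rw [hval_point]
      rfl
    | cons t l' =>
      show (hval h (A.obj n).point φ t).1 m (𝟙 _) l' = 0
      rw [hval_point]
      rfl)⟩
  naturality n n' ψ := Pointed.Hom.ext (funext fun a => Subtype.ext (funext fun m => funext fun φ => funext fun l => by
    cases l with
    | nil =>
      show ∑ j : Fin (m + 1), (hval h ((A.map ψ).toFun a) (SimplexCategory.σ j ≫ φ) (tau j)).1 (m + 1) (𝟙 _) []
        = ∑ j : Fin (m + 1), (hval h a (SimplexCategory.σ j ≫ φ ≫ ψ.unop) (tau j)).1 (m + 1) (𝟙 _) []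
      refine Finset.sum_congr rfl fun j _ => ?_
      rw [hval_map, Category.assoc]
    | cons t l' =>
      show (hval h ((A.map ψ).toFun a) φ t).1 m (𝟙 _) l' = (hval h a (φ ≫ ψ.unop) t).1 m (𝟙 _) l'
      rw [hval_map]))

theorem adjEM_spec : smashMap (adjEM h) (𝟙 S1) ≫ σEM = h :=
  smashS1_hom_ext fun n a s => Subtype.ext (funext fun m => funext fun φ => funext fun l => by
    refine (σEM_mk ((adjEM h).app n |>.toFun a) s m φ l).trans ?_
    show (hval h a φ (φ ≫ s)).1 m (𝟙 _) l = _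
    have key := EM_nat h φ.op (Smash.mk a (S1.mk s)) m (𝟙 _) l
    rw [Category.id_comp] at key
    refine Eq.trans ?_ key
    have e : ((smash A S1).map φ.op).toFun (Smash.mk a (S1.mk s))
        = Smash.mk ((A.map φ.op).toFun a) (S1.mk (n := op ⦋m⦌) (φ ≫ s)) := by
      show Smash.mk ((A.map φ.op).toFun a) ((S1.map φ.op).toFun (S1.mk s)) = _
      rw [S1.map_mk]
      rfl
    rw [e]
    rfl)

end adj

theorem σEM_uniq {A : PSSet} (g g' : A ⟶ EM) (hg : smashMap g (𝟙 S1) ≫ σEM = smashMap g' (𝟙 S1) ≫ σEM) : g = g' := by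
  have key : ∀ (n : SimplexCategoryᵒᵖ) (a : A.obj n) (s : n.unop ⟶ ⦋1⦌) (m : ℕ) (φ : ⦋m⦌ ⟶ n.unop) (l : List (⦋m⦌ ⟶ ⦋1⦌)),
      ((g.app n).toFun a).1 m φ ((φ ≫ s) :: l) = ((g'.app n).toFun a).1 m φ ((φ ≫ s) :: l) := by
    intro n a s m φ l
    have e := congrArg (fun k : smash A S1 ⟶ EM => ((k.app n).toFun (Smash.mk a (S1.mk s))).1 m φ l) hg
    exact (σEM_mk _ s m φ l).symm.trans (e.trans (σEM_mk _ s m φ l))
  have cons : ∀ (n : SimplexCategoryᵒᵖ) (a : A.obj n) (m : ℕ) (φ : ⦋m⦌ ⟶ n.unop) (t : ⦋m⦌ ⟶ ⦋1⦌) (l : List (⦋m⦌ ⟶ ⦋1⦌)),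
      ((g.app n).toFun a).1 m φ (t :: l) = ((g'.app n).toFun a).1 m φ (t :: l) := by
    intro n a m φ t l
    have e1 := EM_nat g φ.op a m (𝟙 _) (t :: l)
    have e2 := EM_nat g' φ.op a m (𝟙 _) (t :: l)
    rw [Category.id_comp] at e1 e2
    have e3 := key (op ⦋m⦌) ((A.map φ.op).toFun a) t m (𝟙 _) l
    rw [Category.id_comp] at e3
    exact e1.symm.trans (e3.trans e2)
  refine NatTrans.ext (funext fun n => Pointed.Hom.ext (funext fun a => Subtype.ext (funext fun m => funext fun φ => funext fun l => ?_)))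
  cases l with
  | nil =>
    rw [((g.app n).toFun a).2.prism m φ [], ((g'.app n).toFun a).2.prism m φ []]
    exact Finset.sum_congr rfl fun j _ => cons n a (m + 1) _ _ _
  | cons t l' => exact cons n a m φ t l'

/-- `EM` with `σEM` is a strict loop object. -/
def loopEM : LoopData where
  E := EM
  grp n := inferInstanceAs (AddCommGroup (stCocycles n.unop))
  map_add _ _ _ := rfl
  σ := σEM
  ex _ h := ⟨adjEM h, adjEM_spec h⟩
  uniq _ g g' := σEM_uniq g g'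

end Claimed.Open.R319
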