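import Claimed.Open.R319.SanityFp

/-!
# Sanity (result 319): more on the words `IsHFp`, `HasFinitelyPresentedCohomology` (complements to `SanityFp.lean`)

Model-free (`H` is any object of `SH` with `IsHFp p H`):

* `SH.isTotallyFinite_of_isHFp` (`p ≠ 0`), `SH.not_isZero_of_isHFp` (`p ≠ 1`);
* `SH.isCohomologyPresentation_id` : the presentation with one generator `𝟙` and no relation, for any `Y`;
* **`SH.hasFinitelyPresentedCohomology_Dpow`** : the cohomology of the desuspensions `Σ^{-c} H𝔽_p` is finitely presented (free on one generator of degree `-c`).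
-/

open CategoryTheory

namespace Claimed.Open.R319

namespace SH

theorem isTotallyFinite_of_isHFp {p : ℕ} (hp : p ≠ 0) {H : SH} (h : IsHFp p H) : IsTotallyFinite H := by
  refine ⟨fun k => ?_, 0, fun k hk => h.2 k (by
    rintro rfl
    simp at hk)⟩
  by_cases hk : k = 0
  · subst hk
    exact Nat.finite_of_card_ne_zero (by rw [h.1]; exact hp)
  · have := h.2 k hk
    infer_instance

theorem not_isZero_of_isHFp {p : ℕ} (hp : p ≠ 1) {H : SH} (h : IsHFp p H) : ¬ Limits.IsZero H := fun hZ => by
  have : Subsingleton (π 0 H) := ⟨fun a b => hZ.eq_of_tgt a b⟩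
  have : Nonempty (π 0 H) := ⟨hZ.from_ _⟩
  have e : Nat.card (π 0 H) = 1 := Nat.card_eq_one_iff_unique.2 ⟨inferInstance, inferInstance⟩
  exact hp (h.1.symm.trans e)

/-- `Σ^{-c} H` is the product of the one-element family `(Σ^{-c} H)`. -/
theorem isFiniteProductOfShifts_Dpow (H : SH) (c : ℕ) : IsFiniteProductOfShifts H ((Dpow c).obj H) :=
  ⟨1, fun _ => c, fun _ => 𝟙 _,
    ⟨Limits.Fan.IsLimit.mk _ (fun s => s.proj 0)
      (fun s j => by
        obtain rfl : j = 0 := Subsingleton.elim _ _
        exact Category.comp_id _)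
      (fun s m hm => (Category.comp_id m).symm.trans (hm 0))⟩⟩

/-- The presentation with one generator and no relation. -/
theorem isCohomologyPresentation_id (H Y : SH) {Z : SH} (hZ : Limits.IsZero Z) (r : Y ⟶ Z) :
    IsCohomologyPresentation H (𝟙 Y) r where
  surj a b y := ⟨y, by rw [CategoryTheory.Functor.map_id, Category.id_comp]⟩
  exact a b g := by
    rw [CategoryTheory.Functor.map_id, Category.id_comp]
    constructor
    · intro hg
      refine ⟨(isZero_Dpow_obj hZ a).to_ _, hg.unique ⟨_, _, _, isZero_Dpow_obj hZ a, rfl⟩⟩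
    · rintro ⟨h, rfl⟩
      exact ⟨_, _, _, isZero_Dpow_obj hZ a, rfl⟩

/-- **`H^*(Σ^{-c} H𝔽_p; 𝔽_p)` is finitely presented over the Steenrod algebra** (free on one generator). -/
theorem hasFinitelyPresentedCohomology_Dpow {p : ℕ} {H : SH} (h : IsHFp p H) (c : ℕ) :
    HasFinitelyPresentedCohomology p ((Dpow c).obj H) :=
  ⟨H, (Dpow c).obj H, zero, 0, 𝟙 _, isZero_zero.from_ _, h, isFiniteProductOfShifts_Dpow H c,
    isFiniteProductOfShifts_of_isZero H isZero_zero, isCohomologyPresentation_id H _ isZero_zero _⟩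

end SH

end Claimed.Open.R319
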