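import Claimed.Open.R319.SanityCompleteR

/-!
# Sanity (result 319): non-examples of `IsFp`: the clause "bounded below" cannot be dropped

The `Ω`-spectrum `aspecEMR (ZMod p)` of the stable cocycles (the product of all the shifts of `H𝔽_p`) is `p`-complete, and all its homotopy groups are non-zero.

* `not_isBoundedBelow_aspecEMR` : `aspecEMR R` is not bounded below (`R` non-trivial);
* **`not_isFp_aspecEMR`** : it is not an fp-spectrum, at any `q`;
* **`exists_isPComplete_not_isFp`** : for every `p ≠ 1` there is a `p`-complete spectrum that is not an fp-spectrum;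
* `not_isHFp_aspecEMR`, `not_isTotallyFinite_aspecEMR`, `not_iso_HA_aspecEMR` : it is not an `H𝔽_q`, not totally finite, and not isomorphic to any `HA R' a`.
-/

open CategoryTheory Opposite Simplicial

namespace Claimed.Open.R319

variable (R : Type) [CommRing R]

/-- All the homotopy groups of `aspecEMR R` are non-zero: it is not bounded below. -/
theorem not_isBoundedBelow_aspecEMR [Nontrivial R] : ¬ SH.IsBoundedBelow (Q.obj (aspecEMR R)) := by
  rintro ⟨N, hN⟩
  obtain ⟨a, b, hab⟩ := exists_π_aspecEMR_ne R (N - 1)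
  exact hab ((hN (N - 1) (by omega)).elim a b)

/-- **`aspecEMR R` is not an fp-spectrum.** -/
theorem not_isFp_aspecEMR [Nontrivial R] (q : ℕ) : ¬ SH.IsFp q (Q.obj (aspecEMR R)) := fun h =>
  not_isBoundedBelow_aspecEMR R h.boundedBelow

/-- **A `p`-complete spectrum that is not an fp-spectrum** (`p ≠ 1`): the clause "bounded below" of `SH.IsFp` cannot be dropped from the two clauses
"bounded below" and "`p`-complete". -/
theorem exists_isPComplete_not_isFp {p : ℕ} (hp : p ≠ 1) : ∃ X : SH, SH.IsPComplete p X ∧ ¬ SH.IsFp p X := by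
  have : Nontrivial (ZMod p) := ZMod.nontrivial_iff.2 hp
  exact ⟨Q.obj (aspecEMR (ZMod p)),
    (addLoopEMR (ZMod p)).isPComplete (hasExp_abGrpEMR (ZMod p) (ZMod.natCast_self p)), not_isFp_aspecEMR (ZMod p) p⟩

/-- `aspecEMR R` is not an `H𝔽_q`. -/
theorem not_isHFp_aspecEMR [Nontrivial R] (q : ℕ) : ¬ SH.IsHFp q (Q.obj (aspecEMR R)) := fun h => by
  obtain ⟨a, b, hab⟩ := exists_π_aspecEMR_ne R 1
  exact hab ((h.2 1 one_ne_zero).elim a b)

/-- `aspecEMR R` is not totally finite. -/
theorem not_isTotallyFinite_aspecEMR [Nontrivial R] : ¬ SH.IsTotallyFinite (Q.obj (aspecEMR R)) := by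
  rintro ⟨-, N, hN⟩
  obtain ⟨a, b, hab⟩ := exists_π_aspecEMR_ne R (|N| + 1)
  refine hab ((hN (|N| + 1) ?_).elim a b)
  have h1 : N ≤ |N| := le_abs_self N
  have h2 := le_abs_self (|N| + 1)
  omega

/-- `aspecEMR R` is not isomorphic in `SH` to an Eilenberg--Mac Lane spectrum `HA R' a`. -/
theorem not_iso_HA_aspecEMR [Nontrivial R] (R' : Type) [CommRing R'] (a : ℤ) :
    IsEmpty (Q.obj (HA R' a) ≅ Q.obj (aspecEMR R)) := ⟨fun e => by
  obtain ⟨x, y, hxy⟩ := exists_π_aspecEMR_ne R (a + 1)
  have := subsingleton_π_HA_of_ne R' a (a + 1) (by omega)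
  have h : x ≫ e.inv = y ≫ e.inv := Subsingleton.elim (α := SH.π (a + 1) (Q.obj (HA R' a))) _ _
  exact hxy ((cancel_mono e.inv).1 h)⟩

end Claimed.Open.R319
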