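import Claimed.Open.R319.SanityHQ2

/-!
# Sanity (result 319): **a NON-TRIVIAL telescope**: `Hℚ` is the telescope of `Hℤ —1→ Hℤ —2→ Hℤ —3→ ⋯` in the sense of `IsTelescopeOf` of `Statement.lean`

* `HAmap α a : HA R a ⟶ HA R' a` : the Eilenberg--Mac Lane spectra `HA R a` are functorial in ADDITIVE maps `α : R →+ R'` (`HAmap_comp`);
* `piZeroHA_HAmap` : on `π_0 = R` the map `HAmap α 0` is `α`;
* `isTelescopeOf_HA` : if `R'` is the colimit of `R —α_0→ R —α_1→ ⋯` (with the legs `β_N`) then `HA R' 0` is a telescope of `HA R 0 ⟶ HA R 0 ⟶ ⋯`;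
* **`isTelescopeOf_HZ_HQ`** : `HA ℚ 0` is a telescope of `HA ℤ 0 —1→ HA ℤ 0 —2→ HA ℤ 0 —3→ ⋯`: none of the maps of the sequence but the first is an isomorphism, and no leg is one
  (`not_isIso_HAmap_mulZ`, `not_isIso_HAmap_divFact`, from `bijective_of_isIso_HAmap`).
-/

open CategoryTheory Opposite Simplicial

namespace Claimed.Open.R319

open PSSet

namespace PSSet

/-- `Cof2` is a functor. -/
def cof2Map {V W : PSSet} (k : V ⟶ W) : Cof2 V ⟶ Cof2 W where
  app _ := ⟨fun c m φ s => (k.app (op ⦋m⦌)).toFun (c m φ s),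
    funext fun m => funext fun _ => funext fun _ => (k.app (op ⦋m⦌)).map_point⟩
  naturality _ _ _ := rfl

theorem cof2Map_comp {V W X : PSSet} (k : V ⟶ W) (k' : W ⟶ X) : cof2Map (k ≫ k') = cof2Map k ≫ cof2Map k' := rfl

/-- `unit2` is natural. -/
theorem unit2_cof2Map {V W : PSSet} (k : V ⟶ W) : unit2 V ≫ cof2Map k = smashMap k (𝟙 S1) ≫ unit2 W :=
  NatTrans.ext (funext fun n => Smash.hom_ext fun v s => by
    classical
    funext m φ s'
    show (k.app (op ⦋m⦌)).toFun (((unit2 V).app n).toFun (Smash.mk v s) m φ s') =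
      ((unit2 W).app n).toFun (Smash.mk ((k.app n).toFun v) s) m φ s'
    rw [unit2_mk, unit2_mk]
    split_ifs
    · exact congrArg (fun q => q.toFun v) (k.naturality φ.op)
    · exact (k.app _).map_point)

end PSSet

namespace LoopSeq

variable {L L' L'' : LoopSeq}

/-- the map `V_n ⟶ V'_n` -/
def lvMap (k : ∀ i, L.E i ⟶ L'.E i) (n : ℕ) : L.lv n ⟶ L'.lv n :=
  match n with
  | 0 => 𝟙 _
  | n + 1 => prodLift (prodFst _ _ ≫ k n) (prodSnd _ _ ≫ cof2Map (lvMap k n))

theorem lvMap_comp (k : ∀ i, L.E i ⟶ L'.E i) (k' : ∀ i, L'.E i ⟶ L''.E i) (n : ℕ) :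
    lvMap k n ≫ lvMap k' n = lvMap (fun i => k i ≫ k' i) n := by
  induction n with
  | zero => rfl
  | succ n ih =>
    refine prod_hom_ext rfl ?_
    show prodSnd _ _ ≫ cof2Map (lvMap k n ≫ lvMap k' n) = prodSnd _ _ ≫ cof2Map (lvMap (fun i => k i ≫ k' i) n)
    rw [ih]

/-- The additive model `aspec` is functorial in maps of sequences of strict loop objects. -/
noncomputable def amap (k : ∀ i, L.E i ⟶ L'.E i) (hk : ∀ i, L.σ i ≫ k (i + 1) = smashMap (k i) (𝟙 S1) ≫ L'.σ i) :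
    L.aspec ⟶ L'.aspec where
  map n := lvMap k (n + 1)
  comm n := by
    refine prod_hom_ext ?_ ?_
    · show (smashMap (prodFst _ _) (𝟙 S1) ≫ L.σ n) ≫ k (n + 1) =
        smashMap (lvMap k (n + 1)) (𝟙 S1) ≫ smashMap (prodFst _ _) (𝟙 S1) ≫ L'.σ n
      rw [Category.assoc, hk]
      exact NatTrans.ext (funext fun m => Smash.hom_ext fun _ _ => rfl)
    · exact unit2_cof2Map (lvMap k (n + 1))

theorem amap_apr (k : ∀ i, L.E i ⟶ L'.E i) (hk : ∀ i, L.σ i ≫ k (i + 1) = smashMap (k i) (𝟙 S1) ≫ L'.σ i) (n : ℕ) :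
    (amap k hk).map n ≫ L'.apr n = L.apr n ≫ k n := rfl

end LoopSeq

section

variable {R R' R'' : Type} [CommRing R] [CommRing R'] [CommRing R''] (α : R →+ R') (α' : R' →+ R'')

theorem map_negOnePow_mul (i : ℕ) (x : R) : α ((-1) ^ i * x) = (-1) ^ i * α x := by
  rcases Nat.even_or_odd i with h | h
  · rw [h.neg_one_pow, h.neg_one_pow, one_mul, one_mul]
  · rw [h.neg_one_pow, h.neg_one_pow, neg_one_mul, neg_one_mul, map_neg]

theorem IsStCocycleR.mapAdd {T : SimplexCategory} {z : CochR R T} (hz : IsStCocycleR z) :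
    IsStCocycleR (R := R') (T := T) fun m φ l => α (z m φ l) where
  vanish m φ l h := by rw [hz.vanish m φ l h, map_zero]
  cocycle m φ l := by
    simp only [← map_negOnePow_mul α]
    rw [← map_sum, hz.cocycle m φ l, map_zero]
  prism m φ l := by
    simp only [← map_negOnePow_mul α]
    rw [← map_sum, ← hz.prism m φ l]

theorem IsGrCocycleR.mapAdd {d : ℤ} {T : SimplexCategory} {z : CochR R T} (hz : IsGrCocycleR d z) :
    IsGrCocycleR (R := R') d (T := T) fun m φ l => α (z m φ l) where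
  st := hz.st.mapAdd α
  graded m φ l h := by rw [hz.graded m φ l h, map_zero]
  normal m j φ l := by rw [hz.normal m j φ l, map_zero]

/-- `GEMR R d` is functorial in additive maps of the coefficients. -/
def gemMap (d : ℤ) : GEMR R d ⟶ GEMR R' d where
  app _ := ⟨fun z => ⟨fun m φ l => α (z.1 m φ l), z.2.mapAdd α⟩,
    Subtype.ext (funext fun _ => funext fun _ => funext fun _ => map_zero α)⟩
  naturality _ _ _ := rfl

theorem σGR_gemMap {d d' : ℤ} (hd : d' = d + 1) :
    σGR R hd ≫ gemMap α d' = smashMap (gemMap α d) (𝟙 S1) ≫ σGR R' hd :=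
  NatTrans.ext (funext fun n => Smash.hom_ext fun z b => by
    induction b using S1.ind with | h s => ?_
    exact Subtype.ext rfl)

/-- **`HA R a` is functorial in additive maps of the coefficients.** -/
noncomputable def HAmap (a : ℤ) : HA R a ⟶ HA R' a :=
  LoopSeq.amap (L := loopGEMR R a) (L' := loopGEMR R' a) (fun i => gemMap α (a + i)) fun _ => σGR_gemMap α (by push_cast; ring)

theorem HAmap_comp (a : ℤ) : HAmap α a ≫ HAmap α' a = HAmap (α'.comp α) a :=
  Sp.Hom.ext (funext fun n => LoopSeq.lvMap_comp (L := loopGEMR R a) (L' := loopGEMR R' a) (L'' := loopGEMR R'' a)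
    (fun i => gemMap α (a + i)) (fun i => gemMap α' (a + i)) (n + 1))

/-- **On `π_0 (HA R 0) = R` the map `HAmap α 0` is `α`.** -/
theorem piZeroHA_HAmap (x : SH.π 0 (Q.obj (HA R 0))) : piZeroHA R' (x ≫ Q.map (HAmap α 0)) = α (piZeroHA R x) := by
  obtain ⟨g, rfl⟩ := SH.exists_Q_map_eq (isOmega_HA R 0) x
  have e : (Q.map g ≫ Q.map (HAmap α 0) : SH.sphere 0 ⟶ Q.obj (HA R' 0)) = Q.map (g ≫ HAmap α 0) := (Q.map_comp _ _).symm
  exact ((congrArg (piZeroHA R') e).trans (piZeroHA_Q R' (g ≫ HAmap α 0))).trans (congrArg α (piZeroHA_Q R g)).symm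

end

section Tel

variable {R R' : Type} [CommRing R] [CommRing R']

/-- If `HAmap α 0` is an isomorphism of `SH` then `α` is bijective. -/
theorem bijective_of_isIso_HAmap (α : R →+ R') (h : IsIso (Q.map (HAmap α 0))) : Function.Bijective α := by
  constructor
  · intro r r' hr
    have h1 : piZeroHA R' ((piZeroHA R).symm r ≫ Q.map (HAmap α 0)) = piZeroHA R' ((piZeroHA R).symm r' ≫ Q.map (HAmap α 0)) := by
      rw [piZeroHA_HAmap, piZeroHA_HAmap, Equiv.apply_symm_apply, Equiv.apply_symm_apply, hr]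
    have h2 := (cancel_mono (Q.map (HAmap α 0))).1 ((piZeroHA R').injective h1)
    exact (piZeroHA R).symm.injective h2
  · intro r'
    refine ⟨piZeroHA R ((piZeroHA R').symm r' ≫ inv (Q.map (HAmap α 0))), ?_⟩
    rw [← piZeroHA_HAmap, Category.assoc, IsIso.inv_hom_id, Category.comp_id, Equiv.apply_symm_apply]

/-- the composite `α_{N+M-1} ∘ ⋯ ∘ α_N` -/
def itAdd (α : ℕ → R →+ R) (N M : ℕ) : R →+ R :=
  match M with
  | 0 => AddMonoidHom.id R
  | M + 1 => (α (N + M)).comp (itAdd α N M)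

theorem piZeroHA_seqComp (α : ℕ → R →+ R) (N M : ℕ) (y : SH.π 0 (Q.obj (HA R 0))) :
    piZeroHA R (y ≫ SH.seqComp (F := fun _ => Q.obj (HA R 0)) (fun N => Q.map (HAmap (α N) 0)) N M) =
      itAdd α N M (piZeroHA R y) := by
  induction M with
  | zero => exact congrArg (piZeroHA R) (Category.comp_id y)
  | succ M ih =>
    have e : y ≫ SH.seqComp (F := fun _ => Q.obj (HA R 0)) (fun N => Q.map (HAmap (α N) 0)) N (M + 1) =
        (y ≫ SH.seqComp (F := fun _ => Q.obj (HA R 0)) (fun N => Q.map (HAmap (α N) 0)) N M) ≫ Q.map (HAmap (α (N + M)) 0) :=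
      (Category.assoc _ _ _).symm
    exact (congrArg (piZeroHA R) e).trans ((piZeroHA_HAmap (α (N + M)) _).trans (congrArg (α (N + M)) ih))

/-- **If `R'` is the colimit of `R —α_0→ R —α_1→ ⋯` (legs `β_N`) then `HA R' 0` is a telescope of `HA R 0 ⟶ HA R 0 ⟶ ⋯` in the sense of `Statement.lean`.** -/
theorem isTelescopeOf_HA (α : ℕ → R →+ R) (β : ℕ → R →+ R') (hc : ∀ N x, β (N + 1) (α N x) = β N x)
    (hs : ∀ y : R', ∃ N x, β N x = y)
    (hi : ∀ N x x', β N x = β N x' → ∃ M, itAdd α N M x = itAdd α N M x') :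
    SH.IsTelescopeOf (F := fun _ => Q.obj (HA R 0)) (T := Q.obj (HA R' 0))
      (fun N => Q.map (HAmap (α N) 0)) (fun N => Q.map (HAmap (β N) 0)) where
  cocone N := by
    show Q.map (HAmap (α N) 0) ≫ Q.map (HAmap (β (N + 1)) 0) = Q.map (HAmap (β N) 0)
    have e : (β (N + 1)).comp (α N) = β N := AddMonoidHom.ext (hc N)
    rw [← Q.map_comp, HAmap_comp, e]
  surj k x := by
    by_cases hk : k = 0
    · subst hk
      obtain ⟨N, r, hr⟩ := hs (piZeroHA R' x)
      refine ⟨N, (piZeroHA R).symm r, (piZeroHA R').injective ?_⟩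
      exact (piZeroHA_HAmap (β N) _).trans (by rw [Equiv.apply_symm_apply, hr])
    · have := subsingleton_π_HA_of_ne R' 0 k hk
      exact ⟨0, SH.toZero _ ≫ SH.fromZero _, Subsingleton.elim _ _⟩
  inj k N y y' h := by
    by_cases hk : k = 0
    · subst hk
      have h1 : β N (piZeroHA R y) = β N (piZeroHA R y') :=
        (piZeroHA_HAmap (β N) y).symm.trans ((congrArg (piZeroHA R') h).trans (piZeroHA_HAmap (β N) y'))
      obtain ⟨M, hM⟩ := hi N _ _ h1
      exact ⟨M, (piZeroHA R).injective ((piZeroHA_seqComp α N M y).trans (hM.trans (piZeroHA_seqComp α N M y').symm))⟩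
    · have e : y = y' := @Subsingleton.elim _ (subsingleton_π_HA_of_ne R 0 k hk) y y'
      exact ⟨0, by rw [e]⟩

end Tel

/-- multiplication by `N + 1` on `ℤ` -/
def mulZ (N : ℕ) : ℤ →+ ℤ := AddMonoidHom.mulLeft ((N : ℤ) + 1)

/-- `x ↦ x / N!` -/
def divFact (N : ℕ) : ℤ →+ ℚ := (AddMonoidHom.mulLeft (1 / (N.factorial : ℚ))).comp (Int.castAddHom ℚ)

/-- **`Hℚ` is the telescope of `Hℤ —1→ Hℤ —2→ Hℤ —3→ ⋯`, in the sense of `IsTelescopeOf` of `Statement.lean`.** -/
theorem isTelescopeOf_HZ_HQ : SH.IsTelescopeOf (F := fun _ => Q.obj (HA ℤ 0)) (T := Q.obj (HA ℚ 0))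
    (fun N => Q.map (HAmap (mulZ N) 0)) (fun N => Q.map (HAmap (divFact N) 0)) :=
  isTelescopeOf_HA mulZ divFact
    (fun N x => by
      show 1 / ((N + 1).factorial : ℚ) * ((((N : ℤ) + 1) * x : ℤ) : ℚ) = 1 / (N.factorial : ℚ) * (x : ℚ)
      have h1 : (N.factorial : ℚ) ≠ 0 := by positivity
      have h2 : ((N : ℚ) + 1) ≠ 0 := by positivity
      rw [Nat.factorial_succ]
      push_cast
      field_simp)
    (fun y => ⟨y.den, y.num * ((y.den - 1).factorial : ℤ), by
      show 1 / (y.den.factorial : ℚ) * ((y.num * ((y.den - 1).factorial : ℤ) : ℤ) : ℚ) = y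
      have hd : y.den ≠ 0 := y.den_nz
      have h : y.den.factorial = y.den * (y.den - 1).factorial := (Nat.mul_factorial_pred hd).symm
      have h1 : ((y.den - 1).factorial : ℚ) ≠ 0 := by positivity
      have h2 : (y.den : ℚ) ≠ 0 := by exact_mod_cast hd
      rw [h]
      push_cast
      conv_rhs => rw [← Rat.num_div_den y]
      field_simp⟩)
    (fun N x x' h => ⟨0, by
      show x = x'
      have h1 : (1 / (N.factorial : ℚ)) ≠ 0 := by positivity
      have h2 : (x : ℚ) = (x' : ℚ) := mul_left_cancel₀ h1 h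
      exact_mod_cast h2⟩)

/-- The maps of this sequence are not isomorphisms (but the first). -/
theorem not_isIso_HAmap_mulZ {N : ℕ} (hN : N ≠ 0) : ¬ IsIso (Q.map (HAmap (mulZ N) 0)) := fun h => by
  obtain ⟨x, hx⟩ := (bijective_of_isIso_HAmap (mulZ N) h).2 1
  have hx' : ((N : ℤ) + 1) * x = 1 := hx
  rcases Int.isUnit_iff.1 (IsUnit.of_mul_eq_one _ hx') with h1 | h1 <;> omega

/-- The legs of this telescope are not isomorphisms. -/
theorem not_isIso_HAmap_divFact (N : ℕ) : ¬ IsIso (Q.map (HAmap (divFact N) 0)) := fun h => by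
  obtain ⟨x, hx⟩ := (bijective_of_isIso_HAmap (divFact N) h).2 (1 / (N.factorial : ℚ) * (1 / 2))
  have h1 : (1 / (N.factorial : ℚ)) ≠ 0 := by positivity
  have h2 : (x : ℚ) = 1 / 2 := mul_left_cancel₀ h1 hx
  have h3 : (2 * x : ℤ) = 1 := by
    have : ((2 * x : ℤ) : ℚ) = 1 := by push_cast; rw [h2]; norm_num
    exact_mod_cast this
  omega

end Claimed.Open.R319
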