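import Claimed.Open.R319.SanityHAmap
import Claimed.Open.R319.SanitySumComp

/-!
# Sanity (result 319): a NON-EXAMPLE of `IsTelescopeOf`: `Hℤ` is NOT a telescope of `Hℤ —1→ Hℤ —2→ Hℤ —3→ ⋯`, whatever the legs

* `piAdd j : R →+ R'` : every morphism `j : HA R 0 ⟶ HA R' 0` of `SH` induces an ADDITIVE map on `π_0` (`SH.isSum_comp_right`, `isSum_HA_iff`);
* **`not_isTelescopeOf_HZ_HZ`** : no family of legs `j_N : HA ℤ 0 ⟶ HA ℤ 0` of `SH` satisfies `IsTelescopeOf` for the sequence of `isTelescopeOf_HZ_HQ`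
  (the image of `1` under `j_0` is divisible by every `N!`, hence `0`, against the clause `inj`).
-/

open CategoryTheory Opposite Simplicial

namespace Claimed.Open.R319

section

variable {R R' : Type} [CommRing R] [CommRing R']

/-- **Every morphism `HA R 0 ⟶ HA R' 0` of `SH` induces an additive map `R → R'` on `π_0`.** -/
noncomputable def piAdd (j : Q.obj (HA R 0) ⟶ Q.obj (HA R' 0)) : R →+ R' :=
  AddMonoidHom.mk' (fun r => piZeroHA R' ((piZeroHA R).symm r ≫ j)) fun a b =>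
    (isSum_HA_iff R' _ _ _).1 (SH.isSum_comp_right ((isSum_HA_iff R ((piZeroHA R).symm a) ((piZeroHA R).symm b)
      ((piZeroHA R).symm (a + b))).2 (by simp only [Equiv.apply_symm_apply])) j)

theorem piAdd_apply (j : Q.obj (HA R 0) ⟶ Q.obj (HA R' 0)) (x : SH.π 0 (Q.obj (HA R 0))) :
    piAdd j (piZeroHA R x) = piZeroHA R' (x ≫ j) := by
  show piZeroHA R' ((piZeroHA R).symm (piZeroHA R x) ≫ j) = _
  rw [Equiv.symm_apply_apply]

end

theorem itAdd_mulZ_injective (N M : ℕ) : Function.Injective (itAdd mulZ N M) := by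
  induction M with
  | zero => exact fun _ _ h => h
  | succ M ih =>
    intro x y h
    have h1 : (((N + M : ℕ) : ℤ) + 1) * itAdd mulZ N M x = (((N + M : ℕ) : ℤ) + 1) * itAdd mulZ N M y := h
    exact ih (mul_left_cancel₀ (by positivity) h1)

/-- **`Hℤ` is not a telescope of `Hℤ —1→ Hℤ —2→ Hℤ —3→ ⋯`, whatever the legs.** -/
theorem not_isTelescopeOf_HZ_HZ (j : ℕ → (Q.obj (HA ℤ 0) ⟶ Q.obj (HA ℤ 0))) :
    ¬ SH.IsTelescopeOf (F := fun _ => Q.obj (HA ℤ 0)) (T := Q.obj (HA ℤ 0)) (fun N => Q.map (HAmap (mulZ N) 0)) j := fun H => by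
  have step : ∀ N (r : ℤ), piAdd (j N) r = ((N : ℤ) + 1) * piAdd (j (N + 1)) r := fun N r => by
    have h1 : piAdd (j N) r = piAdd (j (N + 1)) (mulZ N r) := by
      have e : Q.map (HAmap (mulZ N) 0) ≫ j (N + 1) = j N := H.cocone N
      obtain ⟨x, rfl⟩ := (piZeroHA ℤ).surjective r
      rw [piAdd_apply, ← piZeroHA_HAmap, piAdd_apply, Category.assoc, e]
    rw [h1]
    show piAdd (j (N + 1)) (((N : ℤ) + 1) * r) = _
    have h2 : ((N : ℤ) + 1) * r = (N + 1) • r := by simp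
    rw [h2, map_nsmul]
    simp
  have fac : ∀ N, piAdd (j 0) 1 = (N.factorial : ℤ) * piAdd (j N) 1 := fun N => by
    induction N with
    | zero => simp
    | succ N ih =>
      rw [ih, step N, Nat.factorial_succ]
      push_cast
      ring
  have h0 : piAdd (j 0) 1 = 0 := by
    set c := piAdd (j 0) 1 with hc
    refine Int.eq_zero_of_abs_lt_dvd (m := ((c.natAbs + 1).factorial : ℤ)) ⟨_, fac (c.natAbs + 1)⟩ ?_
    have h3 : c.natAbs + 1 ≤ (c.natAbs + 1).factorial := Nat.self_le_factorial _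
    have h4 : |c| = (c.natAbs : ℤ) := Int.abs_eq_natAbs c
    rw [h4]
    exact_mod_cast h3
  have h5 : (piZeroHA ℤ).symm 1 ≫ j 0 = (piZeroHA ℤ).symm 0 ≫ j 0 := by
    apply (piZeroHA ℤ).injective
    rw [← piAdd_apply, ← piAdd_apply, Equiv.apply_symm_apply, Equiv.apply_symm_apply, h0, map_zero]
  obtain ⟨M, hM⟩ := H.inj 0 0 _ _ h5
  have h6 := congrArg (piZeroHA ℤ) hM
  have h7 : itAdd mulZ 0 M 1 = itAdd mulZ 0 M 0 := by
    have a1 := piZeroHA_seqComp mulZ 0 M ((piZeroHA ℤ).symm 1)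
    have a2 := piZeroHA_seqComp mulZ 0 M ((piZeroHA ℤ).symm 0)
    rw [Equiv.apply_symm_apply] at a1 a2
    exact a1.symm.trans (h6.trans a2)
  exact one_ne_zero (itAdd_mulZ_injective 0 M h7)

end Claimed.Open.R319
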