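import Claimed.Open.R319.SanityPath
import Claimed.Open.R319.SanityConnective

/-!
# Sanity (result 319): **an example of `IsHFp`**: the `Ω`-spectrum `HC 0` is an Eilenberg--Mac Lane spectrum `H𝔽₂`

* `subsingleton_π_HC_of_ne` : `π_k (HC a) = 0` for all `k ≠ a`;
* `natCard_π_HC_zero` : `π_0 (HC 0)` has exactly two elements;
* **`isHFp_two_HC_zero : SH.IsHFp 2 (Q.obj (HC 0))`**;  `not_isHFp_HC`, `isHFp_HC_zero_iff` (non-examples);  `isTotallyFinite_HC_zero` (a non-zero example of `IsTotallyFinite`).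
-/

open CategoryTheory Opposite Simplicial

namespace Claimed.Open.R319

open PSSet

theorem incl_swapRight (A : PSSet) (ε : Fin 2) :
    incl (smash A S1) ε ≫ swapRight A S1 I = smashMap (incl A ε) (𝟙 S1) :=
  NatTrans.ext (funext fun _ => Smash.hom_ext fun _ _ => rfl)

/-- The suspension of a homotopy. -/
theorem PSSet.Homotopic.susp {A X Y : PSSet} {g g' : A ⟶ X} (h : Homotopic g g') (k : smash X S1 ⟶ Y) :
    Homotopic (smashMap g (𝟙 S1) ≫ k) (smashMap g' (𝟙 S1) ≫ k) := by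
  induction h with
  | rel _ _ h =>
    obtain ⟨H, rfl, rfl⟩ := h
    refine .rel _ _ ⟨swapRight A S1 I ≫ smashMap H (𝟙 S1) ≫ k, ?_, ?_⟩
    · rw [← Category.assoc, incl_swapRight, ← Category.assoc, ← smashMap_comp, Category.comp_id]
    · rw [← Category.assoc, incl_swapRight, ← Category.assoc, ← smashMap_comp, Category.comp_id]
  | refl _ => exact .refl _
  | symm _ _ _ ih => exact .symm _ _ ih
  | trans _ _ _ _ _ ih ih' => exact .trans _ _ _ ih ih'

/-- **For `d < k` every pointed map `S^k ⟶ GEM d` is null homotopic.** -/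
theorem Sph_hom_GEM_homotopic_zero (k : ℕ) :
    ∀ (d : ℤ), d < (k : ℤ) → ∀ f : Sph k ⟶ GEM d, PSSet.Homotopic f (zeroMap (Sph k) (GEM d)) := by
  induction k with
  | zero =>
    intro d hd f
    refine homotopic_S0_GEM f (zeroMap S0 (GEM d)) ?_
    exact ((f.app (op ⦋0⦌)).toFun (S0.vertex (op ⦋0⦌))).2.graded 0 _ _ (by
      rw [List.length_nil]
      push_cast at hd ⊢
      omega)
  | succ k ih =>
    intro d hd f
    obtain ⟨g, hg⟩ := σG_ex (d := d - 1) (d' := d) (by ring) (Sph k) f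
    have h1 := (ih (d - 1) (by push_cast at hd; omega) g).susp (σG (d := d - 1) (d' := d) (by ring))
    rw [hg, smashMap_zeroMap_comp (A := Sph k)] at h1
    exact h1

/-- `[S^k, (HC a)_n]` is a point for `k > a + n`. -/
theorem subsingleton_hoClass_HC_of_gt (a : ℤ) (n k : ℕ) (h : a + n < (k : ℤ)) :
    Subsingleton (PSSet.HoClass (Sph k) ((HC a).level n)) :=
  ⟨by
    rintro ⟨f⟩ ⟨g⟩
    have key : ∀ f g : Sph k ⟶ (loopGEM a).spectrum.level n, PSSet.Homotopic f g := fun f g => by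
      refine (loopGEM a).homotopic_level ?_
      have e1 : PSSet.Homotopic (f ≫ (loopGEM a).pr n) (zeroMap (Sph k) (GEM (a + n))) := Sph_hom_GEM_homotopic_zero k _ h _
      have e2 : PSSet.Homotopic (g ≫ (loopGEM a).pr n) (zeroMap (Sph k) (GEM (a + n))) := Sph_hom_GEM_homotopic_zero k _ h _
      exact .trans _ _ _ e1 (.symm _ _ e2)
    exact Quot.sound (key f g)⟩

/-- **`π_k (HC a) = 0` for `k > a`.** -/
theorem subsingleton_π_HC_of_gt (a k : ℤ) (h : a < k) : Subsingleton (SH.π k (Q.obj (HC a))) :=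
  match k, h with
  | Int.ofNat k, h =>
    have := subsingleton_hoClass_HC_of_gt a 0 k (by simpa using h)
    (SH.piEquivNonneg k (HC a) (isOmega_HC a)).subsingleton
  | Int.negSucc k, h =>
    have : Subsingleton (PSSet.HoClass S0 ((HC a).level (k + 1))) := subsingleton_hoClass_HC_of_gt a (k + 1) 0 (by
      rw [Int.negSucc_eq] at h
      push_cast
      omega)
    (SH.piEquivNeg k (HC a) (isOmega_HC a)).subsingleton

/-- **`π_k (HC a) = 0` for `k ≠ a`.** -/
theorem subsingleton_π_HC_of_ne (a k : ℤ) (h : k ≠ a) : Subsingleton (SH.π k (Q.obj (HC a))) := by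
  rcases lt_or_gt_of_ne h with h | h
  · exact subsingleton_π_HC a k h
  · exact subsingleton_π_HC_of_gt a k h

theorem exists_inv0_GEM (d : ℤ) (h : d = 0) : ∃ f : S0 ⟶ GEM d, inv0 (f ≫ gemι d) = 1 := by
  subst h
  exact ⟨fundG, rfl⟩

/-- `[S⁰, (HC a)_n]` has exactly two elements for `a + n = 0`. -/
theorem natCard_hoClass_HC (a : ℤ) (n : ℕ) (h : a + n = 0) : Nat.card (PSSet.HoClass S0 ((HC a).level n)) = 2 := by
  let F : PSSet.HoClass S0 ((loopGEM a).spectrum.level n) → ZMod 2 :=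
    Quot.lift (fun f => inv0 ((f ≫ (loopGEM a).pr n) ≫ gemι (a + n)))
      (fun f g hfg => inv0_eq_of_homotopic ((hfg.postcomp ((loopGEM a).pr n)).postcomp (gemι (a + n))))
  have hF : Function.Bijective F := by
    constructor
    · rintro ⟨f⟩ ⟨g⟩ hfg
      exact Quot.sound ((loopGEM a).homotopic_level (homotopic_S0_GEM (d := a + n) (f ≫ (loopGEM a).pr n) (g ≫ (loopGEM a).pr n) hfg))
    · intro c
      have hc : c = 0 ∨ c = 1 := by
        revert c
        decide
      rcases hc with rfl | rfl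
      · exact ⟨Quot.mk _ (zeroMap S0 _), rfl⟩
      · obtain ⟨f, hf⟩ := exists_inv0_GEM (a + n) h
        exact ⟨Quot.mk _ ((loopGEM a).lift n f), hf⟩
  have := Nat.card_congr (Equiv.ofBijective F hF)
  rw [Nat.card_zmod] at this
  exact this

/-- **`π_0 (HC 0)` has exactly two elements.** -/
theorem natCard_π_HC_zero : Nat.card (SH.π 0 (Q.obj (HC 0))) = 2 :=
  (Nat.card_congr (SH.piEquivNonneg 0 (HC 0) (isOmega_HC 0))).trans (natCard_hoClass_HC 0 0 (by simp))

/-- **`HC 0` is an Eilenberg--Mac Lane spectrum `H𝔽₂` in the sense of `Statement.lean`.** -/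
theorem isHFp_two_HC_zero : SH.IsHFp 2 (Q.obj (HC 0)) :=
  ⟨natCard_π_HC_zero, fun k hk => subsingleton_π_HC_of_ne 0 k hk⟩

theorem exists_isHFp_two : ∃ H : SH, SH.IsHFp 2 H := ⟨_, isHFp_two_HC_zero⟩

/-- The shifts `HC a`, `a ≠ 0`, of `H𝔽₂` are not Eilenberg--Mac Lane spectra `H𝔽_p` (non-zero non-examples). -/
theorem not_isHFp_HC {a : ℤ} (ha : a ≠ 0) (p : ℕ) : ¬ SH.IsHFp p (Q.obj (HC a)) := fun h => by
  obtain ⟨x, y, hxy⟩ := exists_π_HC_ne a
  exact hxy ((h.2 a ha).elim x y)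

/-- `HC 0` is an `H𝔽_p` for `p = 2` only. -/
theorem isHFp_HC_zero_iff (p : ℕ) : SH.IsHFp p (Q.obj (HC 0)) ↔ p = 2 :=
  ⟨fun h => h.1.symm.trans natCard_π_HC_zero, fun h => h ▸ isHFp_two_HC_zero⟩

/-- A non-zero spectrum whose homotopy is finite in total. -/
theorem isTotallyFinite_HC_zero : SH.IsTotallyFinite (Q.obj (HC 0)) := by
  refine ⟨fun k => ?_, 0, fun k hk => subsingleton_π_HC_of_ne 0 k (by
    rintro rfl
    simp at hk)⟩
  by_cases hk : k = 0
  · subst hk
    exact Nat.finite_of_card_ne_zero (by rw [natCard_π_HC_zero]; omega)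
  · have := subsingleton_π_HC_of_ne 0 k hk
    infer_instance

end Claimed.Open.R319
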