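import Claimed.Open.R319.SanityPath
import Claimed.Open.R319.SanityCubeR
import Claimed.Open.R319.SanityGradedR

/-!
# Sanity (result 319): two maps `S⁰ ⟶ GEMR R d` with the same value at the point are homotopic (coefficients in any commutative ring `R`)
(the signed version of `SanityPath.lean`; the model-free part `pathMap`, `S0_hom_ext`, `homotopy_of_path`, `toPt`, ... is taken from there)

The `1`-simplex is the coboundary of `χ ∪ y` (`χ` the indicator of the vertex `1` of `Δ[1]`, front face cup product): with the coboundary `∑_i (-1)^i` this is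
`[nz φ = 0] z + [nz φ = 1] y ∘ δ_0`, with both signs `+`.
-/

open CategoryTheory Opposite Simplicial

namespace Claimed.Open.R319

open PSSet

variable {R : Type} [CommRing R]

/-- `IsGrCocycleR` with the list of the coordinates in reversed order. -/
structure IsRevCocycleR (d : ℤ) {T : SimplexCategory} (w : CochR R T) : Prop where
  vanish : ∀ (m : ℕ) (φ : ⦋m⦌ ⟶ T) (r : List (⦋m⦌ ⟶ ⦋1⦌)), (∃ s ∈ r, ¬ Function.Surjective s.toOrderHom) → w m φ r = 0
  cocycle : ∀ (m : ℕ) (φ : ⦋m + 1⦌ ⟶ T) (r : List (⦋m + 1⦌ ⟶ ⦋1⦌)),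
    ∑ i : Fin (m + 2), (-1 : R) ^ (i : ℕ) * w m (SimplexCategory.δ i ≫ φ) (pbl (SimplexCategory.δ i) r) = 0
  prism : ∀ (m : ℕ) (φ : ⦋m⦌ ⟶ T) (r : List (⦋m⦌ ⟶ ⦋1⦌)),
    w m φ r = ∑ j : Fin (m + 1), (-1 : R) ^ (m + (j : ℕ)) *
      w (m + 1) (SimplexCategory.σ j ≫ φ) (tau j :: pbl (SimplexCategory.σ j) r)
  graded : ∀ (m : ℕ) (φ : ⦋m⦌ ⟶ T) (r : List (⦋m⦌ ⟶ ⦋1⦌)), (m : ℤ) ≠ r.length + d → w m φ r = 0
  normal : ∀ (m : ℕ) (j : Fin (m + 1)) (φ : ⦋m⦌ ⟶ T) (r : List (⦋m⦌ ⟶ ⦋1⦌)),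
    w (m + 1) (SimplexCategory.σ j ≫ φ) (pbl (SimplexCategory.σ j) r) = 0

/-- The same cochain with the lists reversed. -/
def revCochR {T : SimplexCategory} (w : CochR R T) : CochR R T := fun m φ l => w m φ l.reverse

theorem IsRevCocycleR.rev {d : ℤ} {T : SimplexCategory} {w : CochR R T} (h : IsRevCocycleR d w) :
    IsGrCocycleR d (revCochR w) where
  st :=
    { vanish := fun m φ l hl => h.vanish m φ _ (by
        obtain ⟨s, hs, hns⟩ := hl
        exact ⟨s, List.mem_reverse.2 hs, hns⟩)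
      cocycle := fun m φ l => by
        have := h.cocycle m φ l.reverse
        simpa only [revCochR, pbl, List.map_reverse] using this
      prism := fun m φ l => by
        have := h.prism m φ l.reverse
        simpa only [revCochR, pbl, List.map_reverse, List.reverse_append, List.reverse_cons, List.reverse_nil, List.nil_append,
          List.singleton_append] using this }
  graded m φ l hl := h.graded m φ _ (by rwa [List.length_reverse])
  normal m j φ l := by
    have := h.normal m j φ l.reverse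
    simpa only [revCochR, pbl, List.map_reverse] using this

theorem IsGrCocycleR.rev {d : ℤ} {T : SimplexCategory} {z : CochR R T} (h : IsGrCocycleR d z) :
    IsRevCocycleR d (revCochR z) where
  vanish m φ l hl := h.st.vanish m φ _ (by
    obtain ⟨s, hs, hns⟩ := hl
    exact ⟨s, List.mem_reverse.2 hs, hns⟩)
  cocycle m φ l := by
    have := h.st.cocycle m φ l.reverse
    simpa only [revCochR, pbl, List.map_reverse] using this
  prism m φ l := by
    have := h.st.prism m φ l.reverse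
    simpa only [revCochR, pbl, List.map_reverse, List.reverse_append, List.reverse_cons, List.reverse_nil, List.nil_append,
      List.singleton_append, List.reverse_reverse] using this
  graded m φ l hl := h.graded m φ _ (by rwa [List.length_reverse])
  normal m j φ l := by
    have := h.normal m j φ l.reverse
    simpa only [revCochR, pbl, List.map_reverse] using this

/-- A cochain on the point as a cochain on the cubes. -/
def toCubR (w : CochR R ⦋0⦌) : CubR R := fun m r => w m (toPt m) r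

theorem IsRevCocycleR.isCubCochainR {d : ℤ} {w : CochR R ⦋0⦌} (h : IsRevCocycleR d w) : IsCubCochainR (toCubR w) where
  vanish m r hr := h.vanish m _ r hr
  normal m j r := by
    have := h.normal m j (toPt m) r
    rwa [hom_pt_eq (SimplexCategory.σ j ≫ toPt m) (toPt (m + 1))] at this
  prism m r := by
    refine (h.prism m (toPt m) r).trans (Finset.sum_congr rfl fun j _ => ?_)
    rw [hom_pt_eq (SimplexCategory.σ j ≫ toPt m) (toPt (m + 1))]
    rfl

theorem IsRevCocycleR.isCubCobdR {d : ℤ} {w : CochR R ⦋0⦌} (h : IsRevCocycleR d w) : IsCubCobdR (toCubR w) 0 := fun m r => by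
  refine Eq.trans (Finset.sum_congr rfl fun i _ => ?_) (h.cocycle m (toPt (m + 1)) r)
  rw [hom_pt_eq (SimplexCategory.δ i ≫ toPt (m + 1)) (toPt m)]
  rfl

/-! ### The `1`-simplex -/

/-- `y` evaluated at the face opposite to the vertex `0`. -/
def shift0R (y : CubR R) : CubR R := fun m =>
  match m with
  | 0 => fun _ => 0
  | m + 1 => fun r => y m (pbl (SimplexCategory.δ 0) r)

/-- The coboundary of `χ ∪ y`, where `χ` is the indicator of the vertex `1` of `Δ[1]` and `z` is the coboundary of `y`. -/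
noncomputable def cubW0R (z y : CubR R) : CochR R ⦋1⦌ := fun m φ r =>
  (if nz φ = 0 then z m r else 0) + (if nz φ = 1 then shift0R y m r else 0)

theorem cubW0R_cocycle (z y : CubR R) (hzc : IsCubCobdR z 0) (hyz : IsCubCobdR y z) (hz0 : ∀ r, z 0 r = 0)
    (m : ℕ) (φ : ⦋m + 1⦌ ⟶ ⦋1⦌) (r : List (⦋m + 1⦌ ⟶ ⦋1⦌)) :
    ∑ i : Fin (m + 2), (-1 : R) ^ (i : ℕ) * cubW0R z y m (SimplexCategory.δ i ≫ φ) (pbl (SimplexCategory.δ i) r) = 0 := by
  simp only [cubW0R, nz_δ]
  generalize nz φ = c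
  have e : ∀ (m : ℕ) (r : List (⦋m + 2⦌ ⟶ ⦋1⦌)) (i : Fin (m + 2)), shift0R y (m + 1) (pbl (SimplexCategory.δ i.succ) r)
      = y m (pbl (SimplexCategory.δ i) (pbl (SimplexCategory.δ 0) r)) := by
    intro m r i
    show y m (pbl (SimplexCategory.δ 0) (pbl (SimplexCategory.δ i.succ) r)) = _
    rw [pbl_pbl, pbl_pbl, SimplexCategory.δ_comp_δ (Fin.zero_le i)]
    rfl
  rcases c with _ | _ | _ | c
  · simpa using hzc m r
  · rw [Fin.sum_univ_succ]
    have h1 : ∀ i : Fin (m + 1), (-1 : R) ^ ((i.succ : Fin (m + 2)) : ℕ) *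
        ((if (if (i.succ : Fin (m + 2)).val < 0 + 1 then 0 + 1 - 1 else 0 + 1) = 0 then z m (pbl (SimplexCategory.δ i.succ) r) else 0) +
        if (if (i.succ : Fin (m + 2)).val < 0 + 1 then 0 + 1 - 1 else 0 + 1) = 1 then shift0R y m (pbl (SimplexCategory.δ i.succ) r) else 0)
        = - ((-1 : R) ^ (i : ℕ) * shift0R y m (pbl (SimplexCategory.δ i.succ) r)) := by
      intro i
      simp [pow_succ]
    rw [Finset.sum_congr rfl fun i _ => h1 i, Finset.sum_neg_distrib]
    simp only [Fin.val_zero, zero_add, zero_lt_one, if_true, Nat.sub_self, zero_ne_one, if_false, add_zero, pow_zero, one_mul]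
    cases m with
    | zero => simp [shift0R, hz0]
    | succ m =>
      rw [Finset.sum_congr rfl fun i _ => by rw [e m r i], hyz m (pbl (SimplexCategory.δ 0) r)]
      exact add_neg_cancel _
  · rw [Fin.sum_univ_succ]
    cases m with
    | zero => simp [shift0R]
    | succ m =>
      rw [Fin.sum_univ_succ]
      have h1 : ∀ i : Fin (m + 1), (-1 : R) ^ ((i.succ.succ : Fin (m + 3)) : ℕ) *
          ((if (if (i.succ.succ : Fin (m + 3)).val < 0 + 1 + 1 then 0 + 1 + 1 - 1 else 0 + 1 + 1) = 0 then z (m + 1) (pbl (SimplexCategory.δ i.succ.succ) r) else 0) +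
          if (if (i.succ.succ : Fin (m + 3)).val < 0 + 1 + 1 then 0 + 1 + 1 - 1 else 0 + 1 + 1) = 1 then shift0R y (m + 1) (pbl (SimplexCategory.δ i.succ.succ) r) else 0)
          = 0 := by
        intro i
        simp
      rw [Finset.sum_congr rfl fun i _ => h1 i, Finset.sum_const_zero, add_zero]
      have h2 : shift0R y (m + 1) (pbl (SimplexCategory.δ (0 : Fin (m + 3))) r) = shift0R y (m + 1) (pbl (SimplexCategory.δ (Fin.succ 0 : Fin (m + 3))) r) := by
        show y m (pbl (SimplexCategory.δ 0) (pbl (SimplexCategory.δ 0) r)) = y m (pbl (SimplexCategory.δ 0) (pbl (SimplexCategory.δ (Fin.succ 0)) r))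
        rw [pbl_pbl, pbl_pbl]
        have := SimplexCategory.δ_comp_δ_self (n := m) (i := 0)
        rw [← this]
        rfl
      simp only [Fin.val_zero, Fin.val_succ]
      simp
      rw [h2]
      exact add_neg_cancel _
  · refine Finset.sum_eq_zero fun i _ => ?_
    have h1 : ¬ ((if i.val < c + 1 + 1 + 1 then c + 1 + 1 + 1 - 1 else c + 1 + 1 + 1) = 0) := by split_ifs <;> simp
    have h2 : ¬ ((if i.val < c + 1 + 1 + 1 then c + 1 + 1 + 1 - 1 else c + 1 + 1 + 1) = 1) := by split_ifs <;> simp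
    rw [if_neg h1, if_neg h2, add_zero, mul_zero]

theorem shift0R_vanish (y : CubR R) (hy : IsCubCochainR y) (m : ℕ) (r : List (⦋m⦌ ⟶ ⦋1⦌))
    (h : ∃ s ∈ r, ¬ Function.Surjective s.toOrderHom) : shift0R y m r = 0 := by
  cases m with
  | zero => rfl
  | succ m =>
    obtain ⟨s, hs, hns⟩ := h
    exact hy.vanish m _ ⟨SimplexCategory.δ 0 ≫ s, List.mem_map.2 ⟨s, hs, rfl⟩, fun h => hns (Function.Surjective.of_comp h)⟩

theorem cubW0R_vanish (z y : CubR R) (hz : IsCubCochainR z) (hy : IsCubCochainR y) (m : ℕ) (φ : ⦋m⦌ ⟶ ⦋1⦌) (r : List (⦋m⦌ ⟶ ⦋1⦌))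
    (h : ∃ s ∈ r, ¬ Function.Surjective s.toOrderHom) : cubW0R z y m φ r = 0 := by
  simp only [cubW0R, hz.vanish m r h, shift0R_vanish y hy m r h, ite_self, add_zero]

theorem cubW0R_normal (z y : CubR R) (hz : IsCubCochainR z) (hy : IsCubCochainR y) (m : ℕ) (j : Fin (m + 1)) (φ : ⦋m⦌ ⟶ ⦋1⦌)
    (r : List (⦋m⦌ ⟶ ⦋1⦌)) : cubW0R z y (m + 1) (SimplexCategory.σ j ≫ φ) (pbl (SimplexCategory.σ j) r) = 0 := by
  simp only [cubW0R, hz.normal m j r, ite_self, zero_add, nz_σ]
  split_ifs with h1 h2 h2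
  · omega
  · rfl
  · have hj : j ≠ 0 := by
      rintro rfl
      simp at h1
      omega
    cases m with
    | zero => exact absurd (Subsingleton.elim (α := Fin 1) j 0) hj
    | succ m =>
      obtain ⟨j', rfl⟩ := Fin.exists_succ_eq.2 hj
      show y (m + 1) (pbl (SimplexCategory.δ 0) (pbl (SimplexCategory.σ j'.succ) r)) = 0
      have e := SimplexCategory.δ_comp_σ_of_le (i := 0) (j := j') (Fin.zero_le _)
      rw [pbl_pbl]
      have e' : SimplexCategory.δ (0 : Fin (m + 3)) ≫ SimplexCategory.σ j'.succ = SimplexCategory.σ j' ≫ SimplexCategory.δ 0 := e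
      rw [e', ← pbl_pbl]
      exact hy.normal m j' _
  · rfl

theorem cubW0R_prism (z y : CubR R) (hz : IsCubCochainR z) (hy : IsCubCochainR y) (m : ℕ) (φ : ⦋m⦌ ⟶ ⦋1⦌) (r : List (⦋m⦌ ⟶ ⦋1⦌)) :
    cubW0R z y m φ r = ∑ j : Fin (m + 1), (-1 : R) ^ (m + (j : ℕ)) *
      cubW0R z y (m + 1) (SimplexCategory.σ j ≫ φ) (tau j :: pbl (SimplexCategory.σ j) r) := by
  simp only [cubW0R, nz_σ]
  generalize nz φ = c
  rcases c with _ | _ | c
  · simpa using hz.prism m r
  · rw [Fin.sum_univ_succ]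
    have h1 : ∀ j : Fin m, (-1 : R) ^ (m + ((j.succ : Fin (m + 1)) : ℕ)) *
        ((if (if (j.succ : Fin (m + 1)).val < 0 + 1 then 0 + 1 + 1 else 0 + 1) = 0 then
          z (m + 1) (tau j.succ :: pbl (SimplexCategory.σ j.succ) r) else 0) +
        if (if (j.succ : Fin (m + 1)).val < 0 + 1 then 0 + 1 + 1 else 0 + 1) = 1 then
          shift0R y (m + 1) (tau j.succ :: pbl (SimplexCategory.σ j.succ) r) else 0)
        = (-1 : R) ^ (m + ((j.succ : Fin (m + 1)) : ℕ)) * shift0R y (m + 1) (tau j.succ :: pbl (SimplexCategory.σ j.succ) r) := by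
      intro j
      simp
    rw [Finset.sum_congr rfl fun j _ => h1 j]
    simp only [Fin.val_zero, zero_add, zero_lt_one, if_true, one_ne_zero, if_false]
    simp only [show ¬ ((1 : ℕ) + 1 = 0) by omega, show ¬ ((1 : ℕ) + 1 = 1) by omega, if_false, zero_add, add_zero, mul_zero]
    cases m with
    | zero => simp [shift0R]
    | succ m =>
      show y m (pbl (SimplexCategory.δ 0) r) = _
      rw [hy.prism m (pbl (SimplexCategory.δ 0) r)]
      refine Finset.sum_congr rfl fun j _ => ?_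
      show _ = _ * y (m + 1) (pbl (SimplexCategory.δ 0) (tau j.succ :: pbl (SimplexCategory.σ j.succ) r))
      have e' : SimplexCategory.δ (0 : Fin (m + 3)) ≫ SimplexCategory.σ j.succ = SimplexCategory.σ j ≫ SimplexCategory.δ 0 :=
        SimplexCategory.δ_comp_σ_of_le (i := 0) (j := j) (Fin.zero_le _)
      show _ = _ * y (m + 1) ((SimplexCategory.δ 0 ≫ tau j.succ) :: pbl (SimplexCategory.δ 0) (pbl (SimplexCategory.σ j.succ) r))
      rw [δ_zero_tau_succ, pbl_pbl, pbl_pbl, e', Fin.val_succ]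
      congr 1
      rw [show m + 1 + ((j : ℕ) + 1) = (m + (j : ℕ)) + 2 by ring, pow_add _ _ 2, neg_one_sq, mul_one]
  · symm
    have h0 : (if c + 1 + 1 = 0 then z m r else 0) + (if c + 1 + 1 = 1 then shift0R y m r else 0) = 0 := by simp
    rw [h0]
    refine Finset.sum_eq_zero fun j _ => ?_
    have h1 : ¬ ((if j.val < c + 1 + 1 then c + 1 + 1 + 1 else c + 1 + 1) = 0) := by split_ifs <;> simp
    have h2 : ¬ ((if j.val < c + 1 + 1 then c + 1 + 1 + 1 else c + 1 + 1) = 1) := by split_ifs <;> simp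
    rw [if_neg h1, if_neg h2, add_zero, mul_zero]

/-- The homogeneous part of degree `d` of `cubW0R`. -/
noncomputable def cubWR (d : ℤ) (z y : CubR R) : CochR R ⦋1⦌ := fun m φ r =>
  if (m : ℤ) = r.length + d then cubW0R z y m φ r else 0

theorem cubWR_isRev (d : ℤ) (z y : CubR R) (hz : IsCubCochainR z) (hzc : IsCubCobdR z 0) (hy : IsCubCochainR y)
    (hyz : IsCubCobdR y z) (hz0 : ∀ r, z 0 r = 0) : IsRevCocycleR d (cubWR d z y) where
  vanish m φ r h := by simp only [cubWR, cubW0R_vanish z y hz hy m φ r h, ite_self]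
  cocycle m φ r := by
    simp only [cubWR, pbl, List.length_map]
    by_cases h : (m : ℤ) = r.length + d
    · simp only [if_pos h]
      exact cubW0R_cocycle z y hzc hyz hz0 m φ r
    · simp only [if_neg h, mul_zero, Finset.sum_const_zero]
  prism m φ r := by
    simp only [cubWR, pbl, List.length_cons, List.length_map]
    by_cases h : (m : ℤ) = r.length + d
    · have h' : ((m + 1 : ℕ) : ℤ) = ((r.length + 1 : ℕ) : ℤ) + d := by push_cast; omega
      simp only [if_pos h, if_pos h']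
      exact cubW0R_prism z y hz hy m φ r
    · have h' : ¬ ((m + 1 : ℕ) : ℤ) = ((r.length + 1 : ℕ) : ℤ) + d := by push_cast; omega
      simp only [if_neg h, if_neg h', mul_zero, Finset.sum_const_zero]
  graded m φ r h := if_neg h
  normal m j φ r := by simp only [cubWR, cubW0R_normal z y hz hy m j φ r, ite_self]

/-! ### The components of `GEMR R d` -/

theorem cubWR_const_one (d : ℤ) (z y : CubR R) (hgr : ∀ (m : ℕ) (r : List (⦋m⦌ ⟶ ⦋1⦌)), (m : ℤ) ≠ r.length + d → z m r = 0)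
    (m : ℕ) (r : List (⦋m⦌ ⟶ ⦋1⦌)) : cubWR d z y m (prismTheta 0) r = z m r := by
  unfold cubWR cubW0R
  rw [nz_theta (Nat.zero_le _)]
  by_cases h : (m : ℤ) = r.length + d
  · simp [h]
  · rw [if_neg h, hgr m r h]

theorem cubWR_const_zero (d : ℤ) (z y : CubR R) (m : ℕ) (r : List (⦋m⦌ ⟶ ⦋1⦌)) : cubWR d z y m (prismTheta (m + 1)) r = 0 := by
  unfold cubWR cubW0R
  rw [nz_theta le_rfl]
  cases m with
  | zero => simp [shift0R]
  | succ m => simp

/-- **Two maps `S⁰ ⟶ GEMR R d` with the same value at the point are homotopic.** -/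
theorem homotopic_S0_GEMR {d : ℤ} (f g : S0 ⟶ GEMR R d)
    (h0 : ((f.app (op ⦋0⦌)).toFun (S0.vertex (op ⦋0⦌))).1 0 (𝟙 _) [] = ((g.app (op ⦋0⦌)).toFun (S0.vertex (op ⦋0⦌))).1 0 (𝟙 _) []) :
    PSSet.Homotopic f g := by
  obtain ⟨zf, hzf⟩ : ∃ zf : (GEMR R d).obj (op ⦋0⦌), zf = (f.app (op ⦋0⦌)).toFun (S0.vertex (op ⦋0⦌)) := ⟨_, rfl⟩
  obtain ⟨zg, hzg⟩ : ∃ zg : (GEMR R d).obj (op ⦋0⦌), zg = (g.app (op ⦋0⦌)).toFun (S0.vertex (op ⦋0⦌)) := ⟨_, rfl⟩
  rw [← hzf, ← hzg] at h0
  have hz : IsGrCocycleR d (T := ⦋0⦌) (zf.1 - zg.1) := (grCocyclesR R d ⦋0⦌).sub_mem zf.2 zg.2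
  obtain ⟨z, hzdef⟩ : ∃ z : CochR R ⦋0⦌, z = zf.1 - zg.1 := ⟨_, rfl⟩
  rw [← hzdef] at hz
  have hzr := hz.rev
  have h1 := hzr.isCubCochainR
  have h2 := hzr.isCubCobdR
  have h00 : toCubR (revCochR z) 0 [] = 0 := by
    show z 0 (toPt 0) [] = 0
    rw [hzdef, hom_pt_eq (toPt 0) (𝟙 _)]
    show zf.1 0 (𝟙 _) [] - zg.1 0 (𝟙 _) [] = 0
    rw [h0]
    exact sub_self _
  have h0r : ∀ r, toCubR (revCochR z) 0 r = 0 := by
    intro r
    cases r with
    | nil => exact h00
    | cons s r =>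
      refine h1.vanish 0 _ ⟨s, List.mem_cons_self, fun hs => ?_⟩
      have := (surjective_iff_nz s).1 hs
      omega
  have hy := cubYR_isCubCochainR _ h1
  have hyz := cubYR_cobd _ h1 h2 h00
  have hw := (cubWR_isRev d _ _ h1 h2 hy hyz h0r).rev
  have hg' : IsGrCocycleR d (T := ⦋1⦌) fun m φ l => zg.1 m (φ ≫ toPt 1) l := IsGrCocycleR.comp zg.2 (toPt 1)
  let x : (GEMR R d).obj (op ⦋1⦌) := ⟨_, (grCocyclesR R d ⦋1⦌).add_mem hw hg'⟩
  refine .symm _ _ (.rel _ _ (homotopy_of_path x ?_ ?_))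
  · rw [← hzg]
    refine Subtype.ext (funext fun m => funext fun φ => funext fun l => ?_)
    show cubWR d (toCubR (revCochR z)) (cubYR (toCubR (revCochR z))) m (φ ≫ (⦋0⦌ : SimplexCategory).const ⦋1⦌ 0) l.reverse
      + zg.1 m ((φ ≫ (⦋0⦌ : SimplexCategory).const ⦋1⦌ 0) ≫ toPt 1) l = zg.1 m φ l
    rw [comp_const_zero, cubWR_const_zero, zero_add, hom_pt_eq (prismTheta (m + 1) ≫ toPt 1) φ]
  · rw [← hzf]
    refine Subtype.ext (funext fun m => funext fun φ => funext fun l => ?_)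
    show cubWR d (toCubR (revCochR z)) (cubYR (toCubR (revCochR z))) m (φ ≫ (⦋0⦌ : SimplexCategory).const ⦋1⦌ 1) l.reverse
      + zg.1 m ((φ ≫ (⦋0⦌ : SimplexCategory).const ⦋1⦌ 1) ≫ toPt 1) l = zf.1 m φ l
    have hgr : ∀ (m : ℕ) (r : List (⦋m⦌ ⟶ ⦋1⦌)), (m : ℤ) ≠ r.length + d → toCubR (revCochR z) m r = 0 :=
      fun m r h => hzr.graded m _ r h
    rw [comp_const_one, cubWR_const_one d (toCubR (revCochR z)) _ hgr, hom_pt_eq (prismTheta 0 ≫ toPt 1) φ]
    show z m (toPt m) l.reverse.reverse + zg.1 m φ l = zf.1 m φ l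
    rw [List.reverse_reverse, hom_pt_eq (toPt m) φ, hzdef]
    show (zf.1 m φ l - zg.1 m φ l) + zg.1 m φ l = zf.1 m φ l
    exact sub_add_cancel _ _

end Claimed.Open.R319
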