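import Claimed.Open.R319.SanityHF2
import Claimed.Open.R319.SanityPathR
import Claimed.Open.R319.SanityConnectiveR

/-!
# Sanity (result 319): **examples of `IsHFp p` for EVERY prime `p`**: the `Ω`-spectrum `HCR (ZMod p) 0` is an Eilenberg--Mac Lane spectrum `H𝔽_p`
(the version with coefficients in a commutative ring `R` of `SanityHF2.lean`)

* `subsingleton_π_HCR_of_ne` : `π_k (HCR R a) = 0` for all `k ≠ a`;
* `piZeroEquivHCR` : `π_0 (HCR R 0) ≃ R`;  `natCard_π_HCR_zero` : `Nat.card (π_0 (HCR R 0)) = Nat.card R`;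
* **`isHFp_HCR_zero (p) : SH.IsHFp p (Q.obj (HCR (ZMod p) 0))`**, `exists_isHFp (p) : ∃ H, SH.IsHFp p H`;
* `isTotallyFinite_HCR_zero` (`R` finite).
-/

open CategoryTheory Opposite Simplicial

namespace Claimed.Open.R319

open PSSet

variable {R : Type} [CommRing R]

/-- **For `d < k` every pointed map `S^k ⟶ GEMR R d` is null homotopic.** -/
theorem Sph_hom_GEMR_homotopic_zero (k : ℕ) :
    ∀ (d : ℤ), d < (k : ℤ) → ∀ f : Sph k ⟶ GEMR R d, PSSet.Homotopic f (zeroMap (Sph k) (GEMR R d)) := by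
  induction k with
  | zero =>
    intro d hd f
    refine homotopic_S0_GEMR f (zeroMap S0 (GEMR R d)) ?_
    exact ((f.app (op ⦋0⦌)).toFun (S0.vertex (op ⦋0⦌))).2.graded 0 _ _ (by
      rw [List.length_nil]
      push_cast at hd ⊢
      omega)
  | succ k ih =>
    intro d hd f
    obtain ⟨g, hg⟩ := σGR_ex (d := d - 1) (d' := d) (by ring) (Sph k) f
    have h1 := (ih (d - 1) (by push_cast at hd; omega) g).susp (σGR R (d := d - 1) (d' := d) (by ring))
    rw [hg, smashMap_zeroMap_comp (A := Sph k)] at h1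
    exact h1

variable (R)

/-- `[S^k, (HCR R a)_n]` is a point for `k > a + n`. -/
theorem subsingleton_hoClass_HCR_of_gt (a : ℤ) (n k : ℕ) (h : a + n < (k : ℤ)) :
    Subsingleton (PSSet.HoClass (Sph k) ((HCR R a).level n)) :=
  ⟨by
    rintro ⟨f⟩ ⟨g⟩
    have key : ∀ f g : Sph k ⟶ (loopGEMR R a).spectrum.level n, PSSet.Homotopic f g := fun f g => by
      refine (loopGEMR R a).homotopic_level ?_
      have e1 : PSSet.Homotopic (f ≫ (loopGEMR R a).pr n) (zeroMap (Sph k) (GEMR R (a + n))) :=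
        Sph_hom_GEMR_homotopic_zero k _ h _
      have e2 : PSSet.Homotopic (g ≫ (loopGEMR R a).pr n) (zeroMap (Sph k) (GEMR R (a + n))) :=
        Sph_hom_GEMR_homotopic_zero k _ h _
      exact .trans _ _ _ e1 (.symm _ _ e2)
    exact Quot.sound (key f g)⟩

/-- **`π_k (HCR R a) = 0` for `k > a`.** -/
theorem subsingleton_π_HCR_of_gt (a k : ℤ) (h : a < k) : Subsingleton (SH.π k (Q.obj (HCR R a))) :=
  match k, h with
  | Int.ofNat k, h =>
    have := subsingleton_hoClass_HCR_of_gt R a 0 k (by simpa using h)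
    (SH.piEquivNonneg k (HCR R a) (isOmega_HCR R a)).subsingleton
  | Int.negSucc k, h =>
    have : Subsingleton (PSSet.HoClass S0 ((HCR R a).level (k + 1))) := subsingleton_hoClass_HCR_of_gt R a (k + 1) 0 (by
      rw [Int.negSucc_eq] at h
      push_cast
      omega)
    (SH.piEquivNeg k (HCR R a) (isOmega_HCR R a)).subsingleton

/-- **`π_k (HCR R a) = 0` for `k ≠ a`.** -/
theorem subsingleton_π_HCR_of_ne (a k : ℤ) (h : k ≠ a) : Subsingleton (SH.π k (Q.obj (HCR R a))) := by
  rcases lt_or_gt_of_ne h with h | h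
  · exact subsingleton_π_HCR R a k h
  · exact subsingleton_π_HCR_of_gt R a k h

variable {R}

/-- A multiple of a normalized stable cocycle of degree `d`. -/
theorem IsGrCocycleR.smul {d : ℤ} {T : SimplexCategory} {z : CochR R T} (hz : IsGrCocycleR d z) (c : R) :
    IsGrCocycleR d (T := T) fun m φ l => c * z m φ l where
  st :=
    { vanish := fun m φ l h => by rw [hz.st.vanish m φ l h, mul_zero]
      cocycle := fun m φ l => by
        have h := congrArg (fun x => c * x) (hz.st.cocycle m φ l)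
        simp only [mul_zero, Finset.mul_sum] at h
        rw [← h]
        exact Finset.sum_congr rfl fun i _ => mul_left_comm _ _ _
      prism := fun m φ l => by
        have h := congrArg (fun x => c * x) (hz.st.prism m φ l)
        simp only [Finset.mul_sum] at h
        rw [h]
        exact Finset.sum_congr rfl fun i _ => mul_left_comm _ _ _ }
  graded m φ l h := by rw [hz.graded m φ l h, mul_zero]
  normal m j φ l := by rw [hz.normal m j φ l, mul_zero]

/-- The multiplication by `c ∈ R` on `GEMR R d`. -/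
def smulGR (c : R) (d : ℤ) : GEMR R d ⟶ GEMR R d where
  app _ := ⟨fun z => ⟨fun m φ l => c * z.1 m φ l, z.2.smul c⟩,
    Subtype.ext (funext fun _ => funext fun _ => funext fun _ => mul_zero c)⟩
  naturality _ _ _ := rfl

theorem exists_inv0R_GEMR (d : ℤ) (h : d = 0) (c : R) : ∃ f : S0 ⟶ GEMR R d, inv0R (f ≫ gemιR R d) = c := by
  subst h
  exact ⟨fundGR R ≫ smulGR c 0, mul_one c⟩

variable (R)

/-- `[S⁰, (HCR R a)_n] ≃ R` for `a + n = 0`: the value at the point. -/
theorem exists_hoClass_HCR_equiv (a : ℤ) (n : ℕ) (h : a + n = 0) : Nonempty (PSSet.HoClass S0 ((HCR R a).level n) ≃ R) := by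
  let F : PSSet.HoClass S0 ((loopGEMR R a).spectrum.level n) → R :=
    Quot.lift (fun f => inv0R ((f ≫ (loopGEMR R a).pr n) ≫ gemιR R (a + n)))
      (fun f g hfg => inv0R_eq_of_homotopic ((hfg.postcomp ((loopGEMR R a).pr n)).postcomp (gemιR R (a + n))))
  have hF : Function.Bijective F := by
    constructor
    · rintro ⟨f⟩ ⟨g⟩ hfg
      exact Quot.sound ((loopGEMR R a).homotopic_level
        (homotopic_S0_GEMR (d := a + n) (f ≫ (loopGEMR R a).pr n) (g ≫ (loopGEMR R a).pr n) hfg))
    · intro c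
      obtain ⟨f, hf⟩ := exists_inv0R_GEMR (a + n) h c
      exact ⟨Quot.mk _ ((loopGEMR R a).lift n f), hf⟩
  exact ⟨Equiv.ofBijective F hF⟩

/-- **`π_0 (HCR R 0) ≃ R`.** -/
noncomputable def piZeroEquivHCR : SH.π 0 (Q.obj (HCR R 0)) ≃ R :=
  (SH.piEquivNonneg 0 (HCR R 0) (isOmega_HCR R 0)).trans (exists_hoClass_HCR_equiv R 0 0 (by simp)).some

theorem natCard_π_HCR_zero : Nat.card (SH.π 0 (Q.obj (HCR R 0))) = Nat.card R :=
  Nat.card_congr (piZeroEquivHCR R)

/-- **`HCR (ZMod p) 0` is an Eilenberg--Mac Lane spectrum `H𝔽_p` in the sense of `Statement.lean`** (for every `p`; the primes are the case of interest). -/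
theorem isHFp_HCR_zero (p : ℕ) : SH.IsHFp p (Q.obj (HCR (ZMod p) 0)) :=
  ⟨(natCard_π_HCR_zero (ZMod p)).trans (Nat.card_zmod p), fun k hk => subsingleton_π_HCR_of_ne (ZMod p) 0 k hk⟩

/-- **`IsHFp p` has an example for every `p`.** -/
theorem exists_isHFp (p : ℕ) : ∃ H : SH, SH.IsHFp p H := ⟨_, isHFp_HCR_zero p⟩

/-- Spectra whose homotopy is finite in total. -/
theorem isTotallyFinite_HCR_zero [Finite R] : SH.IsTotallyFinite (Q.obj (HCR R 0)) := by
  refine ⟨fun k => ?_, 0, fun k hk => subsingleton_π_HCR_of_ne R 0 k (by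
    rintro rfl
    simp at hk)⟩
  by_cases hk : k = 0
  · subst hk
    exact Finite.of_equiv R (piZeroEquivHCR R).symm
  · have := subsingleton_π_HCR_of_ne R 0 k hk
    infer_instance

end Claimed.Open.R319
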