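import Claimed.Open.R319.SanityHF2R

/-!
# Sanity (result 319): all the homotopy groups of the spectra `HCR R a`; non-examples of `IsHFp` and of `IsTotallyFinite`

* `LoopSeq.hoClassSusp`, `LoopSeq.hoClassLevel`, `LoopSeq.hoClassSph` : for a sequence of strict loop objects, `[A, E_i] ≃ [A ∧ S¹, E_{i+1}]`, `[A, level n] ≃ [A, E_n]`,
  `[S⁰, E_0] ≃ [S^k, E_k]`;
* **`piEquivHCR R a : π_a (HCR R a) ≃ R` for every `a ∈ ℤ`** (with `subsingleton_π_HCR_of_ne` : all the homotopy groups of `HCR R a = Σ^a HR` as sets);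
* **`isHFp_HCR_zero_iff : IsHFp q (HCR (ZMod p) 0) ↔ q = p`**, `isHFp_HCR_iff_of_nontrivial` (`IsHFp q (HCR R a) ↔ a = 0 ∧ Nat.card R = q`), `not_isHFp_HCR` (`a ≠ 0`),
  `not_isHFp_HCR_int` (`Hℤ` is not an `H𝔽_q`, `q ≠ 0`);
* **`isTotallyFinite_HCR_iff : IsTotallyFinite (HCR R a) ↔ Finite R`**, `not_isTotallyFinite_HCR_int`;
* **`HCR_iso_iff : HCR R a ≅ HCR R b` in `SH` iff `a = b`** (`R` non-trivial), `HCR_zmod_iso_iff : H𝔽_p ≅ H𝔽_q` iff `p = q`.
-/

open CategoryTheory Opposite Simplicial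

namespace Claimed.Open.R319

open PSSet

namespace LoopSeq

variable (L : LoopSeq)

/-- `[A, E_i] ≃ [A ∧ S¹, E_{i+1}]`. -/
noncomputable def hoClassSusp (i : ℕ) (A : PSSet) : PSSet.HoClass A (L.E i) ≃ PSSet.HoClass (smash A S1) (L.E (i + 1)) where
  toFun := Quot.map (fun g => smashMap g (𝟙 S1) ≫ L.σ i) fun _ _ h => h.susp (L.σ i)
  invFun := Quot.map (fun h => L.adj i h) fun _ _ h => L.adj_homotopic i h
  left_inv := by
    rintro ⟨g⟩
    exact congrArg (Quot.mk _) (L.adj_σ i g)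
  right_inv := by
    rintro ⟨h⟩
    exact congrArg (Quot.mk _) (L.adj_spec i h)

/-- `[A, level n] ≃ [A, E_n]`. -/
noncomputable def hoClassLevel (n : ℕ) (A : PSSet) : PSSet.HoClass A (L.spectrum.level n) ≃ PSSet.HoClass A (L.E n) where
  toFun := Quot.map (fun f => f ≫ L.pr n) fun _ _ h => h.postcomp _
  invFun := Quot.map (fun a => L.lift n a) fun _ _ h => L.homotopic_level h
  left_inv := by
    rintro ⟨f⟩
    exact Quot.sound (L.homotopic_level (.refl _))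
  right_inv := by
    rintro ⟨a⟩
    rfl

/-- `[S⁰, E_0] ≃ [S^k, E_k]`. -/
noncomputable def hoClassSph (k : ℕ) : PSSet.HoClass S0 (L.E 0) ≃ PSSet.HoClass (Sph k) (L.E k) :=
  match k with
  | 0 => Equiv.refl _
  | k + 1 => (hoClassSph k).trans (L.hoClassSusp k (Sph k))

end LoopSeq

variable (R : Type) [CommRing R]

/-- `[S^k, GEMR R d] ≃ R` for `d = k`. -/
theorem exists_hoClass_Sph_GEMR_equiv (k : ℕ) (d : ℤ) (h : d = 0 + (k : ℤ)) : Nonempty (PSSet.HoClass (Sph k) (GEMR R d) ≃ R) := by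
  subst h
  exact ⟨((loopGEMR R 0).hoClassSph k).symm.trans
    (((loopGEMR R 0).hoClassLevel 0 S0).symm.trans (exists_hoClass_HCR_equiv R 0 0 (by simp)).some)⟩

/-- `[S^k, (HCR R a)_n] ≃ R` for `a + n = k`. -/
theorem exists_hoClass_Sph_HCR_equiv (a : ℤ) (n k : ℕ) (h : a + n = k) :
    Nonempty (PSSet.HoClass (Sph k) ((HCR R a).level n) ≃ R) :=
  ⟨((loopGEMR R a).hoClassLevel n (Sph k)).trans (exists_hoClass_Sph_GEMR_equiv R k (a + n) (by rw [h, zero_add])).some⟩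

/-- **`π_a (HCR R a) ≃ R` for every `a ∈ ℤ`.** -/
noncomputable def piEquivHCR (a : ℤ) : SH.π a (Q.obj (HCR R a)) ≃ R :=
  match a with
  | Int.ofNat k => (SH.piEquivNonneg k (HCR R (Int.ofNat k)) (isOmega_HCR R _)).trans
      (exists_hoClass_Sph_HCR_equiv R (Int.ofNat k) 0 k (by simp)).some
  | Int.negSucc k => (SH.piEquivNeg k (HCR R (Int.negSucc k)) (isOmega_HCR R _)).trans
      (exists_hoClass_HCR_equiv R (Int.negSucc k) (k + 1) (by
        rw [Int.negSucc_eq]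
        push_cast
        ring)).some

theorem natCard_π_HCR (a : ℤ) : Nat.card (SH.π a (Q.obj (HCR R a))) = Nat.card R := Nat.card_congr (piEquivHCR R a)

theorem nontrivial_π_HCR [Nontrivial R] (a : ℤ) : Nontrivial (SH.π a (Q.obj (HCR R a))) := (piEquivHCR R a).nontrivial

/-- `π_k (HCR R a) = 0` iff `k ≠ a` (`R` non-trivial). -/
theorem subsingleton_π_HCR_iff [Nontrivial R] (a k : ℤ) : Subsingleton (SH.π k (Q.obj (HCR R a))) ↔ k ≠ a := by
  constructor
  · rintro h rfl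
    have := nontrivial_π_HCR R k
    exact false_of_nontrivial_of_subsingleton (SH.π k (Q.obj (HCR R k)))
  · exact subsingleton_π_HCR_of_ne R a k

/-! ### `IsHFp` -/

/-- `Σ^a HR` is not an `H𝔽_q` for `a ≠ 0`. -/
theorem not_isHFp_HCR [Nontrivial R] {a : ℤ} (ha : a ≠ 0) (q : ℕ) : ¬ SH.IsHFp q (Q.obj (HCR R a)) := fun h =>
  (subsingleton_π_HCR_iff R a a).1 (h.2 a ha) rfl

/-- `IsHFp q (HCR R 0)` iff `R` has `q` elements. -/
theorem isHFp_HCR_zero_iff_card (q : ℕ) : SH.IsHFp q (Q.obj (HCR R 0)) ↔ Nat.card R = q :=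
  ⟨fun h => (natCard_π_HCR_zero R).symm.trans h.1,
    fun h => ⟨(natCard_π_HCR_zero R).trans h, fun k hk => subsingleton_π_HCR_of_ne R 0 k hk⟩⟩

theorem isHFp_HCR_iff_of_nontrivial [Nontrivial R] (a : ℤ) (q : ℕ) :
    SH.IsHFp q (Q.obj (HCR R a)) ↔ a = 0 ∧ Nat.card R = q := by
  constructor
  · intro h
    have ha : a = 0 := by_contra fun ha => not_isHFp_HCR R ha q h
    subst ha
    exact ⟨rfl, (isHFp_HCR_zero_iff_card R q).1 h⟩
  · rintro ⟨rfl, h⟩
    exact (isHFp_HCR_zero_iff_card R q).2 h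

/-- **`H𝔽_p` is an `H𝔽_q` iff `q = p`.** -/
theorem isHFp_HCR_zero_iff (p q : ℕ) : SH.IsHFp q (Q.obj (HCR (ZMod p) 0)) ↔ q = p := by
  rw [isHFp_HCR_zero_iff_card, Nat.card_zmod]
  exact eq_comm

/-- `Hℤ` is not an `H𝔽_q`, `q ≠ 0`. -/
theorem not_isHFp_HCR_int {q : ℕ} (hq : q ≠ 0) : ¬ SH.IsHFp q (Q.obj (HCR ℤ 0)) := fun h =>
  hq (((isHFp_HCR_zero_iff_card ℤ q).1 h).symm.trans Nat.card_eq_zero_of_infinite)

/-! ### `IsTotallyFinite` -/

/-- **`π_* (Σ^a HR)` is finite in total iff `R` is finite.** -/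
theorem isTotallyFinite_HCR_iff (a : ℤ) : SH.IsTotallyFinite (Q.obj (HCR R a)) ↔ Finite R := by
  constructor
  · intro h
    have := h.1 a
    exact Finite.of_equiv _ (piEquivHCR R a)
  · intro hR
    refine ⟨fun k => ?_, |a|, fun k hk => subsingleton_π_HCR_of_ne R a k (by
      rintro rfl
      exact lt_irrefl _ hk)⟩
    by_cases hk : k = a
    · subst hk
      exact Finite.of_equiv R (piEquivHCR R k).symm
    · have := subsingleton_π_HCR_of_ne R a k hk
      infer_instance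

/-- The homotopy of `Σ^a Hℤ` is not finite in total. -/
theorem not_isTotallyFinite_HCR_int (a : ℤ) : ¬ SH.IsTotallyFinite (Q.obj (HCR ℤ a)) := fun h =>
  have := (isTotallyFinite_HCR_iff ℤ a).1 h
  not_finite ℤ

/-! ### Isomorphisms -/

/-- **The spectra `Σ^a HR`, `a ∈ ℤ`, are pairwise not isomorphic in `SH`.** -/
theorem HCR_iso_iff [Nontrivial R] (a b : ℤ) : Nonempty (Q.obj (HCR R a) ≅ Q.obj (HCR R b)) ↔ a = b := by
  constructor
  · rintro ⟨e⟩
    by_contra hab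
    have := subsingleton_π_HCR_of_ne R b a hab
    obtain ⟨x, y, hxy⟩ := (nontrivial_π_HCR R a).exists_pair_ne
    have h : x ≫ e.hom = y ≫ e.hom := Subsingleton.elim (α := SH.π a (Q.obj (HCR R b))) _ _
    exact hxy ((cancel_mono e.hom).1 h)
  · rintro rfl
    exact ⟨Iso.refl _⟩

/-- An isomorphism in `SH` induces bijections of the homotopy groups. -/
noncomputable def piCongr {X Y : SH} (e : X ≅ Y) (k : ℤ) : SH.π k X ≃ SH.π k Y where
  toFun x := x ≫ e.hom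
  invFun y := y ≫ e.inv
  left_inv x := by simp
  right_inv y := by simp

/-- `IsHFp` is invariant under isomorphisms of `SH`. -/
theorem isHFp_of_iso {q : ℕ} {X Y : SH} (e : X ≅ Y) (h : SH.IsHFp q X) : SH.IsHFp q Y :=
  ⟨(Nat.card_congr (piCongr e 0)).symm.trans h.1, fun k hk =>
    have := h.2 k hk
    (piCongr e k).symm.subsingleton⟩

/-- **`H𝔽_p ≅ H𝔽_q` in `SH` iff `p = q`.** -/
theorem HCR_zmod_iso_iff (p q : ℕ) : Nonempty (Q.obj (HCR (ZMod p) 0) ≅ Q.obj (HCR (ZMod q) 0)) ↔ p = q := by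
  constructor
  · rintro ⟨e⟩
    exact (isHFp_HCR_zero_iff q p).1 (isHFp_of_iso e (isHFp_HCR_zero p))
  · rintro rfl
    exact ⟨Iso.refl _⟩

end Claimed.Open.R319
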