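import Claimed.Open.R319.SanityHQ2

/-!
# Sanity (result 319): the clause on `IsSum` in `IsHQ` cannot be dropped: `Hℤ` satisfies all the other clauses and is NOT an `Hℚ`

* **`isHQ_HA_iff : SH.IsHQ (Q.obj (HA R 0)) ↔ Nonempty (R ≃+ ℚ)`** (every commutative ring `R`);
* **`not_isHQ_HA_int : ¬ SH.IsHQ (Q.obj (HA ℤ 0))`**, although `π_0 (HA ℤ 0) ≃ ℚ` as a set and `π_k (HA ℤ 0) = 0` for `k ≠ 0` (`nonempty_π_HA_int_equiv_rat`);
* `not_isHQ_HA_zmod`, `not_isHQ_of_isHFp` (`p ≠ 0`), `not_isHFp_of_isHQ`.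
-/

open CategoryTheory Opposite Simplicial

namespace Claimed.Open.R319

open PSSet

/-- **`HA R 0` is an `Hℚ` in the sense of `Statement.lean` iff the additive group of `R` is isomorphic to `ℚ`.** -/
theorem isHQ_HA_iff (R : Type) [CommRing R] : SH.IsHQ (Q.obj (HA R 0)) ↔ Nonempty (R ≃+ ℚ) := by
  constructor
  · rintro ⟨⟨e, he⟩, -⟩
    refine ⟨{ (piZeroHA R).symm.trans e with map_add' := fun a b => ?_ }⟩
    show e ((piZeroHA R).symm (a + b)) = e ((piZeroHA R).symm a) + e ((piZeroHA R).symm b)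
    refine (he _ _ _).1 ((isSum_HA_iff R _ _ _).2 ?_)
    simp only [Equiv.apply_symm_apply]
  · rintro ⟨ψ⟩
    refine ⟨⟨(piZeroHA R).trans ψ.toEquiv, fun f g h => ?_⟩, fun k hk => subsingleton_π_HA_of_ne R 0 k hk⟩
    rw [isSum_HA_iff]
    show _ ↔ ψ (piZeroHA R h) = ψ (piZeroHA R f) + ψ (piZeroHA R g)
    rw [← map_add ψ]
    exact ψ.injective.eq_iff.symm

/-- The additive groups `ℤ` and `ℚ` are not isomorphic. -/
theorem not_nonempty_int_addEquiv_rat : ¬ Nonempty (ℤ ≃+ ℚ) := by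
  rintro ⟨ψ⟩
  obtain ⟨n, hn⟩ := ψ.surjective (ψ 1 / 2)
  have h1 : ψ n = n • ψ 1 := by
    rw [← map_zsmul]
    simp
  have h0 : ψ 1 ≠ 0 := fun h => by
    have := ψ.injective (h.trans (map_zero ψ).symm)
    omega
  rw [h1, zsmul_eq_mul] at hn
  have h2 : (n : ℚ) * 2 = 1 := by
    field_simp at hn
    linarith
  have h3 : n * 2 = 1 := by exact_mod_cast h2
  omega

/-- **`Hℤ` is not an `Hℚ`.** -/
theorem not_isHQ_HA_int : ¬ SH.IsHQ (Q.obj (HA ℤ 0)) := fun h => not_nonempty_int_addEquiv_rat ((isHQ_HA_iff ℤ).1 h)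

/-- ... although it satisfies all the clauses of `IsHQ` that do not speak of `IsSum`: `π_0 ≃ ℚ` as a set, `π_k = 0` for `k ≠ 0`. -/
theorem nonempty_π_HA_int_equiv_rat :
    Nonempty (SH.π 0 (Q.obj (HA ℤ 0)) ≃ ℚ) ∧ ∀ k : ℤ, k ≠ 0 → Subsingleton (SH.π k (Q.obj (HA ℤ 0))) :=
  ⟨⟨(piZeroHA ℤ).trans ((Denumerable.eqv ℤ).trans (Denumerable.eqv ℚ).symm)⟩, fun k hk => subsingleton_π_HA_of_ne ℤ 0 k hk⟩

/-- An `Hℚ` is not an `H𝔽_p` (`p ≠ 0`). -/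
theorem not_isHFp_of_isHQ {p : ℕ} (hp : p ≠ 0) {K : SH} (hK : SH.IsHQ K) : ¬ SH.IsHFp p K := by
  rintro ⟨h, -⟩
  obtain ⟨⟨e, -⟩, -⟩ := hK
  rw [Nat.card_congr e, Nat.card_eq_zero_of_infinite] at h
  exact hp h.symm

theorem not_isHQ_of_isHFp {p : ℕ} (hp : p ≠ 0) {K : SH} (hK : SH.IsHFp p K) : ¬ SH.IsHQ K :=
  fun h => not_isHFp_of_isHQ hp h hK

/-- `H𝔽_p` is not a Morava K-theory `K(0)`. -/
theorem not_isHQ_HA_zmod {p : ℕ} (hp : p ≠ 0) : ¬ SH.IsHQ (Q.obj (HA (ZMod p) 0)) :=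
  not_isHQ_of_isHFp hp (isHFp_HA_zero p)

end Claimed.Open.R319
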