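import Claimed.Open.R319.Sanity

/-!
# Sanity checks for `Statement.lean` (result 319), part 2: maps into `Ω`-spectra

The main result of this file is `SH.homEquiv`: for every spectrum `X` and every `Ω`-spectrum `E`,
the morphisms `Q X ⟶ Q E` of the stable homotopy category `SH` are the simplicial homotopy classes of
maps of spectra `X ⟶ E`.  This is the expected description of the morphisms of the homotopy category of
the Bousfield--Friedlander model structure from a cofibrant to a fibrant object.
-/

open CategoryTheory Opposite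

namespace Claimed.Open.R319

noncomputable section

namespace PSSet

/-- The minimum of two simplices of `Δ[1]`. -/
def minSimplex {n : SimplexCategoryᵒᵖ} (s t : (SSet.stdSimplex.{0}.obj (SimplexCategory.mk 1)).obj n) :
    (SSet.stdSimplex.{0}.obj (SimplexCategory.mk 1)).obj n :=
  SSet.stdSimplex.objMk ((SSet.stdSimplex.objEquiv s).toOrderHom ⊓ (SSet.stdSimplex.objEquiv t).toOrderHom)

/-- A function on the simplices of `S` with values in a pointed set extends to `S₊`. -/
def plusLift {S : SSet.{0}} {n : SimplexCategoryᵒᵖ} {P : Pointed.{0}} (f : S.obj n → P) :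
    (plus S).obj n → P :=
  Quotient.lift (fun o : Option (S.obj n) => o.elim P.point f) (by
    rintro x y (rfl | ⟨hx, hy⟩)
    · rfl
    · have hx' : x = none := by
        rcases hx with h | ⟨a, ha, -⟩
        · exact h
        · exact absurd ha (by simp)
      have hy' : y = none := by
        rcases hy with h | ⟨a, ha, -⟩
        · exact h
        · exact absurd ha (by simp)
      rw [hx', hy'])


@[elab_as_elim]
theorem plus_ind {S : SSet.{0}} {n : SimplexCategoryᵒᵖ} {motive : (plus S).obj n → Prop}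
    (h0 : motive ((plus S).obj n).point) (h : ∀ s, motive (quot.mk ⊥ s)) (x : (plus S).obj n) :
    motive x :=
  Quotient.ind (fun o => by
    cases o with
    | none => exact h0
    | some s => exact h s) x

theorem minSimplex_map {n m : SimplexCategoryᵒᵖ} (φ : n ⟶ m)
    (s t : (SSet.stdSimplex.{0}.obj (SimplexCategory.mk 1)).obj n) :
    (SSet.stdSimplex.{0}.obj (SimplexCategory.mk 1)).map φ (minSimplex s t) =
      minSimplex ((SSet.stdSimplex.{0}.obj (SimplexCategory.mk 1)).map φ s)
        ((SSet.stdSimplex.{0}.obj (SimplexCategory.mk 1)).map φ t) := rfl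

theorem minSimplex_const_one {n : SimplexCategoryᵒᵖ}
    (s : (SSet.stdSimplex.{0}.obj (SimplexCategory.mk 1)).obj n) :
    minSimplex s (SSet.stdSimplex.const 1 1 n) = s := by
  apply SSet.stdSimplex.objEquiv.injective
  ext i
  exact congrArg Fin.val
    (min_eq_left (Fin.le_last ((SSet.stdSimplex.objEquiv s).toOrderHom i)) :
      min ((SSet.stdSimplex.objEquiv s).toOrderHom i) (1 : Fin 2) = _)

theorem minSimplex_const_zero {n : SimplexCategoryᵒᵖ}
    (s : (SSet.stdSimplex.{0}.obj (SimplexCategory.mk 1)).obj n) :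
    minSimplex s (SSet.stdSimplex.const 1 0 n) = SSet.stdSimplex.const 1 0 n := by
  apply SSet.stdSimplex.objEquiv.injective
  ext i
  exact congrArg Fin.val
    (min_eq_right (Fin.zero_le ((SSet.stdSimplex.objEquiv s).toOrderHom i)) :
      min ((SSet.stdSimplex.objEquiv s).toOrderHom i) (0 : Fin 2) = _)

/-- The map `Δ[1]₊ ∧ Δ[1]₊ ⟶ Δ[1]₊` induced by the minimum `[1] × [1] ⟶ [1]`. -/
def minMap : smash I I ⟶ I where
  app n := Smash.lift
    (fun a b => plusLift (P := I.obj n)
      (fun s => plusLift (P := I.obj n) (fun t => quot.mk ⊥ (minSimplex s t)) b) a)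
    (fun _ => rfl)
    (fun a => by
      induction a using plus_ind with
      | h0 => rfl
      | h s => rfl)
  naturality n m φ := Smash.hom_ext fun a b => by
    induction a using plus_ind with
    | h0 => rfl
    | h s =>
      induction b using plus_ind with
      | h0 => rfl
      | h t => rfl

/-- The projection `X ∧ Δ[1]₊ ⟶ X`. -/
def proj (X : PSSet) : smash X I ⟶ X where
  app n := Smash.lift (fun x a => plusLift (P := X.obj n) (fun _ => x) a) (fun a => by
      induction a using plus_ind with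
      | h0 => rfl
      | h s => rfl) (fun _ => rfl)
  naturality n m φ := Smash.hom_ext fun x a => by
    induction a using plus_ind with
    | h0 => exact (X.map φ).map_point.symm
    | h s => rfl

theorem incl_proj (X : PSSet) (ε : Fin 2) : incl X ε ≫ proj X = 𝟙 X := rfl

/-- The contraction `(X ∧ Δ[1]₊) ∧ Δ[1]₊ ⟶ X ∧ Δ[1]₊` of the cylinder onto its bottom. -/
def contr (X : PSSet) : smash (smash X I) I ⟶ smash X I :=
  assoc X I I ≫ smashMap (𝟙 X) minMap

theorem incl_one_contr (X : PSSet) : incl (smash X I) 1 ≫ contr X = 𝟙 _ :=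
  NatTrans.ext (funext fun n => Smash.hom_ext fun x a => by
    induction a using plus_ind with
    | h0 => rfl
    | h s => exact congrArg (fun t => Smash.mk x (quot.mk ⊥ t)) (minSimplex_const_one s))

theorem incl_zero_contr (X : PSSet) : incl (smash X I) 0 ≫ contr X = proj X ≫ incl X 0 :=
  NatTrans.ext (funext fun n => Smash.hom_ext fun x a => by
    induction a using plus_ind with
    | h0 => exact (Smash.mk_right x).trans (Smash.mk_left _).symm
    | h s => exact congrArg (fun t => Smash.mk x (quot.mk ⊥ t)) (minSimplex_const_zero s))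

end PSSet

namespace Sp

open PSSet

/-- `f ∧ K : X ∧ K ⟶ Y ∧ K`. -/
def smashKMap {X Y : Sp} (f : X ⟶ Y) (K : PSSet) : X.smashK K ⟶ Y.smashK K where
  map n := smashMap (f.map n) (𝟙 K)
  comm n := NatTrans.ext (funext fun m => Smash.hom_ext fun u s => by
    induction u using Smash.ind with | h x a => ?_
    have h := congrArg (fun k => (k.app m).toFun (Smash.mk x s)) (f.comm n)
    exact congrArg (fun t => Smash.mk t a) h)

theorem incl_smashKMap {X Y : Sp} (f : X ⟶ Y) (ε : Fin 2) :
    incl X ε ≫ smashKMap f I = f ≫ incl Y ε := rfl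

/-- The projection `X ∧ Δ[1]₊ ⟶ X`. -/
def proj (X : Sp) : X.smashK I ⟶ X where
  map n := PSSet.proj (X.level n)
  comm n := NatTrans.ext (funext fun m => Smash.hom_ext fun u s => by
    induction u using Smash.ind with | h x a => ?_
    induction a using plus_ind with
    | h0 =>
      exact (((X.σ n).app m).map_point.symm.trans
        (congrArg ((X.σ n).app m).toFun (Smash.mk_left s).symm))
    | h t => rfl)

theorem incl_proj (X : Sp) (ε : Fin 2) : incl X ε ≫ proj X = 𝟙 X := rfl

/-- The contraction `(X ∧ Δ[1]₊) ∧ Δ[1]₊ ⟶ X ∧ Δ[1]₊` of the cylinder onto its bottom. -/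
def contr (X : Sp) : (X.smashK I).smashK I ⟶ X.smashK I where
  map n := PSSet.contr (X.level n)
  comm n := NatTrans.ext (funext fun m => Smash.hom_ext fun u s => by
    induction u using Smash.ind with | h u b => ?_
    induction u using Smash.ind with | h x a => ?_
    rfl)

theorem incl_one_contr (X : Sp) : incl (X.smashK I) 1 ≫ contr X = 𝟙 _ :=
  Hom.ext (funext fun n => PSSet.incl_one_contr (X.level n))

theorem incl_zero_contr (X : Sp) : incl (X.smashK I) 0 ≫ contr X = proj X ≫ incl X 0 :=
  Hom.ext (funext fun n => PSSet.incl_zero_contr (X.level n))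

theorem Homotopy.comp_right {X Y Z : Sp} {f g : X ⟶ Y} (h : Homotopy f g) (k : Y ⟶ Z) :
    Homotopy (f ≫ k) (g ≫ k) := by
  obtain ⟨H, rfl, rfl⟩ := h
  exact ⟨H ≫ k, (Category.assoc _ _ _).symm, (Category.assoc _ _ _).symm⟩

theorem Homotopy.comp_left {X Y Z : Sp} {f g : Y ⟶ Z} (h : Homotopy f g) (k : X ⟶ Y) :
    Homotopy (k ≫ f) (k ≫ g) := by
  obtain ⟨H, rfl, rfl⟩ := h
  exact ⟨smashKMap k I ≫ H, rfl, rfl⟩

theorem Homotopic.comp_right {X Y Z : Sp} {f g : X ⟶ Y} (h : Homotopic f g) (k : Y ⟶ Z) :
    Homotopic (f ≫ k) (g ≫ k) := by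
  induction h with
  | rel _ _ h => exact .rel _ _ (h.comp_right k)
  | refl _ => exact .refl _
  | symm _ _ _ ih => exact .symm _ _ ih
  | trans _ _ _ _ _ ih ih' => exact .trans _ _ _ ih ih'

theorem Homotopic.comp_left {X Y Z : Sp} {f g : Y ⟶ Z} (h : Homotopic f g) (k : X ⟶ Y) :
    Homotopic (k ≫ f) (k ≫ g) := by
  induction h with
  | rel _ _ h => exact .rel _ _ (h.comp_left k)
  | refl _ => exact .refl _
  | symm _ _ _ ih => exact .symm _ _ ih
  | trans _ _ _ _ _ ih ih' => exact .trans _ _ _ ih ih'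

/-- The cylinder deformation retracts onto its bottom. -/
theorem homotopy_proj_incl (X : Sp) : Homotopy (proj X ≫ incl X 0) (𝟙 (X.smashK I)) :=
  ⟨contr X, incl_zero_contr X, incl_one_contr X⟩

/-- The projection of the cylinder is a stable equivalence. -/
theorem stableEquiv_proj (X : Sp) : stableEquiv (proj X) := fun E _ =>
  ⟨fun g => ⟨incl X 0 ≫ g, by
      have h := (homotopy_proj_incl X).comp_right g
      rw [Category.id_comp, Category.assoc] at h
      exact .rel _ _ h⟩,
    fun h h' hh => by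
      have := hh.comp_left (incl X 0)
      rwa [← Category.assoc, ← Category.assoc, incl_proj, Category.id_comp, Category.id_comp]
        at this⟩

end Sp

namespace SH

/-- The two ends of the cylinder become equal in `SH`. -/
theorem Q_incl (X : Sp) : Q.map (Sp.incl X 0) = Q.map (Sp.incl X 1) := by
  have : IsIso (Q.map (Sp.proj X)) := Sp.stableEquiv.Q_inverts _ (Sp.stableEquiv_proj X)
  rw [← cancel_mono (Q.map (Sp.proj X)), ← Q.map_comp, ← Q.map_comp, Sp.incl_proj, Sp.incl_proj]

/-- Homotopic maps of spectra become equal in `SH`. -/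
theorem Q_map_eq_of_homotopic {X Y : Sp} {f g : X ⟶ Y} (h : Sp.Homotopic f g) :
    Q.map f = Q.map g := by
  induction h with
  | rel _ _ h =>
    obtain ⟨H, rfl, rfl⟩ := h
    rw [Q.map_comp, Q.map_comp, Q_incl]
  | refl _ => rfl
  | symm _ _ _ ih => exact ih.symm
  | trans _ _ _ _ _ ih ih' => exact ih.trans ih'

/-- The set `[X, E]` of homotopy classes of maps of spectra. -/
def HoClass (X E : Sp) : Type := Quot (Sp.Homotopic (X := X) (Y := E))

/-- Precomposition on homotopy classes. -/
def HoClass.precomp {X Y : Sp} (f : X ⟶ Y) (E : Sp) : HoClass Y E → HoClass X E :=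
  Quot.map (fun g => f ≫ g) fun _ _ h => h.comp_left f

theorem homotopic_of_quot_eq {X E : Sp} {g g' : X ⟶ E}
    (h : (Quot.mk _ g : HoClass X E) = Quot.mk _ g') : Sp.Homotopic g g' := by
  have := Quot.eqvGen_exact h
  clear h
  induction this with
  | rel _ _ h => exact h
  | refl _ => exact .refl _
  | symm _ _ _ ih => exact .symm _ _ ih
  | trans _ _ _ _ _ ih ih' => exact .trans _ _ _ ih ih'

theorem HoClass.precomp_bijective {X Y : Sp} (f : X ⟶ Y) (hf : Sp.stableEquiv f) (E : Sp)
    (hE : E.IsOmega) : Function.Bijective (HoClass.precomp f E) := by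
  obtain ⟨h1, h2⟩ := hf E hE
  constructor
  · rintro ⟨h⟩ ⟨h'⟩ hh
    exact Quot.sound (h2 h h' (homotopic_of_quot_eq hh))
  · rintro ⟨g⟩
    obtain ⟨h, hh⟩ := h1 g
    exact ⟨Quot.mk _ h, Quot.sound hh⟩

/-- The functor `X ↦ [X, E]` on spectra. -/
def hoFunctor (E : Sp) : Sp ⥤ (Type)ᵒᵖ where
  obj X := op (HoClass X E)
  map f := (↾(HoClass.precomp f E)).op
  map_id X := by
    apply Quiver.Hom.unop_inj
    ext ⟨g⟩
    exact congrArg (Quot.mk _) (Category.id_comp g)
  map_comp f f' := by
    apply Quiver.Hom.unop_inj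
    ext ⟨g⟩
    exact congrArg (Quot.mk _) (Category.assoc f f' g)

theorem hoFunctor_inverts (E : Sp) (hE : E.IsOmega) :
    Sp.stableEquiv.IsInvertedBy (hoFunctor E) := fun X Y f hf => by
  have : IsIso (↾(HoClass.precomp f E)) :=
    (isIso_iff_bijective _).2 (HoClass.precomp_bijective f hf E hE)
  exact inferInstanceAs (IsIso (↾(HoClass.precomp f E)).op)

/-- For an `Ω`-spectrum `E`, the functor `X ↦ [X, E]` descends to `SH`. -/
def hoLift (E : Sp) (hE : E.IsOmega) : SH ⥤ (Type)ᵒᵖ :=
  Localization.Construction.lift (hoFunctor E) (hoFunctor_inverts E hE)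

theorem hoLift_map (E : Sp) (hE : E.IsOmega) {X Y : Sp} (f : X ⟶ Y) :
    (hoLift E hE).map (Q.map f) = (hoFunctor E).map f := rfl

/-- The map `[X, E] ⟶ SH(X, E)`. -/
def ofHoClass (X E : Sp) : HoClass X E → (Q.obj X ⟶ Q.obj E) :=
  Quot.lift (fun g => Q.map g) fun _ _ h => Q_map_eq_of_homotopic h

/-- The map `SH(X, E) ⟶ [X, E]` for an `Ω`-spectrum `E`. -/
def toHoClass (X E : Sp) (hE : E.IsOmega) (φ : Q.obj X ⟶ Q.obj E) : HoClass X E :=
  ((hoLift E hE).map φ).unop (Quot.mk _ (𝟙 E))

theorem toHoClass_ofHoClass (X E : Sp) (hE : E.IsOmega) (c : HoClass X E) :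
    toHoClass X E hE (ofHoClass X E c) = c := by
  obtain ⟨g⟩ := c
  exact congrArg (Quot.mk _) (Category.comp_id g)

/-- Every morphism of `SH` into an `Ω`-spectrum is represented by a map of spectra. -/
theorem exists_Q_map_eq {X E : Sp} (hE : E.IsOmega) (φ : Q.obj X ⟶ Q.obj E) :
    ∃ g : X ⟶ E, Q.map g = φ := by
  let P : MorphismProperty SH := fun A B ψ =>
    ∀ g : B.sp ⟶ E, ∃ g' : A.sp ⟶ E, ψ ≫ (Q.map g : B ⟶ Q.obj E) = Q.map g'
  have hP : P.IsStableUnderComposition := ⟨fun {A B C} f g hf hg k => by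
    obtain ⟨k', hk'⟩ := hg k
    obtain ⟨k'', hk''⟩ := hf k'
    exact ⟨k'', (Category.assoc f g _).trans ((congrArg (f ≫ ·) hk').trans hk'')⟩⟩
  have : P = ⊤ := Localization.Construction.morphismProperty_eq_top P
    (fun A B f g => ⟨f ≫ g, (Q.map_comp f g).symm⟩)
    (fun A B w hw g => by
      obtain ⟨h, hh⟩ := (hw E hE).1 g
      refine ⟨h, ?_⟩
      have e : Q.map w ≫ Q.map h = Q.map g := by
        rw [← Q.map_comp]; exact Q_map_eq_of_homotopic hh
      show (Localization.Construction.wIso w hw).inv ≫ Q.map g = Q.map h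
      rw [Iso.inv_comp_eq]
      exact e.symm)
  have h : P φ := by rw [this]; trivial
  obtain ⟨g, hg⟩ := h (𝟙 E)
  refine ⟨g, hg.symm.trans ?_⟩
  show φ ≫ Q.map (𝟙 E) = φ
  rw [Q.map_id, Category.comp_id]

/-- **Morphisms of `SH` into an `Ω`-spectrum are homotopy classes of maps of spectra.** -/
def homEquiv (X E : Sp) (hE : E.IsOmega) : HoClass X E ≃ (Q.obj X ⟶ Q.obj E) where
  toFun := ofHoClass X E
  invFun := toHoClass X E hE
  left_inv := toHoClass_ofHoClass X E hE
  right_inv φ := by
    obtain ⟨g, rfl⟩ := exists_Q_map_eq hE φ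
    exact congrArg (ofHoClass X E) (toHoClass_ofHoClass X E hE (Quot.mk _ g))

/-- Two maps into an `Ω`-spectrum become equal in `SH` if and only if they are homotopic. -/
theorem Q_map_eq_iff {X E : Sp} (hE : E.IsOmega) (g g' : X ⟶ E) :
    Q.map g = Q.map g' ↔ Sp.Homotopic g g' :=
  ⟨fun h => homotopic_of_quot_eq ((homEquiv X E hE).injective h), Q_map_eq_of_homotopic⟩

end SH

end

end Claimed.Open.R319
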