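import Claimed.Open.R319.SanityTelescope

/-!
# Sanity (result 319): the words `act`, `LeftIdeal`, `IsMilnorTriple`

`IsBP2` describes `H^*(B; 𝔽_p)` as `𝒜 / 𝒜(Q₀, Q₁, Q₂)` through the product `act` of the algebra of operations `𝒜^k = [Σ^{-k}H, H]`, the inductive predicate `LeftIdeal` and
`IsMilnorTriple`.  No other file tests these three words (the unit laws `act_one`, `act_id` are in `SanityTelescope.lean`).  Here:

* `SH.Dpow_comp`, `SH.Dpow_map_map` : `Σ^{-k} ∘ Σ^{-m} = Σ^{-(m+k)}` as functors (`Statement.lean` has it on objects, `Dpow_add`);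
* **`SH.act_assoc`** : `a · (b · y) = (a · b) · y` for operations `a`, `b` and a class `y`: `act` is an associative product on `𝒜` and an action of it on `H^* X`;
* `SH.act_comp` : naturality, `a · (f^* y) = f^* (a · y)`;
* `SH.isZeroMor_act_left`, `SH.isZeroMor_act_right` : `0 · y = 0`, `a · 0 = 0`;
* `SH.LeftIdeal.self₀`, `self₁`, `self₂` : the generators lie in the ideal;
  `SH.LeftIdeal.act_gen₀`, `act_gen₁`, `act_gen₂`, `SH.LeftIdeal.act_zero` : a left multiple of a multiple of a generator, and of a zero map, lies in the ideal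
  (NOT shown: `c · (a + b)` for a sum in the sense of `IsSum`; this needs that `Σ^{-k}` preserves `IsSum`);
* `SH.not_isMilnorTriple_of_isZero` : there is no Milnor triple on a zero object (a **non-example**);
* `SH.milnor_degree_one`, `SH.milnor_degree_two` : the degrees written in `IsMilnorTriple` are `2p - 1` and `2p² - 1`.
-/

open CategoryTheory

namespace Claimed.Open.R319

namespace SH

theorem Dpow_comp (m k : ℕ) : Dpow m ⋙ Dpow k = Dpow (m + k) := by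
  induction k with
  | zero => exact Functor.comp_id _
  | succ k ih =>
    show (Dpow m ⋙ Dpow k) ⋙ D = Dpow (m + k) ⋙ D
    rw [ih]

theorem Dpow_map_map (k m : ℕ) {X Y : SH} (y : X ⟶ Y) :
    (Dpow k).map ((Dpow m).map y) =
      eqToHom (Dpow_add k m X) ≫ (Dpow (m + k)).map y ≫ eqToHom (Dpow_add k m Y).symm :=
  Functor.congr_hom (Dpow_comp m k) y

theorem act_def {X H : SH} {k l n : ℕ} (h : l + k = n) (a : (Dpow k).obj H ⟶ H)
    (y : (Dpow l).obj X ⟶ H) :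
    act h a y = eqToHom (by rw [← h, Dpow_add]) ≫ (Dpow k).map y ≫ a := rfl

/-- **`act` is associative**: `a · (b · y) = (a · b) · y`. -/
theorem act_assoc {X H : SH} {k m l n₁ n₂ n : ℕ} (h₁ : l + m = n₁) (h₂ : n₁ + k = n)
    (h₃ : m + k = n₂) (h₄ : l + n₂ = n) (a : (Dpow k).obj H ⟶ H) (b : (Dpow m).obj H ⟶ H)
    (y : (Dpow l).obj X ⟶ H) :
    act h₂ a (act h₁ b y) = act h₄ (act h₃ a b) y := by
  subst h₁ h₃
  subst h₂
  simp only [act_def, Functor.map_comp, eqToHom_map, Dpow_map_map, Category.assoc,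
    eqToHom_trans_assoc]

/-- Naturality of the action: `a · (f^* y) = f^* (a · y)`. -/
theorem act_comp {X X' H : SH} {k l n : ℕ} (h : l + k = n) (a : (Dpow k).obj H ⟶ H)
    (f : X' ⟶ X) (y : (Dpow l).obj X ⟶ H) :
    act h a ((Dpow l).map f ≫ y) = (Dpow n).map f ≫ act h a y := by
  subst h
  simp only [act_def, Functor.map_comp, Dpow_map_map, Category.assoc, eqToHom_trans_assoc,
    eqToHom_refl, Category.id_comp]

theorem idl_isZeroMor_comp_left {X Y Z : SH} (f : X ⟶ Y) {g : Y ⟶ Z} (hg : IsZeroMor g) :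
    IsZeroMor (f ≫ g) := by
  obtain ⟨W, a, b, hW, rfl⟩ := hg
  exact ⟨W, f ≫ a, b, hW, (Category.assoc _ _ _).symm⟩

theorem idl_isZeroMor_comp_right {X Y Z : SH} {f : X ⟶ Y} (hf : IsZeroMor f) (g : Y ⟶ Z) :
    IsZeroMor (f ≫ g) := by
  obtain ⟨W, a, b, hW, rfl⟩ := hf
  exact ⟨W, a, b ≫ g, hW, Category.assoc _ _ _⟩

theorem idl_isZeroMor_Dpow_map (k : ℕ) {X Y : SH} {f : X ⟶ Y} (hf : IsZeroMor f) :
    IsZeroMor ((Dpow k).map f) := by
  obtain ⟨W, a, b, hW, rfl⟩ := hf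
  exact ⟨(Dpow k).obj W, (Dpow k).map a, (Dpow k).map b, isZero_Dpow_obj hW k,
    Functor.map_comp _ _ _⟩

/-- `0 · y = 0`. -/
theorem isZeroMor_act_left {X H : SH} {k l n : ℕ} (h : l + k = n) {a : (Dpow k).obj H ⟶ H}
    (ha : IsZeroMor a) (y : (Dpow l).obj X ⟶ H) : IsZeroMor (act h a y) :=
  idl_isZeroMor_comp_left _ (idl_isZeroMor_comp_left _ ha)

/-- `a · 0 = 0`. -/
theorem isZeroMor_act_right {X H : SH} {k l n : ℕ} (h : l + k = n) (a : (Dpow k).obj H ⟶ H)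
    {y : (Dpow l).obj X ⟶ H} (hy : IsZeroMor y) : IsZeroMor (act h a y) :=
  idl_isZeroMor_comp_left _ (idl_isZeroMor_comp_right (idl_isZeroMor_Dpow_map k hy) a)

/-! ### The left ideal -/

section Ideal

variable {H : SH} {d₀ d₁ d₂ : ℕ} (Q₀ : (Dpow d₀).obj H ⟶ H) (Q₁ : (Dpow d₁).obj H ⟶ H)
  (Q₂ : (Dpow d₂).obj H ⟶ H)

/-- The generators lie in the ideal. -/
theorem LeftIdeal.self₀ : LeftIdeal Q₀ Q₁ Q₂ d₀ Q₀ := by
  have := LeftIdeal.gen₀ (Q₀ := Q₀) (Q₁ := Q₁) (Q₂ := Q₂) (k := 0) (Nat.add_zero d₀) (𝟙 H)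
  rwa [act_one] at this

theorem LeftIdeal.self₁ : LeftIdeal Q₀ Q₁ Q₂ d₁ Q₁ := by
  have := LeftIdeal.gen₁ (Q₀ := Q₀) (Q₁ := Q₁) (Q₂ := Q₂) (k := 0) (Nat.add_zero d₁) (𝟙 H)
  rwa [act_one] at this

theorem LeftIdeal.self₂ : LeftIdeal Q₀ Q₁ Q₂ d₂ Q₂ := by
  have := LeftIdeal.gen₂ (Q₀ := Q₀) (Q₁ := Q₁) (Q₂ := Q₂) (k := 0) (Nat.add_zero d₂) (𝟙 H)
  rwa [act_one] at this

/-- A left multiple of a multiple of a generator lies in the ideal. -/
theorem LeftIdeal.act_gen₀ {k k' n n' : ℕ} (h : d₀ + k = n) (h' : n + k' = n')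
    (c : (Dpow k).obj H ⟶ H) (c' : (Dpow k').obj H ⟶ H) :
    LeftIdeal Q₀ Q₁ Q₂ n' (act h' c' (act h c Q₀)) := by
  rw [act_assoc h h' rfl (by omega)]
  exact LeftIdeal.gen₀ _ _

theorem LeftIdeal.act_gen₁ {k k' n n' : ℕ} (h : d₁ + k = n) (h' : n + k' = n')
    (c : (Dpow k).obj H ⟶ H) (c' : (Dpow k').obj H ⟶ H) :
    LeftIdeal Q₀ Q₁ Q₂ n' (act h' c' (act h c Q₁)) := by
  rw [act_assoc h h' rfl (by omega)]
  exact LeftIdeal.gen₁ _ _

theorem LeftIdeal.act_gen₂ {k k' n n' : ℕ} (h : d₂ + k = n) (h' : n + k' = n')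
    (c : (Dpow k).obj H ⟶ H) (c' : (Dpow k').obj H ⟶ H) :
    LeftIdeal Q₀ Q₁ Q₂ n' (act h' c' (act h c Q₂)) := by
  rw [act_assoc h h' rfl (by omega)]
  exact LeftIdeal.gen₂ _ _

/-- A left multiple of a zero map lies in the ideal. -/
theorem LeftIdeal.act_zero {k' n n' : ℕ} (h' : n + k' = n') (c' : (Dpow k').obj H ⟶ H)
    {a : (Dpow n).obj H ⟶ H} (ha : IsZeroMor a) : LeftIdeal Q₀ Q₁ Q₂ n' (act h' c' a) :=
  LeftIdeal.zero _ (isZeroMor_act_right h' c' ha)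

end Ideal

/-! ### Milnor triples -/

/-- **Non-example.** There is no Milnor triple on a zero object. -/
theorem not_isMilnorTriple_of_isZero {p : ℕ} {H : SH} (hH : Limits.IsZero H)
    (Q₀ : (Dpow 1).obj H ⟶ H) (Q₁ : (Dpow (2 * (p - 1) + 1)).obj H ⟶ H)
    (Q₂ : (Dpow (p * (2 * (p - 1)) + (2 * (p - 1) + 1))).obj H ⟶ H) :
    ¬ IsMilnorTriple p Q₀ Q₁ Q₂ := by
  rintro ⟨_, _, h0, _⟩
  exact h0 ⟨H, Q₀, 𝟙 H, hH, (Category.comp_id _).symm⟩

/-- `|Q₁| = 2p - 1`. -/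
theorem milnor_degree_one {p : ℕ} (hp : 1 ≤ p) : 2 * (p - 1) + 1 + 1 = 2 * p := by omega

/-- `|Q₂| = 2p² - 1`. -/
theorem milnor_degree_two {p : ℕ} (hp : 1 ≤ p) :
    p * (2 * (p - 1)) + (2 * (p - 1) + 1) + 1 = 2 * p ^ 2 := by
  obtain ⟨q, rfl⟩ : ∃ q, p = q + 1 := ⟨p - 1, by omega⟩
  simp only [Nat.add_sub_cancel]
  ring

end SH

end Claimed.Open.R319
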