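import Claimed.Open.R319.SanityPath

/-!
# Sanity (result 319): `[S², K(ℤ, 2)] ≃ ℤ`: the complex `KZ2` of `Statement.lean` and the first clause of `SymRing.IsOrientation`

`Statement.lean` uses `KZ2` (normalized integral `2`-cocycles of the simplices) as `ℂP^∞ ≃ K(ℤ, 2)`, and `SymRing.IsOrientation R x` asks for a `j : S² ⟶ KZ2` such that every
map `S² ⟶ KZ2` is homotopic to a multiple `j ≫ KZ2.mul k` ("`j` generates `π_2 K(ℤ, 2) = ℤ`").  Here this group is computed.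

1. `KZ2.ofCocycle`, `KZ2.cocycleOf`, `KZ2.hom_ext` : the maps `L ⟶ KZ2` are the normalized `2`-cocycles of `L` that vanish at the base point (Yoneda).
2. `sq`, `cu`, `c2`, `c3` : the simplices of `S² = (S⁰ ∧ S¹) ∧ S¹` and of `S² ∧ Δ[1]₊` are given by two (three) maps `⦋m⦌ ⟶ ⦋1⦌`, i.e. by the numbers `nz` of `SanityCube.lean`.
3. `mkMap x y`, **`eq_mkMap`** : the maps `S² ⟶ KZ2` are the pairs of integers: the values on the two non-degenerate triangles of the square.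
4. `homotopy_mkMap` : `(x, y) ≃ (x - w, y - w)` (the cocycle `F + δ(χ ∪ W)` on the prism).
5. `degKZ2 g = x - y`, **`degKZ2_eq_of_homotopic`** : the degree is a homotopy invariant (the cocycle condition on the six non-degenerate `3`-simplices of the cube).
6. **`homotopic_iff_degKZ2`**, **`hoClassKZ2Equiv : [S², KZ2] ≃ ℤ`**, **`exists_generator_KZ2`** (the first clause of `IsOrientation` has a witness `j`, and the multiples of `j` are
   pairwise not homotopic), **`degKZ2_of_generator`** (every `j` as in that clause has degree `± 1`: the clause determines `j` up to homotopy and sign, as deviation 11 of `CLAIM.md` says).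

Not checked: the higher homotopy of `KZ2`, that `KZ2` is a Kan complex, and the comparison with `ℂP^∞`.
-/

open CategoryTheory Opposite Simplicial

namespace Claimed.Open.R319

open PSSet

/-! ### 1. Maps into `KZ2` are normalized `2`-cocycles -/

namespace KZ2

variable {L : PSSet}

theorem map_comp_apply (L : PSSet) {a b c : SimplexCategory} (φ : a ⟶ b) (ψ : b ⟶ c) (x : L.obj (op c)) :
    (L.map (φ ≫ ψ).op).toFun x = (L.map φ.op).toFun ((L.map ψ.op).toFun x) := by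
  rw [op_comp, L.map_comp]
  rfl

/-- The map `L ⟶ KZ2` given by a normalized `2`-cocycle of `L` that vanishes at the base point. -/
def ofCocycle (c : L.obj (op ⦋2⦌) → ℤ) (h0 : c (L.obj (op ⦋2⦌)).point = 0)
    (hn : ∀ (j : Fin 2) (e : L.obj (op ⦋1⦌)), c ((L.map (SimplexCategory.σ j).op).toFun e) = 0)
    (hc : ∀ ρ : L.obj (op ⦋3⦌), ∑ i : Fin 4, (-1 : ℤ) ^ (i : ℕ) * c ((L.map (SimplexCategory.δ i).op).toFun ρ) = 0) :
    L ⟶ KZ2 where
  app n := ⟨fun x =>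
    { val := fun τ => c ((L.map τ.op).toFun x)
      normalized := fun τ hτ => by
        obtain ⟨j, θ, rfl⟩ := SimplexCategory.eq_σ_comp_of_not_injective τ hτ
        rw [map_comp_apply]
        exact hn j _
      cocycle := fun ρ => by
        refine Eq.trans (Finset.sum_congr rfl fun i _ => ?_) (hc ((L.map ρ.op).toFun x))
        rw [map_comp_apply] },
    Cocycle2.ext (funext fun τ => by
      show c ((L.map τ.op).toFun (L.obj n).point) = 0
      rw [(L.map τ.op).map_point, h0])⟩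
  naturality n n' ψ := Pointed.Hom.ext (funext fun x => Cocycle2.ext (funext fun τ => by
    show c ((L.map τ.op).toFun ((L.map ψ).toFun x)) = c ((L.map (τ ≫ ψ.unop).op).toFun x)
    rw [map_comp_apply]
    rfl))

/-- The `2`-cocycle of a map `L ⟶ KZ2`. -/
def cocycleOf (g : L ⟶ KZ2) (x : L.obj (op ⦋2⦌)) : ℤ := ((g.app (op ⦋2⦌)).toFun x).val (𝟙 _)

theorem val_eq_cocycleOf (g : L ⟶ KZ2) {n : SimplexCategoryᵒᵖ} (x : L.obj n) (τ : ⦋2⦌ ⟶ n.unop) :
    ((g.app n).toFun x).val τ = cocycleOf g ((L.map τ.op).toFun x) := by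
  have h := congrArg (fun k : L.obj n ⟶ KZ2.obj (op ⦋2⦌) => (k.toFun x).val (𝟙 _)) (g.naturality τ.op)
  refine Eq.trans ?_ h.symm
  show _ = ((g.app n).toFun x).val (𝟙 _ ≫ τ)
  rw [Category.id_comp]

theorem cocycleOf_ofCocycle (c : L.obj (op ⦋2⦌) → ℤ) (h0 hn hc) (x : L.obj (op ⦋2⦌)) :
    cocycleOf (ofCocycle c h0 hn hc) x = c x := by
  show c ((L.map (𝟙 ⦋2⦌).op).toFun x) = c x
  rw [op_id, L.map_id]
  rfl

theorem hom_ext {g g' : L ⟶ KZ2} (h : ∀ x, cocycleOf g x = cocycleOf g' x) : g = g' :=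
  NatTrans.ext (funext fun n => Pointed.Hom.ext (funext fun x => Cocycle2.ext (funext fun τ => by
    rw [val_eq_cocycleOf, val_eq_cocycleOf, h])))

theorem cocycleOf_point (g : L ⟶ KZ2) : cocycleOf g (L.obj (op ⦋2⦌)).point = 0 := by
  unfold cocycleOf
  rw [(g.app (op ⦋2⦌)).map_point]
  rfl

theorem cocycleOf_σ (g : L ⟶ KZ2) (j : Fin 2) (e : L.obj (op ⦋1⦌)) :
    cocycleOf g ((L.map (SimplexCategory.σ j).op).toFun e) = 0 := by
  rw [← val_eq_cocycleOf]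
  refine Cocycle2.normalized _ _ fun h => ?_
  have := Fintype.card_le_of_injective _ h
  simp at this

theorem cocycleOf_δ (g : L ⟶ KZ2) (ρ : L.obj (op ⦋3⦌)) :
    ∑ i : Fin 4, (-1 : ℤ) ^ (i : ℕ) * cocycleOf g ((L.map (SimplexCategory.δ i).op).toFun ρ) = 0 := by
  refine Eq.trans (Finset.sum_congr rfl fun i _ => ?_) (((g.app (op ⦋3⦌)).toFun ρ).cocycle (𝟙 _))
  rw [← val_eq_cocycleOf, Category.comp_id]

theorem cocycleOf_comp_mul (g : L ⟶ KZ2) (k : ℤ) (x : L.obj (op ⦋2⦌)) :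
    cocycleOf (g ≫ KZ2.mul k) x = k * cocycleOf g x := rfl

theorem cocycleOf_precomp {L' : PSSet} (f : L' ⟶ L) (g : L ⟶ KZ2) (x : L'.obj (op ⦋2⦌)) :
    cocycleOf (f ≫ g) x = cocycleOf g ((f.app _).toFun x) := rfl

end KZ2

/-! ### 2. Coordinates on `S² = (S⁰ ∧ S¹) ∧ S¹` and on `S² ∧ Δ[1]₊` -/

noncomputable section

/-- The pointed set `ℤ`. -/
abbrev Zp : Pointed.{0} := ⟨ℤ, 0⟩

theorem nz_of_not_surjective {m : ℕ} {s : ⦋m⦌ ⟶ ⦋1⦌} (hs : ¬ Function.Surjective s.toOrderHom) : nz s = 0 ∨ nz s = m + 1 := by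
  rw [surjective_iff_nz] at hs
  have := nz_le s
  omega

theorem not_surjective_of_nz {m : ℕ} {s : ⦋m⦌ ⟶ ⦋1⦌} (hs : nz s = 0 ∨ nz s = m + 1) : ¬ Function.Surjective s.toOrderHom := by
  rw [surjective_iff_nz]
  omega

theorem S0_simplex_eq_kz {m : ℕ} (x : (Δ[0] : SSet.{0}).obj (op ⦋m⦌)) : x = SSet.stdSimplex.const 0 0 (op ⦋m⦌) :=
  SSet.stdSimplex.objEquiv.injective (hom_pt_eq _ _)

/-- the `m`-simplices of `S⁰`, `S¹`, `Δ[1]₊` -/
abbrev P0 (m : ℕ) : Pointed.{0} := S0.obj (op ⦋m⦌)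
abbrev P1 (m : ℕ) : Pointed.{0} := S1.obj (op ⦋m⦌)
abbrev PI (m : ℕ) : Pointed.{0} := I.obj (op ⦋m⦌)

/-- the class of `s` in `S¹` -/
def k1 {m : ℕ} (s : ⦋m⦌ ⟶ ⦋1⦌) : P1 m := S1.mk (n := op ⦋m⦌) s

theorem k1_eq_point {m : ℕ} (s : ⦋m⦌ ⟶ ⦋1⦌) (hs : nz s = 0 ∨ nz s = m + 1) : k1 s = (P1 m).point :=
  S1.mk_eq_point (n := op ⦋m⦌) s (not_surjective_of_nz hs)

/-- The simplex `[s] ∧ [t]` of `S²`. -/
def sq {m : ℕ} (s t : ⦋m⦌ ⟶ ⦋1⦌) : Smash (Smash (P0 m) (P1 m)) (P1 m) :=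
  Smash.mk (Smash.mk (S0.vertex (op ⦋m⦌)) (k1 s)) (k1 t)

theorem sq_eq_point_left {m : ℕ} (s t : ⦋m⦌ ⟶ ⦋1⦌) (hs : nz s = 0 ∨ nz s = m + 1) :
    sq s t = (Smash (Smash (P0 m) (P1 m)) (P1 m)).point := by
  unfold sq
  rw [k1_eq_point s hs, Smash.mk_right, Smash.mk_left]

theorem sq_eq_point_right {m : ℕ} (s t : ⦋m⦌ ⟶ ⦋1⦌) (ht : nz t = 0 ∨ nz t = m + 1) :
    sq s t = (Smash (Smash (P0 m) (P1 m)) (P1 m)).point := by
  unfold sq
  rw [k1_eq_point t ht, Smash.mk_right]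

@[elab_as_elim]
theorem sq_ind {m : ℕ} {motive : Smash (Smash (P0 m) (P1 m)) (P1 m) → Prop} (h : ∀ s t, motive (sq s t))
    (x : Smash (Smash (P0 m) (P1 m)) (P1 m)) : motive x := by
  induction x using Smash.ind with | h u b => ?_
  induction u using Smash.ind with | h v a => ?_
  have hb : ∃ t, b = k1 t := S1.ind (n := op ⦋m⦌) (motive := fun b => ∃ t, b = k1 t) (fun t => ⟨t, rfl⟩) b
  have ha : ∃ s, a = k1 s := S1.ind (n := op ⦋m⦌) (motive := fun b => ∃ t, b = k1 t) (fun t => ⟨t, rfl⟩) a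
  have hv : v = (P0 m).point ∨ v = S0.vertex (op ⦋m⦌) :=
    plus_ind (S := Δ[0]) (n := op ⦋m⦌) (motive := fun v => v = (P0 m).point ∨ v = S0.vertex (op ⦋m⦌)) (Or.inl rfl)
      (fun x => Or.inr (congrArg (quot.mk (S := Δ[0]) ⊥) (S0_simplex_eq_kz x))) v
  obtain ⟨t, rfl⟩ := hb
  obtain ⟨s, rfl⟩ := ha
  rcases hv with rfl | rfl
  · have h1 := h (prismTheta 0) t
    rw [sq_eq_point_left _ _ (Or.inl (nz_theta (Nat.zero_le _)))] at h1
    rw [Smash.mk_left, Smash.mk_left]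
    exact h1
  · exact h s t

/-- A function of `nz s` as a pointed function on `S⁰ ∧ S¹`. -/
def c1 {m : ℕ} (f : ℕ → ℤ) (hf : ∀ a, (a = 0 ∨ a = m + 1) → f a = 0) : Smash (P0 m) (P1 m) ⟶ Zp :=
  Smash.lift (C := Zp)
    (fun v a => plusLift (S := Δ[0]) (n := op ⦋m⦌) (P := Zp) (fun _ => S1.lift (n := op ⦋m⦌) (P := Zp) (fun s => f (nz s))
      (fun _ hs => hf _ (nz_of_not_surjective hs)) a) v)
    (fun _ => rfl)
    (fun v => plus_ind (S := Δ[0]) (n := op ⦋m⦌) (motive := fun v => plusLift (S := Δ[0]) (n := op ⦋m⦌) (P := Zp)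
      (fun _ => S1.lift (n := op ⦋m⦌) (P := Zp) (fun s => f (nz s))
      (fun _ hs => hf _ (nz_of_not_surjective hs)) (P1 m).point) v = Zp.point) rfl (fun _ => rfl) v)

theorem c1_mk {m : ℕ} (f : ℕ → ℤ) (hf : ∀ a, (a = 0 ∨ a = m + 1) → f a = 0) (s : ⦋m⦌ ⟶ ⦋1⦌) :
    (c1 f hf).toFun (Smash.mk (S0.vertex (op ⦋m⦌)) (k1 s)) = f (nz s) :=
  S1.lift_mk (n := op ⦋m⦌) (P := Zp) (fun s => f (nz s)) (fun _ hs => hf _ (nz_of_not_surjective hs)) s

theorem c1_eq_zero {m : ℕ} (f : ℕ → ℤ) (hf : ∀ a, (a = 0 ∨ a = m + 1) → f a = 0) (h : ∀ a, f a = 0)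
    (u : Smash (P0 m) (P1 m)) : (c1 f hf).toFun u = (0 : ℤ) := by
  induction u using Smash.ind with | h v a => ?_
  have ha : ∃ s, a = k1 s := S1.ind (n := op ⦋m⦌) (motive := fun b => ∃ t, b = k1 t) (fun t => ⟨t, rfl⟩) a
  have hv : v = (P0 m).point ∨ v = S0.vertex (op ⦋m⦌) :=
    plus_ind (S := Δ[0]) (n := op ⦋m⦌) (motive := fun v => v = (P0 m).point ∨ v = S0.vertex (op ⦋m⦌)) (Or.inl rfl)
      (fun x => Or.inr (congrArg (quot.mk (S := Δ[0]) ⊥) (S0_simplex_eq_kz x))) v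
  obtain ⟨s, rfl⟩ := ha
  rcases hv with rfl | rfl
  · rfl
  · exact (c1_mk f hf s).trans (h _)

/-- A function of `(nz s, nz t)` as a pointed function on `S²`. -/
def c2 {m : ℕ} (F : ℕ → ℕ → ℤ) (hl : ∀ a b, (a = 0 ∨ a = m + 1) → F a b = 0) (hr : ∀ a b, (b = 0 ∨ b = m + 1) → F a b = 0) :
    Smash (Smash (P0 m) (P1 m)) (P1 m) ⟶ Zp :=
  Smash.lift (C := Zp)
    (fun u b => S1.lift (n := op ⦋m⦌) (P := Zp) (fun t => (c1 (m := m) (fun a => F a (nz t)) (fun a ha => hl a _ ha)).toFun u)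
      (fun t ht => c1_eq_zero _ _ (fun a => hr a _ (nz_of_not_surjective ht)) u) b)
    (fun b => by
      obtain ⟨t, rfl⟩ : ∃ t, b = k1 t := S1.ind (n := op ⦋m⦌) (motive := fun b => ∃ t, b = k1 t) (fun t => ⟨t, rfl⟩) b
      exact (S1.lift_mk (n := op ⦋m⦌) (P := Zp)
        (fun t => (c1 (m := m) (fun a => F a (nz t)) (fun a ha => hl a _ ha)).toFun (Smash (P0 m) (P1 m)).point)
        (fun _ ht => c1_eq_zero _ _ (fun a => hr a _ (nz_of_not_surjective ht)) _) t).trans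
          (c1 (m := m) (fun a => F a (nz t)) (fun a ha => hl a _ ha)).map_point)
    (fun _ => rfl)

theorem c2_sq {m : ℕ} (F : ℕ → ℕ → ℤ) (hl : ∀ a b, (a = 0 ∨ a = m + 1) → F a b = 0)
    (hr : ∀ a b, (b = 0 ∨ b = m + 1) → F a b = 0) (s t : ⦋m⦌ ⟶ ⦋1⦌) : (c2 F hl hr).toFun (sq s t) = F (nz s) (nz t) :=
  (S1.lift_mk (n := op ⦋m⦌) (P := Zp)
    (fun t => (c1 (m := m) (fun a => F a (nz t)) (fun a ha => hl a _ ha)).toFun (Smash.mk (S0.vertex (op ⦋m⦌)) (k1 s)))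
    (fun _ ht => c1_eq_zero _ _ (fun a => hr a _ (nz_of_not_surjective ht)) _) t).trans (c1_mk _ _ s)

/-- the simplex `u` of `Δ[1]₊` -/
def kI {m : ℕ} (u : ⦋m⦌ ⟶ ⦋1⦌) : PI m := quot.mk (S := Δ[1]) (n := op ⦋m⦌) ⊥ (SSet.stdSimplex.objEquiv.symm u)

/-- The simplex `[s] ∧ [t] ∧ u` of `S² ∧ Δ[1]₊`. -/
def cu {m : ℕ} (s t u : ⦋m⦌ ⟶ ⦋1⦌) : Smash (Smash (Smash (P0 m) (P1 m)) (P1 m)) (PI m) := Smash.mk (sq s t) (kI u)

theorem cu_eq_point_left {m : ℕ} (s t u : ⦋m⦌ ⟶ ⦋1⦌) (hs : nz s = 0 ∨ nz s = m + 1) :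
    cu s t u = (Smash (Smash (Smash (P0 m) (P1 m)) (P1 m)) (PI m)).point := by
  unfold cu
  rw [sq_eq_point_left s t hs, Smash.mk_left]

theorem cu_eq_point_right {m : ℕ} (s t u : ⦋m⦌ ⟶ ⦋1⦌) (ht : nz t = 0 ∨ nz t = m + 1) :
    cu s t u = (Smash (Smash (Smash (P0 m) (P1 m)) (P1 m)) (PI m)).point := by
  unfold cu
  rw [sq_eq_point_right s t ht, Smash.mk_left]

@[elab_as_elim]
theorem cu_ind {m : ℕ} {motive : Smash (Smash (Smash (P0 m) (P1 m)) (P1 m)) (PI m) → Prop} (h : ∀ s t u, motive (cu s t u))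
    (x : Smash (Smash (Smash (P0 m) (P1 m)) (P1 m)) (PI m)) : motive x := by
  induction x using Smash.ind with | h y w => ?_
  induction y using sq_ind with | h s t => ?_
  have hw : w = (PI m).point ∨ ∃ u, w = kI u :=
    plus_ind (S := Δ[1]) (n := op ⦋m⦌) (motive := fun w => w = (PI m).point ∨ ∃ u, w = kI u) (Or.inl rfl)
      (fun x => Or.inr ⟨SSet.stdSimplex.objEquiv x, congrArg (quot.mk (S := Δ[1]) ⊥) (Equiv.symm_apply_apply _ x).symm⟩) w
  rcases hw with rfl | ⟨u, rfl⟩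
  · have h1 := h (prismTheta 0) t t
    rw [cu_eq_point_left _ _ _ (Or.inl (nz_theta (Nat.zero_le _)))] at h1
    rw [Smash.mk_right]
    exact h1
  · exact h s t u

/-- A function of `(nz s, nz t, nz u)` as a pointed function on `S² ∧ Δ[1]₊`. -/
def c3 {m : ℕ} (H : ℕ → ℕ → ℕ → ℤ) (hl : ∀ a b c, (a = 0 ∨ a = m + 1) → H a b c = 0)
    (hr : ∀ a b c, (b = 0 ∨ b = m + 1) → H a b c = 0) : Smash (Smash (Smash (P0 m) (P1 m)) (P1 m)) (PI m) ⟶ Zp :=
  Smash.lift (C := Zp)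
    (fun x w => plusLift (S := Δ[1]) (n := op ⦋m⦌) (P := Zp) (fun u => (c2 (m := m) (fun a b => H a b (nz (SSet.stdSimplex.objEquiv u)))
      (fun a b ha => hl a b _ ha) (fun a b hb => hr a b _ hb)).toFun x) w)
    (fun w => plus_ind (S := Δ[1]) (n := op ⦋m⦌) (motive := fun w => plusLift (S := Δ[1]) (n := op ⦋m⦌) (P := Zp)
      (fun u => (c2 (m := m) (fun a b => H a b (nz (SSet.stdSimplex.objEquiv u)))
      (fun a b ha => hl a b _ ha) (fun a b hb => hr a b _ hb)).toFun (Smash (Smash (P0 m) (P1 m)) (P1 m)).point) w = Zp.point) rfl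
      (fun u => (c2 (m := m) (fun a b => H a b (nz (SSet.stdSimplex.objEquiv u)))
      (fun a b ha => hl a b _ ha) (fun a b hb => hr a b _ hb)).map_point) w)
    (fun _ => rfl)

theorem c3_cu {m : ℕ} (H : ℕ → ℕ → ℕ → ℤ) (hl : ∀ a b c, (a = 0 ∨ a = m + 1) → H a b c = 0)
    (hr : ∀ a b c, (b = 0 ∨ b = m + 1) → H a b c = 0) (s t u : ⦋m⦌ ⟶ ⦋1⦌) :
    (c3 H hl hr).toFun (cu s t u) = H (nz s) (nz t) (nz u) := by
  refine (c2_sq (m := m) (fun a b => H a b (nz (SSet.stdSimplex.objEquiv.{0} (SSet.stdSimplex.objEquiv.{0}.symm u))))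
    (fun a b ha => hl a b _ ha) (fun a b hb => hr a b _ hb) s t).trans ?_
  rw [Equiv.apply_symm_apply]

theorem map_sq {m m' : ℕ} (φ : ⦋m'⦌ ⟶ ⦋m⦌) (s t : ⦋m⦌ ⟶ ⦋1⦌) : ((Sph 2).map φ.op).toFun (sq s t) = sq (φ ≫ s) (φ ≫ t) := rfl

theorem map_cu {m m' : ℕ} (φ : ⦋m'⦌ ⟶ ⦋m⦌) (s t u : ⦋m⦌ ⟶ ⦋1⦌) :
    ((smash (Sph 2) I).map φ.op).toFun (cu s t u) = cu (φ ≫ s) (φ ≫ t) (φ ≫ u) := rfl

theorem const_zero_eq (m : ℕ) : quot.mk (S := Δ[1]) ⊥ (SSet.stdSimplex.const 1 0 (op ⦋m⦌)) = kI (prismTheta (m := m) (m + 1)) := by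
  refine congrArg (quot.mk (S := Δ[1]) ⊥) ?_
  apply SSet.stdSimplex.objEquiv.injective
  rw [Equiv.apply_symm_apply]
  apply prism_hom_ext
  intro v
  rw [prismTheta_apply, if_pos v.isLt]
  rfl

theorem const_one_eq (m : ℕ) : quot.mk (S := Δ[1]) ⊥ (SSet.stdSimplex.const 1 1 (op ⦋m⦌)) = kI (prismTheta (m := m) 0) := by
  refine congrArg (quot.mk (S := Δ[1]) ⊥) ?_
  apply SSet.stdSimplex.objEquiv.injective
  rw [Equiv.apply_symm_apply]
  apply prism_hom_ext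
  intro v
  rw [prismTheta_apply, if_neg (Nat.not_lt_zero _)]
  rfl

theorem incl_zero_sq {m : ℕ} (s t : ⦋m⦌ ⟶ ⦋1⦌) :
    ((incl (Sph 2) 0).app (op ⦋m⦌)).toFun (sq s t) = cu s t (prismTheta (m + 1)) :=
  congrArg (Smash.mk (sq s t)) (const_zero_eq m)

theorem incl_one_sq {m : ℕ} (s t : ⦋m⦌ ⟶ ⦋1⦌) :
    ((incl (Sph 2) 1).app (op ⦋m⦌)).toFun (sq s t) = cu s t (prismTheta 0) :=
  congrArg (Smash.mk (sq s t)) (const_one_eq m)

/-! ### 3. The maps `S² ⟶ KZ2` are the pairs of integers -/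

/-- The `2`-cochain of the square with the values `x`, `y` on the two non-degenerate triangles. -/
def tabF (x y : ℤ) (a b : ℕ) : ℤ := (if a = 2 ∧ b = 1 then x else 0) + (if a = 1 ∧ b = 2 then y else 0)

theorem tabF_left (x y : ℤ) (a b : ℕ) (h : a = 0 ∨ a = 2 + 1) : tabF x y a b = 0 := by
  rcases h with rfl | rfl <;> simp [tabF]

theorem tabF_right (x y : ℤ) (a b : ℕ) (h : b = 0 ∨ b = 2 + 1) : tabF x y a b = 0 := by
  rcases h with rfl | rfl <;> simp [tabF]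

/-- The map `S² ⟶ KZ2` with the values `x`, `y` on the two triangles. -/
def mkMap (x y : ℤ) : Sph 2 ⟶ KZ2 :=
  KZ2.ofCocycle (L := Sph 2) (fun z => (c2 (m := 2) (tabF x y) (tabF_left x y) (tabF_right x y)).toFun z)
    (c2 (m := 2) (tabF x y) (tabF_left x y) (tabF_right x y)).map_point
    (fun j e => by
      refine sq_ind (m := 1) (motive := fun e => (c2 (m := 2) (tabF x y) (tabF_left x y) (tabF_right x y)).toFun
        (((Sph 2).map (SimplexCategory.σ j).op).toFun e) = 0) (fun s t => ?_) e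
      rw [map_sq, c2_sq, nz_σ, nz_σ]
      have h1 := nz_le s
      have h2 := nz_le t
      generalize nz s = a at h1 ⊢
      generalize nz t = b at h2 ⊢
      fin_cases j <;> interval_cases a <;> interval_cases b <;> simp [tabF])
    (fun ρ => by
      refine sq_ind (m := 3) (motive := fun ρ => ∑ i : Fin 4, (-1 : ℤ) ^ (i : ℕ) *
        (c2 (m := 2) (tabF x y) (tabF_left x y) (tabF_right x y)).toFun
        (((Sph 2).map (SimplexCategory.δ i).op).toFun ρ) = 0) (fun s t => ?_) ρ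
      simp only [map_sq, c2_sq, nz_δ]
      have h1 := nz_le s
      have h2 := nz_le t
      generalize nz s = a at h1 ⊢
      generalize nz t = b at h2 ⊢
      rw [Fin.sum_univ_four]
      interval_cases a <;> interval_cases b <;> simp [tabF])

theorem cocycleOf_mkMap (x y : ℤ) (s t : ⦋2⦌ ⟶ ⦋1⦌) : KZ2.cocycleOf (mkMap x y) (sq s t) = tabF x y (nz s) (nz t) :=
  (KZ2.cocycleOf_ofCocycle (L := Sph 2) _ _ _ _ _).trans (c2_sq _ _ _ s t)

/-- the values of a map on the simplices of the square -/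
def ev (g : Sph 2 ⟶ KZ2) (a b : ℕ) : ℤ := KZ2.cocycleOf g (sq (m := 2) (prismTheta a) (prismTheta b))

theorem cocycleOf_sq_diag (g : Sph 2 ⟶ KZ2) (s : ⦋2⦌ ⟶ ⦋1⦌) : KZ2.cocycleOf g (sq s s) = 0 := by
  have h1 := nz_le s
  have key : ∀ j : Fin 2, s = SimplexCategory.σ j ≫ prismTheta (m := 1) 1 → KZ2.cocycleOf g (sq s s) = 0 := by
    rintro j rfl
    exact KZ2.cocycleOf_σ g j (sq (m := 1) (prismTheta 1) (prismTheta 1))
  by_cases h0 : nz s = 0 ∨ nz s = 2 + 1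
  · have e : KZ2.cocycleOf g (sq s s) = KZ2.cocycleOf g ((Sph 2).obj (op ⦋2⦌)).point :=
      congrArg (KZ2.cocycleOf g) (sq_eq_point_left s s h0)
    exact e.trans (KZ2.cocycleOf_point g)
  · by_cases h2 : nz s = 1
    · refine key 1 (nz_inj ?_)
      rw [nz_σ, nz_theta (by omega), h2]
      simp
    · refine key 0 (nz_inj ?_)
      rw [nz_σ, nz_theta (by omega)]
      simp
      omega

theorem cocycleOf_eq_tabF (g : Sph 2 ⟶ KZ2) (s t : ⦋2⦌ ⟶ ⦋1⦌) :
    KZ2.cocycleOf g (sq s t) = tabF (ev g 2 1) (ev g 1 2) (nz s) (nz t) := by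
  have h1 := nz_le s
  have h2 := nz_le t
  by_cases hs : nz s = 0 ∨ nz s = 2 + 1
  · rw [tabF_left _ _ _ _ hs]
    have e : KZ2.cocycleOf g (sq s t) = KZ2.cocycleOf g ((Sph 2).obj (op ⦋2⦌)).point :=
      congrArg (KZ2.cocycleOf g) (sq_eq_point_left s t hs)
    exact e.trans (KZ2.cocycleOf_point g)
  by_cases ht : nz t = 0 ∨ nz t = 2 + 1
  · rw [tabF_right _ _ _ _ ht]
    have e : KZ2.cocycleOf g (sq s t) = KZ2.cocycleOf g ((Sph 2).obj (op ⦋2⦌)).point :=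
      congrArg (KZ2.cocycleOf g) (sq_eq_point_right s t ht)
    exact e.trans (KZ2.cocycleOf_point g)
  by_cases hst : nz s = nz t
  · rw [nz_inj hst, cocycleOf_sq_diag]
    unfold tabF
    split_ifs <;> omega
  · have h3 : (nz s = 2 ∧ nz t = 1) ∨ (nz s = 1 ∧ nz t = 2) := by omega
    rcases h3 with ⟨e1, e2⟩ | ⟨e1, e2⟩
    · rw [e1, e2]
      conv_lhs => rw [← theta_nz s, ← theta_nz t, e1, e2]
      simp [tabF, ev]
    · rw [e1, e2]
      conv_lhs => rw [← theta_nz s, ← theta_nz t, e1, e2]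
      simp [tabF, ev]

theorem hom_ext_sq {g g' : Sph 2 ⟶ KZ2} (h : ∀ s t : ⦋2⦌ ⟶ ⦋1⦌, KZ2.cocycleOf g (sq s t) = KZ2.cocycleOf g' (sq s t)) : g = g' :=
  KZ2.hom_ext fun x => sq_ind (m := 2) (motive := fun x => KZ2.cocycleOf g x = KZ2.cocycleOf g' x) h x

/-- **Every map `S² ⟶ KZ2` is determined by its values on the two triangles of the square.** -/
theorem eq_mkMap (g : Sph 2 ⟶ KZ2) : g = mkMap (ev g 2 1) (ev g 1 2) :=
  hom_ext_sq fun s t => (cocycleOf_eq_tabF g s t).trans (cocycleOf_mkMap _ _ s t).symm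

theorem ev_mkMap (x y : ℤ) (a b : ℕ) (ha : a ≤ 3) (hb : b ≤ 3) : ev (mkMap x y) a b = tabF x y a b := by
  unfold ev
  rw [cocycleOf_mkMap, nz_theta ha, nz_theta hb]

theorem mkMap_mul (x y k : ℤ) : mkMap x y ≫ KZ2.mul k = mkMap (k * x) (k * y) :=
  hom_ext_sq fun s t => by
    show k * KZ2.cocycleOf (mkMap x y) (sq s t) = _
    rw [cocycleOf_mkMap, cocycleOf_mkMap]
    unfold tabF
    split_ifs <;> ring

/-! ### 4. The homotopies -/

/-- The `2`-cocycle of the prism over the square: `F + δ(χ ∪ W)`, `W` the `1`-cochain with the value `w` on the diagonal. -/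
def tabH (x y w : ℤ) (a b c : ℕ) : ℤ :=
  tabF x y a b + (if c = 0 then tabF (-w) (-w) a b else 0) + (if c = 1 ∧ a = 2 ∧ b = 2 then w else 0)

theorem tabH_left (x y w : ℤ) (a b c : ℕ) (h : a = 0 ∨ a = 2 + 1) : tabH x y w a b c = 0 := by
  rcases h with rfl | rfl <;> simp [tabH, tabF]

theorem tabH_right (x y w : ℤ) (a b c : ℕ) (h : b = 0 ∨ b = 2 + 1) : tabH x y w a b c = 0 := by
  rcases h with rfl | rfl <;> simp [tabH, tabF]

/-- The homotopy. -/
def mkHtpy (x y w : ℤ) : smash (Sph 2) I ⟶ KZ2 :=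
  KZ2.ofCocycle (L := smash (Sph 2) I) (fun z => (c3 (m := 2) (tabH x y w) (tabH_left x y w) (tabH_right x y w)).toFun z)
    (c3 (m := 2) (tabH x y w) (tabH_left x y w) (tabH_right x y w)).map_point
    (fun j e => by
      refine cu_ind (m := 1) (motive := fun e => (c3 (m := 2) (tabH x y w) (tabH_left x y w) (tabH_right x y w)).toFun
        (((smash (Sph 2) I).map (SimplexCategory.σ j).op).toFun e) = 0) (fun s t u => ?_) e
      rw [map_cu, c3_cu, nz_σ, nz_σ, nz_σ]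
      have h1 := nz_le s
      have h2 := nz_le t
      have h3 := nz_le u
      generalize nz s = a at h1 ⊢
      generalize nz t = b at h2 ⊢
      generalize nz u = c at h3 ⊢
      fin_cases j <;> interval_cases a <;> interval_cases b <;> interval_cases c <;> simp [tabH, tabF])
    (fun ρ => by
      refine cu_ind (m := 3) (motive := fun ρ => ∑ i : Fin 4, (-1 : ℤ) ^ (i : ℕ) *
        (c3 (m := 2) (tabH x y w) (tabH_left x y w) (tabH_right x y w)).toFun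
        (((smash (Sph 2) I).map (SimplexCategory.δ i).op).toFun ρ) = 0) (fun s t u => ?_) ρ
      simp only [map_cu, c3_cu, nz_δ]
      have h1 := nz_le s
      have h2 := nz_le t
      have h3 := nz_le u
      generalize nz s = a at h1 ⊢
      generalize nz t = b at h2 ⊢
      generalize nz u = c at h3 ⊢
      rw [Fin.sum_univ_four]
      interval_cases a <;> interval_cases b <;> interval_cases c <;> simp [tabH, tabF])

theorem cocycleOf_mkHtpy (x y w : ℤ) (s t u : ⦋2⦌ ⟶ ⦋1⦌) :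
    KZ2.cocycleOf (mkHtpy x y w) (cu s t u) = tabH x y w (nz s) (nz t) (nz u) :=
  (KZ2.cocycleOf_ofCocycle (L := smash (Sph 2) I) _ _ _ _ _).trans (c3_cu _ _ _ s t u)

/-- `(x, y) ≃ (x - w, y - w)`. -/
theorem homotopy_mkMap (x y w : ℤ) : PSSet.Homotopy (mkMap x y) (mkMap (x - w) (y - w)) := by
  refine ⟨mkHtpy x y w, hom_ext_sq fun s t => ?_, hom_ext_sq fun s t => ?_⟩
  · show KZ2.cocycleOf (mkHtpy x y w) (((incl (Sph 2) 0).app (op ⦋2⦌)).toFun (sq s t)) = _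
    rw [incl_zero_sq, cocycleOf_mkHtpy, cocycleOf_mkMap, nz_theta le_rfl]
    simp [tabH]
  · show KZ2.cocycleOf (mkHtpy x y w) (((incl (Sph 2) 1).app (op ⦋2⦌)).toFun (sq s t)) = _
    rw [incl_one_sq, cocycleOf_mkHtpy, cocycleOf_mkMap, nz_theta (Nat.zero_le _)]
    have e : tabH x y w (nz s) (nz t) 0 = tabF x y (nz s) (nz t) + tabF (-w) (-w) (nz s) (nz t) := by simp [tabH]
    rw [e]
    unfold tabF
    split_ifs <;> ring

/-! ### 5. The invariant -/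

/-- The degree of a map `S² ⟶ KZ2`: the difference of its values on the two triangles. -/
def degKZ2 (g : Sph 2 ⟶ KZ2) : ℤ := ev g 2 1 - ev g 1 2

theorem degKZ2_mkMap (x y : ℤ) : degKZ2 (mkMap x y) = x - y := by
  unfold degKZ2
  rw [ev_mkMap _ _ _ _ (by omega) (by omega), ev_mkMap _ _ _ _ (by omega) (by omega)]
  simp [tabF]

/-- the values of a homotopy on the simplices of the prism over the square -/
def evH (H : smash (Sph 2) I ⟶ KZ2) (a b c : ℕ) : ℤ :=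
  KZ2.cocycleOf H (cu (m := 2) (prismTheta a) (prismTheta b) (prismTheta c))

theorem evH_left (H : smash (Sph 2) I ⟶ KZ2) (a b c : ℕ) (h : a = 0 ∨ a = 3) : evH H a b c = 0 := by
  have e : evH H a b c = KZ2.cocycleOf H ((smash (Sph 2) I).obj (op ⦋2⦌)).point :=
    congrArg (KZ2.cocycleOf H) (cu_eq_point_left _ _ _ (by rw [nz_theta (by omega)]; exact h))
  exact e.trans (KZ2.cocycleOf_point H)

theorem evH_right (H : smash (Sph 2) I ⟶ KZ2) (a b c : ℕ) (h : b = 0 ∨ b = 3) : evH H a b c = 0 := by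
  have e : evH H a b c = KZ2.cocycleOf H ((smash (Sph 2) I).obj (op ⦋2⦌)).point :=
    congrArg (KZ2.cocycleOf H) (cu_eq_point_right _ _ _ (by rw [nz_theta (by omega)]; exact h))
  exact e.trans (KZ2.cocycleOf_point H)

/-- the cocycle condition on the `3`-simplices of the prism -/
theorem evH_rel (H : smash (Sph 2) I ⟶ KZ2) (a b c : ℕ) :
    ∑ i : Fin 4, (-1 : ℤ) ^ (i : ℕ) * evH H (if i.val < a then a - 1 else a) (if i.val < b then b - 1 else b)
      (if i.val < c then c - 1 else c) = 0 := by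
  refine Eq.trans (Finset.sum_congr rfl fun i _ => ?_)
    (KZ2.cocycleOf_δ H (cu (m := 3) (prismTheta a) (prismTheta b) (prismTheta c)))
  have e : ((smash (Sph 2) I).map (SimplexCategory.δ i).op).toFun (cu (m := 3) (prismTheta a) (prismTheta b) (prismTheta c)) =
      cu (m := 2) (prismTheta (if i.val < a then a - 1 else a)) (prismTheta (if i.val < b then b - 1 else b))
        (prismTheta (if i.val < c then c - 1 else c)) := by
    rw [map_cu, diag_δ_theta, diag_δ_theta, diag_δ_theta]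
  rw [e]
  rfl

theorem degKZ2_eq_of_homotopy {g g' : Sph 2 ⟶ KZ2} (h : PSSet.Homotopy g g') : degKZ2 g = degKZ2 g' := by
  obtain ⟨H, rfl, rfl⟩ := h
  have e0 : ∀ a b : ℕ, ev (incl (Sph 2) 0 ≫ H) a b = evH H a b 3 := fun a b =>
    congrArg (KZ2.cocycleOf H) (incl_zero_sq (m := 2) (prismTheta a) (prismTheta b))
  have e1 : ∀ a b : ℕ, ev (incl (Sph 2) 1 ≫ H) a b = evH H a b 0 := fun a b =>
    congrArg (KZ2.cocycleOf H) (incl_one_sq (m := 2) (prismTheta a) (prismTheta b))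
  unfold degKZ2
  rw [e0, e0, e1, e1]
  have r1 := evH_rel H 1 2 3
  have r2 := evH_rel H 1 3 2
  have r3 := evH_rel H 2 1 3
  have r4 := evH_rel H 2 3 1
  have r5 := evH_rel H 3 1 2
  have r6 := evH_rel H 3 2 1
  rw [Fin.sum_univ_four] at r1 r2 r3 r4 r5 r6
  simp at r1 r2 r3 r4 r5 r6
  have z1 := evH_left H 0 1 2 (Or.inl rfl)
  have z2 := evH_left H 0 2 1 (Or.inl rfl)
  have z3 := evH_right H 1 3 2 (Or.inr rfl)
  have z4 := evH_right H 1 0 2 (Or.inl rfl)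
  have z5 := evH_right H 2 3 1 (Or.inr rfl)
  have z6 := evH_right H 2 0 1 (Or.inl rfl)
  have z7 := evH_left H 3 1 2 (Or.inr rfl)
  have z8 := evH_left H 3 2 1 (Or.inr rfl)
  linarith

theorem degKZ2_eq_of_homotopic {g g' : Sph 2 ⟶ KZ2} (h : PSSet.Homotopic g g') : degKZ2 g = degKZ2 g' := by
  induction h with
  | rel _ _ h => exact degKZ2_eq_of_homotopy h
  | refl _ => rfl
  | symm _ _ _ ih => exact ih.symm
  | trans _ _ _ _ _ ih ih' => exact ih.trans ih'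

/-! ### 6. `[S², KZ2] ≅ ℤ` -/

/-- The generator. -/
def genKZ2 : Sph 2 ⟶ KZ2 := mkMap 1 0

theorem genKZ2_mul (k : ℤ) : genKZ2 ≫ KZ2.mul k = mkMap k 0 := by
  unfold genKZ2
  rw [mkMap_mul, mul_one, mul_zero]

theorem degKZ2_genKZ2_mul (k : ℤ) : degKZ2 (genKZ2 ≫ KZ2.mul k) = k := by
  rw [genKZ2_mul, degKZ2_mkMap, sub_zero]

/-- **Every map `S² ⟶ K(ℤ, 2)` is homotopic to the multiple `deg g` of the generator.** -/
theorem homotopic_genKZ2_mul (g : Sph 2 ⟶ KZ2) : PSSet.Homotopic g (genKZ2 ≫ KZ2.mul (degKZ2 g)) := by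
  have h := homotopy_mkMap (ev g 2 1) (ev g 1 2) (ev g 1 2)
  rw [← eq_mkMap g, sub_self] at h
  rw [genKZ2_mul]
  exact .rel _ _ h

/-- Two maps `S² ⟶ K(ℤ, 2)` are homotopic iff they have the same degree. -/
theorem homotopic_iff_degKZ2 (g g' : Sph 2 ⟶ KZ2) : PSSet.Homotopic g g' ↔ degKZ2 g = degKZ2 g' :=
  ⟨degKZ2_eq_of_homotopic, fun h => .trans _ _ _ (homotopic_genKZ2_mul g) (h ▸ .symm _ _ (homotopic_genKZ2_mul g'))⟩

/-- **`[S², K(ℤ, 2)] ≃ ℤ`.** -/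
def hoClassKZ2Equiv : PSSet.HoClass (Sph 2) KZ2 ≃ ℤ where
  toFun := Quot.lift degKZ2 fun _ _ h => degKZ2_eq_of_homotopic h
  invFun k := Quot.mk _ (genKZ2 ≫ KZ2.mul k)
  left_inv := by
    rintro ⟨g⟩
    exact Quot.sound (.symm _ _ (homotopic_genKZ2_mul g))
  right_inv k := degKZ2_genKZ2_mul k

/-- **The first clause of `SymRing.IsOrientation` has a witness, and it is what it should be**: there is `j : S² ⟶ K(ℤ, 2)` such that every map
`S² ⟶ K(ℤ, 2)` is homotopic to a multiple `j ≫ KZ2.mul k` of `j`, and the multiples of `j` are pairwise not homotopic (`π_2 K(ℤ, 2)` is infinite cyclic). -/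
theorem exists_generator_KZ2 : ∃ j : Sph 2 ⟶ KZ2,
    (∀ g : Sph 2 ⟶ KZ2, ∃ k : ℤ, PSSet.Homotopic g (j ≫ KZ2.mul k)) ∧
    ∀ k k' : ℤ, PSSet.Homotopic (j ≫ KZ2.mul k) (j ≫ KZ2.mul k') → k = k' :=
  ⟨genKZ2, fun g => ⟨_, homotopic_genKZ2_mul g⟩, fun k k' h => by
    have := degKZ2_eq_of_homotopic h
    rwa [degKZ2_genKZ2_mul, degKZ2_genKZ2_mul] at this⟩

/-- A `j` as in the first clause of `SymRing.IsOrientation` has degree `± 1`: the clause determines `j` up to homotopy and sign. -/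
theorem degKZ2_of_generator (j : Sph 2 ⟶ KZ2) (hj : ∀ g : Sph 2 ⟶ KZ2, ∃ k : ℤ, PSSet.Homotopic g (j ≫ KZ2.mul k)) :
    degKZ2 j = 1 ∨ degKZ2 j = -1 := by
  obtain ⟨k, hk⟩ := hj genKZ2
  have h1 := degKZ2_eq_of_homotopic hk
  have h2 : degKZ2 genKZ2 = 1 := by
    unfold genKZ2
    rw [degKZ2_mkMap, sub_zero]
  have h3 : degKZ2 (j ≫ KZ2.mul k) = k * degKZ2 j := by
    conv_lhs => rw [eq_mkMap j, mkMap_mul, degKZ2_mkMap]
    unfold degKZ2
    ring
  rw [h2, h3] at h1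
  exact Int.eq_one_or_neg_one_of_mul_eq_one' h1.symm |>.imp (·.2) (·.2)

end

end Claimed.Open.R319
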