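import Claimed.Open.R319.Statement

/-!
# Sanity (result 319), block M1: a simplicial abelian group is a Kan complex (Moore)

Used in `SanityOmega.lean` for the levels of a non-zero `Ω`-spectrum.
-/

open CategoryTheory Opposite Simplicial

namespace Claimed.Open.R319

section moore

variable {X : SSet.{0}} (G : ∀ n, AddCommGroup (X.obj n))
    (hadd : ∀ {n m : SimplexCategoryᵒᵖ} (φ : n ⟶ m) (x y : X.obj n), X.map φ (x + y) = X.map φ x + X.map φ y)

include hadd in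
/-- a simplicial operator of a simplicial abelian group kills `0` -/
theorem moore_map_zero {n m : SimplexCategoryᵒᵖ} (φ : n ⟶ m) : X.map φ (0 : X.obj n) = 0 := by
  have h := hadd φ 0 0
  rw [add_zero] at h
  exact left_eq_add.mp h

include hadd in
/-- a simplicial operator of a simplicial abelian group commutes with `-` -/
theorem moore_map_sub {n m : SimplexCategoryᵒᵖ} (φ : n ⟶ m) (x y : X.obj n) : X.map φ (x - y) = X.map φ x - X.map φ y := by
  have h := hadd φ (x - y) y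
  rw [sub_add_cancel] at h
  exact eq_sub_of_add_eq h.symm

include hadd in
theorem moore_δ_add {n : ℕ} (j : Fin (n + 2)) (x y : X _⦋n + 1⦌) : X.δ j (x + y) = X.δ j x + X.δ j y :=
  hadd (SimplexCategory.δ j).op x y

include hadd in
theorem moore_δ_sub {n : ℕ} (j : Fin (n + 2)) (x y : X _⦋n + 1⦌) : X.δ j (x - y) = X.δ j x - X.δ j y :=
  moore_map_sub G hadd (SimplexCategory.δ j).op x y

include hadd in
theorem moore_σ_zero {n : ℕ} (j : Fin (n + 1)) : X.σ j (0 : X _⦋n⦌) = 0 :=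
  moore_map_zero G hadd (SimplexCategory.σ j).op

/-- simplicial identity `d_j d_{k+1} = d_k d_j` (`j ≤ k`), natural number indices -/
theorem moore_dd {n j k : ℕ} (hjk : j ≤ k) (hk : k < n + 2) (y : X _⦋n + 2⦌) :
    X.δ (⟨j, by omega⟩ : Fin (n + 2)) (X.δ (⟨k + 1, by omega⟩ : Fin (n + 3)) y) =
      X.δ (⟨k, hk⟩ : Fin (n + 2)) (X.δ (⟨j, by omega⟩ : Fin (n + 3)) y) :=
  SSet.δ_comp_δ_apply (i := ⟨j, by omega⟩) (j := ⟨k, hk⟩) hjk y

/-- simplicial identity `d_j s_{r+1} = s_r d_j` (`j ≤ r`), natural number indices -/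
theorem moore_ds_le {n j r : ℕ} (hjr : j ≤ r) (hr : r < n + 1) (e : X _⦋n + 1⦌) :
    X.δ (⟨j, by omega⟩ : Fin (n + 3)) (X.σ (⟨r + 1, by omega⟩ : Fin (n + 2)) e) =
      X.σ (⟨r, hr⟩ : Fin (n + 1)) (X.δ (⟨j, by omega⟩ : Fin (n + 2)) e) :=
  SSet.δ_comp_σ_of_le_apply (i := ⟨j, by omega⟩) (j := ⟨r, hr⟩) hjr e

/-- simplicial identity `d_r s_r = id` -/
theorem moore_ds_self {n r : ℕ} (hr : r < n + 1) (e : X _⦋n⦌) :
    X.δ (⟨r, by omega⟩ : Fin (n + 2)) (X.σ (⟨r, hr⟩ : Fin (n + 1)) e) = e :=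
  SSet.δ_comp_σ_self_apply (⟨r, hr⟩ : Fin (n + 1)) e

/-- simplicial identity `d_{r+1} s_r = id` -/
theorem moore_ds_succ {n r : ℕ} (hr : r < n + 1) (e : X _⦋n⦌) :
    X.δ (⟨r + 1, by omega⟩ : Fin (n + 2)) (X.σ (⟨r, hr⟩ : Fin (n + 1)) e) = e :=
  SSet.δ_comp_σ_succ_apply (⟨r, hr⟩ : Fin (n + 1)) e

/-- simplicial identity `d_{j+1} s_r = s_r d_j` (`r < j`), natural number indices -/
theorem moore_ds_gt {n j r : ℕ} (hrj : r < j) (hj : j < n + 2) (e : X _⦋n + 1⦌) :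
    X.δ (⟨j + 1, by omega⟩ : Fin (n + 3)) (X.σ (⟨r, by omega⟩ : Fin (n + 2)) e) =
      X.σ (⟨r, by omega⟩ : Fin (n + 1)) (X.δ (⟨j, hj⟩ : Fin (n + 2)) e) :=
  SSet.δ_comp_σ_of_gt_apply (i := ⟨j, hj⟩) (j := ⟨r, by omega⟩) hrj e

include hadd in
/-- first half of Moore's algorithm: the faces below `r ≤ i` -/
theorem moore_low {n : ℕ} (i : ℕ) (x : ℕ → X _⦋n + 1⦌)
    (hc : ∀ j k (hjk : j ≤ k) (hk : k < n + 2), j ≠ i → k + 1 ≠ i →
      X.δ (⟨k, hk⟩ : Fin (n + 2)) (x j) = X.δ (⟨j, by omega⟩ : Fin (n + 2)) (x (k + 1)))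
    (r : ℕ) (hr : r ≤ i) (hi : i < n + 3) :
    ∃ y : X _⦋n + 2⦌, ∀ j (hj : j < n + 3), j < r → X.δ (⟨j, hj⟩ : Fin (n + 3)) y = x j := by
  induction r with
  | zero => exact ⟨0, fun j _ h => absurd h (Nat.not_lt_zero j)⟩
  | succ r ih =>
    obtain ⟨y, hy⟩ := ih (by omega)
    have hr2 : r < n + 2 := by omega
    refine ⟨y + X.σ (⟨r, hr2⟩ : Fin (n + 2)) (x r - X.δ (⟨r, by omega⟩ : Fin (n + 3)) y), fun j hj hjr => ?_⟩
    rw [moore_δ_add G hadd]
    rcases Nat.lt_succ_iff_lt_or_eq.mp hjr with h | rfl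
    · obtain ⟨r', rfl⟩ : ∃ r', r = r' + 1 := ⟨r - 1, by omega⟩
      have h1 : j ≤ r' := by omega
      rw [moore_ds_le h1 (by omega), moore_δ_sub G hadd, moore_dd h1 (by omega), hy j hj h,
        hc j r' h1 (by omega) (by omega) (by omega), sub_self, moore_σ_zero G hadd, add_zero]
    · rw [moore_ds_self hr2, add_sub_cancel]

include hadd in
/-- second half of Moore's algorithm: the faces above `i`, from the top -/
theorem moore_high {n : ℕ} (i : ℕ) (x : ℕ → X _⦋n + 1⦌)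
    (hc : ∀ j k (hjk : j ≤ k) (hk : k < n + 2), j ≠ i → k + 1 ≠ i →
      X.δ (⟨k, hk⟩ : Fin (n + 2)) (x j) = X.δ (⟨j, by omega⟩ : Fin (n + 2)) (x (k + 1)))
    (hi : i < n + 3) (t : ℕ) : ∀ r, r + t = n + 3 → i < r →
    ∃ y : X _⦋n + 2⦌, ∀ j (hj : j < n + 3), (j < i ∨ r ≤ j) → X.δ (⟨j, hj⟩ : Fin (n + 3)) y = x j := by
  induction t with
  | zero =>
    intro r hr _
    obtain ⟨y, hy⟩ := moore_low G hadd i x hc i le_rfl hi
    exact ⟨y, fun j hj h => hy j hj (by omega)⟩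
  | succ t ih =>
    intro r hr hir
    obtain ⟨y, hy⟩ := ih (r + 1) (by omega) (by omega)
    obtain ⟨r', rfl⟩ : ∃ r', r = r' + 1 := ⟨r - 1, by omega⟩
    have hr2 : r' < n + 2 := by omega
    refine ⟨y + X.σ (⟨r', hr2⟩ : Fin (n + 2)) (x (r' + 1) - X.δ (⟨r' + 1, by omega⟩ : Fin (n + 3)) y), fun j hj hjr => ?_⟩
    rw [moore_δ_add G hadd]
    rcases hjr with h | h
    · obtain ⟨r'', rfl⟩ : ∃ r'', r' = r'' + 1 := ⟨r' - 1, by omega⟩
      have h1 : j ≤ r'' := by omega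
      rw [moore_ds_le h1 (by omega), moore_δ_sub G hadd, moore_dd (by omega : j ≤ r'' + 1) (by omega), hy j hj (Or.inl h),
        hc j (r'' + 1) (by omega) (by omega) (by omega) (by omega), sub_self, moore_σ_zero G hadd, add_zero]
    · rcases Nat.eq_or_lt_of_le h with rfl | h
      · rw [moore_ds_succ hr2, add_sub_cancel]
      · obtain ⟨j', rfl⟩ : ∃ j', j = j' + 1 := ⟨j - 1, by omega⟩
        have h1 : r' < j' := by omega
        rw [moore_ds_gt h1 (by omega), moore_δ_sub G hadd, ← moore_dd (by omega : r' + 1 ≤ j') (by omega), hy (j' + 1) hj (Or.inr (by omega)),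
          hc (r' + 1) j' (by omega) (by omega) (by omega) (by omega), sub_self, moore_σ_zero G hadd, add_zero]

include hadd in
/-- **Moore's algorithm**, in elements with natural number indices -/
theorem moore_fill {n : ℕ} (i : ℕ) (hi : i < n + 3) (x : ℕ → X _⦋n + 1⦌)
    (hc : ∀ j k (hjk : j ≤ k) (hk : k < n + 2), j ≠ i → k + 1 ≠ i →
      X.δ (⟨k, hk⟩ : Fin (n + 2)) (x j) = X.δ (⟨j, by omega⟩ : Fin (n + 2)) (x (k + 1))) :
    ∃ y : X _⦋n + 2⦌, ∀ j (hj : j < n + 3), j ≠ i → X.δ (⟨j, hj⟩ : Fin (n + 3)) y = x j := by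
  obtain ⟨y, hy⟩ := moore_high G hadd i x hc hi (n + 2 - i) (i + 1) (by omega) (by omega)
  exact ⟨y, fun j hj h => hy j hj (by omega)⟩

end moore

/-- **Moore's theorem**: a simplicial set whose sets of simplices carry abelian group structures for which all
simplicial operators are additive is a Kan complex. -/
theorem kanComplex_of_addCommGroup (X : SSet.{0}) (G : ∀ n, AddCommGroup (X.obj n))
    (hadd : ∀ {n m : SimplexCategoryᵒᵖ} (φ : n ⟶ m) (x y : X.obj n), X.map φ (x + y) = X.map φ x + X.map φ y) :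
    SSet.KanComplex X := by
  rw [SSet.KanComplex.iff]
  intro n i f hf
  obtain _ | n := n
  · -- a horn of dimension one: degenerate the only vertex
    obtain ⟨j₀, hj₀⟩ : ∃ j₀ : Fin 2, j₀ ≠ i := ⟨i + 1, by fin_cases i <;> decide⟩
    refine ⟨SSet.yonedaEquiv.symm (X.σ 0 (SSet.yonedaEquiv (f j₀ hj₀))), fun j hj => ?_⟩
    obtain rfl : j = j₀ := by
      fin_cases i <;> fin_cases j <;> fin_cases j₀ <;> simp_all
    rw [SSet.stdSimplex.δ_comp_yonedaEquiv_symm]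
    have h : X.δ j (X.σ 0 (SSet.yonedaEquiv (f j hj₀))) = SSet.yonedaEquiv (f j hj₀) := by
      fin_cases j
      · exact SSet.δ_comp_σ_self_apply (0 : Fin 1) _
      · exact SSet.δ_comp_σ_succ_apply (0 : Fin 1) _
    rw [h, Equiv.symm_apply_apply]
  · let x : ℕ → X _⦋n + 1⦌ := fun j =>
      if h : j < n + 3 ∧ j ≠ i.val then SSet.yonedaEquiv (f ⟨j, h.1⟩ (fun e => h.2 (congrArg Fin.val e))) else 0
    have hx : ∀ j (hj : j < n + 3) (h : j ≠ i.val), x j = SSet.yonedaEquiv (f ⟨j, hj⟩ (fun e => h (congrArg Fin.val e))) :=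
      fun j hj h => dif_pos ⟨hj, h⟩
    obtain ⟨y, hy⟩ := moore_fill G hadd i.val i.isLt x (by
      intro j k hjk hk hj hk1
      rw [hx j (by omega) hj, hx (k + 1) (by omega) hk1, ← SSet.stdSimplex.yonedaEquiv_δ_comp, ← SSet.stdSimplex.yonedaEquiv_δ_comp]
      exact congrArg _ (hf ⟨j, by omega⟩ ⟨k + 1, by omega⟩ _ _ (Nat.lt_succ_of_le hjk)))
    refine ⟨SSet.yonedaEquiv.symm y, fun j hj => ?_⟩
    rw [SSet.stdSimplex.δ_comp_yonedaEquiv_symm, Equiv.symm_apply_eq]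
    exact (hy j.val j.isLt (fun e => hj (Fin.ext e))).trans (hx j.val j.isLt (fun e => hj (Fin.ext e)))

end Claimed.Open.R319
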