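import Claimed.Open.R319.Sanity

/-!
# Sanity (result 319): the height of a Morava K-theory is determined by the spectrum

No other file tests the predicate `IsMoravaKpos` (`= IsMoravaK p n` for `n ≥ 1`).  No example of it is constructed; here are consequences of its clause on the homotopy groups.

* `IsMoravaKpos.card_π`, `IsMoravaKpos.subsingleton_π` : `π_k K` has `p` elements if `2 (p^n - 1) ∣ k` and is trivial otherwise;
* `IsMoravaKpos.unique` : for `p ≥ 2` : `IsMoravaKpos p n K` and `IsMoravaKpos p m K` imply `n = m`;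
* `SH.not_isHQ_of_isMoravaKpos` : for `p ≠ 0` a `K(n)`, `n ≥ 1`, is not an `Hℚ`;
* **`SH.IsMoravaK.unique`** : for `p ≥ 2` : `IsMoravaK p n K` and `IsMoravaK p m K` imply `n = m` : the predicates `IsMoravaK p n`, `n ∈ ℕ`, are pairwise disjoint;
* `SH.IsMoravaK.not_isZero` : for `p ≠ 1` a Morava K-theory is not a zero object.
-/

open CategoryTheory

namespace Claimed.Open.R319

theorem IsMoravaKpos.card_π {p n : ℕ} {K : SH} (h : IsMoravaKpos p n K) {k : ℤ} (hk : 2 * ((p : ℤ) ^ n - 1) ∣ k) :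
    Nat.card (SH.π k K) = p := by
  obtain ⟨R, -, -, hπ, -⟩ := h
  exact (hπ k).1 hk

theorem IsMoravaKpos.subsingleton_π {p n : ℕ} {K : SH} (h : IsMoravaKpos p n K) {k : ℤ} (hk : ¬ 2 * ((p : ℤ) ^ n - 1) ∣ k) :
    Subsingleton (SH.π k K) := by
  obtain ⟨R, -, -, hπ, -⟩ := h
  exact (hπ k).2 hk

theorem IsMoravaKpos.dvd {p n m : ℕ} {K : SH} (hp : 2 ≤ p) (h : IsMoravaKpos p n K) (h' : IsMoravaKpos p m K) :
    2 * ((p : ℤ) ^ m - 1) ∣ 2 * ((p : ℤ) ^ n - 1) := by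
  by_contra hd
  have h1 := h.card_π (dvd_refl _)
  have := h'.subsingleton_π hd
  have h2 : Nat.card (SH.π (2 * ((p : ℤ) ^ n - 1)) K) ≤ 1 := Finite.card_le_one_iff_subsingleton.2 this
  omega

/-- The height of a `K(n)`, `n ≥ 1`, is determined by the spectrum. -/
theorem IsMoravaKpos.unique {p n m : ℕ} {K : SH} (hp : 2 ≤ p) (h : IsMoravaKpos p n K) (h' : IsMoravaKpos p m K) : n = m := by
  have d1 := h.dvd hp h'
  have d2 := h'.dvd hp h
  have hpos : ∀ j : ℕ, (0 : ℤ) ≤ 2 * ((p : ℤ) ^ j - 1) := fun j => by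
    have : (1 : ℤ) ≤ (p : ℤ) ^ j := one_le_pow₀ (by exact_mod_cast (by omega : 1 ≤ p))
    linarith
  have e : 2 * ((p : ℤ) ^ m - 1) = 2 * ((p : ℤ) ^ n - 1) := Int.dvd_antisymm (hpos m) (hpos n) d1 d2
  have e' : (p : ℤ) ^ m = (p : ℤ) ^ n := by linarith
  have e'' : p ^ m = p ^ n := by exact_mod_cast e'
  exact (Nat.pow_right_injective hp e'').symm

namespace SH

/-- A `K(n)`, `n ≥ 1`, is not an `Hℚ`. -/
theorem not_isHQ_of_isMoravaKpos {p n : ℕ} {K : SH} (hp : p ≠ 0) (h : IsMoravaKpos p n K) : ¬ IsHQ K := fun hQ => by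
  obtain ⟨⟨e, -⟩, -⟩ := hQ
  have h1 := h.card_π (dvd_zero _)
  have : Infinite (π 0 K) := Infinite.of_injective e.symm e.symm.injective
  rw [Nat.card_eq_zero_of_infinite] at h1
  exact hp h1.symm

/-- **The predicates `IsMoravaK p n`, `n ∈ ℕ`, are pairwise disjoint.** -/
theorem IsMoravaK.unique {p : ℕ} (hp : 2 ≤ p) {K : SH} : ∀ {n m : ℕ}, IsMoravaK p n K → IsMoravaK p m K → n = m
  | 0, 0, _, _ => rfl
  | 0, _ + 1, h, h' => absurd h (not_isHQ_of_isMoravaKpos (by omega) h')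
  | _ + 1, 0, h, h' => absurd h' (not_isHQ_of_isMoravaKpos (by omega) h)
  | _ + 1, _ + 1, h, h' => IsMoravaKpos.unique hp h h'

/-- A Morava K-theory is not a zero object. -/
theorem IsMoravaK.not_isZero {p : ℕ} (hp : p ≠ 1) {K : SH} : ∀ {n : ℕ}, IsMoravaK p n K → ¬ Limits.IsZero K
  | 0, h, hZ => by
    obtain ⟨⟨e, -⟩, -⟩ := h
    exact zero_ne_one (e.symm.injective (hZ.eq_of_tgt (e.symm 0) (e.symm 1)))
  | n + 1, h, hZ => by
    have h1 := IsMoravaKpos.card_π h (dvd_zero _)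
    have : Subsingleton (π 0 K) := ⟨fun a b => hZ.eq_of_tgt a b⟩
    have : Nonempty (π 0 K) := ⟨hZ.from_ _⟩
    rw [Nat.card_eq_one_iff_unique.2 ⟨inferInstance, inferInstance⟩] at h1
    exact hp h1.symm

end SH

end Claimed.Open.R319
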