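import Claimed.Open.R319.SanityMoravaHeight
import Claimed.Open.R319.SanityDegree
import Claimed.Open.R319.SanityHQnon

/-!
# Sanity (result 319): non-examples of `IsMoravaK`: `H𝔽_q` and the sphere spectrum

Only the clause on the orders of the homotopy groups of `IsMoravaKpos` is used (`IsMoravaKpos.card_π` of `SanityMoravaHeight.lean`).

* `moravaPeriod_pos`, `not_isMoravaKpos_of_subsingleton` : if `π_d K = 0` for the period `d = 2 (p^n - 1)` then `K` is not a `K(n)`;
* **`not_isMoravaKpos_of_isHFp`**, **`SH.not_isMoravaK_of_isHFp`** : an `H𝔽_q` is not a Morava K-theory (`p ≥ 2`);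
* **`SH.not_isMoravaK_sphere`** : the sphere spectrum is not a Morava K-theory (`p ≠ 0`).
-/

open CategoryTheory Opposite Simplicial

namespace Claimed.Open.R319

theorem moravaPeriod_pos {p n : ℕ} (hp : 2 ≤ p) (hn : n ≠ 0) : 0 < 2 * ((p : ℤ) ^ n - 1) := by
  have h1 : (1 : ℤ) < (p : ℤ) ^ n := one_lt_pow₀ (by exact_mod_cast hp) hn
  omega

/-- If `π_d K = 0` for the period `d = 2 (p^n - 1)` then `K` is not a `K(n)`. -/
theorem not_isMoravaKpos_of_subsingleton {p n : ℕ} (hp : 2 ≤ p) {K : SH}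
    (hK : Subsingleton (SH.π (2 * ((p : ℤ) ^ n - 1)) K)) : ¬ IsMoravaKpos p n K := fun h => by
  have h1 := h.card_π (dvd_refl _)
  have h2 : Nat.card (SH.π (2 * ((p : ℤ) ^ n - 1)) K) ≤ 1 := Finite.card_le_one_iff_subsingleton.2 hK
  omega

/-- **An Eilenberg--Mac Lane spectrum `H𝔽_q` is not a Morava K-theory `K(n)`, `n ≥ 1`.** -/
theorem not_isMoravaKpos_of_isHFp {p q n : ℕ} (hp : 2 ≤ p) (hn : n ≠ 0) {H : SH} (hH : SH.IsHFp q H) :
    ¬ IsMoravaKpos p n H :=
  not_isMoravaKpos_of_subsingleton hp (hH.2 _ (moravaPeriod_pos hp hn).ne')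

namespace SH

/-- **The sphere spectrum is not a Morava K-theory.** -/
theorem not_isMoravaK_sphere {p : ℕ} (hp : p ≠ 0) (n : ℕ) : ¬ IsMoravaK p n (sphere 0) := fun h => by
  cases n with
  | zero => exact not_isHQ_sphere_zero h
  | succ n =>
    have := infinite_π_zero_sphere
    have h' : IsMoravaKpos p (n + 1) (sphere 0) := h
    exact hp ((h'.card_π (dvd_zero _)).symm.trans Nat.card_eq_zero_of_infinite)

/-- **An `H𝔽_q` is not a Morava K-theory.** -/
theorem not_isMoravaK_of_isHFp {p q : ℕ} (hp : 2 ≤ p) (hq : q ≠ 0) (n : ℕ) {H : SH} (hH : IsHFp q H) : ¬ IsMoravaK p n H := fun h => by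
  cases n with
  | zero => exact not_isHQ_of_isHFp hq hH h
  | succ n => exact not_isMoravaKpos_of_isHFp hp (by omega) hH h

end SH

end Claimed.Open.R319
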