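import Claimed.Open.R319.SanityEM

/-!
# Sanity (result 319): the stable homotopy category `SH` of `Statement.lean` is NOT trivial

All the other checked examples of spectra are zero objects.  Here a non-zero `Ω`-spectrum is constructed and it is used to prove:

* `exists_isOmega_not_isZero` : there is an `Ω`-spectrum `E` with `Q.obj E` not a zero object of `SH`, and `π 0 (Q.obj E)` has two different elements;
* `not_isZero_sphere_zero` : the sphere spectrum `sphere 0` is not a zero object of `SH`;
* `not_isZeroMor_id_sphere_zero` : the identity of the sphere spectrum is not a zero map.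
-/

open CategoryTheory Opposite Simplicial

namespace Claimed.Open.R319

open PSSet

/-- The fundamental stable cocycle: the indicator of the diagonal simplices of the cubes `Δ[1]^m`. -/
def fundCoch (T : SimplexCategory) : Coch T := fun m _ l => if l = diag m then 1 else 0

theorem fundCoch_isStCocycle (T : SimplexCategory) : IsStCocycle (fundCoch T) where
  vanish m _ l h := if_neg (by
    rintro rfl
    obtain ⟨s, hs, hns⟩ := h
    exact hns (diag_surjective m s hs))
  cocycle m _ l := diag_cocycle m l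
  prism m _ l := diag_prism m l

/-- The fundamental stable cocycle as a simplex of `EM`. -/
def fund (n : SimplexCategoryᵒᵖ) : EM.obj n := ⟨fundCoch n.unop, fundCoch_isStCocycle n.unop⟩

/-- The map `S⁰ ⟶ EM` that sends the point different from the base point to the fundamental stable cocycle. -/
def fundMap : S0 ⟶ EM where
  app n := ⟨plusLift (P := EM.obj n) fun _ => fund n, rfl⟩
  naturality n n' ψ := Pointed.Hom.ext (funext fun x => by
    induction x using plus_ind with
    | h0 => rfl
    | h s => rfl)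

/-- The vertex of `S⁰` different from the base point. -/
def S0.vertex (n : SimplexCategoryᵒᵖ) : S0.obj n := quot.mk _ (SSet.stdSimplex.const 0 0 n)

/-- The invariant of a map `S⁰ ⟶ EM`: the value of the cocycle `f(vertex)` at the point. -/
def inv0 (f : S0 ⟶ EM) : ZMod 2 := ((f.app (op ⦋0⦌)).toFun (S0.vertex _)).1 0 (𝟙 _) []

theorem inv0_fundMap : inv0 fundMap = 1 := rfl

theorem inv0_zeroMap : inv0 (zeroMap S0 EM) = 0 := rfl

theorem stdSimplex_face_zero : (Δ[1] : SSet.{0}).map (SimplexCategory.δ (0 : Fin 2)).op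
    (SSet.stdSimplex.objEquiv.symm (𝟙 ⦋1⦌)) = SSet.stdSimplex.const 1 1 (op ⦋0⦌) := by
  apply SSet.stdSimplex.objEquiv.injective
  ext j
  fin_cases j
  rfl

theorem stdSimplex_face_one : (Δ[1] : SSet.{0}).map (SimplexCategory.δ (1 : Fin 2)).op
    (SSet.stdSimplex.objEquiv.symm (𝟙 ⦋1⦌)) = SSet.stdSimplex.const 1 0 (op ⦋0⦌) := by
  apply SSet.stdSimplex.objEquiv.injective
  ext j
  fin_cases j
  rfl

theorem inv0_eq_of_homotopy {f g : S0 ⟶ EM} (h : PSSet.Homotopy f g) : inv0 f = inv0 g := by
  obtain ⟨H, rfl, rfl⟩ := h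
  let x : (smash S0 I).obj (op ⦋1⦌) := Smash.mk (S0.vertex _) (quot.mk _ (SSet.stdSimplex.objEquiv.symm (𝟙 ⦋1⦌)))
  have c := ((H.app (op ⦋1⦌)).toFun x).2.cocycle 0 (𝟙 _) []
  rw [Fin.sum_univ_two] at c
  have e : ∀ i : Fin 2, ((H.app (op ⦋0⦌)).toFun (((smash S0 I).map (SimplexCategory.δ i).op).toFun x)).1 0 (𝟙 _) []
      = ((H.app (op ⦋1⦌)).toFun x).1 0 (SimplexCategory.δ i ≫ 𝟙 _) [] := by
    intro i
    have := EM_nat H (SimplexCategory.δ i).op x 0 (𝟙 _) []
    rw [Category.id_comp] at this
    rw [Category.comp_id]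
    exact this
  have e0 : ((smash S0 I).map (SimplexCategory.δ (0 : Fin 2)).op).toFun x = ((incl S0 1).app (op ⦋0⦌)).toFun (S0.vertex _) :=
    congrArg (fun t => Smash.mk (S0.vertex (op ⦋0⦌)) (quot.mk (S := Δ[1]) ⊥ t)) stdSimplex_face_zero
  have e1 : ((smash S0 I).map (SimplexCategory.δ (1 : Fin 2)).op).toFun x = ((incl S0 0).app (op ⦋0⦌)).toFun (S0.vertex _) :=
    congrArg (fun t => Smash.mk (S0.vertex (op ⦋0⦌)) (quot.mk (S := Δ[1]) ⊥ t)) stdSimplex_face_one
  have c' : inv0 (incl S0 1 ≫ H) + inv0 (incl S0 0 ≫ H) = 0 := by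
    refine Eq.trans ?_ c
    refine congrArg₂ (· + ·) ?_ ?_
    · refine Eq.trans ?_ (e 0)
      rw [e0]
      rfl
    · refine Eq.trans ?_ (e 1)
      rw [e1]
      rfl
  have : ∀ a b : ZMod 2, a + b = 0 → b = a := by decide
  exact this _ _ c'

theorem inv0_eq_of_homotopic {f g : S0 ⟶ EM} (h : PSSet.Homotopic f g) : inv0 f = inv0 g := by
  induction h with
  | rel _ _ h => exact inv0_eq_of_homotopy h
  | refl _ => rfl
  | symm _ _ _ ih => exact ih.symm
  | trans _ _ _ _ _ ih ih' => exact ih.trans ih'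

/-- The fundamental class is not null homotopic. -/
theorem not_homotopic_fundMap : ¬ PSSet.Homotopic fundMap (zeroMap S0 EM) := fun h => by
  have := inv0_eq_of_homotopic h
  rw [inv0_fundMap, inv0_zeroMap] at this
  exact one_ne_zero this

/-- The `Ω`-spectrum of stable mod 2 cocycles. -/
noncomputable def specEM : Sp := loopEM.spectrum

theorem isOmega_specEM : specEM.IsOmega := loopEM.isOmega

/-- Two different elements of `π_0` of the `Ω`-spectrum `specEM`. -/
theorem exists_π_zero_specEM_ne : ∃ a b : SH.π 0 (Q.obj specEM), a ≠ b := by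
  let e := SH.piEquivNonneg 0 specEM isOmega_specEM
  refine ⟨e.symm (Quot.mk _ (fundMap ≫ loopEM.incl0)), e.symm (Quot.mk _ (zeroMap S0 _)), fun h => ?_⟩
  have h' := PSSet.homotopic_of_quot_eq (e.symm.injective h)
  exact not_homotopic_fundMap (h'.postcomp loopEM.proj0)

/-- **`SH` is not trivial**: there is an `Ω`-spectrum that is not a zero object of `SH`. -/
theorem exists_isOmega_not_isZero : ∃ E : Sp, E.IsOmega ∧ ¬ Limits.IsZero (Q.obj E) :=
  ⟨specEM, isOmega_specEM, fun h => by
    obtain ⟨a, b, hab⟩ := exists_π_zero_specEM_ne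
    exact hab (h.eq_of_tgt a b)⟩

/-- **The sphere spectrum is not a zero object of `SH`.** -/
theorem not_isZero_sphere_zero : ¬ Limits.IsZero (SH.sphere 0) := fun h => by
  obtain ⟨a, b, hab⟩ := exists_π_zero_specEM_ne
  exact hab (h.eq_of_src a b)

/-- The identity of the sphere spectrum is not a zero map. -/
theorem not_isZeroMor_id_sphere_zero : ¬ IsZeroMor (𝟙 (SH.sphere 0)) := by
  rintro ⟨Z, a, b, hZ, hab⟩
  refine not_isZero_sphere_zero (hZ.of_iso ⟨a, b, hab.symm, hZ.eq_of_src _ _⟩)

/-! ### All spheres -/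

theorem smashMap_zeroMap_comp {A X Y : PSSet} (k : smash X S1 ⟶ Y) :
    smashMap (zeroMap A X) (𝟙 S1) ≫ k = zeroMap (smash A S1) Y :=
  NatTrans.ext (funext fun n => Smash.hom_ext fun _ b =>
    (congrArg (k.app n).toFun (Smash.mk_left b)).trans (k.app n).map_point)

/-- The fundamental class `S^k ⟶ EM`: the `k`-fold suspension of `fundMap`, followed by the structure maps. -/
def fundSph (k : ℕ) : Sph k ⟶ EM :=
  match k with
  | 0 => fundMap
  | k + 1 => smashMap (fundSph k) (𝟙 S1) ≫ σEM

theorem not_homotopic_fundSph (k : ℕ) : ¬ PSSet.Homotopic (fundSph k) (zeroMap (Sph k) EM) :=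
  match k with
  | 0 => not_homotopic_fundMap
  | k + 1 => fun h => by
    have h1 := loopEM.adj_homotopic (A := Sph k) h
    have e1 : loopEM.adj (A := Sph k) (fundSph (k + 1)) = fundSph k := loopEM.adj_σ (fundSph k)
    have e2 : loopEM.adj (A := Sph k) (zeroMap (Sph (k + 1)) EM) = zeroMap (Sph k) EM := by
      have e3 := loopEM.adj_σ (zeroMap (Sph k) EM)
      have e4 : smashMap (zeroMap (Sph k) EM) (𝟙 S1) ≫ loopEM.σ = zeroMap (Sph (k + 1)) EM :=
        smashMap_zeroMap_comp (A := Sph k) σEM
      exact (congrArg (loopEM.adj (A := Sph k)) e4).symm.trans e3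
    rw [e1, e2] at h1
    exact not_homotopic_fundSph k h1

/-- `π_k` of the `Ω`-spectrum `specEM` has two different elements, for every integer `k`. -/
theorem exists_π_specEM_ne (k : ℤ) : ∃ a b : SH.π k (Q.obj specEM), a ≠ b :=
  match k with
  | Int.ofNat k => by
    let e := SH.piEquivNonneg k specEM isOmega_specEM
    refine ⟨e.symm (Quot.mk _ (fundSph k ≫ loopEM.incl0)), e.symm (Quot.mk _ (zeroMap (Sph k) _)), fun h => ?_⟩
    have h' := PSSet.homotopic_of_quot_eq (e.symm.injective h)
    exact not_homotopic_fundSph k (h'.postcomp loopEM.proj0)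
  | Int.negSucc k => by
    let e := SH.piEquivNeg k specEM isOmega_specEM
    refine ⟨e.symm (Quot.mk _ (loopEM.lift (k + 1) fundMap)), e.symm (Quot.mk _ (zeroMap S0 _)), fun h => ?_⟩
    have h' := PSSet.homotopic_of_quot_eq (e.symm.injective h)
    exact not_homotopic_fundMap (h'.postcomp (loopEM.pr (k + 1)))

/-- **No sphere `S^k`, `k ∈ ℤ`, is a zero object of `SH`.** -/
theorem not_isZero_sphere (k : ℤ) : ¬ Limits.IsZero (SH.sphere k) := fun h => by
  obtain ⟨a, b, hab⟩ := exists_π_specEM_ne k
  exact hab (h.eq_of_src a b)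

end Claimed.Open.R319
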