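import Claimed.Open.R319.SanityNontrivial

/-!
# Sanity (result 319): the sphere spectrum is NOT `p`-local (`p ≠ 2`); a non-zero `2`-complete spectrum

`Statement` is about large primes `p`, so `ℓ = 2` is one of the primes that a `p`-local spectrum must invert.  Here the words `IsSum`, `IsNatMul`,
`NatMulInvertible`, `SH.IsPLocal`, `SH.IsPLocalization`, `SH.IsPComplete` of `Statement.lean` are tested in `SH` itself (not in an abstract additive category):

* `not_natMulInvertible_two_sphere` : multiplication by `2` is not invertible on `S^k`, for every `k ∈ ℤ`;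
* `not_isPLocal_sphere`, `not_isPLocalization_id_sphere`, `not_isIso_of_isPLocal` : for `p ≠ 2` no sphere is `p`-local, its identity is not a
  `p`-localization, and no map from a sphere to a `p`-local spectrum is an isomorphism (non-examples);
* `exists_isPComplete_two_not_isZero` : a `2`-complete spectrum that is not a zero object (an example); it is not `p`-local for `p ≠ 2`, not connective,
  not bounded below, not finite in total (non-examples);
* `AddLoop.cls_of_isSum` : on `SH(X, E)`, `E` the spectrum below, the relation `IsSum` is the levelwise addition of maps of spectra.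

Proof.  The structure maps of the `Ω`-spectrum `specEM` of `SanityNontrivial.lean` are not additive (their second component is an indicator function).
So a second `Ω`-spectrum `aspecEM` is built from the same strict loop object `EM ≅ Ω EM`: `level n = EM × Cof2 V_n`, `V_{n+1} = level n`, where a `q`-simplex of
`Cof2 V` is an arbitrary family of functions `S¹_m → V_m` indexed by the operators `⦋m⦌ ⟶ ⦋q⦌`, and `V ∧ S¹ ⟶ Cof2 V`, `v ∧ s ↦ (φ^* v) · 1_{φ^* s}`, is injective AND
additive in `v`.  Hence maps of spectra `X ⟶ aspecEM` can be added levelwise; the sum passes to homotopy classes, `x + x = 0`, and every morphism of `SH`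
(also the formal inverses of the stable equivalences) acts additively on `[-, aspecEM]` (`AddLoop.pull_hadd`).  With `SH.homEquiv` and the uniqueness clause of
`IsCoprod`, `IsSum f g h` gives `h^* x = f^* x + g^* x` (`AddLoop.pull_of_isSum`), so `IsNatMul 2 f` gives `f^* = 0`, and `[X, aspecEM] = 0` if `2` is invertible on `X`;
but `π_k (aspecEM) ≠ 0` by the fundamental cocycle.
-/

open CategoryTheory Opposite Simplicial

namespace Claimed.Open.R319

open PSSet

/-! ### 1. Simplicial `𝔽₂`-vector spaces -/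

/-- A structure of simplicial abelian group of exponent two on a pointed simplicial set. -/
structure AbStr (V : PSSet) where
  grp : ∀ n, AddCommGroup (V.obj n)
  point_eq : ∀ n, (V.obj n).point = 0
  map_add : ∀ {n m : SimplexCategoryᵒᵖ} (φ : n ⟶ m) (x y : V.obj n),
    (V.map φ).toFun (x + y) = (V.map φ).toFun x + (V.map φ).toFun y
  two : ∀ n (x : V.obj n), x + x = 0

namespace AbStr

variable {V W : PSSet}

/-- the addition -/
def add (S : AbStr V) {n : SimplexCategoryᵒᵖ} (x y : V.obj n) : V.obj n :=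
  letI := S.grp n
  x + y

theorem add_point (S : AbStr V) {n : SimplexCategoryᵒᵖ} (x : V.obj n) : S.add x (V.obj n).point = x := by
  let _ := S.grp n
  show x + (V.obj n).point = x
  rw [S.point_eq, add_zero]

theorem point_add (S : AbStr V) {n : SimplexCategoryᵒᵖ} (x : V.obj n) : S.add (V.obj n).point x = x := by
  let _ := S.grp n
  show (V.obj n).point + x = x
  rw [S.point_eq, zero_add]

theorem add_self (S : AbStr V) {n : SimplexCategoryᵒᵖ} (x : V.obj n) : S.add x x = (V.obj n).point := by
  let _ := S.grp n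
  show x + x = (V.obj n).point
  rw [S.point_eq, S.two]

theorem map_add' (S : AbStr V) {n m : SimplexCategoryᵒᵖ} (φ : n ⟶ m) (x y : V.obj n) :
    (V.map φ).toFun (S.add x y) = S.add ((V.map φ).toFun x) ((V.map φ).toFun y) := S.map_add φ x y

/-- the one-point simplicial set -/
def ofPt : AbStr PSSet.pt where
  grp _ := inferInstanceAs (AddCommGroup PUnit)
  point_eq _ := rfl
  map_add _ _ _ := rfl
  two _ _ := rfl

/-- products -/
def prod (S : AbStr V) (T : AbStr W) : AbStr (PSSet.prod V W) where
  grp n :=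
    letI := S.grp n
    letI := T.grp n
    inferInstanceAs (AddCommGroup (V.obj n × W.obj n))
  point_eq n := Prod.ext (S.point_eq n) (T.point_eq n)
  map_add φ x y := Prod.ext (S.map_add φ x.1 y.1) (T.map_add φ x.2 y.2)
  two n x := Prod.ext (S.two n x.1) (T.two n x.2)

theorem prod_add (S : AbStr V) (T : AbStr W) {n : SimplexCategoryᵒᵖ} (x y : (PSSet.prod V W).obj n) :
    (S.prod T).add x y = (S.add x.1 y.1, T.add x.2 y.2) := rfl

end AbStr

namespace PSSet

/-- The cofree simplicial set on the graded set of the functions `S¹_m → V_m`: a `q`-simplex is an ARBITRARY family of functions `S¹_m → V_m`, one for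
each `m` and each operator `⦋m⦌ ⟶ ⦋q⦌`. -/
def Cof2 (V : PSSet) : PSSet where
  obj n := ⟨∀ m : ℕ, (⦋m⦌ ⟶ n.unop) → S1.obj (op ⦋m⦌) → V.obj (op ⦋m⦌), fun m _ _ => (V.obj (op ⦋m⦌)).point⟩
  map ψ := ⟨fun c m φ => c m (φ ≫ ψ.unop), rfl⟩
  map_id _ := Pointed.Hom.ext (funext fun c => funext fun m => funext fun φ => by
    show c m (φ ≫ 𝟙 _) = c m φ
    rw [Category.comp_id])
  map_comp ψ χ := Pointed.Hom.ext (funext fun c => funext fun m => funext fun φ => by
    show c m (φ ≫ (χ.unop ≫ ψ.unop)) = c m ((φ ≫ χ.unop) ≫ ψ.unop)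
    rw [Category.assoc])

end PSSet

/-- `Cof2 V` is a simplicial abelian group if `V` is one -/
def AbStr.cof2 {V : PSSet} (S : AbStr V) : AbStr (Cof2 V) where
  grp n :=
    letI := fun m => S.grp m
    inferInstanceAs (AddCommGroup (∀ m : ℕ, (⦋m⦌ ⟶ n.unop) → S1.obj (op ⦋m⦌) → V.obj (op ⦋m⦌)))
  point_eq _ := funext fun m => funext fun _ => funext fun _ => S.point_eq (op ⦋m⦌)
  map_add _ _ _ := rfl
  two _ x := funext fun m => funext fun φ => funext fun s => S.two (op ⦋m⦌) (x m φ s)

theorem AbStr.cof2_add {V : PSSet} (S : AbStr V) {n : SimplexCategoryᵒᵖ} (x y : (Cof2 V).obj n) (m : ℕ)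
    (φ : ⦋m⦌ ⟶ n.unop) (s : S1.obj (op ⦋m⦌)) : S.cof2.add x y m φ s = S.add (x m φ s) (y m φ s) := rfl

namespace PSSet

open Classical in
/-- The map `V ∧ S¹ ⟶ Cof2 V`: `v ∧ s ↦ (φ ↦ (φ^* v) · indicator of φ^* s)`, and the indicator of the base point is `0`. -/
noncomputable def unit2 (V : PSSet) : smash V S1 ⟶ Cof2 V where
  app n := Smash.lift (C := (Cof2 V).obj n)
    (fun v s m φ s' => if s' = (S1.map φ.op).toFun s ∧ s' ≠ (S1.obj (op ⦋m⦌)).point then (V.map φ.op).toFun v
      else (V.obj (op ⦋m⦌)).point)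
    (fun s => by
      funext m φ s'
      show (if _ then (V.map φ.op).toFun (V.obj n).point else _) = (V.obj (op ⦋m⦌)).point
      rw [(V.map φ.op).map_point, ite_self])
    (fun v => by
      funext m φ s'
      show (if s' = (S1.map φ.op).toFun (S1.obj n).point ∧ _ then _ else _) = (V.obj (op ⦋m⦌)).point
      rw [(S1.map φ.op).map_point]
      exact if_neg fun h => h.2 h.1)
  naturality n n' ψ := Smash.hom_ext fun v s => by
    funext m φ s'
    show (if s' = (S1.map φ.op).toFun ((S1.map ψ).toFun s) ∧ s' ≠ (S1.obj (op ⦋m⦌)).point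
        then (V.map φ.op).toFun ((V.map ψ).toFun v) else (V.obj (op ⦋m⦌)).point) =
      if s' = (S1.map (φ ≫ ψ.unop).op).toFun s ∧ s' ≠ (S1.obj (op ⦋m⦌)).point
        then (V.map (φ ≫ ψ.unop).op).toFun v else (V.obj (op ⦋m⦌)).point
    have h1 : (φ ≫ ψ.unop).op = ψ ≫ φ.op := rfl
    rw [h1, V.map_comp, S1.map_comp]
    rfl

open Classical in
theorem unit2_mk (V : PSSet) (n : SimplexCategoryᵒᵖ) (v : V.obj n) (s : S1.obj n) (m : ℕ) (φ : ⦋m⦌ ⟶ n.unop)
    (s' : S1.obj (op ⦋m⦌)) : ((unit2 V).app n).toFun (Smash.mk v s) m φ s' =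
      if s' = (S1.map φ.op).toFun s ∧ s' ≠ (S1.obj (op ⦋m⦌)).point then (V.map φ.op).toFun v
      else (V.obj (op ⦋m⦌)).point := rfl

theorem unit2_injective (V : PSSet) (n : SimplexCategoryᵒᵖ) : Function.Injective ((unit2 V).app n).toFun := by
  classical
  intro x y h
  induction x using Smash.ind with | h v s => ?_
  induction y using Smash.ind with | h v' s' => ?_
  have key : ∀ t : S1.obj n, (if t = s ∧ t ≠ (S1.obj n).point then v else (V.obj n).point) =
      if t = s' ∧ t ≠ (S1.obj n).point then v' else (V.obj n).point := by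
    intro t
    have h1 := congrFun (congrFun (congrFun h n.unop.len) (𝟙 n.unop)) t
    have h3 : (𝟙 n.unop).op = 𝟙 n := rfl
    rw [unit2_mk, unit2_mk, h3, V.map_id, S1.map_id] at h1
    exact h1
  have pt' : ∀ (w : V.obj n) (r : S1.obj n),
      (∀ t : S1.obj n, (if t = r ∧ t ≠ (S1.obj n).point then w else (V.obj n).point) = (V.obj n).point) →
      Smash.mk w r = (Smash (V.obj n) (S1.obj n)).point := by
    intro w r hr
    by_cases hr0 : r = (S1.obj n).point
    · rw [hr0]; exact Smash.mk_right w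
    · have := hr r
      rw [if_pos ⟨rfl, hr0⟩] at this
      rw [this]; exact Smash.mk_left r
  by_cases hs : s = (S1.obj n).point
  · have e1 : Smash.mk v s = (Smash (V.obj n) (S1.obj n)).point := by rw [hs]; exact Smash.mk_right v
    refine e1.trans (pt' v' s' fun t => ?_).symm
    rw [← key t]
    exact if_neg fun hh => hh.2 (hh.1.trans hs)
  · by_cases e : s = s'
    · subst e
      have := key s
      rw [if_pos ⟨rfl, hs⟩, if_pos ⟨rfl, hs⟩] at this
      rw [this]
    · have hv := key s
      rw [if_pos ⟨rfl, hs⟩, if_neg fun hh => e hh.1] at hv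
      have e1 : Smash.mk v s = (Smash (V.obj n) (S1.obj n)).point := by rw [hv]; exact Smash.mk_left s
      refine e1.trans (pt' v' s' fun t => ?_).symm
      rw [← key t, hv, ite_self]

theorem unit2_add {V : PSSet} (S : AbStr V) (n : SimplexCategoryᵒᵖ) (v v' : V.obj n) (s : S1.obj n) :
    ((unit2 V).app n).toFun (Smash.mk (S.add v v') s) =
      S.cof2.add (((unit2 V).app n).toFun (Smash.mk v s)) (((unit2 V).app n).toFun (Smash.mk v' s)) := by
  classical
  funext m φ t
  rw [AbStr.cof2_add, unit2_mk, unit2_mk, unit2_mk]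
  split_ifs
  · exact S.map_add' φ.op v v'
  · exact (S.add_point _).symm

open Classical in
/-- The contraction of `Cof2 V`, along a map `F : B ⟶ Cof2 V`. -/
noncomputable def cof2Contr {B V : PSSet} (F : B ⟶ Cof2 V) : smash B I ⟶ Cof2 V where
  app n := Smash.lift
    (fun b a => plusLift (P := (Cof2 V).obj n)
      (fun t m φ s => if (SSet.stdSimplex.{0}.obj (SimplexCategory.mk 1)).map φ.op t = SSet.stdSimplex.const 1 0 (op ⦋m⦌)
        then (F.app n).toFun b m φ s else (V.obj (op ⦋m⦌)).point) a)
    (fun a => by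
      induction a using plus_ind with
      | h0 => rfl
      | h t =>
        funext m φ s
        show (if _ then (F.app n).toFun (B.obj n).point m φ s else _) = (V.obj (op ⦋m⦌)).point
        rw [(F.app n).map_point]
        exact ite_self _)
    (fun _ => rfl)
  naturality n n' ψ := Smash.hom_ext fun b a => by
    induction a using plus_ind with
    | h0 => rfl
    | h t =>
      funext m φ s
      show (if (SSet.stdSimplex.{0}.obj (SimplexCategory.mk 1)).map φ.op
            ((SSet.stdSimplex.{0}.obj (SimplexCategory.mk 1)).map ψ t) = SSet.stdSimplex.const 1 0 (op ⦋m⦌)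
          then (F.app n').toFun ((B.map ψ).toFun b) m φ s else (V.obj (op ⦋m⦌)).point) =
        if (SSet.stdSimplex.{0}.obj (SimplexCategory.mk 1)).map (φ ≫ ψ.unop).op t = SSet.stdSimplex.const 1 0 (op ⦋m⦌)
          then (F.app n).toFun b m (φ ≫ ψ.unop) s else (V.obj (op ⦋m⦌)).point
      have h1 : (F.app n').toFun ((B.map ψ).toFun b) = ((Cof2 V).map ψ).toFun ((F.app n).toFun b) :=
        congrArg (fun k => k.toFun b) (F.naturality ψ)
      rw [h1]
      rfl

/-- `Cof2 V` is contractible: every map into it is homotopic to the constant map. -/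
theorem cof2_homotopic_zero {B V : PSSet} (F : B ⟶ Cof2 V) : Homotopic F (zeroMap B (Cof2 V)) := by
  classical
  refine Relation.EqvGen.rel _ _ ⟨cof2Contr F, ?_, ?_⟩
  · refine NatTrans.ext (funext fun n => Pointed.Hom.ext (funext fun b => funext fun m => funext fun φ => funext fun s => ?_))
    show (if (SSet.stdSimplex.{0}.obj (SimplexCategory.mk 1)).map φ.op (SSet.stdSimplex.const 1 0 n) =
      SSet.stdSimplex.const 1 0 (op ⦋m⦌) then (F.app n).toFun b m φ s else (V.obj (op ⦋m⦌)).point) = _
    exact if_pos rfl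
  · refine NatTrans.ext (funext fun n => Pointed.Hom.ext (funext fun b => funext fun m => funext fun φ => funext fun s => ?_))
    show (if (SSet.stdSimplex.{0}.obj (SimplexCategory.mk 1)).map φ.op (SSet.stdSimplex.const 1 1 n) =
      SSet.stdSimplex.const 1 0 (op ⦋m⦌) then (F.app n).toFun b m φ s else (V.obj (op ⦋m⦌)).point) = (V.obj (op ⦋m⦌)).point
    refine if_neg fun h => ?_
    have h1 := congrArg (fun t => (SSet.stdSimplex.objEquiv t).toOrderHom 0) h
    have h2 : (1 : Fin 2) = 0 := h1
    exact absurd h2 (by decide)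

/-- Two maps into `X × Cof2 V` are homotopic as soon as their first components are. -/
theorem homotopic_prod_cof2 {A X V : PSSet} {f g : A ⟶ PSSet.prod X (Cof2 V)}
    (h : Homotopic (f ≫ prodFst _ _) (g ≫ prodFst _ _)) : Homotopic f g := by
  have h1 : Homotopic (prodLift (f ≫ prodFst _ _) (f ≫ prodSnd _ _)) (prodLift (f ≫ prodFst _ _) (zeroMap _ _)) :=
    Homotopic.prodLift_right _ (cof2_homotopic_zero _)
  have h2 : Homotopic (prodLift (g ≫ prodFst _ _) (g ≫ prodSnd _ _)) (prodLift (g ≫ prodFst _ _) (zeroMap _ _)) :=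
    Homotopic.prodLift_right _ (cof2_homotopic_zero _)
  exact .trans _ _ _ h1 (.trans _ _ _ (Homotopic.prodLift_left h _) (.symm _ _ h2))

end PSSet

/-! ### 2. An `Ω`-spectrum with ADDITIVE (and injective) structure maps -/

namespace LoopData

variable (L : LoopData)

/-- auxiliary: `V_0 = *`, `V_{n+1} = E × Cof2 V_n` -/
def lv (n : ℕ) : PSSet :=
  match n with
  | 0 => PSSet.pt
  | n + 1 => PSSet.prod L.E (Cof2 (lv n))

/-- The spectrum: `level n = E × Cof2 V_n = V_{n+1}`; the structure map is `(σ ∘ (pr₁ ∧ S¹), unit2)`: injective because of the second component, and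
additive in the first variable. -/
noncomputable def aspec : Sp where
  level n := PSSet.prod L.E (Cof2 (L.lv n))
  σ n := prodLift (smashMap (prodFst _ _) (𝟙 S1) ≫ L.σ) (unit2 (PSSet.prod L.E (Cof2 (L.lv n))))
  σ_inj _ m := fun _ _ h => unit2_injective _ m (congrArg Prod.snd h)

variable {L} (S : AbStr L.E)

/-- the group structure of `V_n` -/
def lvStr (n : ℕ) : AbStr (L.lv n) :=
  match n with
  | 0 => AbStr.ofPt
  | n + 1 => S.prod (lvStr n).cof2

/-- the group structure of the level `n` -/
def levelStr (n : ℕ) : AbStr (L.aspec.level n) := S.prod (lvStr S n).cof2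

variable (L)

/-- the projection of the level `n` to `E` -/
def apr (n : ℕ) : L.aspec.level n ⟶ L.E := prodFst _ _

/-- the map into the level `n` with components `a` and `0` -/
def alift (n : ℕ) {A : PSSet} (a : A ⟶ L.E) : A ⟶ L.aspec.level n := prodLift a (zeroMap _ _)

theorem alift_apr (n : ℕ) {A : PSSet} (a : A ⟶ L.E) : L.alift n a ≫ L.apr n = a := rfl

theorem aσ_apr (n : ℕ) : L.aspec.σ n ≫ L.apr (n + 1) = smashMap (L.apr n) (𝟙 S1) ≫ L.σ := rfl

theorem homotopic_alevel {n : ℕ} {A : PSSet} {f g : A ⟶ L.aspec.level n}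
    (h : Homotopic (f ≫ L.apr n) (g ≫ L.apr n)) : Homotopic f g :=
  homotopic_prod_cof2 (X := L.E) (V := L.lv n) h

theorem aspec_σ_apr (n : ℕ) {A : PSSet} (g : A ⟶ L.aspec.level n) :
    (smashMap g (𝟙 S1) ≫ L.aspec.σ n) ≫ L.apr (n + 1) = smashMap (g ≫ L.apr n) (𝟙 S1) ≫ L.σ := by
  rw [Category.assoc, aσ_apr, ← Category.assoc, ← smashMap_comp, Category.comp_id]

variable {L}

include S in
theorem isOmega_aspec : L.aspec.IsOmega where
  kan n := kanComplex_of_addCommGroup _ (levelStr S n).grp (fun φ x y => (levelStr S n).map_add φ x y)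
  surj n A h := by
    refine ⟨L.alift n (L.adj (h ≫ L.apr (n + 1))), L.homotopic_alevel ?_⟩
    rw [aspec_σ_apr, alift_apr, adj_spec]
    exact .refl _
  inj n A g g' h := by
    refine L.homotopic_alevel ?_
    have h1 := L.adj_homotopic (h.postcomp (L.apr (n + 1)))
    rwa [aspec_σ_apr, aspec_σ_apr, adj_σ, adj_σ] at h1

/-- the structure maps are additive in the first variable -/
theorem aspec_σ_add (hσ : ∀ (m : SimplexCategoryᵒᵖ) (x y : L.E.obj m) (s : S1.obj m),
      (L.σ.app m).toFun (Smash.mk (S.add x y) s) = S.add ((L.σ.app m).toFun (Smash.mk x s)) ((L.σ.app m).toFun (Smash.mk y s)))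
    (n : ℕ) (m : SimplexCategoryᵒᵖ) (x y : (L.aspec.level n).obj m) (s : S1.obj m) :
    ((L.aspec.σ n).app m).toFun (Smash.mk ((levelStr S n).add x y) s) =
      (levelStr S (n + 1)).add (((L.aspec.σ n).app m).toFun (Smash.mk x s)) (((L.aspec.σ n).app m).toFun (Smash.mk y s)) :=
  Prod.ext (hσ m x.1 y.1 s) (unit2_add (levelStr S n) m x y s)

end LoopData

/-! ### 3. Sums of maps -/

namespace PSSet

/-- the sum of two maps into a simplicial abelian group -/
def addMap {A V : PSSet} (S : AbStr V) (f g : A ⟶ V) : A ⟶ V where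
  app n := ⟨fun a => S.add ((f.app n).toFun a) ((g.app n).toFun a), by
    rw [(f.app n).map_point, (g.app n).map_point]; exact S.add_point _⟩
  naturality n m φ := Pointed.Hom.ext (funext fun a => by
    show S.add ((f.app m).toFun ((A.map φ).toFun a)) ((g.app m).toFun ((A.map φ).toFun a)) =
      (V.map φ).toFun (S.add ((f.app n).toFun a) ((g.app n).toFun a))
    have h1 : (f.app m).toFun ((A.map φ).toFun a) = (V.map φ).toFun ((f.app n).toFun a) :=
      congrArg (fun k => k.toFun a) (f.naturality φ)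
    have h2 : (g.app m).toFun ((A.map φ).toFun a) = (V.map φ).toFun ((g.app n).toFun a) :=
      congrArg (fun k => k.toFun a) (g.naturality φ)
    rw [S.map_add', h1, h2])

theorem comp_addMap {A B V : PSSet} (S : AbStr V) (k : B ⟶ A) (f g : A ⟶ V) :
    k ≫ addMap S f g = addMap S (k ≫ f) (k ≫ g) := rfl

theorem addMap_zero {A V : PSSet} (S : AbStr V) (f : A ⟶ V) : addMap S f (zeroMap A V) = f :=
  NatTrans.ext (funext fun _ => Pointed.Hom.ext (funext fun _ => S.add_point _))

theorem zero_addMap {A V : PSSet} (S : AbStr V) (f : A ⟶ V) : addMap S (zeroMap A V) f = f :=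
  NatTrans.ext (funext fun _ => Pointed.Hom.ext (funext fun _ => S.point_add _))

theorem addMap_self {A V : PSSet} (S : AbStr V) (f : A ⟶ V) : addMap S f f = zeroMap A V :=
  NatTrans.ext (funext fun _ => Pointed.Hom.ext (funext fun _ => S.add_self _))

end PSSet

/-- the zero map of spectra -/
def Sp.zeroHom (X E : Sp) : X ⟶ E where
  map _ := zeroMap _ _
  comm n := (smashMap_zeroMap_comp (E.σ n)).symm

/-- A strict loop object with a compatible structure of simplicial `𝔽₂`-vector space. -/
structure AddLoop where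
  L : LoopData
  S : AbStr L.E
  σ_add : ∀ (m : SimplexCategoryᵒᵖ) (x y : L.E.obj m) (s : S1.obj m),
    (L.σ.app m).toFun (Smash.mk (S.add x y) s) = S.add ((L.σ.app m).toFun (Smash.mk x s)) ((L.σ.app m).toFun (Smash.mk y s))

namespace AddLoop

variable (M : AddLoop)

/-- the `Ω`-spectrum -/
noncomputable def spec : Sp := M.L.aspec

theorem isOmega : M.spec.IsOmega := LoopData.isOmega_aspec M.S

/-- the sum of two maps of spectra into `M.spec` -/
noncomputable def add {X : Sp} (g g' : X ⟶ M.spec) : X ⟶ M.spec where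
  map n := addMap (LoopData.levelStr M.S n) (g.map n) (g'.map n)
  comm n := NatTrans.ext (funext fun m => Smash.hom_ext fun x s => by
    have h1 := congrArg (fun k => (k.app m).toFun (Smash.mk x s)) (g.comm n)
    have h2 := congrArg (fun k => (k.app m).toFun (Smash.mk x s)) (g'.comm n)
    refine Eq.trans (congrArg₂ (LoopData.levelStr M.S (n + 1)).add h1 h2) ?_
    exact (LoopData.aspec_σ_add M.S M.σ_add n m _ _ s).symm)

theorem comp_add {X Y : Sp} (k : Y ⟶ X) (g g' : X ⟶ M.spec) : k ≫ M.add g g' = M.add (k ≫ g) (k ≫ g') := rfl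

theorem add_zero {X : Sp} (g : X ⟶ M.spec) : M.add g (Sp.zeroHom X _) = g :=
  Sp.Hom.ext (funext fun _ => addMap_zero _ _)

theorem zero_add {X : Sp} (g : X ⟶ M.spec) : M.add (Sp.zeroHom X _) g = g :=
  Sp.Hom.ext (funext fun _ => zero_addMap _ _)

theorem add_self {X : Sp} (g : X ⟶ M.spec) : M.add g g = Sp.zeroHom X _ :=
  Sp.Hom.ext (funext fun _ => addMap_self _ _)

theorem homotopic_add_right {X : Sp} (a : X ⟶ M.spec) {g g' : X ⟶ M.spec} (h : Sp.Homotopic g g') :
    Sp.Homotopic (M.add a g) (M.add a g') := by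
  induction h with
  | rel _ _ h =>
    obtain ⟨H, rfl, rfl⟩ := h
    exact .rel _ _ ⟨M.add (Sp.proj X ≫ a) H, rfl, rfl⟩
  | refl _ => exact .refl _
  | symm _ _ _ ih => exact .symm _ _ ih
  | trans _ _ _ _ _ ih ih' => exact .trans _ _ _ ih ih'

theorem homotopic_add_left {X : Sp} {g g' : X ⟶ M.spec} (h : Sp.Homotopic g g') (a : X ⟶ M.spec) :
    Sp.Homotopic (M.add g a) (M.add g' a) := by
  induction h with
  | rel _ _ h =>
    obtain ⟨H, rfl, rfl⟩ := h
    exact .rel _ _ ⟨M.add H (Sp.proj X ≫ a), rfl, rfl⟩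
  | refl _ => exact .refl _
  | symm _ _ _ ih => exact .symm _ _ ih
  | trans _ _ _ _ _ ih ih' => exact .trans _ _ _ ih ih'

/-! ### 4. The addition on `[X, E]`, and its naturality for ALL morphisms of `SH` -/

open SH

/-- the sum of two homotopy classes -/
noncomputable def hadd {X : Sp} : HoClass X M.spec → HoClass X M.spec → HoClass X M.spec :=
  Quot.map₂ M.add (fun a _ _ h => M.homotopic_add_right a h) (fun _ _ a h => M.homotopic_add_left h a)

/-- the class of the zero map -/
noncomputable def hzero (X : Sp) : HoClass X M.spec := Quot.mk _ (Sp.zeroHom X _)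

theorem hadd_zero {X : Sp} (x : HoClass X M.spec) : M.hadd x (M.hzero X) = x := by
  obtain ⟨g⟩ := x
  exact congrArg (Quot.mk _) (M.add_zero g)

theorem zero_hadd {X : Sp} (x : HoClass X M.spec) : M.hadd (M.hzero X) x = x := by
  obtain ⟨g⟩ := x
  exact congrArg (Quot.mk _) (M.zero_add g)

theorem hadd_self {X : Sp} (x : HoClass X M.spec) : M.hadd x x = M.hzero X := by
  obtain ⟨g⟩ := x
  exact congrArg (Quot.mk _) (M.add_self g)

/-- a morphism `ψ : A ⟶ B` of `SH` acts on the homotopy classes of maps into the `Ω`-spectrum -/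
noncomputable def pull {A B : SH} (ψ : A ⟶ B) (x : HoClass B.sp M.spec) : HoClass A.sp M.spec :=
  ((hoLift M.spec M.isOmega).map ψ).unop x

theorem pull_comp {A B C : SH} (φ : A ⟶ B) (ψ : B ⟶ C) (x : HoClass C.sp M.spec) :
    M.pull (φ ≫ ψ) x = M.pull φ (M.pull ψ x) := by
  unfold pull
  rw [CategoryTheory.Functor.map_comp]
  rfl

theorem pull_id {A : SH} (x : HoClass A.sp M.spec) : M.pull (𝟙 A) x = x := by
  unfold pull
  rw [CategoryTheory.Functor.map_id]
  rfl

theorem pull_hadd {A B : SH} (ψ : A ⟶ B) (x y : HoClass B.sp M.spec) :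
    M.pull ψ (M.hadd x y) = M.hadd (M.pull ψ x) (M.pull ψ y) := by
  let P : MorphismProperty SH := fun A B ψ => ∀ x y : HoClass B.sp M.spec,
    M.pull ψ (M.hadd x y) = M.hadd (M.pull ψ x) (M.pull ψ y)
  have hP : P.IsStableUnderComposition := ⟨fun {X Y Z} f g hf hg x y => by
    rw [pull_comp, pull_comp, pull_comp, hg, hf]⟩
  have : P = ⊤ := Localization.Construction.morphismProperty_eq_top' P
    (fun X Y f x y => by
      obtain ⟨g⟩ := x
      obtain ⟨g'⟩ := y
      rfl)
    (fun {X Y} e he x y => by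
      have h1 : ∀ z : HoClass (SH.sp X) M.spec, M.pull e.hom (M.pull e.inv z) = z := fun z => by
        rw [← pull_comp, e.hom_inv_id, pull_id]
      have h2 : ∀ z : HoClass (SH.sp Y) M.spec, M.pull e.inv (M.pull e.hom z) = z := fun z => by
        rw [← pull_comp, e.inv_hom_id, pull_id]
      rw [← h2 (M.hadd (M.pull e.inv x) (M.pull e.inv y)), he, h1, h1])
  have h : P ψ := by rw [this]; trivial
  exact h x y

theorem pull_hzero {A B : SH} (ψ : A ⟶ B) : M.pull ψ (M.hzero B.sp) = M.hzero A.sp := by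
  rw [← M.hadd_self (M.hzero B.sp), pull_hadd, hadd_self]

/-- the class of a morphism `A ⟶ Q E` of `SH` -/
noncomputable def cls {A : SH} (c : A ⟶ Q.obj M.spec) : HoClass A.sp M.spec := toHoClass A.sp M.spec M.isOmega c

theorem cls_comp {A B : SH} (ψ : A ⟶ B) (c : B ⟶ Q.obj M.spec) : M.cls (ψ ≫ c) = M.pull ψ (M.cls c) :=
  M.pull_comp ψ c _

theorem cls_injective {A : SH} : Function.Injective (M.cls (A := A)) :=
  (homEquiv A.sp M.spec M.isOmega).symm.injective

theorem cls_surjective {A : SH} : Function.Surjective (M.cls (A := A)) :=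
  (homEquiv A.sp M.spec M.isOmega).symm.surjective

theorem pull_of_isZeroMor {A B : SH} {z : A ⟶ B} (hz : IsZeroMor z) (x : HoClass B.sp M.spec) :
    M.pull z x = M.hzero A.sp := by
  obtain ⟨Z, a, b, hZ, rfl⟩ := hz
  have h1 : M.pull b x = M.hzero Z.sp := by
    obtain ⟨c, hc⟩ := M.cls_surjective (M.pull b x)
    obtain ⟨c', hc'⟩ := M.cls_surjective (M.hzero Z.sp)
    rw [← hc, ← hc', hZ.eq_of_src c c']
  rw [pull_comp, h1, pull_hzero]

/-- **`IsSum` is the addition of `[-, E]`.** -/
theorem pull_of_isSum {X Y : SH} {f g h : X ⟶ Y} (H : IsSum f g h) (x : HoClass Y.sp M.spec) :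
    M.pull h x = M.hadd (M.pull f x) (M.pull g x) := by
  obtain ⟨P, i₁, i₂, r₁, r₂, fold, u, hP, h11, h21, h12, h22, hf1, hf2, rfl, rfl, rfl⟩ := H
  obtain ⟨c, rfl⟩ := M.cls_surjective x
  obtain ⟨δ, hδ⟩ := M.cls_surjective (M.hadd (M.pull r₁ (M.cls c)) (M.pull r₂ (M.cls c)))
  have e1 : i₁ ≫ δ = c := by
    apply M.cls_injective
    rw [cls_comp, hδ, pull_hadd, ← pull_comp, ← pull_comp, h11, pull_id, M.pull_of_isZeroMor h12, hadd_zero]
  have e2 : i₂ ≫ δ = c := by
    apply M.cls_injective
    rw [cls_comp, hδ, pull_hadd, ← pull_comp, ← pull_comp, h22, pull_id, M.pull_of_isZeroMor h21, zero_hadd]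
  have e3 : δ = fold ≫ c := by
    obtain ⟨d, -, hd⟩ := hP _ c c
    rw [hd δ ⟨e1, e2⟩, hd (fold ≫ c) ⟨by rw [← Category.assoc, hf1, Category.id_comp],
      by rw [← Category.assoc, hf2, Category.id_comp]⟩]
  rw [pull_comp, ← cls_comp, ← e3, hδ, pull_hadd, ← pull_comp, ← pull_comp]

/-- multiplication by two kills `[-, E]` -/
theorem pull_of_isNatMul_two {X : SH} {f : X ⟶ X} (hf : IsNatMul 2 f) (x : HoClass X.sp M.spec) :
    M.pull f x = M.hzero X.sp := by
  obtain ⟨g₁, ⟨g₀, h0, h1⟩, h2⟩ := hf
  rw [M.pull_of_isSum h2, M.pull_of_isSum h1, M.pull_of_isZeroMor h0, pull_id, zero_hadd, hadd_self]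

/-- If `2` is invertible on `X` then `[X, E] = 0`. -/
theorem eq_hzero_of_natMulInvertible_two {X : SH} (hX : NatMulInvertible 2 X) (x : HoClass X.sp M.spec) :
    x = M.hzero X.sp := by
  obtain ⟨f, hf, hiso⟩ := hX
  have h1 : M.pull (inv f) (M.pull f x) = x := by
    rw [← pull_comp, IsIso.inv_hom_id, pull_id]
  rw [← h1, M.pull_of_isNatMul_two hf, pull_hzero]

/-- If `2` is invertible on `X` then there is only one morphism from `X` to `E` in `SH`. -/
theorem subsingleton_of_natMulInvertible_two {X : SH} (hX : NatMulInvertible 2 X) :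
    Subsingleton (X ⟶ Q.obj M.spec) :=
  ⟨fun _ _ => M.cls_injective
    ((M.eq_hzero_of_natMulInvertible_two hX _).trans (M.eq_hzero_of_natMulInvertible_two hX _).symm)⟩

/-- In `SH(X, E)` the relation `IsSum` of `Statement.lean` is the levelwise addition of maps of spectra. -/
theorem cls_of_isSum {X : SH} {a b h : X ⟶ Q.obj M.spec} (H : IsSum a b h) :
    M.cls h = M.hadd (M.cls a) (M.cls b) := M.pull_of_isSum H _

/-- `E` is `2`-complete in the sense of `Statement.lean`. -/
theorem isPComplete_two : IsPComplete 2 (Q.obj M.spec) := fun A hA f => by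
  have := M.subsingleton_of_natMulInvertible_two hA
  exact ⟨zero, toZero A, fromZero _, isZero_zero, Subsingleton.elim _ _⟩

end AddLoop

/-! ### 5. The stable mod 2 cocycles -/

/-- the structure of simplicial `𝔽₂`-vector space of `EM` -/
def abStrEM : AbStr EM where
  grp n := inferInstanceAs (AddCommGroup (stCocycles n.unop))
  point_eq _ := rfl
  map_add _ _ _ := rfl
  two _ x := Subtype.ext (funext fun m => funext fun φ => funext fun l => CharTwo.add_self_eq_zero (x.1 m φ l))

theorem σEM_add (m : SimplexCategoryᵒᵖ) (x y : EM.obj m) (s : S1.obj m) :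
    (σEM.app m).toFun (Smash.mk (abStrEM.add x y) s) =
      abStrEM.add ((σEM.app m).toFun (Smash.mk x s)) ((σEM.app m).toFun (Smash.mk y s)) := by
  induction s using S1.ind with | h s => ?_
  show σFun (abStrEM.add x y) (S1.mk s) = abStrEM.add (σFun x (S1.mk s)) (σFun y (S1.mk s))
  rw [σFun_mk, σFun_mk, σFun_mk]
  rfl

/-- `EM` as a strict loop object with an additive structure map -/
def addLoopEM : AddLoop where
  L := loopEM
  S := abStrEM
  σ_add := σEM_add

/-- The `Ω`-spectrum of stable mod 2 cocycles, with additive structure maps. -/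
noncomputable def aspecEM : Sp := addLoopEM.spec

theorem isOmega_aspecEM : aspecEM.IsOmega := addLoopEM.isOmega

/-- `π_k` of the `Ω`-spectrum `aspecEM` has two different elements, for every integer `k`. -/
theorem exists_π_aspecEM_ne (k : ℤ) : ∃ a b : SH.π k (Q.obj aspecEM), a ≠ b :=
  match k with
  | Int.ofNat k => by
    let e := SH.piEquivNonneg k aspecEM isOmega_aspecEM
    refine ⟨e.symm (Quot.mk _ (loopEM.alift 0 (fundSph k))), e.symm (Quot.mk _ (zeroMap (Sph k) _)), fun h => ?_⟩
    have h' := PSSet.homotopic_of_quot_eq (e.symm.injective h)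
    exact not_homotopic_fundSph k (h'.postcomp (loopEM.apr 0))
  | Int.negSucc k => by
    let e := SH.piEquivNeg k aspecEM isOmega_aspecEM
    refine ⟨e.symm (Quot.mk _ (loopEM.alift (k + 1) fundMap)), e.symm (Quot.mk _ (zeroMap S0 _)), fun h => ?_⟩
    have h' := PSSet.homotopic_of_quot_eq (e.symm.injective h)
    exact not_homotopic_fundMap (h'.postcomp (loopEM.apr (k + 1)))

/-! ### 6. The non-examples -/

/-- **Multiplication by `2` is not invertible on the sphere spectrum** (nor on any sphere `S^k`, `k ∈ ℤ`). -/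
theorem not_natMulInvertible_two_sphere (k : ℤ) : ¬ NatMulInvertible 2 (SH.sphere k) := fun h => by
  obtain ⟨a, b, hab⟩ := exists_π_aspecEM_ne k
  exact hab ((addLoopEM.subsingleton_of_natMulInvertible_two h).elim a b)

/-- **The sphere spectrum is not `p`-local**, for `p ≠ 2`: a non-example of `SH.IsPLocal`. -/
theorem not_isPLocal_sphere {p : ℕ} (hp : p ≠ 2) (k : ℤ) : ¬ SH.IsPLocal p (SH.sphere k) :=
  fun h => not_natMulInvertible_two_sphere k (h 2 Nat.prime_two (Ne.symm hp))

/-- The identity of the sphere spectrum is not a `p`-localization, for `p ≠ 2`: a non-example of `SH.IsPLocalization`. -/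
theorem not_isPLocalization_id_sphere {p : ℕ} (hp : p ≠ 2) (k : ℤ) : ¬ SH.IsPLocalization p (𝟙 (SH.sphere k)) :=
  fun h => not_isPLocal_sphere hp k h.1

/-- A map from a sphere to a `p`-local spectrum (`p ≠ 2`) is never an isomorphism of `SH`; in particular the `p`-localization `S ⟶ S_(p)` that occurs in
`SH.IsFinitePLocal` is not an isomorphism. -/
theorem not_isIso_of_isPLocal {p : ℕ} (hp : p ≠ 2) (k : ℤ) {Y : SH} (η : SH.sphere k ⟶ Y) (hY : SH.IsPLocal p Y) :
    ¬ IsIso η := fun _ => by
  obtain ⟨a, b, hab⟩ := exists_π_aspecEM_ne k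
  have : Subsingleton (Y ⟶ Q.obj aspecEM) :=
    addLoopEM.subsingleton_of_natMulInvertible_two (hY 2 Nat.prime_two (Ne.symm hp))
  have h1 : inv η ≫ a = inv η ≫ b := Subsingleton.elim _ _
  exact hab ((cancel_epi (inv η)).1 h1)

/-- **A non-zero `2`-complete spectrum**: an example of `SH.IsPComplete` that is not a zero object. -/
theorem exists_isPComplete_two_not_isZero : ∃ X : SH, SH.IsPComplete 2 X ∧ ¬ Limits.IsZero X :=
  ⟨Q.obj aspecEM, addLoopEM.isPComplete_two, fun h => by
    obtain ⟨a, b, hab⟩ := exists_π_aspecEM_ne 0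
    exact hab (h.eq_of_tgt a b)⟩

/-- A `2`-complete spectrum need not be `p`-local... and the spectrum `aspecEM` itself is not `p`-local for `p ≠ 2`. -/
theorem not_isPLocal_aspecEM {p : ℕ} (hp : p ≠ 2) : ¬ SH.IsPLocal p (Q.obj aspecEM) := fun h => by
  have : Subsingleton (Q.obj aspecEM ⟶ Q.obj aspecEM) :=
    addLoopEM.subsingleton_of_natMulInvertible_two (h 2 Nat.prime_two (Ne.symm hp))
  obtain ⟨a, b, hab⟩ := exists_π_aspecEM_ne 0
  have e : 𝟙 (Q.obj aspecEM) = SH.toZero _ ≫ SH.fromZero _ := Subsingleton.elim _ _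
  have ha : a = (a ≫ SH.toZero _) ≫ SH.fromZero _ := by rw [Category.assoc, ← e, Category.comp_id]
  have hb : b = (b ≫ SH.toZero _) ≫ SH.fromZero _ := by rw [Category.assoc, ← e, Category.comp_id]
  rw [ha, hb, SH.isZero_zero.eq_of_tgt (a ≫ SH.toZero _) (b ≫ SH.toZero _)] at hab
  exact hab rfl

/-- A non-example of `SH.IsBoundedBelow`. -/
theorem not_isBoundedBelow_aspecEM : ¬ SH.IsBoundedBelow (Q.obj aspecEM) := by
  rintro ⟨N, hN⟩
  obtain ⟨a, b, hab⟩ := exists_π_aspecEM_ne (N - 1)
  exact hab ((hN (N - 1) (by omega)).elim a b)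

/-- A non-example of `SH.IsConnective`. -/
theorem not_isConnective_aspecEM : ¬ SH.IsConnective (Q.obj aspecEM) := fun h => by
  obtain ⟨a, b, hab⟩ := exists_π_aspecEM_ne (-1)
  exact hab ((h (-1) (by omega)).elim a b)

/-- A non-example of `SH.IsTotallyFinite`. -/
theorem not_isTotallyFinite_aspecEM : ¬ SH.IsTotallyFinite (Q.obj aspecEM) := by
  rintro ⟨-, N, hN⟩
  obtain ⟨a, b, hab⟩ := exists_π_aspecEM_ne (|N| + 1)
  refine hab ((hN (|N| + 1) ?_).elim a b)
  exact lt_of_lt_of_le (lt_of_le_of_lt (le_abs_self N) (lt_add_one _)) (le_abs_self _)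

end Claimed.Open.R319
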