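import Claimed.Open.R319.SanityNotLocal
import Claimed.Open.R319.SanityEMR

/-!
# Sanity (result 319): no sphere is `p`-local, for EVERY `p`; a non-zero `p`-complete spectrum for every prime `p`; the unit of `π_0 S` has infinite order

`SanityNotLocal.lean` tests the words `IsSum`, `IsNatMul`, `NatMulInvertible`, `SH.IsPLocal`, `SH.IsPLocalization`, `SH.IsPComplete` of `Statement.lean` with the mod 2 cocycles, so only
for the prime `2`.  Here the same is done with the stable cocycles `EMR R` with coefficients in any commutative ring `R` (`SanityEMR.lean`; `R = ZMod n`, `R = ℤ`):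

* `not_natMulInvertible_sphere` : multiplication by `n` is not invertible on `S^k`, for every `n ≠ 1` and `k ∈ ℤ`;
* `not_isPLocal_sphere_all`, `not_isPLocalization_id_sphere_all`, `not_isIso_of_isPLocalization` : no sphere is `p`-local, its identity is not a `p`-localization, a `p`-localization
  `S^k ⟶ Y` is never an isomorphism, whatever `p` is (non-examples);
* `exists_isPComplete_not_isZero` : for every `p ≠ 1` a `p`-complete spectrum that is not a zero object (an example);
* `isNatMul_sphere_unique`, `not_isZeroMor_of_isNatMul_sphere` : an endomorphism of the sphere spectrum is `n · 𝟙` for at most one `n`; `n · 𝟙` is not a zero map for `n ≠ 0`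
  (the unit of `π_0 S` has infinite order);
* `AddLoopG.pull_of_isSum`, `AddLoopG.pull_of_isNatMul` : `IsSum f g h` gives `h^* = f^* + g^*`, and `IsNatMul n f` gives `f^* x = x + ⋯ + x` (`n` terms), on `[-, E]`.

The proofs are those of `SanityNotLocal.lean` (whose `Cof2`, `unit2`, `LoopData.aspec` are used again), without `x + x = 0`.
-/

open CategoryTheory Opposite Simplicial

namespace Claimed.Open.R319

open PSSet

/-! ### 1. Simplicial abelian groups -/

/-- A structure of simplicial abelian group on a pointed simplicial set. -/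
structure AbGrp (V : PSSet) where
  grp : ∀ n, AddCommGroup (V.obj n)
  point_eq : ∀ n, (V.obj n).point = 0
  map_add : ∀ {n m : SimplexCategoryᵒᵖ} (φ : n ⟶ m) (x y : V.obj n),
    (V.map φ).toFun (x + y) = (V.map φ).toFun x + (V.map φ).toFun y

namespace AbGrp

variable {V W : PSSet}

/-- the addition -/
def add (S : AbGrp V) {n : SimplexCategoryᵒᵖ} (x y : V.obj n) : V.obj n :=
  letI := S.grp n
  x + y

theorem add_point (S : AbGrp V) {n : SimplexCategoryᵒᵖ} (x : V.obj n) : S.add x (V.obj n).point = x := by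
  let _ := S.grp n
  show x + (V.obj n).point = x
  rw [S.point_eq, add_zero]

theorem point_add (S : AbGrp V) {n : SimplexCategoryᵒᵖ} (x : V.obj n) : S.add (V.obj n).point x = x := by
  let _ := S.grp n
  show (V.obj n).point + x = x
  rw [S.point_eq, zero_add]

theorem map_add' (S : AbGrp V) {n m : SimplexCategoryᵒᵖ} (φ : n ⟶ m) (x y : V.obj n) :
    (V.map φ).toFun (S.add x y) = S.add ((V.map φ).toFun x) ((V.map φ).toFun y) := S.map_add φ x y

/-- the `k`-fold sum `x + ⋯ + x` -/
def it (S : AbGrp V) (k : ℕ) {n : SimplexCategoryᵒᵖ} (x : V.obj n) : V.obj n :=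
  match k with
  | 0 => (V.obj n).point
  | k + 1 => S.add (it S k x) x

/-- `N x = 0` for all simplices `x` -/
def HasExp (S : AbGrp V) (N : ℕ) : Prop := ∀ (n : SimplexCategoryᵒᵖ) (x : V.obj n), S.it N x = (V.obj n).point

/-- the one-point simplicial set -/
def ofPt : AbGrp PSSet.pt where
  grp _ := inferInstanceAs (AddCommGroup PUnit)
  point_eq _ := rfl
  map_add _ _ _ := rfl

theorem hasExp_ofPt (N : ℕ) : ofPt.HasExp N := fun _ _ => rfl

/-- products -/
def prod (S : AbGrp V) (T : AbGrp W) : AbGrp (PSSet.prod V W) where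
  grp n :=
    letI := S.grp n
    letI := T.grp n
    inferInstanceAs (AddCommGroup (V.obj n × W.obj n))
  point_eq n := Prod.ext (S.point_eq n) (T.point_eq n)
  map_add φ x y := Prod.ext (S.map_add φ x.1 y.1) (T.map_add φ x.2 y.2)

theorem prod_it (S : AbGrp V) (T : AbGrp W) (k : ℕ) {n : SimplexCategoryᵒᵖ} (x : (PSSet.prod V W).obj n) :
    (S.prod T).it k x = (S.it k x.1, T.it k x.2) := by
  induction k with
  | zero => rfl
  | succ k ih =>
    show (S.prod T).add ((S.prod T).it k x) x = _
    rw [ih]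
    rfl

theorem HasExp.prod {S : AbGrp V} {T : AbGrp W} {N : ℕ} (hS : S.HasExp N) (hT : T.HasExp N) : (S.prod T).HasExp N :=
  fun n x => (prod_it S T N x).trans (Prod.ext (hS n x.1) (hT n x.2))

/-- `Cof2 V` is a simplicial abelian group if `V` is one -/
def cof2 (S : AbGrp V) : AbGrp (Cof2 V) where
  grp n :=
    letI := fun m => S.grp m
    inferInstanceAs (AddCommGroup (∀ m : ℕ, (⦋m⦌ ⟶ n.unop) → S1.obj (op ⦋m⦌) → V.obj (op ⦋m⦌)))
  point_eq _ := funext fun m => funext fun _ => funext fun _ => S.point_eq (op ⦋m⦌)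
  map_add _ _ _ := rfl

theorem cof2_add (S : AbGrp V) {n : SimplexCategoryᵒᵖ} (x y : (Cof2 V).obj n) (m : ℕ)
    (φ : ⦋m⦌ ⟶ n.unop) (s : S1.obj (op ⦋m⦌)) : S.cof2.add x y m φ s = S.add (x m φ s) (y m φ s) := rfl

theorem cof2_it (S : AbGrp V) (k : ℕ) {n : SimplexCategoryᵒᵖ} (x : (Cof2 V).obj n) (m : ℕ)
    (φ : ⦋m⦌ ⟶ n.unop) (s : S1.obj (op ⦋m⦌)) : S.cof2.it k x m φ s = S.it k (x m φ s) := by
  induction k with
  | zero => rfl
  | succ k ih =>
    show S.cof2.add (S.cof2.it k x) x m φ s = _
    rw [cof2_add, ih]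
    rfl

theorem HasExp.cof2 {S : AbGrp V} {N : ℕ} (hS : S.HasExp N) : S.cof2.HasExp N :=
  fun _ x => funext fun m => funext fun φ => funext fun s => (cof2_it S N x m φ s).trans (hS _ _)

end AbGrp

theorem PSSet.unit2_addG {V : PSSet} (S : AbGrp V) (n : SimplexCategoryᵒᵖ) (v v' : V.obj n) (s : S1.obj n) :
    ((unit2 V).app n).toFun (Smash.mk (S.add v v') s) =
      S.cof2.add (((unit2 V).app n).toFun (Smash.mk v s)) (((unit2 V).app n).toFun (Smash.mk v' s)) := by
  classical
  funext m φ t
  rw [AbGrp.cof2_add, unit2_mk, unit2_mk, unit2_mk]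
  split_ifs
  · exact S.map_add' φ.op v v'
  · exact (S.add_point _).symm

/-! ### 2. The spectrum `LoopData.aspec` of `SanityNotLocal.lean` is an `Ω`-spectrum with additive structure maps, for every simplicial abelian group -/

namespace LoopData

variable {L : LoopData} (S : AbGrp L.E)

/-- the group structure of `V_n` -/
def lvGrp (n : ℕ) : AbGrp (L.lv n) :=
  match n with
  | 0 => AbGrp.ofPt
  | n + 1 => S.prod (lvGrp n).cof2

/-- the group structure of the level `n` -/
def levelGrp (n : ℕ) : AbGrp (L.aspec.level n) := S.prod (lvGrp S n).cof2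

theorem hasExp_lvGrp {N : ℕ} (hS : S.HasExp N) (n : ℕ) : (lvGrp S n).HasExp N :=
  match n with
  | 0 => AbGrp.hasExp_ofPt N
  | n + 1 => hS.prod (hasExp_lvGrp hS n).cof2

theorem hasExp_levelGrp {N : ℕ} (hS : S.HasExp N) (n : ℕ) : (levelGrp S n).HasExp N :=
  hS.prod (hasExp_lvGrp S hS n).cof2

include S in
theorem isOmega_aspecG : L.aspec.IsOmega where
  kan n := kanComplex_of_addCommGroup _ (levelGrp S n).grp (fun φ x y => (levelGrp S n).map_add φ x y)
  surj n A h := by
    refine ⟨L.alift n (L.adj (h ≫ L.apr (n + 1))), L.homotopic_alevel ?_⟩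
    rw [aspec_σ_apr, alift_apr, adj_spec]
    exact .refl _
  inj n A g g' h := by
    refine L.homotopic_alevel ?_
    have h1 := L.adj_homotopic (h.postcomp (L.apr (n + 1)))
    rwa [aspec_σ_apr, aspec_σ_apr, adj_σ, adj_σ] at h1

/-- the structure maps are additive in the first variable -/
theorem aspec_σ_addG (hσ : ∀ (m : SimplexCategoryᵒᵖ) (x y : L.E.obj m) (s : S1.obj m),
      (L.σ.app m).toFun (Smash.mk (S.add x y) s) = S.add ((L.σ.app m).toFun (Smash.mk x s)) ((L.σ.app m).toFun (Smash.mk y s)))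
    (n : ℕ) (m : SimplexCategoryᵒᵖ) (x y : (L.aspec.level n).obj m) (s : S1.obj m) :
    ((L.aspec.σ n).app m).toFun (Smash.mk ((levelGrp S n).add x y) s) =
      (levelGrp S (n + 1)).add (((L.aspec.σ n).app m).toFun (Smash.mk x s)) (((L.aspec.σ n).app m).toFun (Smash.mk y s)) :=
  Prod.ext (hσ m x.1 y.1 s) (unit2_addG (levelGrp S n) m x y s)

end LoopData

/-! ### 3. Sums of maps -/

namespace PSSet

/-- the sum of two maps into a simplicial abelian group -/
def addMapG {A V : PSSet} (S : AbGrp V) (f g : A ⟶ V) : A ⟶ V where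
  app n := ⟨fun a => S.add ((f.app n).toFun a) ((g.app n).toFun a), by
    rw [(f.app n).map_point, (g.app n).map_point]; exact S.add_point _⟩
  naturality n m φ := Pointed.Hom.ext (funext fun a => by
    show S.add ((f.app m).toFun ((A.map φ).toFun a)) ((g.app m).toFun ((A.map φ).toFun a)) =
      (V.map φ).toFun (S.add ((f.app n).toFun a) ((g.app n).toFun a))
    have h1 : (f.app m).toFun ((A.map φ).toFun a) = (V.map φ).toFun ((f.app n).toFun a) :=
      congrArg (fun k => k.toFun a) (f.naturality φ)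
    have h2 : (g.app m).toFun ((A.map φ).toFun a) = (V.map φ).toFun ((g.app n).toFun a) :=
      congrArg (fun k => k.toFun a) (g.naturality φ)
    rw [S.map_add', h1, h2])

theorem addMapG_zero {A V : PSSet} (S : AbGrp V) (f : A ⟶ V) : addMapG S f (zeroMap A V) = f :=
  NatTrans.ext (funext fun _ => Pointed.Hom.ext (funext fun _ => S.add_point _))

theorem zero_addMapG {A V : PSSet} (S : AbGrp V) (f : A ⟶ V) : addMapG S (zeroMap A V) f = f :=
  NatTrans.ext (funext fun _ => Pointed.Hom.ext (funext fun _ => S.point_add _))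

end PSSet

/-- A strict loop object with a compatible structure of simplicial abelian group. -/
structure AddLoopG where
  L : LoopData
  S : AbGrp L.E
  σ_add : ∀ (m : SimplexCategoryᵒᵖ) (x y : L.E.obj m) (s : S1.obj m),
    (L.σ.app m).toFun (Smash.mk (S.add x y) s) = S.add ((L.σ.app m).toFun (Smash.mk x s)) ((L.σ.app m).toFun (Smash.mk y s))

namespace AddLoopG

variable (M : AddLoopG)

/-- the `Ω`-spectrum -/
noncomputable def spec : Sp := M.L.aspec

theorem isOmega : M.spec.IsOmega := LoopData.isOmega_aspecG M.S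

/-- the sum of two maps of spectra into `M.spec` -/
noncomputable def add {X : Sp} (g g' : X ⟶ M.spec) : X ⟶ M.spec where
  map n := addMapG (LoopData.levelGrp M.S n) (g.map n) (g'.map n)
  comm n := NatTrans.ext (funext fun m => Smash.hom_ext fun x s => by
    have h1 := congrArg (fun k => (k.app m).toFun (Smash.mk x s)) (g.comm n)
    have h2 := congrArg (fun k => (k.app m).toFun (Smash.mk x s)) (g'.comm n)
    refine Eq.trans (congrArg₂ (LoopData.levelGrp M.S (n + 1)).add h1 h2) ?_
    exact (LoopData.aspec_σ_addG M.S M.σ_add n m _ _ s).symm)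

theorem add_zero {X : Sp} (g : X ⟶ M.spec) : M.add g (Sp.zeroHom X _) = g :=
  Sp.Hom.ext (funext fun _ => addMapG_zero _ _)

theorem zero_add {X : Sp} (g : X ⟶ M.spec) : M.add (Sp.zeroHom X _) g = g :=
  Sp.Hom.ext (funext fun _ => zero_addMapG _ _)

/-- the `k`-fold sum `g + ⋯ + g` -/
noncomputable def it (k : ℕ) {X : Sp} (g : X ⟶ M.spec) : X ⟶ M.spec :=
  match k with
  | 0 => Sp.zeroHom X _
  | k + 1 => M.add (it k g) g

theorem it_apply (k : ℕ) {X : Sp} (g : X ⟶ M.spec) (n : ℕ) (m : SimplexCategoryᵒᵖ) (a : (X.level n).obj m) :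
    (((M.it k g).map n).app m).toFun a = (LoopData.levelGrp M.S n).it k (((g.map n).app m).toFun a) := by
  induction k with
  | zero => rfl
  | succ k ih =>
    show (LoopData.levelGrp M.S n).add ((((M.it k g).map n).app m).toFun a) _ = _
    rw [ih]
    rfl

theorem it_eq_zero {N : ℕ} (hN : M.S.HasExp N) {X : Sp} (g : X ⟶ M.spec) : M.it N g = Sp.zeroHom X _ :=
  Sp.Hom.ext (funext fun n => NatTrans.ext (funext fun m => Pointed.Hom.ext (funext fun a =>
    (M.it_apply N g n m a).trans (LoopData.hasExp_levelGrp M.S hN n m _))))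

theorem homotopic_add_right {X : Sp} (a : X ⟶ M.spec) {g g' : X ⟶ M.spec} (h : Sp.Homotopic g g') :
    Sp.Homotopic (M.add a g) (M.add a g') := by
  induction h with
  | rel _ _ h =>
    obtain ⟨H, rfl, rfl⟩ := h
    exact .rel _ _ ⟨M.add (Sp.proj X ≫ a) H, rfl, rfl⟩
  | refl _ => exact .refl _
  | symm _ _ _ ih => exact .symm _ _ ih
  | trans _ _ _ _ _ ih ih' => exact .trans _ _ _ ih ih'

theorem homotopic_add_left {X : Sp} {g g' : X ⟶ M.spec} (h : Sp.Homotopic g g') (a : X ⟶ M.spec) :
    Sp.Homotopic (M.add g a) (M.add g' a) := by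
  induction h with
  | rel _ _ h =>
    obtain ⟨H, rfl, rfl⟩ := h
    exact .rel _ _ ⟨M.add H (Sp.proj X ≫ a), rfl, rfl⟩
  | refl _ => exact .refl _
  | symm _ _ _ ih => exact .symm _ _ ih
  | trans _ _ _ _ _ ih ih' => exact .trans _ _ _ ih ih'

/-! ### 4. The addition on `[X, E]`, and its naturality for ALL morphisms of `SH` -/

open SH

/-- the sum of two homotopy classes -/
noncomputable def hadd {X : Sp} : HoClass X M.spec → HoClass X M.spec → HoClass X M.spec :=
  Quot.map₂ M.add (fun a _ _ h => M.homotopic_add_right a h) (fun _ _ a h => M.homotopic_add_left h a)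

/-- the class of the zero map -/
noncomputable def hzero (X : Sp) : HoClass X M.spec := Quot.mk _ (Sp.zeroHom X _)

theorem hadd_zero {X : Sp} (x : HoClass X M.spec) : M.hadd x (M.hzero X) = x := by
  obtain ⟨g⟩ := x
  exact congrArg (Quot.mk _) (M.add_zero g)

theorem zero_hadd {X : Sp} (x : HoClass X M.spec) : M.hadd (M.hzero X) x = x := by
  obtain ⟨g⟩ := x
  exact congrArg (Quot.mk _) (M.zero_add g)

/-- the `k`-fold sum `x + ⋯ + x` -/
noncomputable def hit (k : ℕ) {X : Sp} (x : HoClass X M.spec) : HoClass X M.spec :=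
  match k with
  | 0 => M.hzero X
  | k + 1 => M.hadd (hit k x) x

theorem hit_mk (k : ℕ) {X : Sp} (g : X ⟶ M.spec) : M.hit k (Quot.mk _ g) = Quot.mk _ (M.it k g) := by
  induction k with
  | zero => rfl
  | succ k ih =>
    show M.hadd (M.hit k (Quot.mk _ g)) (Quot.mk _ g) = _
    rw [ih]
    rfl

theorem hit_eq_hzero {N : ℕ} (hN : M.S.HasExp N) {X : Sp} (x : HoClass X M.spec) : M.hit N x = M.hzero X := by
  obtain ⟨g⟩ := x
  exact (M.hit_mk N g).trans (congrArg (Quot.mk _) (M.it_eq_zero hN g))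

/-- a morphism `ψ : A ⟶ B` of `SH` acts on the homotopy classes of maps into the `Ω`-spectrum -/
noncomputable def pull {A B : SH} (ψ : A ⟶ B) (x : HoClass B.sp M.spec) : HoClass A.sp M.spec :=
  ((hoLift M.spec M.isOmega).map ψ).unop x

theorem pull_comp {A B C : SH} (φ : A ⟶ B) (ψ : B ⟶ C) (x : HoClass C.sp M.spec) :
    M.pull (φ ≫ ψ) x = M.pull φ (M.pull ψ x) := by
  unfold pull
  rw [CategoryTheory.Functor.map_comp]
  rfl

theorem pull_id {A : SH} (x : HoClass A.sp M.spec) : M.pull (𝟙 A) x = x := by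
  unfold pull
  rw [CategoryTheory.Functor.map_id]
  rfl

theorem pull_hadd {A B : SH} (ψ : A ⟶ B) (x y : HoClass B.sp M.spec) :
    M.pull ψ (M.hadd x y) = M.hadd (M.pull ψ x) (M.pull ψ y) := by
  let P : MorphismProperty SH := fun A B ψ => ∀ x y : HoClass B.sp M.spec,
    M.pull ψ (M.hadd x y) = M.hadd (M.pull ψ x) (M.pull ψ y)
  have hP : P.IsStableUnderComposition := ⟨fun {X Y Z} f g hf hg x y => by
    rw [pull_comp, pull_comp, pull_comp, hg, hf]⟩
  have : P = ⊤ := Localization.Construction.morphismProperty_eq_top' P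
    (fun X Y f x y => by
      obtain ⟨g⟩ := x
      obtain ⟨g'⟩ := y
      rfl)
    (fun {X Y} e he x y => by
      have h1 : ∀ z : HoClass (SH.sp X) M.spec, M.pull e.hom (M.pull e.inv z) = z := fun z => by
        rw [← pull_comp, e.hom_inv_id, pull_id]
      have h2 : ∀ z : HoClass (SH.sp Y) M.spec, M.pull e.inv (M.pull e.hom z) = z := fun z => by
        rw [← pull_comp, e.inv_hom_id, pull_id]
      rw [← h2 (M.hadd (M.pull e.inv x) (M.pull e.inv y)), he, h1, h1])
  have h : P ψ := by rw [this]; trivial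
  exact h x y

theorem pull_hzero {A B : SH} (ψ : A ⟶ B) : M.pull ψ (M.hzero B.sp) = M.hzero A.sp := by
  let P : MorphismProperty SH := fun A B ψ => M.pull ψ (M.hzero B.sp) = M.hzero A.sp
  have hP : P.IsStableUnderComposition := ⟨fun {X Y Z} f g hf hg => by
    show M.pull (f ≫ g) _ = _
    rw [pull_comp, show M.pull g _ = _ from hg, show M.pull f _ = _ from hf]⟩
  have : P = ⊤ := Localization.Construction.morphismProperty_eq_top' P
    (fun X Y f => rfl)
    (fun {X Y} e he => by
      show M.pull e.inv _ = _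
      rw [← show M.pull e.hom _ = _ from he, ← pull_comp, e.inv_hom_id, pull_id])
  have h : P ψ := by rw [this]; trivial
  exact h

/-- the class of a morphism `A ⟶ Q E` of `SH` -/
noncomputable def cls {A : SH} (c : A ⟶ Q.obj M.spec) : HoClass A.sp M.spec := toHoClass A.sp M.spec M.isOmega c

theorem cls_comp {A B : SH} (ψ : A ⟶ B) (c : B ⟶ Q.obj M.spec) : M.cls (ψ ≫ c) = M.pull ψ (M.cls c) :=
  M.pull_comp ψ c _

theorem cls_injective {A : SH} : Function.Injective (M.cls (A := A)) :=
  (homEquiv A.sp M.spec M.isOmega).symm.injective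

theorem cls_surjective {A : SH} : Function.Surjective (M.cls (A := A)) :=
  (homEquiv A.sp M.spec M.isOmega).symm.surjective

theorem pull_of_isZeroMor {A B : SH} {z : A ⟶ B} (hz : IsZeroMor z) (x : HoClass B.sp M.spec) :
    M.pull z x = M.hzero A.sp := by
  obtain ⟨Z, a, b, hZ, rfl⟩ := hz
  have h1 : M.pull b x = M.hzero Z.sp := by
    obtain ⟨c, hc⟩ := M.cls_surjective (M.pull b x)
    obtain ⟨c', hc'⟩ := M.cls_surjective (M.hzero Z.sp)
    rw [← hc, ← hc', hZ.eq_of_src c c']
  rw [pull_comp, h1, pull_hzero]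

/-- **`IsSum` is the addition of `[-, E]`.** -/
theorem pull_of_isSum {X Y : SH} {f g h : X ⟶ Y} (H : IsSum f g h) (x : HoClass Y.sp M.spec) :
    M.pull h x = M.hadd (M.pull f x) (M.pull g x) := by
  obtain ⟨P, i₁, i₂, r₁, r₂, fold, u, hP, h11, h21, h12, h22, hf1, hf2, rfl, rfl, rfl⟩ := H
  obtain ⟨c, rfl⟩ := M.cls_surjective x
  obtain ⟨δ, hδ⟩ := M.cls_surjective (M.hadd (M.pull r₁ (M.cls c)) (M.pull r₂ (M.cls c)))
  have e1 : i₁ ≫ δ = c := by
    apply M.cls_injective
    rw [cls_comp, hδ, pull_hadd, ← pull_comp, ← pull_comp, h11, pull_id, M.pull_of_isZeroMor h12, hadd_zero]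
  have e2 : i₂ ≫ δ = c := by
    apply M.cls_injective
    rw [cls_comp, hδ, pull_hadd, ← pull_comp, ← pull_comp, h22, pull_id, M.pull_of_isZeroMor h21, zero_hadd]
  have e3 : δ = fold ≫ c := by
    obtain ⟨d, -, hd⟩ := hP _ c c
    rw [hd δ ⟨e1, e2⟩, hd (fold ≫ c) ⟨by rw [← Category.assoc, hf1, Category.id_comp],
      by rw [← Category.assoc, hf2, Category.id_comp]⟩]
  rw [pull_comp, ← cls_comp, ← e3, hδ, pull_hadd, ← pull_comp, ← pull_comp]

/-- **`IsNatMul n f` means that `f` acts on `[-, E]` as `x ↦ x + ⋯ + x` (`n` terms).** -/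
theorem pull_of_isNatMul {X : SH} (n : ℕ) {f : X ⟶ X} (hf : IsNatMul n f) (x : HoClass X.sp M.spec) :
    M.pull f x = M.hit n x := by
  induction n generalizing f with
  | zero => exact M.pull_of_isZeroMor hf x
  | succ n ih =>
    obtain ⟨g, hg, hs⟩ := hf
    rw [M.pull_of_isSum hs, ih hg, pull_id]
    rfl

/-- If `N` kills `E` and is invertible on `X` then `[X, E] = 0`. -/
theorem eq_hzero_of_natMulInvertible {N : ℕ} (hN : M.S.HasExp N) {X : SH} (hX : NatMulInvertible N X)
    (x : HoClass X.sp M.spec) : x = M.hzero X.sp := by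
  obtain ⟨f, hf, hiso⟩ := hX
  have h1 : M.pull (inv f) (M.pull f x) = x := by
    rw [← pull_comp, IsIso.inv_hom_id, pull_id]
  rw [← h1, M.pull_of_isNatMul N hf, M.hit_eq_hzero hN, pull_hzero]

/-- If `N` kills `E` and is invertible on `X` then there is only one morphism from `X` to `E` in `SH`. -/
theorem subsingleton_of_natMulInvertible {N : ℕ} (hN : M.S.HasExp N) {X : SH} (hX : NatMulInvertible N X) :
    Subsingleton (X ⟶ Q.obj M.spec) :=
  ⟨fun _ _ => M.cls_injective
    ((M.eq_hzero_of_natMulInvertible hN hX _).trans (M.eq_hzero_of_natMulInvertible hN hX _).symm)⟩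

/-- In `SH(X, E)` the relation `IsSum` of `Statement.lean` is the levelwise addition of maps of spectra. -/
theorem cls_of_isSum {X : SH} {a b h : X ⟶ Q.obj M.spec} (H : IsSum a b h) :
    M.cls h = M.hadd (M.cls a) (M.cls b) := M.pull_of_isSum H _

/-- If `N` kills `E` then `E` is `N`-complete in the sense of `Statement.lean`. -/
theorem isPComplete {N : ℕ} (hN : M.S.HasExp N) : IsPComplete N (Q.obj M.spec) := fun A hA f => by
  have := M.subsingleton_of_natMulInvertible hN hA
  exact ⟨zero, toZero A, fromZero _, isZero_zero, Subsingleton.elim _ _⟩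

end AddLoopG

/-! ### 5. The stable cocycles with coefficients in `R` -/

section EMR

variable (R : Type) [CommRing R]

/-- the structure of simplicial abelian group of `EMR R` -/
def abGrpEMR : AbGrp (EMR R) where
  grp n := instAddCommGroupEMR R n
  point_eq _ := rfl
  map_add _ _ _ := rfl

theorem abGrpEMR_it (k : ℕ) {n : SimplexCategoryᵒᵖ} (x : (EMR R).obj n) (m : ℕ) (φ : ⦋m⦌ ⟶ n.unop)
    (l : List (⦋m⦌ ⟶ ⦋1⦌)) : ((abGrpEMR R).it k x).1 m φ l = (k : R) * x.1 m φ l := by
  induction k with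
  | zero =>
    show (0 : R) = ((0 : ℕ) : R) * x.1 m φ l
    rw [Nat.cast_zero, zero_mul]
  | succ k ih =>
    show ((abGrpEMR R).it k x).1 m φ l + x.1 m φ l = _
    rw [ih, Nat.cast_succ]
    ring

theorem hasExp_abGrpEMR {N : ℕ} (hN : (N : R) = 0) : (abGrpEMR R).HasExp N := fun _ x =>
  Subtype.ext (funext fun m => funext fun φ => funext fun l => by
    rw [abGrpEMR_it, hN, zero_mul]
    rfl)

/-- `EMR R` as a strict loop object with an additive structure map -/
def addLoopEMR : AddLoopG where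
  L := loopEMR R
  S := abGrpEMR R
  σ_add := σEMR_add R

/-- The `Ω`-spectrum of stable cocycles with coefficients in `R`, with additive structure maps. -/
noncomputable def aspecEMR : Sp := (addLoopEMR R).spec

theorem isOmega_aspecEMR : (aspecEMR R).IsOmega := (addLoopEMR R).isOmega

/-- `π_k` of the `Ω`-spectrum `aspecEMR R` has two different elements, for every integer `k`, if `R ≠ 0`. -/
theorem exists_π_aspecEMR_ne [Nontrivial R] (k : ℤ) : ∃ a b : SH.π k (Q.obj (aspecEMR R)), a ≠ b :=
  match k with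
  | Int.ofNat k => by
    let e := SH.piEquivNonneg k (aspecEMR R) (isOmega_aspecEMR R)
    refine ⟨e.symm (Quot.mk _ ((loopEMR R).alift 0 (fundSphR R k))), e.symm (Quot.mk _ (zeroMap (Sph k) _)), fun h => ?_⟩
    have h' := PSSet.homotopic_of_quot_eq (e.symm.injective h)
    exact not_homotopic_fundSphR R k (h'.postcomp ((loopEMR R).apr 0))
  | Int.negSucc k => by
    let e := SH.piEquivNeg k (aspecEMR R) (isOmega_aspecEMR R)
    refine ⟨e.symm (Quot.mk _ ((loopEMR R).alift (k + 1) (fundMapR R))), e.symm (Quot.mk _ (zeroMap S0 _)), fun h => ?_⟩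
    have h' := PSSet.homotopic_of_quot_eq (e.symm.injective h)
    exact not_homotopic_fundSphR R 0 (h'.postcomp ((loopEMR R).apr (k + 1)))

variable {R}

/-- The invariant of a map of spectra `Σ^∞ S⁰ ⟶ aspecEMR R`: the value at the point of the cocycle that is the image of the vertex of `S⁰`. -/
noncomputable def invS (g : Sp.suspSpec S0 ⟶ aspecEMR R) : R := inv0R (g.map 0 ≫ (loopEMR R).apr 0)

theorem invS_eq_of_homotopic {g g' : Sp.suspSpec S0 ⟶ aspecEMR R} (h : Sp.Homotopic g g') : invS g = invS g' :=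
  inv0R_eq_of_homotopic ((h.map 0).postcomp ((loopEMR R).apr 0))

theorem invS_it (k : ℕ) (g : Sp.suspSpec S0 ⟶ aspecEMR R) : invS ((addLoopEMR R).it k g) = (k : R) * invS g := by
  induction k with
  | zero =>
    show (0 : R) = ((0 : ℕ) : R) * invS g
    rw [Nat.cast_zero, zero_mul]
  | succ k ih =>
    show invS ((addLoopEMR R).it k g) + invS g = _
    rw [ih, Nat.cast_succ]
    ring

variable (R)

/-- the fundamental class `Σ^∞ S⁰ ⟶ aspecEMR R` -/
noncomputable def fundSp : Sp.suspSpec S0 ⟶ aspecEMR R := Sp.suspLift ((loopEMR R).alift 0 (fundMapR R))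

theorem invS_fundSp : invS (fundSp R) = 1 := rfl

end EMR

/-! ### 6. The non-examples and examples -/

/-- **Multiplication by `n` is not invertible on the sphere spectrum** (nor on any sphere `S^k`, `k ∈ ℤ`), for every `n ≠ 1`. -/
theorem not_natMulInvertible_sphere {n : ℕ} (hn : n ≠ 1) (k : ℤ) : ¬ NatMulInvertible n (SH.sphere k) := fun h => by
  have : Nontrivial (ZMod n) := ZMod.nontrivial_iff.2 hn
  obtain ⟨a, b, hab⟩ := exists_π_aspecEMR_ne (ZMod n) k
  exact hab (((addLoopEMR (ZMod n)).subsingleton_of_natMulInvertible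
    (hasExp_abGrpEMR (ZMod n) (ZMod.natCast_self n)) h).elim a b)

/-- **No sphere is `p`-local**, whatever `p` is: a non-example of `SH.IsPLocal`. -/
theorem not_isPLocal_sphere_all (p : ℕ) (k : ℤ) : ¬ SH.IsPLocal p (SH.sphere k) := fun h => by
  by_cases hp : p = 2
  · exact not_natMulInvertible_sphere (by norm_num) k (h 3 Nat.prime_three (by omega))
  · exact not_natMulInvertible_sphere (by norm_num) k (h 2 Nat.prime_two (Ne.symm hp))

/-- The identity of a sphere is not a `p`-localization: a non-example of `SH.IsPLocalization`. -/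
theorem not_isPLocalization_id_sphere_all (p : ℕ) (k : ℤ) : ¬ SH.IsPLocalization p (𝟙 (SH.sphere k)) :=
  fun h => not_isPLocal_sphere_all p k h.1

/-- A map from a sphere to a spectrum on which some `n ≠ 1` is invertible is never an isomorphism of `SH`. -/
theorem not_isIso_of_natMulInvertible {n : ℕ} (hn : n ≠ 1) (k : ℤ) {Y : SH} (η : SH.sphere k ⟶ Y)
    (hY : NatMulInvertible n Y) : ¬ IsIso η := fun _ => by
  have : Nontrivial (ZMod n) := ZMod.nontrivial_iff.2 hn
  obtain ⟨a, b, hab⟩ := exists_π_aspecEMR_ne (ZMod n) k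
  have : Subsingleton (Y ⟶ Q.obj (aspecEMR (ZMod n))) :=
    (addLoopEMR (ZMod n)).subsingleton_of_natMulInvertible (hasExp_abGrpEMR (ZMod n) (ZMod.natCast_self n)) hY
  have h1 : inv η ≫ a = inv η ≫ b := Subsingleton.elim _ _
  exact hab ((cancel_epi (inv η)).1 h1)

/-- The `p`-localization `S ⟶ S_(p)` that occurs in `SH.IsFinitePLocal` is never an isomorphism of `SH`. -/
theorem not_isIso_of_isPLocalization (p : ℕ) (k : ℤ) {Y : SH} (η : SH.sphere k ⟶ Y) (h : SH.IsPLocalization p η) :
    ¬ IsIso η := by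
  by_cases hp : p = 2
  · exact not_isIso_of_natMulInvertible (by norm_num) k η (h.1 3 Nat.prime_three (by omega))
  · exact not_isIso_of_natMulInvertible (by norm_num) k η (h.1 2 Nat.prime_two (Ne.symm hp))

/-- **A non-zero `p`-complete spectrum, for every `p ≠ 1`** (in particular for every prime `p`): an example of `SH.IsPComplete` that is not a zero object. -/
theorem exists_isPComplete_not_isZero {p : ℕ} (hp : p ≠ 1) : ∃ X : SH, SH.IsPComplete p X ∧ ¬ Limits.IsZero X :=
  ⟨Q.obj (aspecEMR (ZMod p)), (addLoopEMR (ZMod p)).isPComplete (hasExp_abGrpEMR (ZMod p) (ZMod.natCast_self p)), fun h => by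
    have : Nontrivial (ZMod p) := ZMod.nontrivial_iff.2 hp
    obtain ⟨a, b, hab⟩ := exists_π_aspecEMR_ne (ZMod p) 0
    exact hab (h.eq_of_tgt a b)⟩

/-- **The multiples `n · 𝟙` of the identity of the sphere spectrum are pairwise different**: an endomorphism of `S` is `n · 𝟙` for at most one `n`. -/
theorem isNatMul_sphere_unique {n m : ℕ} {f : SH.sphere 0 ⟶ SH.sphere 0} (hn : IsNatMul n f) (hm : IsNatMul m f) :
    n = m := by
  have h1 := (addLoopEMR ℤ).pull_of_isNatMul n hn (Quot.mk _ (fundSp ℤ))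
  have h2 := (addLoopEMR ℤ).pull_of_isNatMul m hm (Quot.mk _ (fundSp ℤ))
  have h3 : (Quot.mk _ ((addLoopEMR ℤ).it n (fundSp ℤ)) : SH.HoClass (Sp.suspSpec S0) (aspecEMR ℤ)) =
      Quot.mk _ ((addLoopEMR ℤ).it m (fundSp ℤ)) :=
    ((addLoopEMR ℤ).hit_mk n (fundSp ℤ)).symm.trans (h1.symm.trans (h2.trans ((addLoopEMR ℤ).hit_mk m (fundSp ℤ))))
  have h4 := invS_eq_of_homotopic (SH.homotopic_of_quot_eq h3)
  rw [invS_it, invS_it, invS_fundSp, mul_one, mul_one] at h4
  exact_mod_cast h4

/-- **The unit of `π_0 S` has infinite order**: `n · 𝟙` is not a zero map of the sphere spectrum, for `n ≠ 0`. -/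
theorem not_isZeroMor_of_isNatMul_sphere {n : ℕ} (hn : n ≠ 0) {f : SH.sphere 0 ⟶ SH.sphere 0} (hf : IsNatMul n f) :
    ¬ IsZeroMor f := fun hz => hn (isNatMul_sphere_unique hf (show IsNatMul 0 f from hz))

end Claimed.Open.R319
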