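import Claimed.Open.R319.SanityHomotopy

/-!
# Sanity checks for `Statement.lean` (result 319), part 3: homotopy groups of `Ω`-spectra

For an `Ω`-spectrum `E` the stable homotopy groups `π_k (Q E) = SH(S^k, E)` of `Statement.lean` are the
expected sets of pointed homotopy classes of maps of pointed simplicial sets:

* `SH.suspHomEquiv` : `SH(Σ^∞ K, E) ≃ [K, E_0]`;
* `SH.piEquivNonneg` : `π_k E ≃ [S^k, E_0]` for `k ≥ 0`;
* `SH.piEquivNeg` : `π_{-k} E ≃ [S^0, E_k]` for `k ≥ 1`.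
-/

open CategoryTheory Opposite

namespace Claimed.Open.R319

noncomputable section

namespace PSSet

theorem swapRight_swapRight (X Y Z : PSSet) : swapRight X Y Z ≫ swapRight X Z Y = 𝟙 _ :=
  NatTrans.ext (funext fun n => Smash.hom_ext fun u c => by
    induction u using Smash.ind with | h a b => ?_
    rfl)

/-- The set `[K, L]` of pointed homotopy classes of maps of pointed simplicial sets. -/
def HoClass (K L : PSSet) : Type := Quot (Homotopic (X := K) (Y := L))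

theorem homotopic_of_quot_eq {K L : PSSet} {g g' : K ⟶ L}
    (h : (Quot.mk _ g : HoClass K L) = Quot.mk _ g') : Homotopic g g' := by
  have := Quot.eqvGen_exact h
  clear h
  induction this with
  | rel _ _ h => exact h
  | refl _ => exact .refl _
  | symm _ _ _ ih => exact .symm _ _ ih
  | trans _ _ _ _ _ ih ih' => exact .trans _ _ _ ih ih'

end PSSet

namespace Sp

open PSSet

/-- The levels of the map of spectra `Σ^∞ K ⟶ E` that extends `g : K ⟶ E_0`. -/
def suspLiftLevel {K : PSSet} {E : Sp} (g : K ⟶ E.level 0) : ∀ n, K.iterSusp n ⟶ E.level n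
  | 0 => g
  | n + 1 => smashMap (suspLiftLevel g n) (𝟙 S1) ≫ E.σ n

/-- The map of spectra `Σ^∞ K ⟶ E` that extends `g : K ⟶ E_0`. -/
def suspLift {K : PSSet} {E : Sp} (g : K ⟶ E.level 0) : suspSpec K ⟶ E where
  map := suspLiftLevel g
  comm _ := Category.id_comp _

theorem suspLift_map_zero {K : PSSet} {E : Sp} (f : suspSpec K ⟶ E) : suspLift (f.map 0) = f :=
  Hom.ext (funext fun n => by
    induction n with
    | zero => rfl
    | succ n ih =>
      show smashMap (suspLiftLevel (f.map 0) n) (𝟙 S1) ≫ E.σ n = f.map (n + 1)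
      have ih' : suspLiftLevel (f.map 0) n = f.map n := ih
      rw [ih']
      exact (f.comm n).symm.trans (Category.id_comp _))

/-- `Sp(Σ^∞ K, E) ≃ PSSet(K, E_0)`. -/
def suspEquiv (K : PSSet) (E : Sp) : (suspSpec K ⟶ E) ≃ (K ⟶ E.level 0) where
  toFun f := f.map 0
  invFun := suspLift
  left_inv := suspLift_map_zero
  right_inv _ := rfl

/-- The levels of the homotopy of maps of spectra that extends a homotopy `K ∧ Δ[1]₊ ⟶ E_0`. -/
def suspLiftHtpyLevel {K : PSSet} {E : Sp} (H : PSSet.smash K I ⟶ E.level 0) :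
    ∀ n, PSSet.smash (K.iterSusp n) I ⟶ E.level n
  | 0 => H
  | n + 1 => swapRight _ _ _ ≫ smashMap (suspLiftHtpyLevel H n) (𝟙 S1) ≫ E.σ n

/-- The homotopy of maps of spectra that extends a homotopy `K ∧ Δ[1]₊ ⟶ E_0`. -/
def suspLiftHtpy {K : PSSet} {E : Sp} (H : PSSet.smash K I ⟶ E.level 0) :
    (suspSpec K).smashK I ⟶ E where
  map := suspLiftHtpyLevel H
  comm n := by
    show (swapRight (K.iterSusp n) I S1 ≫ smashMap (𝟙 _) (𝟙 I)) ≫
      swapRight _ _ _ ≫ smashMap (suspLiftHtpyLevel H n) (𝟙 S1) ≫ E.σ n = _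
    rw [smashMap_id, Category.comp_id, ← Category.assoc, swapRight_swapRight, Category.id_comp]
    rfl

theorem incl_suspLiftHtpy {K : PSSet} {E : Sp} (H : PSSet.smash K I ⟶ E.level 0) (ε : Fin 2) :
    incl (suspSpec K) ε ≫ suspLiftHtpy H = suspLift (PSSet.incl K ε ≫ H) :=
  Hom.ext (funext fun n => by
    induction n with
    | zero => rfl
    | succ n ih =>
      have ih' : PSSet.incl (K.iterSusp n) ε ≫ suspLiftHtpyLevel H n
          = suspLiftLevel (PSSet.incl K ε ≫ H) n := ih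
      show PSSet.incl (PSSet.smash (K.iterSusp n) S1) ε ≫ swapRight _ _ _ ≫
          smashMap (suspLiftHtpyLevel H n) (𝟙 S1) ≫ E.σ n
        = smashMap (suspLiftLevel (PSSet.incl K ε ≫ H) n) (𝟙 S1) ≫ E.σ n
      rw [← ih', ← Category.comp_id (𝟙 S1), smashMap_comp, Category.comp_id, Category.assoc]
      rfl)

theorem Homotopy.suspLift {K : PSSet} {E : Sp} {g g' : K ⟶ E.level 0} (h : PSSet.Homotopy g g') :
    Homotopy (suspLift g) (suspLift g') := by
  obtain ⟨H, rfl, rfl⟩ := h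
  exact ⟨suspLiftHtpy H, incl_suspLiftHtpy H 0, incl_suspLiftHtpy H 1⟩

theorem Homotopic.suspLift {K : PSSet} {E : Sp} {g g' : K ⟶ E.level 0}
    (h : PSSet.Homotopic g g') : Homotopic (suspLift g) (suspLift g') := by
  induction h with
  | rel _ _ h => exact .rel _ _ (Homotopy.suspLift h)
  | refl _ => exact .refl _
  | symm _ _ _ ih => exact .symm _ _ ih
  | trans _ _ _ _ _ ih ih' => exact .trans _ _ _ ih ih'

theorem Homotopy.map {X E : Sp} {f f' : X ⟶ E} (h : Homotopy f f') (n : ℕ) :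
    PSSet.Homotopy (f.map n) (f'.map n) := by
  obtain ⟨H, rfl, rfl⟩ := h
  exact ⟨H.map n, rfl, rfl⟩

theorem Homotopic.map {X E : Sp} {f f' : X ⟶ E} (h : Homotopic f f') (n : ℕ) :
    PSSet.Homotopic (f.map n) (f'.map n) := by
  induction h with
  | rel _ _ h => exact .rel _ _ (h.map n)
  | refl _ => exact .refl _
  | symm _ _ _ ih => exact .symm _ _ ih
  | trans _ _ _ _ _ ih ih' => exact .trans _ _ _ ih ih'

end Sp

namespace SH

/-- `[Σ^∞ K, E] ≃ [K, E_0]` on homotopy classes. -/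
def suspHoEquiv (K : PSSet) (E : Sp) : HoClass (Sp.suspSpec K) E ≃ PSSet.HoClass K (E.level 0) where
  toFun := Quot.map (fun f => f.map 0) fun _ _ h => h.map 0
  invFun := Quot.map Sp.suspLift fun _ _ h => Sp.Homotopic.suspLift h
  left_inv := by
    rintro ⟨f⟩
    exact congrArg (Quot.mk _) (Sp.suspLift_map_zero f)
  right_inv := by
    rintro ⟨g⟩
    rfl

/-- **`SH(Σ^∞ K, E) ≃ [K, E_0]` for an `Ω`-spectrum `E`.** -/
def suspHomEquiv (K : PSSet) (E : Sp) (hE : E.IsOmega) :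
    (Q.obj (Sp.suspSpec K) ⟶ Q.obj E) ≃ PSSet.HoClass K (E.level 0) :=
  (homEquiv _ E hE).symm.trans (suspHoEquiv K E)

/-- **`π_k E ≃ [S^k, E_0]` for an `Ω`-spectrum `E` and `k ≥ 0`.** -/
def piEquivNonneg (k : ℕ) (E : Sp) (hE : E.IsOmega) :
    π (k : ℤ) (Q.obj E) ≃ PSSet.HoClass (PSSet.Sph k) (E.level 0) :=
  suspHomEquiv (PSSet.Sph k) E hE

/-- `[D X, E] ≃ [X, sh E]` on homotopy classes. -/
def adjHoEquiv (X E : Sp) : HoClass X.D E ≃ HoClass X E.sh where
  toFun := Quot.map Sp.adjTo fun _ _ h => h.adjTo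
  invFun := Quot.map Sp.adjFrom fun _ _ h => h.adjFrom
  left_inv := by
    rintro ⟨f⟩
    exact congrArg (Quot.mk _) (Sp.adjFrom_adjTo f)
  right_inv := by
    rintro ⟨g⟩
    rfl

/-- **`SH(Σ⁻¹ X, E) ≃ SH(X, sh E)` for an `Ω`-spectrum `E`**: the functor `D` is the desuspension. -/
def adjHomEquiv (X E : Sp) (hE : E.IsOmega) :
    (D.obj (Q.obj X) ⟶ Q.obj E) ≃ (Q.obj X ⟶ Q.obj E.sh) :=
  ((homEquiv X.D E hE).symm.trans (adjHoEquiv X E)).trans (homEquiv X E.sh hE.sh)

/-- The iterated shift. -/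
def _root_.Claimed.Open.R319.Sp.shPow : ℕ → Sp → Sp
  | 0, E => E
  | k + 1, E => Sp.shPow k E.sh

theorem _root_.Claimed.Open.R319.Sp.shPow_level : ∀ (k : ℕ) (E : Sp) (n : ℕ),
    (Sp.shPow k E).level n = E.level (n + k)
  | 0, _, _ => rfl
  | k + 1, E, n => (Sp.shPow_level k E.sh n).trans (congrArg E.level (Nat.add_assoc n k 1))

theorem _root_.Claimed.Open.R319.Sp.IsOmega.shPow : ∀ (k : ℕ) {E : Sp}, E.IsOmega →
    (Sp.shPow k E).IsOmega
  | 0, _, hE => hE
  | k + 1, _, hE => Sp.IsOmega.shPow k hE.sh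

/-- `SH(Σ^{-k} A, E) ≃ SH(A, sh^k E)` for an `Ω`-spectrum `E`. -/
def dpowHomEquiv : ∀ (k : ℕ) (A : SH) (E : Sp) (_ : E.IsOmega),
    ((Dpow k).obj A ⟶ Q.obj E) ≃ (A ⟶ Q.obj (Sp.shPow k E))
  | 0, _, _, _ => Equiv.refl _
  | k + 1, A, E, hE =>
    (adjHomEquiv ((Dpow k).obj A).sp E hE).trans (dpowHomEquiv k A E.sh hE.sh)

/-- **`π_{-k} E ≃ [S⁰, E_k]` for an `Ω`-spectrum `E` and `k ≥ 1`.** -/
def piEquivNeg (k : ℕ) (E : Sp) (hE : E.IsOmega) :
    π (Int.negSucc k) (Q.obj E) ≃ PSSet.HoClass PSSet.S0 (E.level (k + 1)) :=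
  (dpowHomEquiv (k + 1) _ E hE).trans
    ((suspHomEquiv PSSet.S0 _ (hE.shPow (k + 1))).trans
      (Equiv.cast (congrArg (PSSet.HoClass PSSet.S0)
        ((Sp.shPow_level (k + 1) E 0).trans (congrArg E.level (Nat.zero_add _))))))

end SH

end

end Claimed.Open.R319
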