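import Claimed.Open.R319.SanityMoore
import Claimed.Open.R319.SanityCofree
import Claimed.Open.R319.SanityPi

/-!
# Sanity (result 319), block M5: from a strict loop object `E ≅ Ω E` (a simplicial abelian group) to an `Ω`-spectrum in the sense of `Statement.lean`
(levelwise Kan, INJECTIVE structure maps, `[A, E_n] ≅ [A ∧ S¹, E_{n+1}]`)
-/

open CategoryTheory Opposite Simplicial

namespace Claimed.Open.R319

open PSSet

/-- A pointed simplicial abelian group `E` with a map `σ : E ∧ S¹ ⟶ E` whose adjoint `E ⟶ Ω E` is an ISOMORPHISM: `g ↦ σ ∘ (g ∧ S¹)` is a bijection from the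
pointed maps `A ⟶ E` to the pointed maps `A ∧ S¹ ⟶ E`, for every `A`. -/
structure LoopData where
  E : PSSet
  grp : ∀ n, AddCommGroup (E.obj n)
  map_add : ∀ {n m : SimplexCategoryᵒᵖ} (φ : n ⟶ m) (x y : E.obj n), (E.map φ).toFun (x + y) = (E.map φ).toFun x + (E.map φ).toFun y
  σ : smash E S1 ⟶ E
  ex : ∀ (A : PSSet) (h : smash A S1 ⟶ E), ∃ g : A ⟶ E, smashMap g (𝟙 S1) ≫ σ = h
  uniq : ∀ (A : PSSet) (g g' : A ⟶ E), smashMap g (𝟙 S1) ≫ σ = smashMap g' (𝟙 S1) ≫ σ → g = g'

namespace LoopData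

variable (L : LoopData)

/-- auxiliary: `Y_0 = *`, `Y_{n+1} = (E × Cof Y_n) ∧ S¹` -/
def aux (n : ℕ) : PSSet :=
  match n with
  | 0 => PSSet.pt
  | n + 1 => smash (PSSet.prod L.E (Cof (aux n))) S1

/-- The spectrum: `level n = E × Cof Y_n`, so that `level (n+1) = E × Cof (level n ∧ S¹)`; the structure map is `(σ ∘ (pr₁ ∧ S¹), unit)`: injective because of the second component. -/
noncomputable def spectrum : Sp where
  level n := PSSet.prod L.E (Cof (L.aux n))
  σ n := prodLift (smashMap (prodFst _ _) (𝟙 S1) ≫ L.σ) (cofUnit (smash (PSSet.prod L.E (Cof (L.aux n))) S1))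
  σ_inj _ m := fun _ _ h => cofUnit_injective _ m (congrArg Prod.snd h)

end LoopData

namespace PSSet

theorem Homotopic.postcomp {X Y Z : PSSet} {f g : X ⟶ Y} (h : Homotopic f g) (k : Y ⟶ Z) :
    Homotopic (f ≫ k) (g ≫ k) := by
  induction h with
  | rel _ _ h =>
    obtain ⟨H, rfl, rfl⟩ := h
    exact .rel _ _ ⟨H ≫ k, by rw [Category.assoc], by rw [Category.assoc]⟩
  | refl _ => exact .refl _
  | symm _ _ _ ih => exact .symm _ _ ih
  | trans _ _ _ _ _ ih ih' => exact .trans _ _ _ ih ih'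

theorem Homotopic.prodLift_right {A X Y : PSSet} (a : A ⟶ X) {k k' : A ⟶ Y} (h : Homotopic k k') :
    Homotopic (prodLift a k) (prodLift a k') := by
  induction h with
  | rel _ _ h =>
    obtain ⟨H, rfl, rfl⟩ := h
    exact .rel _ _ ⟨prodLift (proj A ≫ a) H, rfl, rfl⟩
  | refl _ => exact .refl _
  | symm _ _ _ ih => exact .symm _ _ ih
  | trans _ _ _ _ _ ih ih' => exact .trans _ _ _ ih ih'

theorem Homotopic.prodLift_left {A X Y : PSSet} {a a' : A ⟶ X} (h : Homotopic a a') (k : A ⟶ Y) :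
    Homotopic (prodLift a k) (prodLift a' k) := by
  induction h with
  | rel _ _ h =>
    obtain ⟨H, rfl, rfl⟩ := h
    exact .rel _ _ ⟨prodLift H (proj A ≫ k), rfl, rfl⟩
  | refl _ => exact .refl _
  | symm _ _ _ ih => exact .symm _ _ ih
  | trans _ _ _ _ _ ih ih' => exact .trans _ _ _ ih ih'

theorem prodLift_eta {A X Y : PSSet} (f : A ⟶ PSSet.prod X Y) : prodLift (f ≫ prodFst X Y) (f ≫ prodSnd X Y) = f := rfl

/-- Two maps into `X × Cof Y` are homotopic as soon as their first components are. -/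
theorem homotopic_prod_cof {A X Y : PSSet} {f g : A ⟶ PSSet.prod X (Cof Y)}
    (h : Homotopic (f ≫ prodFst _ _) (g ≫ prodFst _ _)) : Homotopic f g := by
  have h1 : Homotopic (prodLift (f ≫ prodFst _ _) (f ≫ prodSnd _ _)) (prodLift (f ≫ prodFst _ _) (zeroMap _ _)) :=
    Homotopic.prodLift_right _ (cof_homotopic_zero _)
  have h2 : Homotopic (prodLift (g ≫ prodFst _ _) (g ≫ prodSnd _ _)) (prodLift (g ≫ prodFst _ _) (zeroMap _ _)) :=
    Homotopic.prodLift_right _ (cof_homotopic_zero _)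
  exact .trans _ _ _ h1 (.trans _ _ _ (Homotopic.prodLift_left h _) (.symm _ _ h2))

theorem smashMap_incl_swapRight (A : PSSet) (ε : Fin 2) :
    smashMap (incl A ε) (𝟙 S1) ≫ swapRight A I S1 = incl (smash A S1) ε :=
  NatTrans.ext (funext fun _ => Smash.hom_ext fun _ _ => rfl)

end PSSet

namespace LoopData

variable (L : LoopData)

/-- the adjoint of a map `A ∧ S¹ ⟶ E` -/
noncomputable def adj {A : PSSet} (h : smash A S1 ⟶ L.E) : A ⟶ L.E := (L.ex A h).choose

theorem adj_spec {A : PSSet} (h : smash A S1 ⟶ L.E) : smashMap (L.adj h) (𝟙 S1) ≫ L.σ = h := (L.ex A h).choose_spec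

theorem adj_σ {A : PSSet} (g : A ⟶ L.E) : L.adj (smashMap g (𝟙 S1) ≫ L.σ) = g := L.uniq A _ _ (L.adj_spec _)

theorem adj_homotopic {A : PSSet} {a a' : smash A S1 ⟶ L.E} (h : Homotopic a a') : Homotopic (L.adj a) (L.adj a') := by
  induction h with
  | rel _ _ h =>
    obtain ⟨H, rfl, rfl⟩ := h
    refine .rel _ _ ⟨L.adj (swapRight A I S1 ≫ H), ?_, ?_⟩
    · refine L.uniq A _ _ ?_
      rw [adj_spec, ← Category.comp_id (𝟙 S1), smashMap_comp, Category.assoc, adj_spec, ← Category.assoc,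
        smashMap_incl_swapRight]
    · refine L.uniq A _ _ ?_
      rw [adj_spec, ← Category.comp_id (𝟙 S1), smashMap_comp, Category.assoc, adj_spec, ← Category.assoc,
        smashMap_incl_swapRight]
  | refl _ => exact .refl _
  | symm _ _ _ ih => exact .symm _ _ ih
  | trans _ _ _ _ _ ih ih' => exact .trans _ _ _ ih ih'

/-- the projection of the level `n` to `E` -/
def pr (n : ℕ) : L.spectrum.level n ⟶ L.E := prodFst _ _

/-- the map into the level `n` with components `a` and `0` -/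
def lift (n : ℕ) {A : PSSet} (a : A ⟶ L.E) : A ⟶ L.spectrum.level n := prodLift a (zeroMap _ _)

theorem lift_pr (n : ℕ) {A : PSSet} (a : A ⟶ L.E) : L.lift n a ≫ L.pr n = a := rfl

theorem σ_pr (n : ℕ) : L.spectrum.σ n ≫ L.pr (n + 1) = smashMap (L.pr n) (𝟙 S1) ≫ L.σ := rfl

theorem homotopic_level {n : ℕ} {A : PSSet} {f g : A ⟶ L.spectrum.level n}
    (h : Homotopic (f ≫ L.pr n) (g ≫ L.pr n)) : Homotopic f g :=
  homotopic_prod_cof (X := L.E) (Y := L.aux n) h

theorem spectrum_σ_pr (n : ℕ) {A : PSSet} (g : A ⟶ L.spectrum.level n) :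
    (smashMap g (𝟙 S1) ≫ L.spectrum.σ n) ≫ L.pr (n + 1) = smashMap (g ≫ L.pr n) (𝟙 S1) ≫ L.σ := by
  rw [Category.assoc, σ_pr, ← Category.assoc, ← smashMap_comp, Category.comp_id]

theorem isOmega : L.spectrum.IsOmega where
  kan n := by
    let _ := L.grp
    refine kanComplex_of_addCommGroup _
      (fun m => inferInstanceAs (AddCommGroup (L.E.obj m × (∀ k : ℕ, (⦋k⦌ ⟶ m.unop) → (L.aux n).obj (op ⦋k⦌) → ZMod 2)))) ?_
    intro m m' φ x y
    exact Prod.ext (L.map_add φ x.1 y.1) rfl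
  surj n A h := by
    refine ⟨L.lift n (L.adj (h ≫ L.pr (n + 1))), L.homotopic_level ?_⟩
    rw [spectrum_σ_pr, lift_pr, adj_spec]
    exact .refl _
  inj n A g g' h := by
    refine L.homotopic_level ?_
    have h1 := L.adj_homotopic (h.postcomp (L.pr (n + 1)))
    rwa [spectrum_σ_pr, spectrum_σ_pr, adj_σ, adj_σ] at h1

/-- the projection of the level `0` to `E` -/
def proj0 : L.spectrum.level 0 ⟶ L.E := prodFst _ _

/-- the inclusion of `E` into the level `0` -/
def incl0 : L.E ⟶ L.spectrum.level 0 := prodLift (𝟙 _) (zeroMap _ _)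

theorem incl0_proj0 : L.incl0 ≫ L.proj0 = 𝟙 _ := rfl

end LoopData

end Claimed.Open.R319
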