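import Claimed.Open.R319.SanityCube

/-!
# Sanity (result 319): a vertex of `GEM d` whose stable cocycle is a coboundary is joined to `0` by a `1`-simplex
-/

open CategoryTheory Opposite Simplicial

namespace Claimed.Open.R319

open PSSet

/-- `IsGrCocycle` with the list of the coordinates in reversed order. -/
structure IsRevCocycle (d : ℤ) {T : SimplexCategory} (w : Coch T) : Prop where
  vanish : ∀ (m : ℕ) (φ : ⦋m⦌ ⟶ T) (r : List (⦋m⦌ ⟶ ⦋1⦌)), (∃ s ∈ r, ¬ Function.Surjective s.toOrderHom) → w m φ r = 0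
  cocycle : ∀ (m : ℕ) (φ : ⦋m + 1⦌ ⟶ T) (r : List (⦋m + 1⦌ ⟶ ⦋1⦌)),
    ∑ i : Fin (m + 2), w m (SimplexCategory.δ i ≫ φ) (pbl (SimplexCategory.δ i) r) = 0
  prism : ∀ (m : ℕ) (φ : ⦋m⦌ ⟶ T) (r : List (⦋m⦌ ⟶ ⦋1⦌)),
    w m φ r = ∑ j : Fin (m + 1), w (m + 1) (SimplexCategory.σ j ≫ φ) (tau j :: pbl (SimplexCategory.σ j) r)
  graded : ∀ (m : ℕ) (φ : ⦋m⦌ ⟶ T) (r : List (⦋m⦌ ⟶ ⦋1⦌)), (m : ℤ) ≠ r.length + d → w m φ r = 0
  normal : ∀ (m : ℕ) (j : Fin (m + 1)) (φ : ⦋m⦌ ⟶ T) (r : List (⦋m⦌ ⟶ ⦋1⦌)),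
    w (m + 1) (SimplexCategory.σ j ≫ φ) (pbl (SimplexCategory.σ j) r) = 0

/-- The same cochain with the lists reversed. -/
def revCoch {T : SimplexCategory} (w : Coch T) : Coch T := fun m φ l => w m φ l.reverse

theorem revCoch_revCoch {T : SimplexCategory} (w : Coch T) : revCoch (revCoch w) = w := by
  funext m φ l
  simp [revCoch]

theorem IsRevCocycle.rev {d : ℤ} {T : SimplexCategory} {w : Coch T} (h : IsRevCocycle d w) : IsGrCocycle d (revCoch w) where
  st :=
    { vanish := fun m φ l hl => h.vanish m φ _ (by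
        obtain ⟨s, hs, hns⟩ := hl
        exact ⟨s, List.mem_reverse.2 hs, hns⟩)
      cocycle := fun m φ l => by
        have := h.cocycle m φ l.reverse
        simpa only [revCoch, pbl, List.map_reverse] using this
      prism := fun m φ l => by
        have := h.prism m φ l.reverse
        simpa only [revCoch, pbl, List.map_reverse, List.reverse_append, List.reverse_cons, List.reverse_nil, List.nil_append,
          List.singleton_append] using this }
  graded m φ l hl := h.graded m φ _ (by rwa [List.length_reverse])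
  normal m j φ l := by
    have := h.normal m j φ l.reverse
    simpa only [revCoch, pbl, List.map_reverse] using this

theorem IsGrCocycle.rev {d : ℤ} {T : SimplexCategory} {z : Coch T} (h : IsGrCocycle d z) : IsRevCocycle d (revCoch z) where
  vanish m φ l hl := h.st.vanish m φ _ (by
    obtain ⟨s, hs, hns⟩ := hl
    exact ⟨s, List.mem_reverse.2 hs, hns⟩)
  cocycle m φ l := by
    have := h.st.cocycle m φ l.reverse
    simpa only [revCoch, pbl, List.map_reverse] using this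
  prism m φ l := by
    have := h.st.prism m φ l.reverse
    simpa only [revCoch, pbl, List.map_reverse, List.reverse_append, List.reverse_cons, List.reverse_nil, List.nil_append,
      List.singleton_append, List.reverse_reverse] using this
  graded m φ l hl := h.graded m φ _ (by rwa [List.length_reverse])
  normal m j φ l := by
    have := h.normal m j φ l.reverse
    simpa only [revCoch, pbl, List.map_reverse] using this

/-- The map to the point. -/
def toPt (m : ℕ) : ⦋m⦌ ⟶ ⦋0⦌ := (⦋m⦌ : SimplexCategory).const ⦋0⦌ 0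

theorem hom_pt_eq {m : ℕ} (φ ψ : ⦋m⦌ ⟶ ⦋0⦌) : φ = ψ := by
  apply prism_hom_ext
  intro v
  exact congrArg Fin.val (Subsingleton.elim (α := Fin 1) _ _)

/-- A cochain on the point as a cochain on the cubes. -/
def toCub (w : Coch ⦋0⦌) : Cub := fun m r => w m (toPt m) r

theorem IsRevCocycle.isCubCochain {d : ℤ} {w : Coch ⦋0⦌} (h : IsRevCocycle d w) : IsCubCochain (toCub w) where
  vanish m r hr := h.vanish m _ r hr
  normal m j r := by
    have := h.normal m j (toPt m) r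
    rwa [hom_pt_eq (SimplexCategory.σ j ≫ toPt m) (toPt (m + 1))] at this
  prism m r := by
    refine (h.prism m (toPt m) r).trans (Finset.sum_congr rfl fun j _ => ?_)
    rw [hom_pt_eq (SimplexCategory.σ j ≫ toPt m) (toPt (m + 1))]
    rfl

theorem IsRevCocycle.isCubCobd {d : ℤ} {w : Coch ⦋0⦌} (h : IsRevCocycle d w) : IsCubCobd (toCub w) 0 := fun m r => by
  refine Eq.trans (Finset.sum_congr rfl fun i _ => ?_) (h.cocycle m (toPt (m + 1)) r)
  rw [hom_pt_eq (SimplexCategory.δ i ≫ toPt (m + 1)) (toPt m)]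
  rfl

/-! ### The `1`-simplex -/

/-- `y` evaluated at the face opposite to the vertex `0`. -/
def shift0 (y : Cub) : Cub := fun m =>
  match m with
  | 0 => fun _ => 0
  | m + 1 => fun r => y m (pbl (SimplexCategory.δ 0) r)

/-- The coboundary of `χ ∪ y`, where `χ` is the indicator of the vertex `1` of `Δ[1]` and `z` is the coboundary of `y`. -/
noncomputable def cubW0 (z y : Cub) : Coch ⦋1⦌ := fun m φ r =>
  (if nz φ = 0 then z m r else 0) + (if nz φ = 1 then shift0 y m r else 0)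

theorem cubW0_cocycle (z y : Cub) (hzc : IsCubCobd z 0) (hyz : IsCubCobd y z) (hz0 : ∀ r, z 0 r = 0)
    (m : ℕ) (φ : ⦋m + 1⦌ ⟶ ⦋1⦌) (r : List (⦋m + 1⦌ ⟶ ⦋1⦌)) :
    ∑ i : Fin (m + 2), cubW0 z y m (SimplexCategory.δ i ≫ φ) (pbl (SimplexCategory.δ i) r) = 0 := by
  simp only [cubW0, nz_δ]
  generalize nz φ = c
  have e : ∀ (m : ℕ) (r : List (⦋m + 2⦌ ⟶ ⦋1⦌)) (i : Fin (m + 2)), shift0 y (m + 1) (pbl (SimplexCategory.δ i.succ) r)
      = y m (pbl (SimplexCategory.δ i) (pbl (SimplexCategory.δ 0) r)) := by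
    intro m r i
    show y m (pbl (SimplexCategory.δ 0) (pbl (SimplexCategory.δ i.succ) r)) = _
    rw [pbl_pbl, pbl_pbl, SimplexCategory.δ_comp_δ (Fin.zero_le i)]
    rfl
  rcases c with _ | _ | _ | c
  · simpa using hzc m r
  · rw [Fin.sum_univ_succ]
    have h1 : ∀ i : Fin (m + 1), ((if (if (i.succ : Fin (m + 2)).val < 0 + 1 then 0 + 1 - 1 else 0 + 1) = 0 then z m (pbl (SimplexCategory.δ i.succ) r) else 0) +
        if (if (i.succ : Fin (m + 2)).val < 0 + 1 then 0 + 1 - 1 else 0 + 1) = 1 then shift0 y m (pbl (SimplexCategory.δ i.succ) r) else 0)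
        = shift0 y m (pbl (SimplexCategory.δ i.succ) r) := by
      intro i
      simp
    rw [Finset.sum_congr rfl fun i _ => h1 i]
    simp only [Fin.val_zero, zero_add, zero_lt_one, if_true, Nat.sub_self, zero_ne_one, if_false, add_zero]
    cases m with
    | zero => simp [shift0, hz0]
    | succ m =>
      rw [Finset.sum_congr rfl fun i _ => e m r i, hyz m (pbl (SimplexCategory.δ 0) r)]
      exact CharTwo.add_self_eq_zero (R := ZMod 2) _
  · rw [Fin.sum_univ_succ]
    cases m with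
    | zero => simp [shift0]
    | succ m =>
      rw [Fin.sum_univ_succ]
      have h1 : ∀ i : Fin (m + 1), ((if (if (i.succ.succ : Fin (m + 3)).val < 0 + 1 + 1 then 0 + 1 + 1 - 1 else 0 + 1 + 1) = 0 then z (m + 1) (pbl (SimplexCategory.δ i.succ.succ) r) else 0) +
          if (if (i.succ.succ : Fin (m + 3)).val < 0 + 1 + 1 then 0 + 1 + 1 - 1 else 0 + 1 + 1) = 1 then shift0 y (m + 1) (pbl (SimplexCategory.δ i.succ.succ) r) else 0)
          = 0 := by
        intro i
        simp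
      rw [Finset.sum_congr rfl fun i _ => h1 i, Finset.sum_const_zero, add_zero]
      have h2 : shift0 y (m + 1) (pbl (SimplexCategory.δ (0 : Fin (m + 3))) r) = shift0 y (m + 1) (pbl (SimplexCategory.δ (Fin.succ 0 : Fin (m + 3))) r) := by
        show y m (pbl (SimplexCategory.δ 0) (pbl (SimplexCategory.δ 0) r)) = y m (pbl (SimplexCategory.δ 0) (pbl (SimplexCategory.δ (Fin.succ 0)) r))
        rw [pbl_pbl, pbl_pbl]
        have := SimplexCategory.δ_comp_δ_self (n := m) (i := 0)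
        rw [← this]
        rfl
      simp only [Fin.val_zero, Fin.val_succ]
      simp
      rw [h2]
      exact CharTwo.add_self_eq_zero (R := ZMod 2) _
  · refine Finset.sum_eq_zero fun i _ => ?_
    have h1 : ¬ ((if i.val < c + 1 + 1 + 1 then c + 1 + 1 + 1 - 1 else c + 1 + 1 + 1) = 0) := by split_ifs <;> simp
    have h2 : ¬ ((if i.val < c + 1 + 1 + 1 then c + 1 + 1 + 1 - 1 else c + 1 + 1 + 1) = 1) := by split_ifs <;> simp
    rw [if_neg h1, if_neg h2, add_zero]

theorem shift0_vanish (y : Cub) (hy : IsCubCochain y) (m : ℕ) (r : List (⦋m⦌ ⟶ ⦋1⦌))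
    (h : ∃ s ∈ r, ¬ Function.Surjective s.toOrderHom) : shift0 y m r = 0 := by
  cases m with
  | zero => rfl
  | succ m =>
    obtain ⟨s, hs, hns⟩ := h
    exact hy.vanish m _ ⟨SimplexCategory.δ 0 ≫ s, List.mem_map.2 ⟨s, hs, rfl⟩, fun h => hns (Function.Surjective.of_comp h)⟩

theorem cubW0_vanish (z y : Cub) (hz : IsCubCochain z) (hy : IsCubCochain y) (m : ℕ) (φ : ⦋m⦌ ⟶ ⦋1⦌) (r : List (⦋m⦌ ⟶ ⦋1⦌))
    (h : ∃ s ∈ r, ¬ Function.Surjective s.toOrderHom) : cubW0 z y m φ r = 0 := by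
  simp only [cubW0, hz.vanish m r h, shift0_vanish y hy m r h, ite_self, add_zero]

theorem cubW0_normal (z y : Cub) (hz : IsCubCochain z) (hy : IsCubCochain y) (m : ℕ) (j : Fin (m + 1)) (φ : ⦋m⦌ ⟶ ⦋1⦌)
    (r : List (⦋m⦌ ⟶ ⦋1⦌)) : cubW0 z y (m + 1) (SimplexCategory.σ j ≫ φ) (pbl (SimplexCategory.σ j) r) = 0 := by
  simp only [cubW0, hz.normal m j r, ite_self, zero_add, nz_σ]
  split_ifs with h1 h2 h2
  · omega
  · rfl
  · have hj : j ≠ 0 := by
      rintro rfl
      simp at h1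
      omega
    cases m with
    | zero => exact absurd (Subsingleton.elim (α := Fin 1) j 0) hj
    | succ m =>
      obtain ⟨j', rfl⟩ := Fin.exists_succ_eq.2 hj
      show y (m + 1) (pbl (SimplexCategory.δ 0) (pbl (SimplexCategory.σ j'.succ) r)) = 0
      have e := SimplexCategory.δ_comp_σ_of_le (i := 0) (j := j') (Fin.zero_le _)
      rw [pbl_pbl]
      have e' : SimplexCategory.δ (0 : Fin (m + 3)) ≫ SimplexCategory.σ j'.succ = SimplexCategory.σ j' ≫ SimplexCategory.δ 0 := e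
      rw [e', ← pbl_pbl]
      exact hy.normal m j' _
  · rfl

theorem δ_zero_tau_succ {m : ℕ} (j : Fin (m + 1)) : SimplexCategory.δ 0 ≫ tau j.succ = tau j := by
  apply nz_inj
  rw [nz_δ, nz_tau, nz_tau]
  simp

theorem cubW0_prism (z y : Cub) (hz : IsCubCochain z) (hy : IsCubCochain y) (m : ℕ) (φ : ⦋m⦌ ⟶ ⦋1⦌) (r : List (⦋m⦌ ⟶ ⦋1⦌)) :
    cubW0 z y m φ r = ∑ j : Fin (m + 1), cubW0 z y (m + 1) (SimplexCategory.σ j ≫ φ) (tau j :: pbl (SimplexCategory.σ j) r) := by
  simp only [cubW0, nz_σ]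
  generalize nz φ = c
  rcases c with _ | _ | c
  · simpa using hz.prism m r
  · rw [Fin.sum_univ_succ]
    have h1 : ∀ j : Fin m, ((if (if (j.succ : Fin (m + 1)).val < 0 + 1 then 0 + 1 + 1 else 0 + 1) = 0 then
          z (m + 1) (tau j.succ :: pbl (SimplexCategory.σ j.succ) r) else 0) +
        if (if (j.succ : Fin (m + 1)).val < 0 + 1 then 0 + 1 + 1 else 0 + 1) = 1 then
          shift0 y (m + 1) (tau j.succ :: pbl (SimplexCategory.σ j.succ) r) else 0)
        = shift0 y (m + 1) (tau j.succ :: pbl (SimplexCategory.σ j.succ) r) := by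
      intro j
      simp
    rw [Finset.sum_congr rfl fun j _ => h1 j]
    simp only [Fin.val_zero, zero_add, zero_lt_one, if_true, one_ne_zero, if_false]
    simp only [show ¬ ((1 : ℕ) + 1 = 0) by omega, show ¬ ((1 : ℕ) + 1 = 1) by omega, if_false, zero_add, add_zero]
    cases m with
    | zero => simp [shift0]
    | succ m =>
      show y m (pbl (SimplexCategory.δ 0) r) = _
      rw [hy.prism m (pbl (SimplexCategory.δ 0) r)]
      refine Finset.sum_congr rfl fun j _ => ?_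
      show _ = y (m + 1) (pbl (SimplexCategory.δ 0) (tau j.succ :: pbl (SimplexCategory.σ j.succ) r))
      have e' : SimplexCategory.δ (0 : Fin (m + 3)) ≫ SimplexCategory.σ j.succ = SimplexCategory.σ j ≫ SimplexCategory.δ 0 :=
        SimplexCategory.δ_comp_σ_of_le (i := 0) (j := j) (Fin.zero_le _)
      show _ = y (m + 1) ((SimplexCategory.δ 0 ≫ tau j.succ) :: pbl (SimplexCategory.δ 0) (pbl (SimplexCategory.σ j.succ) r))
      rw [δ_zero_tau_succ, pbl_pbl, pbl_pbl, e']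
  · symm
    have h0 : (if c + 1 + 1 = 0 then z m r else 0) + (if c + 1 + 1 = 1 then shift0 y m r else 0) = 0 := by simp
    rw [h0]
    refine Finset.sum_eq_zero fun j _ => ?_
    have h1 : ¬ ((if j.val < c + 1 + 1 then c + 1 + 1 + 1 else c + 1 + 1) = 0) := by split_ifs <;> simp
    have h2 : ¬ ((if j.val < c + 1 + 1 then c + 1 + 1 + 1 else c + 1 + 1) = 1) := by split_ifs <;> simp
    rw [if_neg h1, if_neg h2, add_zero]

/-- The homogeneous part of degree `d` of `cubW0`. -/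
noncomputable def cubW (d : ℤ) (z y : Cub) : Coch ⦋1⦌ := fun m φ r =>
  if (m : ℤ) = r.length + d then cubW0 z y m φ r else 0

theorem cubW_isRev (d : ℤ) (z y : Cub) (hz : IsCubCochain z) (hzc : IsCubCobd z 0) (hy : IsCubCochain y) (hyz : IsCubCobd y z)
    (hz0 : ∀ r, z 0 r = 0) : IsRevCocycle d (cubW d z y) where
  vanish m φ r h := by simp only [cubW, cubW0_vanish z y hz hy m φ r h, ite_self]
  cocycle m φ r := by
    simp only [cubW, pbl, List.length_map]
    by_cases h : (m : ℤ) = r.length + d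
    · simp only [if_pos h]
      exact cubW0_cocycle z y hzc hyz hz0 m φ r
    · simp only [if_neg h, Finset.sum_const_zero]
  prism m φ r := by
    simp only [cubW, pbl, List.length_cons, List.length_map]
    by_cases h : (m : ℤ) = r.length + d
    · have h' : ((m + 1 : ℕ) : ℤ) = ((r.length + 1 : ℕ) : ℤ) + d := by push_cast; omega
      simp only [if_pos h, if_pos h']
      exact cubW0_prism z y hz hy m φ r
    · have h' : ¬ ((m + 1 : ℕ) : ℤ) = ((r.length + 1 : ℕ) : ℤ) + d := by push_cast; omega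
      simp only [if_neg h, if_neg h', Finset.sum_const_zero]
  graded m φ r h := if_neg h
  normal m j φ r := by simp only [cubW, cubW0_normal z y hz hy m j φ r, ite_self]

/-! ### From a `1`-simplex to a homotopy of maps `S⁰ ⟶ X` -/

/-- The map `S⁰ ∧ Δ[1]₊ ⟶ X` given by a `1`-simplex of `X`. -/
def pathMap {X : PSSet} (x : X.obj (op ⦋1⦌)) : smash S0 I ⟶ X where
  app n := Smash.lift
    (fun a b => plusLift (P := X.obj n)
      (fun _ => plusLift (P := X.obj n) (fun t => (X.map (SSet.stdSimplex.objEquiv t).op).toFun x) b) a)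
    (fun _ => rfl)
    (fun a => by
      induction a using plus_ind with
      | h0 => rfl
      | h s => rfl)
  naturality n m φ := Smash.hom_ext fun a b => by
    induction a using plus_ind with
    | h0 => exact (X.map φ).map_point.symm
    | h s =>
      induction b using plus_ind with
      | h0 => exact (X.map φ).map_point.symm
      | h t =>
        show (X.map (SSet.stdSimplex.objEquiv ((Δ[1] : SSet.{0}).map φ t)).op).toFun x
          = (X.map φ).toFun ((X.map (SSet.stdSimplex.objEquiv t).op).toFun x)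
        have e : (SSet.stdSimplex.objEquiv ((Δ[1] : SSet.{0}).map φ t)).op = (SSet.stdSimplex.objEquiv t).op ≫ φ := rfl
        rw [e, X.map_comp]
        rfl

/-- A pointed map out of `S⁰` is determined by the image of the vertex. -/
theorem S0_hom_ext {X : PSSet} {f g : S0 ⟶ X}
    (h : (f.app (op ⦋0⦌)).toFun (S0.vertex (op ⦋0⦌)) = (g.app (op ⦋0⦌)).toFun (S0.vertex (op ⦋0⦌))) : f = g := by
  refine NatTrans.ext (funext fun n => Pointed.Hom.ext (funext fun x => ?_))
  induction x using plus_ind with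
  | h0 => exact (f.app n).map_point.trans (g.app n).map_point.symm
  | h s =>
    have key : ∀ k : S0 ⟶ X, (k.app n).toFun (quot.mk ⊥ s)
        = (X.map (n.unop.const ⦋0⦌ 0).op).toFun ((k.app (op ⦋0⦌)).toFun (S0.vertex (op ⦋0⦌))) := by
      intro k
      have e := congrArg (fun u : S0.obj (op ⦋0⦌) ⟶ X.obj n => u.toFun (S0.vertex (op ⦋0⦌)))
        (k.naturality (n.unop.const ⦋0⦌ 0).op)
      exact (congrArg (k.app n).toFun (S0_mk_eq n s)).trans e
    rw [key f, key g, h]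

theorem incl_pathMap_vertex {X : PSSet} (x : X.obj (op ⦋1⦌)) (ε : Fin 2) :
    ((incl S0 ε ≫ pathMap x).app (op ⦋0⦌)).toFun (S0.vertex (op ⦋0⦌))
      = (X.map ((⦋0⦌ : SimplexCategory).const ⦋1⦌ ε).op).toFun x := rfl

/-- Two maps `S⁰ ⟶ X` whose vertices are the two ends of a `1`-simplex are homotopic. -/
theorem homotopy_of_path {X : PSSet} {f g : S0 ⟶ X} (x : X.obj (op ⦋1⦌))
    (hf : (X.map ((⦋0⦌ : SimplexCategory).const ⦋1⦌ 0).op).toFun x = (f.app (op ⦋0⦌)).toFun (S0.vertex (op ⦋0⦌)))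
    (hg : (X.map ((⦋0⦌ : SimplexCategory).const ⦋1⦌ 1).op).toFun x = (g.app (op ⦋0⦌)).toFun (S0.vertex (op ⦋0⦌))) :
    PSSet.Homotopy f g :=
  ⟨pathMap x, S0_hom_ext ((incl_pathMap_vertex x 0).trans hf), S0_hom_ext ((incl_pathMap_vertex x 1).trans hg)⟩

/-! ### The components of `GEM d` -/

theorem comp_const_one {m : ℕ} (φ : ⦋m⦌ ⟶ ⦋0⦌) : φ ≫ (⦋0⦌ : SimplexCategory).const ⦋1⦌ 1 = prismTheta 0 := by
  apply prism_hom_ext
  intro v
  rw [prismTheta_apply]
  rfl

theorem comp_const_zero {m : ℕ} (φ : ⦋m⦌ ⟶ ⦋0⦌) : φ ≫ (⦋0⦌ : SimplexCategory).const ⦋1⦌ 0 = prismTheta (m + 1) := by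
  apply prism_hom_ext
  intro v
  rw [prismTheta_apply, if_pos v.isLt]
  rfl

theorem cubW_const_one (d : ℤ) (z y : Cub) (hgr : ∀ (m : ℕ) (r : List (⦋m⦌ ⟶ ⦋1⦌)), (m : ℤ) ≠ r.length + d → z m r = 0)
    (m : ℕ) (r : List (⦋m⦌ ⟶ ⦋1⦌)) : cubW d z y m (prismTheta 0) r = z m r := by
  unfold cubW cubW0
  rw [nz_theta (Nat.zero_le _)]
  by_cases h : (m : ℤ) = r.length + d
  · simp [h]
  · rw [if_neg h, hgr m r h]

theorem cubW_const_zero (d : ℤ) (z y : Cub) (m : ℕ) (r : List (⦋m⦌ ⟶ ⦋1⦌)) : cubW d z y m (prismTheta (m + 1)) r = 0 := by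
  unfold cubW cubW0
  rw [nz_theta le_rfl]
  cases m with
  | zero => simp [shift0]
  | succ m => simp

/-- **Two maps `S⁰ ⟶ GEM d` with the same value at the point are homotopic.** -/
theorem homotopic_S0_GEM {d : ℤ} (f g : S0 ⟶ GEM d)
    (h0 : ((f.app (op ⦋0⦌)).toFun (S0.vertex (op ⦋0⦌))).1 0 (𝟙 _) [] = ((g.app (op ⦋0⦌)).toFun (S0.vertex (op ⦋0⦌))).1 0 (𝟙 _) []) :
    PSSet.Homotopic f g := by
  obtain ⟨zf, hzf⟩ : ∃ zf : (GEM d).obj (op ⦋0⦌), zf = (f.app (op ⦋0⦌)).toFun (S0.vertex (op ⦋0⦌)) := ⟨_, rfl⟩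
  obtain ⟨zg, hzg⟩ : ∃ zg : (GEM d).obj (op ⦋0⦌), zg = (g.app (op ⦋0⦌)).toFun (S0.vertex (op ⦋0⦌)) := ⟨_, rfl⟩
  rw [← hzf, ← hzg] at h0
  have hz : IsGrCocycle d (T := ⦋0⦌) (zf.1 + zg.1) := (grCocycles d ⦋0⦌).add_mem zf.2 zg.2
  obtain ⟨z, hzdef⟩ : ∃ z : Coch ⦋0⦌, z = zf.1 + zg.1 := ⟨_, rfl⟩
  rw [← hzdef] at hz
  have hzr := hz.rev
  have h1 := hzr.isCubCochain
  have h2 := hzr.isCubCobd
  have h00 : toCub (revCoch z) 0 [] = 0 := by
    show z 0 (toPt 0) [] = 0
    rw [hzdef, hom_pt_eq (toPt 0) (𝟙 _)]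
    show zf.1 0 (𝟙 _) [] + zg.1 0 (𝟙 _) [] = 0
    rw [h0]
    exact CharTwo.add_self_eq_zero (R := ZMod 2) _
  have h0r : ∀ r, toCub (revCoch z) 0 r = 0 := by
    intro r
    cases r with
    | nil => exact h00
    | cons s r =>
      refine h1.vanish 0 _ ⟨s, List.mem_cons_self, fun hs => ?_⟩
      have := (surjective_iff_nz s).1 hs
      omega
  have hy := cubY_isCubCochain _ h1
  have hyz := cubY_cobd _ h1 h2 h00
  have hw := (cubW_isRev d _ _ h1 h2 hy hyz h0r).rev
  have hg' : IsGrCocycle d (T := ⦋1⦌) fun m φ l => zg.1 m (φ ≫ toPt 1) l := IsGrCocycle.comp zg.2 (toPt 1)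
  let x : (GEM d).obj (op ⦋1⦌) := ⟨_, (grCocycles d ⦋1⦌).add_mem hw hg'⟩
  refine .symm _ _ (.rel _ _ (homotopy_of_path x ?_ ?_))
  · rw [← hzg]
    refine Subtype.ext (funext fun m => funext fun φ => funext fun l => ?_)
    show cubW d (toCub (revCoch z)) (cubY (toCub (revCoch z))) m (φ ≫ (⦋0⦌ : SimplexCategory).const ⦋1⦌ 0) l.reverse
      + zg.1 m ((φ ≫ (⦋0⦌ : SimplexCategory).const ⦋1⦌ 0) ≫ toPt 1) l = zg.1 m φ l
    rw [comp_const_zero, cubW_const_zero, zero_add, hom_pt_eq (prismTheta (m + 1) ≫ toPt 1) φ]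
  · rw [← hzf]
    refine Subtype.ext (funext fun m => funext fun φ => funext fun l => ?_)
    show cubW d (toCub (revCoch z)) (cubY (toCub (revCoch z))) m (φ ≫ (⦋0⦌ : SimplexCategory).const ⦋1⦌ 1) l.reverse
      + zg.1 m ((φ ≫ (⦋0⦌ : SimplexCategory).const ⦋1⦌ 1) ≫ toPt 1) l = zf.1 m φ l
    have hgr : ∀ (m : ℕ) (r : List (⦋m⦌ ⟶ ⦋1⦌)), (m : ℤ) ≠ r.length + d → toCub (revCoch z) m r = 0 :=
      fun m r h => hzr.graded m _ r h
    rw [comp_const_one, cubW_const_one d (toCub (revCoch z)) _ hgr, hom_pt_eq (prismTheta 0 ≫ toPt 1) φ]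
    show z m (toPt m) l.reverse.reverse + zg.1 m φ l = zf.1 m φ l
    rw [List.reverse_reverse, hom_pt_eq (toPt m) φ, hzdef]
    show (zf.1 m φ l + zg.1 m φ l) + zg.1 m φ l = zf.1 m φ l
    rw [add_assoc, CharTwo.add_self_eq_zero (R := ZMod 2), add_zero]

end Claimed.Open.R319
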