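import Claimed.Open.R319.SanityPi
import Claimed.Open.R319.SanityNotLocalR

/-!
# Sanity (result 319): the wedge of two spectra is their coproduct in `SH`; first instances of `IsSum` in `SH`

`IsSum`, `IsNatMul`, `NatMulInvertible`, `Thick.sum` of `Statement.lean` quantify over coproducts (`IsCoprod`) in the stable homotopy category `SH`, the
localization of `Sp` at the stable equivalences.  This file shows that these coproducts exist.

1. `Wedge`, `PSSet.wedge`, `Sp.wedge` : the wedge of pointed sets, of pointed simplicial sets (degreewise), of spectra (levelwise; the structure maps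
   `(X_n ∨ Y_n) ∧ S¹ ⟶ X_{n+1} ∨ Y_{n+1}` are again injective, as `Sp` asks).  `Sp.isCoprod_wedge` : it is the coproduct in `Sp`.
2. `Sp.homotopic_of_components`, `Sp.stableEquiv_wedgeMap` : a homotopy on each summand gives a homotopy on the wedge (`(X ∨ Y) ∧ I = X ∧ I ∨ Y ∧ I`), so
   `[X ∨ Y, E] = [X, E] × [Y, E]` and the wedge of two stable equivalences is a stable equivalence.
3. `SH.wedgeL`, `SH.wedgeR`, `SH.wedgeD` : the functors `- ∨ Y`, `T ∨ -`, `X ↦ X ∨ X` on `SH`; the inclusions and the fold map are natural for **all** morphisms of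
   `SH`, formal inverses included (`SH.naturality_of_strict`, by induction over the localization).
4. **`SH.isCoprod_wedge : IsCoprod (Q.map (Sp.inl X Y)) (Q.map (Sp.inr X Y))`**, **`SH.exists_isCoprod`** : any two objects of `SH` have a coproduct.
   (Existence: `(a, b) = fold ∘ (a ∨ b)`.  Uniqueness: `d = d ∘ fold ∘ (i₁ ∨ i₂) = fold ∘ (d ∨ d) ∘ (i₁ ∨ i₂) = fold ∘ (d i₁ ∨ d i₂)`.)
5. **`SH.isSum_iff_exists_hom`** : `IsSum f g h` iff there is `u : X ⟶ Y ∨ Y` with `(𝟙, 0) u = f`, `(0, 𝟙) u = g`, `(𝟙, 𝟙) u = h` for *the wedge of spectra*: the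
   choice of the coproduct in `IsSum` does not matter.  **`SH.isSum_zero_right`, `SH.isSum_zero_left`** (`f + 0 = f = 0 + f`), `SH.isSum_wdesc`
   (`(a, 0) + (0, b) = (a, b)`), `SH.isSum_pr`; **`SH.isNatMul_one`, `SH.natMulInvertible_one`** (`𝟙 = 1 · 𝟙`, and `1` is invertible, on every spectrum).
6. `SH.thick_wob_iff` (`X ∨ Y ∈ Thick B` iff `X, Y ∈ Thick B`), `Sp.isCofSeq_inl`, **`SH.isCofiberSeq_il`** (`X ⟶ X ∨ Y ⟶ Y` is a cofibre sequence), `SH.loc_wob`.
7. **`natMulInvertible_sphere_iff : NatMulInvertible n (S^k) ↔ n = 1`**, `isNatMul_id_sphere_iff`, **`exists_isSum_not_isZeroMor`** (an instance of `IsSum` in `SH` with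
   three non-zero morphisms).

**Not reached.**  That `X ∨ Y ⟶ X × Y` is a stable equivalence (so that `SH` is additive) is *not* proved.  Hence no `u : X ⟶ X ∨ X` with both components `𝟙`
is constructed on a non-zero `X`: no `f` with `IsNatMul n f`, `n ≥ 2`, on a non-zero spectrum, and the existence and the uniqueness of the sum `h` of two given
morphisms `f`, `g` of `SH` remain unchecked (apart from the cases above).
-/

open CategoryTheory Opposite

namespace Claimed.Open.R319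

/-! ### 1. The wedge of pointed sets -/

/-- The wedge `A ∨ B` of two pointed sets, as the subset `A × * ∪ * × B` of the product. -/
def Wedge (A B : Pointed.{0}) : Pointed.{0} :=
  ⟨{x : A × B // x.1 = A.point ∨ x.2 = B.point}, ⟨(A.point, B.point), Or.inl rfl⟩⟩

namespace Wedge

variable {A A' B B' C : Pointed.{0}}

/-- the first inclusion -/
def inl (a : A) : Wedge A B := ⟨(a, B.point), Or.inr rfl⟩

/-- the second inclusion -/
def inr (b : B) : Wedge A B := ⟨(A.point, b), Or.inl rfl⟩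

@[elab_as_elim]
theorem ind {motive : Wedge A B → Prop} (hl : ∀ a, motive (inl a)) (hr : ∀ b, motive (inr b))
    (x : Wedge A B) : motive x := by
  obtain ⟨⟨a, b⟩, h⟩ := x
  rcases h with h | h
  · have h' : a = A.point := h
    subst h'
    exact hr b
  · have h' : b = B.point := h
    subst h'
    exact hl a

theorem inl_injective : Function.Injective (inl : A → Wedge A B) := fun _ _ h =>
  congrArg (fun x : Wedge A B => x.1.1) h

theorem inr_injective : Function.Injective (inr : B → Wedge A B) := fun _ _ h =>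
  congrArg (fun x : Wedge A B => x.1.2) h

theorem inl_eq_inr {a : A} {b : B} (h : (inl a : Wedge A B) = inr b) : a = A.point ∧ b = B.point :=
  ⟨congrArg (fun x : Wedge A B => x.1.1) h, (congrArg (fun x : Wedge A B => x.1.2) h).symm⟩

open Classical in
/-- the map out of the wedge with given components -/
noncomputable def desc (f : A ⟶ C) (g : B ⟶ C) : Wedge A B ⟶ C where
  toFun x := if x.1.1 = A.point then g.toFun x.1.2 else f.toFun x.1.1
  map_point := (if_pos rfl).trans g.map_point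

theorem desc_inl (f : A ⟶ C) (g : B ⟶ C) (a : A) : (desc f g).toFun (inl a) = f.toFun a := by
  classical
  show (if a = A.point then g.toFun B.point else f.toFun a) = _
  split_ifs with h
  · rw [h, f.map_point, g.map_point]
  · rfl

theorem desc_inr (f : A ⟶ C) (g : B ⟶ C) (b : B) : (desc f g).toFun (inr b) = g.toFun b := if_pos rfl

theorem hom_ext {f g : Wedge A B ⟶ C} (hl : ∀ a, f.toFun (inl a) = g.toFun (inl a))
    (hr : ∀ b, f.toFun (inr b) = g.toFun (inr b)) : f = g :=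
  Pointed.Hom.ext (funext fun x => ind (motive := fun x => f.toFun x = g.toFun x) hl hr x)

/-- the wedge of two pointed maps -/
def map (f : A ⟶ A') (g : B ⟶ B') : Wedge A B ⟶ Wedge A' B' where
  toFun x := ⟨(f.toFun x.1.1, g.toFun x.1.2), x.2.imp (fun h => (congrArg f.toFun h).trans f.map_point)
    (fun h => (congrArg g.toFun h).trans g.map_point)⟩
  map_point := Subtype.ext (Prod.ext f.map_point g.map_point)

theorem map_inl (f : A ⟶ A') (g : B ⟶ B') (a : A) : (map f g).toFun (inl a) = inl (f.toFun a) :=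
  Subtype.ext (Prod.ext rfl g.map_point)

theorem map_inr (f : A ⟶ A') (g : B ⟶ B') (b : B) : (map f g).toFun (inr b) = inr (g.toFun b) :=
  Subtype.ext (Prod.ext f.map_point rfl)

end Wedge

/-! ### 2. The wedge of pointed simplicial sets -/

namespace PSSet

/-- The wedge of two pointed simplicial sets, formed degreewise. -/
def wedge (X Y : PSSet) : PSSet where
  obj n := Wedge (X.obj n) (Y.obj n)
  map φ := Wedge.map (X.map φ) (Y.map φ)
  map_id n := Pointed.Hom.ext (funext fun x => Subtype.ext (Prod.ext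
    (by show (X.map (𝟙 n)).toFun x.1.1 = x.1.1
        rw [X.map_id]; rfl)
    (by show (Y.map (𝟙 n)).toFun x.1.2 = x.1.2
        rw [Y.map_id]; rfl)))
  map_comp φ ψ := Pointed.Hom.ext (funext fun x => Subtype.ext (Prod.ext
    (by show (X.map (φ ≫ ψ)).toFun x.1.1 = _
        rw [X.map_comp]; rfl)
    (by show (Y.map (φ ≫ ψ)).toFun x.1.2 = _
        rw [Y.map_comp]; rfl)))

/-- the first inclusion -/
def inl (X Y : PSSet) : X ⟶ wedge X Y where
  app _ := ⟨Wedge.inl, rfl⟩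
  naturality _ _ φ := Pointed.Hom.ext (funext fun a => (Wedge.map_inl (X.map φ) (Y.map φ) a).symm)

/-- the second inclusion -/
def inr (X Y : PSSet) : Y ⟶ wedge X Y where
  app _ := ⟨Wedge.inr, rfl⟩
  naturality _ _ φ := Pointed.Hom.ext (funext fun b => (Wedge.map_inr (X.map φ) (Y.map φ) b).symm)

/-- the map out of the wedge with given components -/
noncomputable def desc {X Y T : PSSet} (f : X ⟶ T) (g : Y ⟶ T) : wedge X Y ⟶ T where
  app n := Wedge.desc (f.app n) (g.app n)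
  naturality n m φ := Wedge.hom_ext
    (fun a => by
      show (Wedge.desc (f.app m) (g.app m)).toFun ((Wedge.map (X.map φ) (Y.map φ)).toFun (Wedge.inl a)) =
        (T.map φ).toFun ((Wedge.desc (f.app n) (g.app n)).toFun (Wedge.inl a))
      rw [Wedge.map_inl, Wedge.desc_inl, Wedge.desc_inl]
      exact congrArg (fun k => k.toFun a) (f.naturality φ))
    (fun b => by
      show (Wedge.desc (f.app m) (g.app m)).toFun ((Wedge.map (X.map φ) (Y.map φ)).toFun (Wedge.inr b)) =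
        (T.map φ).toFun ((Wedge.desc (f.app n) (g.app n)).toFun (Wedge.inr b))
      rw [Wedge.map_inr, Wedge.desc_inr, Wedge.desc_inr]
      exact congrArg (fun k => k.toFun b) (g.naturality φ))

theorem inl_desc {X Y T : PSSet} (f : X ⟶ T) (g : Y ⟶ T) : inl X Y ≫ desc f g = f :=
  NatTrans.ext (funext fun n => Pointed.Hom.ext (funext fun a => Wedge.desc_inl (f.app n) (g.app n) a))

theorem inr_desc {X Y T : PSSet} (f : X ⟶ T) (g : Y ⟶ T) : inr X Y ≫ desc f g = g :=
  NatTrans.ext (funext fun n => Pointed.Hom.ext (funext fun b => Wedge.desc_inr (f.app n) (g.app n) b))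

theorem wedge_hom_ext {X Y T : PSSet} {u v : wedge X Y ⟶ T} (hl : inl X Y ≫ u = inl X Y ≫ v)
    (hr : inr X Y ≫ u = inr X Y ≫ v) : u = v :=
  NatTrans.ext (funext fun n => Wedge.hom_ext
    (fun a => congrArg (fun k : X ⟶ T => (k.app n).toFun a) hl)
    (fun b => congrArg (fun k : Y ⟶ T => (k.app n).toFun b) hr))

/-- the map out of `(A ∨ B) ∧ K` with given components -/
noncomputable def swDesc {A B K T : PSSet} (f : smash A K ⟶ T) (g : smash B K ⟶ T) : smash (wedge A B) K ⟶ T where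
  app n := Smash.lift
    (fun x k => (Wedge.desc (C := T.obj n)
      ⟨fun a => (f.app n).toFun (Smash.mk a k), (congrArg (f.app n).toFun (Smash.mk_left k)).trans (f.app n).map_point⟩
      ⟨fun b => (g.app n).toFun (Smash.mk b k), (congrArg (g.app n).toFun (Smash.mk_left k)).trans (g.app n).map_point⟩).toFun x)
    (fun k => (Wedge.desc _ _).map_point)
    (fun x => by
      induction x using Wedge.ind with
      | hl a =>
        rw [Wedge.desc_inl]
        exact (congrArg (f.app n).toFun (Smash.mk_right a)).trans (f.app n).map_point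
      | hr b =>
        rw [Wedge.desc_inr]
        exact (congrArg (g.app n).toFun (Smash.mk_right b)).trans (g.app n).map_point)
  naturality n m φ := Smash.hom_ext fun x k => by
    induction x using Wedge.ind with
    | hl a =>
      show (Wedge.desc (C := T.obj m) _ _).toFun ((Wedge.map (A.map φ) (B.map φ)).toFun (Wedge.inl a)) =
        (T.map φ).toFun ((Wedge.desc (C := T.obj n) _ _).toFun (Wedge.inl a))
      rw [Wedge.map_inl, Wedge.desc_inl, Wedge.desc_inl]
      exact congrArg (fun j => j.toFun (Smash.mk a k)) (f.naturality φ)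
    | hr b =>
      show (Wedge.desc (C := T.obj m) _ _).toFun ((Wedge.map (A.map φ) (B.map φ)).toFun (Wedge.inr b)) =
        (T.map φ).toFun ((Wedge.desc (C := T.obj n) _ _).toFun (Wedge.inr b))
      rw [Wedge.map_inr, Wedge.desc_inr, Wedge.desc_inr]
      exact congrArg (fun j => j.toFun (Smash.mk b k)) (g.naturality φ)

theorem swDesc_mk_inl {A B K T : PSSet} (f : smash A K ⟶ T) (g : smash B K ⟶ T) (n : SimplexCategoryᵒᵖ)
    (a : A.obj n) (k : K.obj n) :
    ((swDesc f g).app n).toFun (Smash.mk (A := (wedge A B).obj n) (Wedge.inl a) k) = (f.app n).toFun (Smash.mk a k) :=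
  Wedge.desc_inl _ _ a

theorem swDesc_mk_inr {A B K T : PSSet} (f : smash A K ⟶ T) (g : smash B K ⟶ T) (n : SimplexCategoryᵒᵖ)
    (b : B.obj n) (k : K.obj n) :
    ((swDesc f g).app n).toFun (Smash.mk (A := (wedge A B).obj n) (Wedge.inr b) k) = (g.app n).toFun (Smash.mk b k) :=
  Wedge.desc_inr _ _ b

theorem inl_swDesc {A B K T : PSSet} (f : smash A K ⟶ T) (g : smash B K ⟶ T) :
    smashMap (inl A B) (𝟙 K) ≫ swDesc f g = f :=
  NatTrans.ext (funext fun n => Smash.hom_ext fun a k => swDesc_mk_inl f g n a k)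

theorem inr_swDesc {A B K T : PSSet} (f : smash A K ⟶ T) (g : smash B K ⟶ T) :
    smashMap (inr A B) (𝟙 K) ≫ swDesc f g = g :=
  NatTrans.ext (funext fun n => Smash.hom_ext fun b k => swDesc_mk_inr f g n b k)

theorem sw_hom_ext {A B K T : PSSet} {u v : smash (wedge A B) K ⟶ T}
    (hl : smashMap (inl A B) (𝟙 K) ≫ u = smashMap (inl A B) (𝟙 K) ≫ v)
    (hr : smashMap (inr A B) (𝟙 K) ≫ u = smashMap (inr A B) (𝟙 K) ≫ v) : u = v :=
  NatTrans.ext (funext fun n => Smash.hom_ext fun x k => by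
    induction x using Wedge.ind with
    | hl a => exact congrArg (fun j : smash A K ⟶ T => (j.app n).toFun (Smash.mk a k)) hl
    | hr b => exact congrArg (fun j : smash B K ⟶ T => (j.app n).toFun (Smash.mk b k)) hr)

theorem inl_smash_desc {A B K T : PSSet} (f : A ⟶ T) (g : B ⟶ T) :
    smashMap (inl A B) (𝟙 K) ≫ smashMap (desc f g) (𝟙 K) = smashMap f (𝟙 K) := by
  rw [← smashMap_comp, inl_desc, Category.comp_id]

theorem inr_smash_desc {A B K T : PSSet} (f : A ⟶ T) (g : B ⟶ T) :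
    smashMap (inr A B) (𝟙 K) ≫ smashMap (desc f g) (𝟙 K) = smashMap g (𝟙 K) := by
  rw [← smashMap_comp, inr_desc, Category.comp_id]

theorem ssw_hom_ext {A B K L T : PSSet} {u v : smash (smash (wedge A B) K) L ⟶ T}
    (hl : smashMap (smashMap (inl A B) (𝟙 K)) (𝟙 L) ≫ u = smashMap (smashMap (inl A B) (𝟙 K)) (𝟙 L) ≫ v)
    (hr : smashMap (smashMap (inr A B) (𝟙 K)) (𝟙 L) ≫ u = smashMap (smashMap (inr A B) (𝟙 K)) (𝟙 L) ≫ v) : u = v :=
  NatTrans.ext (funext fun n => Smash.hom_ext fun y l => by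
    induction y using Smash.ind with | h x k => ?_
    induction x using Wedge.ind with
    | hl a => exact congrArg (fun j : smash (smash A K) L ⟶ T => (j.app n).toFun (Smash.mk (Smash.mk a k) l)) hl
    | hr b => exact congrArg (fun j : smash (smash B K) L ⟶ T => (j.app n).toFun (Smash.mk (Smash.mk b k) l)) hr)

end PSSet

/-! ### 3. The wedge of spectra: the coproduct in the category of spectra -/

namespace Sp

open PSSet

/-- The wedge of two spectra, formed levelwise.  Its structure maps are again injective. -/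
noncomputable def wedge (X Y : Sp) : Sp where
  level n := PSSet.wedge (X.level n) (Y.level n)
  σ n := swDesc (X.σ n ≫ PSSet.inl _ _) (Y.σ n ≫ PSSet.inr _ _)
  σ_inj n m := by
    have hX : ∀ (a : (X.level n).obj m) (s : S1.obj m), ((X.σ n).app m).toFun (Smash.mk a s) = ((X.level (n + 1)).obj m).point →
        a = ((X.level n).obj m).point ∨ s = (S1.obj m).point := fun a s h =>
      (Smash.mk_eq_point_iff a s).1 (X.σ_inj n m (h.trans ((X.σ n).app m).map_point.symm))
    have hY : ∀ (b : (Y.level n).obj m) (s : S1.obj m), ((Y.σ n).app m).toFun (Smash.mk b s) = ((Y.level (n + 1)).obj m).point →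
        b = ((Y.level n).obj m).point ∨ s = (S1.obj m).point := fun b s h =>
      (Smash.mk_eq_point_iff b s).1 (Y.σ_inj n m (h.trans ((Y.σ n).app m).map_point.symm))
    intro x y
    induction x using Smash.ind with | h x s => ?_
    induction y using Smash.ind with | h y s' => ?_
    induction x using Wedge.ind with
    | hl a =>
      induction y using Wedge.ind with
      | hl a' =>
        intro h
        rw [swDesc_mk_inl, swDesc_mk_inl] at h
        have h1 := X.σ_inj n m (Wedge.inl_injective h)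
        rcases (Smash.mk_eq_mk_iff _ _ _ _).1 h1 with ⟨rfl, rfl⟩ | ⟨h2, h3⟩
        · rfl
        · exact (Smash.mk_eq_mk_iff _ _ _ _).2 (Or.inr ⟨h2.imp (fun e => by rw [e]; rfl) id, h3.imp (fun e => by rw [e]; rfl) id⟩)
      | hr b' =>
        intro h
        rw [swDesc_mk_inl, swDesc_mk_inr] at h
        obtain ⟨h1, h2⟩ := Wedge.inl_eq_inr h
        exact (Smash.mk_eq_mk_iff _ _ _ _).2 (Or.inr ⟨(hX _ _ h1).imp (fun e => by rw [e]; rfl) id,
          (hY _ _ h2).imp (fun e => by rw [e]; rfl) id⟩)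
    | hr b =>
      induction y using Wedge.ind with
      | hl a' =>
        intro h
        rw [swDesc_mk_inr, swDesc_mk_inl] at h
        obtain ⟨h1, h2⟩ := Wedge.inl_eq_inr h.symm
        exact (Smash.mk_eq_mk_iff _ _ _ _).2 (Or.inr ⟨(hY _ _ h2).imp (fun e => by rw [e]; rfl) id,
          (hX _ _ h1).imp (fun e => by rw [e]; rfl) id⟩)
      | hr b' =>
        intro h
        rw [swDesc_mk_inr, swDesc_mk_inr] at h
        have h1 := Y.σ_inj n m (Wedge.inr_injective h)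
        rcases (Smash.mk_eq_mk_iff _ _ _ _).1 h1 with ⟨rfl, rfl⟩ | ⟨h2, h3⟩
        · rfl
        · exact (Smash.mk_eq_mk_iff _ _ _ _).2 (Or.inr ⟨h2.imp (fun e => by rw [e]; rfl) id, h3.imp (fun e => by rw [e]; rfl) id⟩)

/-- the first inclusion -/
noncomputable def inl (X Y : Sp) : X ⟶ wedge X Y where
  map _ := PSSet.inl _ _
  comm _ := (inl_swDesc _ _).symm

/-- the second inclusion -/
noncomputable def inr (X Y : Sp) : Y ⟶ wedge X Y where
  map _ := PSSet.inr _ _
  comm _ := (inr_swDesc _ _).symm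

/-- the map out of the wedge with given components -/
noncomputable def desc {X Y T : Sp} (f : X ⟶ T) (g : Y ⟶ T) : wedge X Y ⟶ T where
  map n := PSSet.desc (f.map n) (g.map n)
  comm n := sw_hom_ext
    (by
      show smashMap (PSSet.inl (X.level n) (Y.level n)) (𝟙 S1) ≫
          (PSSet.swDesc (X.σ n ≫ PSSet.inl _ _) (Y.σ n ≫ PSSet.inr _ _) ≫ PSSet.desc (f.map (n + 1)) (g.map (n + 1))) =
        smashMap (PSSet.inl (X.level n) (Y.level n)) (𝟙 S1) ≫ (smashMap (PSSet.desc (f.map n) (g.map n)) (𝟙 S1) ≫ T.σ n)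
      rw [← Category.assoc, inl_swDesc, Category.assoc, PSSet.inl_desc, ← Category.assoc, inl_smash_desc]
      exact f.comm n)
    (by
      show smashMap (PSSet.inr (X.level n) (Y.level n)) (𝟙 S1) ≫
          (PSSet.swDesc (X.σ n ≫ PSSet.inl _ _) (Y.σ n ≫ PSSet.inr _ _) ≫ PSSet.desc (f.map (n + 1)) (g.map (n + 1))) =
        smashMap (PSSet.inr (X.level n) (Y.level n)) (𝟙 S1) ≫ (smashMap (PSSet.desc (f.map n) (g.map n)) (𝟙 S1) ≫ T.σ n)
      rw [← Category.assoc, inr_swDesc, Category.assoc, PSSet.inr_desc, ← Category.assoc, inr_smash_desc]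
      exact g.comm n)

theorem inl_desc {X Y T : Sp} (f : X ⟶ T) (g : Y ⟶ T) : inl X Y ≫ desc f g = f :=
  Hom.ext (funext fun _ => PSSet.inl_desc _ _)

theorem inr_desc {X Y T : Sp} (f : X ⟶ T) (g : Y ⟶ T) : inr X Y ≫ desc f g = g :=
  Hom.ext (funext fun _ => PSSet.inr_desc _ _)

theorem wedge_hom_ext {X Y T : Sp} {u v : wedge X Y ⟶ T} (hl : inl X Y ≫ u = inl X Y ≫ v)
    (hr : inr X Y ≫ u = inr X Y ≫ v) : u = v :=
  Hom.ext (funext fun n => PSSet.wedge_hom_ext (congrArg (fun k : X ⟶ T => k.map n) hl)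
    (congrArg (fun k : Y ⟶ T => k.map n) hr))

theorem desc_eta {X Y T : Sp} (u : wedge X Y ⟶ T) : desc (inl X Y ≫ u) (inr X Y ≫ u) = u :=
  wedge_hom_ext (inl_desc _ _) (inr_desc _ _)

theorem desc_comp {X Y T T' : Sp} (f : X ⟶ T) (g : Y ⟶ T) (k : T ⟶ T') : desc f g ≫ k = desc (f ≫ k) (g ≫ k) :=
  wedge_hom_ext (by rw [← Category.assoc, inl_desc, inl_desc]) (by rw [← Category.assoc, inr_desc, inr_desc])

/-- **The wedge is the coproduct in the category of spectra.** -/
theorem isCoprod_wedge (X Y : Sp) : IsCoprod (inl X Y) (inr X Y) := fun _ a b =>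
  ⟨desc a b, ⟨inl_desc a b, inr_desc a b⟩, fun _ h => wedge_hom_ext (h.1.trans (inl_desc a b).symm) (h.2.trans (inr_desc a b).symm)⟩

/-- the map out of `(X ∨ Y) ∧ K` with given components -/
noncomputable def swDesc {X Y E : Sp} {K : PSSet} (f : X.smashK K ⟶ E) (g : Y.smashK K ⟶ E) : (wedge X Y).smashK K ⟶ E where
  map n := PSSet.swDesc (f.map n) (g.map n)
  comm n := ssw_hom_ext
    (NatTrans.ext (funext fun m => Smash.hom_ext fun y s => by
      induction y using Smash.ind with | h a k => ?_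
      have key := congrArg (fun j => (j.app m).toFun (Smash.mk (Smash.mk a k) s)) (f.comm n)
      refine Eq.trans ?_ (key.trans ?_)
      · show ((PSSet.swDesc (f.map (n + 1)) (g.map (n + 1))).app m).toFun
          (Smash.mk (((PSSet.swDesc (X.σ n ≫ PSSet.inl _ _) (Y.σ n ≫ PSSet.inr _ _)).app m).toFun
            (Smash.mk (A := (PSSet.wedge (X.level n) (Y.level n)).obj m) (Wedge.inl a) s)) k) = _
        rw [swDesc_mk_inl]
        exact swDesc_mk_inl _ _ m _ k
      · exact congrArg (fun t => ((E.σ n).app m).toFun (Smash.mk t s))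
          (PSSet.swDesc_mk_inl (A := X.level n) (B := Y.level n) (K := K) (T := E.level n) (f.map n) (g.map n) m a k).symm))
    (NatTrans.ext (funext fun m => Smash.hom_ext fun y s => by
      induction y using Smash.ind with | h b k => ?_
      have key := congrArg (fun j => (j.app m).toFun (Smash.mk (Smash.mk b k) s)) (g.comm n)
      refine Eq.trans ?_ (key.trans ?_)
      · show ((PSSet.swDesc (f.map (n + 1)) (g.map (n + 1))).app m).toFun
          (Smash.mk (((PSSet.swDesc (X.σ n ≫ PSSet.inl _ _) (Y.σ n ≫ PSSet.inr _ _)).app m).toFun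
            (Smash.mk (A := (PSSet.wedge (X.level n) (Y.level n)).obj m) (Wedge.inr b) s)) k) = _
        rw [swDesc_mk_inr]
        exact swDesc_mk_inr _ _ m _ k
      · exact congrArg (fun t => ((E.σ n).app m).toFun (Smash.mk t s))
          (PSSet.swDesc_mk_inr (A := X.level n) (B := Y.level n) (K := K) (T := E.level n) (f.map n) (g.map n) m b k).symm))

theorem incl_swDesc {X Y E : Sp} (f : X.smashK I ⟶ E) (g : Y.smashK I ⟶ E) (ε : Fin 2) :
    incl (wedge X Y) ε ≫ swDesc f g = desc (incl X ε ≫ f) (incl Y ε ≫ g) :=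
  wedge_hom_ext
    (by
      rw [inl_desc]
      exact Hom.ext (funext fun n => NatTrans.ext (funext fun m => Pointed.Hom.ext (funext fun a =>
        swDesc_mk_inl (f.map n) (g.map n) m a _))))
    (by
      rw [inr_desc]
      exact Hom.ext (funext fun n => NatTrans.ext (funext fun m => Pointed.Hom.ext (funext fun b =>
        swDesc_mk_inr (f.map n) (g.map n) m b _))))

theorem Homotopic.desc_left {X Y E : Sp} {a a' : X ⟶ E} (h : Homotopic a a') (b : Y ⟶ E) :
    Homotopic (desc a b) (desc a' b) := by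
  induction h with
  | rel _ _ h =>
    obtain ⟨H, rfl, rfl⟩ := h
    refine .rel _ _ ⟨swDesc H (proj Y ≫ b), ?_, ?_⟩
    · rw [incl_swDesc, ← Category.assoc, incl_proj, Category.id_comp]
    · rw [incl_swDesc, ← Category.assoc, incl_proj, Category.id_comp]
  | refl _ => exact .refl _
  | symm _ _ _ ih => exact .symm _ _ ih
  | trans _ _ _ _ _ ih ih' => exact .trans _ _ _ ih ih'

theorem Homotopic.desc_right {X Y E : Sp} (a : X ⟶ E) {b b' : Y ⟶ E} (h : Homotopic b b') :
    Homotopic (desc a b) (desc a b') := by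
  induction h with
  | rel _ _ h =>
    obtain ⟨H, rfl, rfl⟩ := h
    refine .rel _ _ ⟨swDesc (proj X ≫ a) H, ?_, ?_⟩
    · rw [incl_swDesc, ← Category.assoc, incl_proj, Category.id_comp]
    · rw [incl_swDesc, ← Category.assoc, incl_proj, Category.id_comp]
  | refl _ => exact .refl _
  | symm _ _ _ ih => exact .symm _ _ ih
  | trans _ _ _ _ _ ih ih' => exact .trans _ _ _ ih ih'

/-- Two maps out of a wedge are homotopic as soon as their components are. -/
theorem homotopic_of_components {X Y E : Sp} {u v : wedge X Y ⟶ E} (hl : Homotopic (inl X Y ≫ u) (inl X Y ≫ v))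
    (hr : Homotopic (inr X Y ≫ u) (inr X Y ≫ v)) : Homotopic u v := by
  rw [← desc_eta u, ← desc_eta v]
  exact .trans _ _ _ (hl.desc_left _) (Homotopic.desc_right _ hr)

/-- the wedge of two maps of spectra -/
noncomputable def wedgeMap {X X' Y Y' : Sp} (f : X ⟶ X') (g : Y ⟶ Y') : wedge X Y ⟶ wedge X' Y' :=
  desc (f ≫ inl X' Y') (g ≫ inr X' Y')

theorem inl_wedgeMap {X X' Y Y' : Sp} (f : X ⟶ X') (g : Y ⟶ Y') : inl X Y ≫ wedgeMap f g = f ≫ inl X' Y' := inl_desc _ _

theorem inr_wedgeMap {X X' Y Y' : Sp} (f : X ⟶ X') (g : Y ⟶ Y') : inr X Y ≫ wedgeMap f g = g ≫ inr X' Y' := inr_desc _ _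

theorem wedgeMap_id (X Y : Sp) : wedgeMap (𝟙 X) (𝟙 Y) = 𝟙 (wedge X Y) :=
  wedge_hom_ext (by rw [inl_wedgeMap, Category.id_comp, Category.comp_id]) (by rw [inr_wedgeMap, Category.id_comp, Category.comp_id])

theorem wedgeMap_comp {X X' X'' Y Y' Y'' : Sp} (f : X ⟶ X') (f' : X' ⟶ X'') (g : Y ⟶ Y') (g' : Y' ⟶ Y'') :
    wedgeMap (f ≫ f') (g ≫ g') = wedgeMap f g ≫ wedgeMap f' g' :=
  wedge_hom_ext
    (by rw [inl_wedgeMap, ← Category.assoc (inl X Y), inl_wedgeMap, Category.assoc, Category.assoc, inl_wedgeMap])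
    (by rw [inr_wedgeMap, ← Category.assoc (inr X Y), inr_wedgeMap, Category.assoc, Category.assoc, inr_wedgeMap])

/-- **The wedge of two stable equivalences is a stable equivalence.** -/
theorem stableEquiv_wedgeMap {X X' Y Y' : Sp} {f : X ⟶ X'} {g : Y ⟶ Y'} (hf : stableEquiv f) (hg : stableEquiv g) :
    stableEquiv (wedgeMap f g) := by
  intro E hE
  obtain ⟨f1, f2⟩ := hf E hE
  obtain ⟨g1, g2⟩ := hg E hE
  constructor
  · intro u
    obtain ⟨a, ha⟩ := f1 (inl X Y ≫ u)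
    obtain ⟨b, hb⟩ := g1 (inr X Y ≫ u)
    refine ⟨desc a b, homotopic_of_components ?_ ?_⟩
    · rw [← Category.assoc, inl_wedgeMap, Category.assoc, inl_desc]
      exact ha
    · rw [← Category.assoc, inr_wedgeMap, Category.assoc, inr_desc]
      exact hb
  · intro u v h
    refine homotopic_of_components (f2 _ _ ?_) (g2 _ _ ?_)
    · have h1 := h.comp_left (inl X Y)
      rwa [← Category.assoc, ← Category.assoc, inl_wedgeMap, Category.assoc, Category.assoc] at h1
    · have h1 := h.comp_left (inr X Y)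
      rwa [← Category.assoc, ← Category.assoc, inr_wedgeMap, Category.assoc, Category.assoc] at h1

theorem stableEquiv_id (X : Sp) : stableEquiv (𝟙 X) := fun E _ =>
  ⟨fun g => ⟨g, by rw [Category.id_comp]; exact .refl _⟩, fun h h' hh => by rwa [Category.id_comp, Category.id_comp] at hh⟩

/-- the fold map -/
noncomputable def fold (X : Sp) : wedge X X ⟶ X := desc (𝟙 X) (𝟙 X)

end Sp

/-! ### 4. The wedge is the coproduct in `SH` -/

namespace SH

/-- A family of morphisms between the values of two functors on `SH` that is natural for the maps of spectra is natural for all morphisms of `SH`. -/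
theorem naturality_of_strict {D : Type*} [Category D] {F₁ F₂ : SH ⥤ D} (τ : ∀ A : SH, F₁.obj A ⟶ F₂.obj A)
    (h : ∀ ⦃X Y : Sp⦄ (f : X ⟶ Y), F₁.map (Q.map f) ≫ τ (Q.obj Y) = τ (Q.obj X) ≫ F₂.map (Q.map f))
    {A B : SH} (φ : A ⟶ B) : F₁.map φ ≫ τ B = τ A ≫ F₂.map φ := by
  have : MorphismProperty.naturalityProperty τ = ⊤ :=
    Localization.Construction.morphismProperty_eq_top' (MorphismProperty.naturalityProperty τ) h
      (MorphismProperty.naturalityProperty.stableUnderInverse _)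
  have h1 : MorphismProperty.naturalityProperty τ φ := by rw [this]; trivial
  exact h1

/-- The functor `- ∨ Y` on `SH`. -/
noncomputable def wedgeL (Y : Sp) : SH ⥤ SH :=
  Localization.Construction.lift
    ({ obj := fun X => Sp.wedge X Y
       map := fun f => Sp.wedgeMap f (𝟙 Y)
       map_id := fun X => Sp.wedgeMap_id X Y
       map_comp := fun f g => by
        have := Sp.wedgeMap_comp f g (𝟙 Y) (𝟙 Y)
        rwa [Category.comp_id] at this } ⋙ Q)
    fun _ _ _ hf => Sp.stableEquiv.Q_inverts _ (Sp.stableEquiv_wedgeMap hf (Sp.stableEquiv_id Y))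

/-- The functor `T ∨ -` on `SH`. -/
noncomputable def wedgeR (T : Sp) : SH ⥤ SH :=
  Localization.Construction.lift
    ({ obj := fun Y => Sp.wedge T Y
       map := fun g => Sp.wedgeMap (𝟙 T) g
       map_id := fun Y => Sp.wedgeMap_id T Y
       map_comp := fun f g => by
        have := Sp.wedgeMap_comp (𝟙 T) (𝟙 T) f g
        rwa [Category.comp_id] at this } ⋙ Q)
    fun _ _ _ hg => Sp.stableEquiv.Q_inverts _ (Sp.stableEquiv_wedgeMap (Sp.stableEquiv_id T) hg)

/-- The functor `X ↦ X ∨ X` on `SH`. -/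
noncomputable def wedgeD : SH ⥤ SH :=
  Localization.Construction.lift
    ({ obj := fun X => Sp.wedge X X
       map := fun f => Sp.wedgeMap f f
       map_id := fun X => Sp.wedgeMap_id X X
       map_comp := fun f g => Sp.wedgeMap_comp f g f g } ⋙ Q)
    fun _ _ _ hf => Sp.stableEquiv.Q_inverts _ (Sp.stableEquiv_wedgeMap hf hf)

theorem wedgeL_map_Q (Y : Sp) {X X' : Sp} (f : X ⟶ X') : (wedgeL Y).map (Q.map f) = Q.map (Sp.wedgeMap f (𝟙 Y)) := rfl

theorem wedgeR_map_Q (T : Sp) {Y Y' : Sp} (g : Y ⟶ Y') : (wedgeR T).map (Q.map g) = Q.map (Sp.wedgeMap (𝟙 T) g) := rfl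

theorem wedgeD_map_Q {X X' : Sp} (f : X ⟶ X') : wedgeD.map (Q.map f) = Q.map (Sp.wedgeMap f f) := rfl

theorem inl_wedgeL (Y : Sp) {A A' : SH} (a : A ⟶ A') :
    a ≫ (Q.map (Sp.inl A'.sp Y) : A' ⟶ (wedgeL Y).obj A') = (Q.map (Sp.inl A.sp Y) : A ⟶ (wedgeL Y).obj A) ≫ (wedgeL Y).map a :=
  naturality_of_strict (F₁ := 𝟭 SH) (F₂ := wedgeL Y) (fun A => (Q.map (Sp.inl A.sp Y) : A ⟶ (wedgeL Y).obj A))
    (fun X X' f => by
      show Q.map f ≫ Q.map (Sp.inl X' Y) = Q.map (Sp.inl X Y) ≫ Q.map (Sp.wedgeMap f (𝟙 Y))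
      rw [← Q.map_comp, ← Q.map_comp, Sp.inl_wedgeMap]) a

theorem inr_wedgeL (Y : Sp) {A A' : SH} (a : A ⟶ A') :
    (Q.map (Sp.inr A.sp Y) : Q.obj Y ⟶ (wedgeL Y).obj A) ≫ (wedgeL Y).map a = (Q.map (Sp.inr A'.sp Y) : Q.obj Y ⟶ (wedgeL Y).obj A') := by
  have h := naturality_of_strict (F₁ := (Functor.const SH).obj (Q.obj Y)) (F₂ := wedgeL Y)
    (fun A => (Q.map (Sp.inr A.sp Y) : Q.obj Y ⟶ (wedgeL Y).obj A))
    (fun X X' f => by
      show 𝟙 _ ≫ Q.map (Sp.inr X' Y) = Q.map (Sp.inr X Y) ≫ Q.map (Sp.wedgeMap f (𝟙 Y))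
      rw [← Q.map_comp, Sp.inr_wedgeMap, Category.id_comp, Category.id_comp]) a
  exact h.symm.trans (Category.id_comp _)

theorem inr_wedgeR (T : Sp) {B B' : SH} (b : B ⟶ B') :
    b ≫ (Q.map (Sp.inr T B'.sp) : B' ⟶ (wedgeR T).obj B') = (Q.map (Sp.inr T B.sp) : B ⟶ (wedgeR T).obj B) ≫ (wedgeR T).map b :=
  naturality_of_strict (F₁ := 𝟭 SH) (F₂ := wedgeR T) (fun B => (Q.map (Sp.inr T B.sp) : B ⟶ (wedgeR T).obj B))
    (fun Y Y' g => by
      show Q.map g ≫ Q.map (Sp.inr T Y') = Q.map (Sp.inr T Y) ≫ Q.map (Sp.wedgeMap (𝟙 T) g)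
      rw [← Q.map_comp, ← Q.map_comp, Sp.inr_wedgeMap]) b

theorem inl_wedgeR (T : Sp) {B B' : SH} (b : B ⟶ B') :
    (Q.map (Sp.inl T B.sp) : Q.obj T ⟶ (wedgeR T).obj B) ≫ (wedgeR T).map b = (Q.map (Sp.inl T B'.sp) : Q.obj T ⟶ (wedgeR T).obj B') := by
  have h := naturality_of_strict (F₁ := (Functor.const SH).obj (Q.obj T)) (F₂ := wedgeR T)
    (fun B => (Q.map (Sp.inl T B.sp) : Q.obj T ⟶ (wedgeR T).obj B))
    (fun Y Y' g => by
      show 𝟙 _ ≫ Q.map (Sp.inl T Y') = Q.map (Sp.inl T Y) ≫ Q.map (Sp.wedgeMap (𝟙 T) g)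
      rw [← Q.map_comp, Sp.inl_wedgeMap, Category.id_comp, Category.id_comp]) b
  exact h.symm.trans (Category.id_comp _)

/-- the interchange law, the first map being a map of spectra -/
theorem wedgeR_interchange {Z T : Sp} (f : Z ⟶ T) {B B' : SH} (b : B ⟶ B') :
    (wedgeR Z).map b ≫ (Q.map (Sp.wedgeMap f (𝟙 B'.sp)) : (wedgeR Z).obj B' ⟶ (wedgeR T).obj B') =
      (Q.map (Sp.wedgeMap f (𝟙 B.sp)) : (wedgeR Z).obj B ⟶ (wedgeR T).obj B) ≫ (wedgeR T).map b :=
  naturality_of_strict (F₁ := wedgeR Z) (F₂ := wedgeR T)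
    (fun B => (Q.map (Sp.wedgeMap f (𝟙 B.sp)) : (wedgeR Z).obj B ⟶ (wedgeR T).obj B))
    (fun Y Y' g => by
      show Q.map (Sp.wedgeMap (𝟙 Z) g) ≫ Q.map (Sp.wedgeMap f (𝟙 Y')) = Q.map (Sp.wedgeMap f (𝟙 Y)) ≫ Q.map (Sp.wedgeMap (𝟙 T) g)
      rw [← Q.map_comp, ← Q.map_comp, ← Sp.wedgeMap_comp, ← Sp.wedgeMap_comp, Category.id_comp, Category.comp_id,
        Category.id_comp, Category.comp_id]) b

/-- the fold map is natural for all morphisms of `SH` -/
theorem wedgeD_fold {Z T : SH} (d : Z ⟶ T) :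
    wedgeD.map d ≫ (Q.map (Sp.fold T.sp) : wedgeD.obj T ⟶ T) = (Q.map (Sp.fold Z.sp) : wedgeD.obj Z ⟶ Z) ≫ d :=
  naturality_of_strict (F₁ := wedgeD) (F₂ := 𝟭 SH) (fun A => (Q.map (Sp.fold A.sp) : wedgeD.obj A ⟶ A))
    (fun X X' f => by
      show Q.map (Sp.wedgeMap f f) ≫ Q.map (Sp.fold X') = Q.map (Sp.fold X) ≫ Q.map f
      rw [← Q.map_comp, ← Q.map_comp]
      congr 1
      refine Sp.wedge_hom_ext ?_ ?_
      · rw [← Category.assoc, Sp.inl_wedgeMap, Category.assoc, Sp.fold, Sp.inl_desc, ← Category.assoc, Sp.fold, Sp.inl_desc,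
          Category.comp_id, Category.id_comp]
      · rw [← Category.assoc, Sp.inr_wedgeMap, Category.assoc, Sp.fold, Sp.inr_desc, ← Category.assoc, Sp.fold, Sp.inr_desc,
          Category.comp_id, Category.id_comp]) d

/-- The object `A ∨ B` of `SH`. -/
noncomputable def wob (A B : SH) : SH := Q.obj (Sp.wedge A.sp B.sp)

/-- `a ∨ B`. -/
noncomputable def wl {A A' : SH} (a : A ⟶ A') (B : SH) : wob A B ⟶ wob A' B := (wedgeL B.sp).map a

/-- `T ∨ b`. -/
noncomputable def wr (T : SH) {B B' : SH} (b : B ⟶ B') : wob T B ⟶ wob T B' := (wedgeR T.sp).map b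

/-- `d ∨ d`. -/
noncomputable def wd {Z T : SH} (d : Z ⟶ T) : wob Z Z ⟶ wob T T := wedgeD.map d

/-- the first inclusion -/
noncomputable def il (A B : SH) : A ⟶ wob A B := Q.map (Sp.inl A.sp B.sp)

/-- the second inclusion -/
noncomputable def ir (A B : SH) : B ⟶ wob A B := Q.map (Sp.inr A.sp B.sp)

/-- the fold map -/
noncomputable def fo (T : SH) : wob T T ⟶ T := Q.map (Sp.fold T.sp)

theorem wl_comp {A A' A'' : SH} (a : A ⟶ A') (a' : A' ⟶ A'') (B : SH) : wl (a ≫ a') B = wl a B ≫ wl a' B :=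
  (wedgeL B.sp).map_comp a a'

theorem wr_comp (T : SH) {B B' B'' : SH} (b : B ⟶ B') (b' : B' ⟶ B'') : wr T (b ≫ b') = wr T b ≫ wr T b' :=
  (wedgeR T.sp).map_comp b b'

theorem wd_comp {Z T U : SH} (d : Z ⟶ T) (d' : T ⟶ U) : wd (d ≫ d') = wd d ≫ wd d' := wedgeD.map_comp d d'

theorem wd_id (Z : SH) : wd (𝟙 Z) = 𝟙 (wob Z Z) := wedgeD.map_id Z

theorem il_wl {A A' : SH} (a : A ⟶ A') (B : SH) : il A B ≫ wl a B = a ≫ il A' B := (inl_wedgeL B.sp a).symm

theorem ir_wl {A A' : SH} (a : A ⟶ A') (B : SH) : ir A B ≫ wl a B = ir A' B := inr_wedgeL B.sp a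

theorem ir_wr (T : SH) {B B' : SH} (b : B ⟶ B') : ir T B ≫ wr T b = b ≫ ir T B' := (inr_wedgeR T.sp b).symm

theorem il_wr (T : SH) {B B' : SH} (b : B ⟶ B') : il T B ≫ wr T b = il T B' := inl_wedgeR T.sp b

theorem wr_wl_Q {Z T : Sp} (f : Z ⟶ T) {B B' : SH} (b : B ⟶ B') :
    wr (Q.obj Z) b ≫ wl (Q.map f) B' = wl (Q.map f) B ≫ wr (Q.obj T) b := wedgeR_interchange f b

theorem wd_fo {Z T : SH} (d : Z ⟶ T) : wd d ≫ fo T = fo Z ≫ d := wedgeD_fold d

theorem wd_Q {Z T : Sp} (f : Z ⟶ T) : wd (Q.map f) = wl (Q.map f) (Q.obj Z) ≫ wr (Q.obj T) (Q.map f) := by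
  show Q.map (Sp.wedgeMap f f) = Q.map (Sp.wedgeMap f (𝟙 Z)) ≫ Q.map (Sp.wedgeMap (𝟙 T) f)
  rw [← Q.map_comp, ← Sp.wedgeMap_comp, Category.comp_id, Category.id_comp]

theorem il_fo (T : SH) : il T T ≫ fo T = 𝟙 T := by
  show Q.map (Sp.inl T.sp T.sp) ≫ Q.map (Sp.fold T.sp) = 𝟙 T
  rw [← Q.map_comp, Sp.fold, Sp.inl_desc]
  exact Q.map_id _

theorem ir_fo (T : SH) : ir T T ≫ fo T = 𝟙 T := by
  show Q.map (Sp.inr T.sp T.sp) ≫ Q.map (Sp.fold T.sp) = 𝟙 T
  rw [← Q.map_comp, Sp.fold, Sp.inr_desc]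
  exact Q.map_id _

/-- The morphism `a ∨ b : A ∨ B ⟶ T ∨ T` of `SH`. -/
noncomputable def wedgeHom {A B T : SH} (a : A ⟶ T) (b : B ⟶ T) : wob A B ⟶ wob T T := wl a B ≫ wr T b

theorem wedgeHom_comp {A B Z T : SH} (a : A ⟶ Z) (b : B ⟶ Z) (d : Z ⟶ T) :
    wedgeHom a b ≫ wd d = wedgeHom (a ≫ d) (b ≫ d) := by
  let P : MorphismProperty SH := fun Z T d => ∀ (A B : SH) (a : A ⟶ Z) (b : B ⟶ Z),
    wedgeHom a b ≫ wd d = wedgeHom (a ≫ d) (b ≫ d)
  have hP : P.IsStableUnderComposition := ⟨fun {X Y Z} f g hf hg A B a b => by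
    have h1 := hf A B a b
    have h2 := hg A B (a ≫ f) (b ≫ f)
    rw [wd_comp, ← Category.assoc, h1, h2, Category.assoc, Category.assoc]⟩
  have : P = ⊤ := Localization.Construction.morphismProperty_eq_top' P
    (fun Z T f A B a b => by
      show (wl a B ≫ wr (Q.obj Z) b) ≫ wd (Q.map f) = wl (a ≫ Q.map f) B ≫ wr (Q.obj T) (b ≫ Q.map f)
      rw [wd_Q, wl_comp, wr_comp, Category.assoc, Category.assoc, ← Category.assoc (wr (Q.obj Z) b), wr_wl_Q,
        Category.assoc])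
    (fun {X Y} e he A B a b => by
      have h1 := he A B (a ≫ e.inv) (b ≫ e.inv)
      rw [Category.assoc, Category.assoc, e.inv_hom_id, Category.comp_id, Category.comp_id] at h1
      rw [← h1, Category.assoc, ← wd_comp, e.hom_inv_id, wd_id, Category.comp_id])
  have h : P d := by rw [this]; trivial
  exact h A B a b

theorem wedgeHom_il_ir_fo (A B : SH) : wedgeHom (il A B) (ir A B) ≫ fo (wob A B) = 𝟙 (wob A B) := by
  show (Q.map (Sp.wedgeMap (Sp.inl A.sp B.sp) (𝟙 B.sp)) ≫ Q.map (Sp.wedgeMap (𝟙 (Sp.wedge A.sp B.sp)) (Sp.inr A.sp B.sp))) ≫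
    Q.map (Sp.fold (Sp.wedge A.sp B.sp)) = 𝟙 _
  rw [← Q.map_comp, ← Q.map_comp, ← Sp.wedgeMap_comp, Category.comp_id, Category.id_comp]
  refine Eq.trans (congrArg _ ?_) (Q.map_id _)
  refine Sp.wedge_hom_ext ?_ ?_
  · rw [← Category.assoc, Sp.inl_wedgeMap, Category.assoc, Sp.fold, Sp.inl_desc, Category.comp_id]
  · rw [← Category.assoc, Sp.inr_wedgeMap, Category.assoc, Sp.fold, Sp.inr_desc, Category.comp_id]

/-- every morphism out of `A ∨ B` is determined by its two components -/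
theorem eq_wedgeHom_fo {A B T : SH} (d : wob A B ⟶ T) : d = wedgeHom (il A B ≫ d) (ir A B ≫ d) ≫ fo T := by
  rw [← wedgeHom_comp, Category.assoc, wd_fo, ← Category.assoc, wedgeHom_il_ir_fo, Category.id_comp]

theorem il_wedgeHom_fo {A B T : SH} (a : A ⟶ T) (b : B ⟶ T) : il A B ≫ wedgeHom a b ≫ fo T = a := by
  rw [wedgeHom, ← Category.assoc, ← Category.assoc, il_wl, Category.assoc a, il_wr, Category.assoc, il_fo, Category.comp_id]

theorem ir_wedgeHom_fo {A B T : SH} (a : A ⟶ T) (b : B ⟶ T) : ir A B ≫ wedgeHom a b ≫ fo T = b := by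
  rw [wedgeHom, ← Category.assoc, ← Category.assoc, ir_wl, ir_wr, Category.assoc, ir_fo, Category.comp_id]

/-- `A ∨ B` is the coproduct of `A` and `B` in `SH`. -/
theorem isCoprod_wob (A B : SH) : IsCoprod (il A B) (ir A B) := fun T a b =>
  ⟨wedgeHom a b ≫ fo T, ⟨il_wedgeHom_fo a b, ir_wedgeHom_fo a b⟩, by
    rintro d ⟨rfl, rfl⟩
    exact eq_wedgeHom_fo d⟩

/-- **The wedge of two spectra is their coproduct in the stable homotopy category** (in the sense of `IsCoprod` of `Statement.lean`). -/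
theorem isCoprod_wedge (X Y : Sp) : IsCoprod (Q.map (Sp.inl X Y)) (Q.map (Sp.inr X Y)) :=
  isCoprod_wob (Q.obj X) (Q.obj Y)

/-- **Any two objects of `SH` have a coproduct.** -/
theorem exists_isCoprod (A B : SH) : ∃ (P : SH) (i₁ : A ⟶ P) (i₂ : B ⟶ P), IsCoprod i₁ i₂ :=
  ⟨wob A B, il A B, ir A B, isCoprod_wob A B⟩


/-! ### 5. Morphisms out of `A ∨ B`; sums of morphisms of `SH` -/

/-- The morphism `A ∨ B ⟶ T` with components `a` and `b`. -/
noncomputable def wdesc {A B T : SH} (a : A ⟶ T) (b : B ⟶ T) : wob A B ⟶ T := wedgeHom a b ≫ fo T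

theorem il_wdesc {A B T : SH} (a : A ⟶ T) (b : B ⟶ T) : il A B ≫ wdesc a b = a := il_wedgeHom_fo a b

theorem ir_wdesc {A B T : SH} (a : A ⟶ T) (b : B ⟶ T) : ir A B ≫ wdesc a b = b := ir_wedgeHom_fo a b

theorem wob_hom_ext {A B T : SH} {d d' : wob A B ⟶ T} (hl : il A B ≫ d = il A B ≫ d') (hr : ir A B ≫ d = ir A B ≫ d') :
    d = d' := by
  rw [eq_wedgeHom_fo d, eq_wedgeHom_fo d', hl, hr]

theorem il_wedgeHom {A B T : SH} (a : A ⟶ T) (b : B ⟶ T) : il A B ≫ wedgeHom a b = a ≫ il T T := by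
  rw [wedgeHom, ← Category.assoc, il_wl, Category.assoc, il_wr]

theorem ir_wedgeHom {A B T : SH} (a : A ⟶ T) (b : B ⟶ T) : ir A B ≫ wedgeHom a b = b ≫ ir T T := by
  rw [wedgeHom, ← Category.assoc, ir_wl, ir_wr]

/-- The zero morphism of `SH`. -/
noncomputable def zeroHom (X Y : SH) : X ⟶ Y := toZero X ≫ fromZero Y

theorem isZeroMor_zeroHom (X Y : SH) : IsZeroMor (zeroHom X Y) := ⟨zero, _, _, isZero_zero, rfl⟩

theorem comp_zeroHom {X Y Z : SH} (f : X ⟶ Y) : f ≫ zeroHom Y Z = zeroHom X Z :=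
  ((isZeroMor_zeroHom Y Z).comp_left f).unique (isZeroMor_zeroHom X Z)

theorem zeroHom_comp {X Y Z : SH} (g : Y ⟶ Z) : zeroHom X Y ≫ g = zeroHom X Z :=
  ((isZeroMor_zeroHom X Y).comp_right g).unique (isZeroMor_zeroHom X Z)

/-- The "projection" `(𝟙, 0) : Y ∨ Y ⟶ Y`. -/
noncomputable def pr₁ (Y : SH) : wob Y Y ⟶ Y := wdesc (𝟙 Y) (zeroHom Y Y)

/-- The "projection" `(0, 𝟙) : Y ∨ Y ⟶ Y`. -/
noncomputable def pr₂ (Y : SH) : wob Y Y ⟶ Y := wdesc (zeroHom Y Y) (𝟙 Y)

theorem il_pr₁ (Y : SH) : il Y Y ≫ pr₁ Y = 𝟙 Y := il_wdesc _ _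

theorem ir_pr₁ (Y : SH) : ir Y Y ≫ pr₁ Y = zeroHom Y Y := ir_wdesc _ _

theorem il_pr₂ (Y : SH) : il Y Y ≫ pr₂ Y = zeroHom Y Y := il_wdesc _ _

theorem ir_pr₂ (Y : SH) : ir Y Y ≫ pr₂ Y = 𝟙 Y := ir_wdesc _ _

/-- Every morphism `u : X ⟶ Y ∨ Y` of `SH` gives an instance of `IsSum`. -/
theorem isSum_of_hom {X Y : SH} (u : X ⟶ wob Y Y) : IsSum (u ≫ pr₁ Y) (u ≫ pr₂ Y) (u ≫ fo Y) :=
  ⟨wob Y Y, il Y Y, ir Y Y, pr₁ Y, pr₂ Y, fo Y, u, isCoprod_wob Y Y, il_pr₁ Y, by rw [ir_pr₁]; exact isZeroMor_zeroHom Y Y,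
    by rw [il_pr₂]; exact isZeroMor_zeroHom Y Y, ir_pr₂ Y, il_fo Y, ir_fo Y, rfl, rfl, rfl⟩

/-- **`IsSum` in `SH` does not depend on the coproduct chosen**: `h = f + g` iff there is `u : X ⟶ Y ∨ Y` with components `f`, `g` and `h = fold ∘ u`, for
the wedge `Y ∨ Y` of spectra. -/
theorem isSum_iff_exists_hom {X Y : SH} (f g h : X ⟶ Y) :
    IsSum f g h ↔ ∃ u : X ⟶ wob Y Y, u ≫ pr₁ Y = f ∧ u ≫ pr₂ Y = g ∧ u ≫ fo Y = h := by
  constructor
  · rintro ⟨P, i₁, i₂, r₁, r₂, fold, u, hc, h1, h2, h3, h4, h5, h6, rfl, rfl, rfl⟩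
    obtain ⟨c, ⟨hc1, hc2⟩, -⟩ := hc (wob Y Y) (il Y Y) (ir Y Y)
    have ext : ∀ {k k' : P ⟶ Y}, i₁ ≫ k = i₁ ≫ k' → i₂ ≫ k = i₂ ≫ k' → k = k' := fun {k k'} e1 e2 =>
      (hc Y (i₁ ≫ k') (i₂ ≫ k')).unique ⟨e1, e2⟩ ⟨rfl, rfl⟩
    refine ⟨u ≫ c, ?_, ?_, ?_⟩
    · rw [Category.assoc]
      congr 1
      refine ext ?_ ?_
      · rw [← Category.assoc, hc1, il_pr₁, h1]
      · rw [← Category.assoc, hc2, ir_pr₁]
        exact (isZeroMor_zeroHom Y Y).unique h2
    · rw [Category.assoc]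
      congr 1
      refine ext ?_ ?_
      · rw [← Category.assoc, hc1, il_pr₂]
        exact (isZeroMor_zeroHom Y Y).unique h3
      · rw [← Category.assoc, hc2, ir_pr₂, h4]
    · rw [Category.assoc]
      congr 1
      refine ext ?_ ?_
      · rw [← Category.assoc, hc1, il_fo, h5]
      · rw [← Category.assoc, hc2, ir_fo, h6]
  · rintro ⟨u, rfl, rfl, rfl⟩
    exact isSum_of_hom u

/-- **`f + 0 = f` in `SH`.** -/
theorem isSum_zero_right {X Y : SH} (f : X ⟶ Y) {z : X ⟶ Y} (hz : IsZeroMor z) : IsSum f z f := by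
  have h := isSum_of_hom (f ≫ il Y Y)
  rwa [Category.assoc, Category.assoc, Category.assoc, il_pr₁, il_pr₂, il_fo, Category.comp_id, comp_zeroHom,
    (isZeroMor_zeroHom X Y).unique hz] at h

/-- **`0 + f = f` in `SH`.** -/
theorem isSum_zero_left {X Y : SH} (f : X ⟶ Y) {z : X ⟶ Y} (hz : IsZeroMor z) : IsSum z f f := by
  have h := isSum_of_hom (f ≫ ir Y Y)
  rwa [Category.assoc, Category.assoc, Category.assoc, ir_pr₁, ir_pr₂, ir_fo, Category.comp_id, comp_zeroHom,
    (isZeroMor_zeroHom X Y).unique hz] at h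

/-- `(a, 0) + (0, b) = (a, b)` for morphisms out of `A ∨ B`. -/
theorem isSum_wdesc {A B Y : SH} (a : A ⟶ Y) (b : B ⟶ Y) :
    IsSum (wdesc a (zeroHom B Y)) (wdesc (zeroHom A Y) b) (wdesc a b) := by
  have h := isSum_of_hom (wedgeHom a b)
  have h1 : wedgeHom a b ≫ pr₁ Y = wdesc a (zeroHom B Y) := wob_hom_ext
    (by rw [← Category.assoc, il_wedgeHom, Category.assoc, il_pr₁, Category.comp_id, il_wdesc])
    (by rw [← Category.assoc, ir_wedgeHom, Category.assoc, ir_pr₁, comp_zeroHom, ir_wdesc])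
  have h2 : wedgeHom a b ≫ pr₂ Y = wdesc (zeroHom A Y) b := wob_hom_ext
    (by rw [← Category.assoc, il_wedgeHom, Category.assoc, il_pr₂, comp_zeroHom, il_wdesc])
    (by rw [← Category.assoc, ir_wedgeHom, Category.assoc, ir_pr₂, Category.comp_id, ir_wdesc])
  rwa [h1, h2] at h

/-- **`(𝟙, 0) + (0, 𝟙) = (𝟙, 𝟙)`**: an instance of `IsSum` in `SH`; its two summands are not zero unless `Y` is (`not_isZeroMor_pr₁`, `not_isZeroMor_pr₂`). -/
theorem isSum_pr (Y : SH) : IsSum (pr₁ Y) (pr₂ Y) (fo Y) := by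
  have h := isSum_of_hom (𝟙 (wob Y Y))
  rwa [Category.id_comp, Category.id_comp, Category.id_comp] at h

theorem not_isZeroMor_pr₁ {Y : SH} (hY : ¬ IsZeroMor (𝟙 Y)) : ¬ IsZeroMor (pr₁ Y) := fun h =>
  hY (il_pr₁ Y ▸ h.comp_left (il Y Y))

theorem not_isZeroMor_pr₂ {Y : SH} (hY : ¬ IsZeroMor (𝟙 Y)) : ¬ IsZeroMor (pr₂ Y) := fun h =>
  hY (ir_pr₂ Y ▸ h.comp_left (ir Y Y))

/-- **`𝟙` is `1 · 𝟙` on every spectrum.** -/
theorem isNatMul_one (X : SH) : IsNatMul 1 (𝟙 X) :=
  ⟨zeroHom X X, isZeroMor_zeroHom X X, isSum_zero_left (𝟙 X) (isZeroMor_zeroHom X X)⟩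

/-- **`1` is invertible on every spectrum.** -/
theorem natMulInvertible_one (X : SH) : NatMulInvertible 1 X := ⟨𝟙 X, isNatMul_one X, inferInstance⟩

/-! ### 6. `Thick`, `Loc` and the cofibre sequence `X ⟶ X ∨ Y ⟶ Y` -/

/-- `Thick B` is closed under wedges. -/
theorem thick_wob {B X Y : SH} (hX : Thick B X) (hY : Thick B Y) : Thick B (wob X Y) :=
  Thick.sum _ _ (isCoprod_wob X Y) hX hY

/-- `X ∨ Y` lies in `Thick B` iff `X` and `Y` do. -/
theorem thick_wob_iff {B X Y : SH} : Thick B (wob X Y) ↔ Thick B X ∧ Thick B Y :=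
  ⟨fun h => ⟨Thick.retract (il X Y) (wdesc (𝟙 X) (zeroHom Y X)) (il_wdesc _ _) h,
    Thick.retract (ir X Y) (wdesc (zeroHom X Y) (𝟙 Y)) (ir_wdesc _ _) h⟩, fun h => thick_wob h.1 h.2⟩

end SH

/-- `X ⟶ X ∨ Y ⟶ Y` is a strict cofibre sequence of spectra. -/
theorem Sp.isCofSeq_inl (X Y : Sp) : Sp.IsCofSeq (Sp.inl X Y) (Sp.desc (Sp.toPt X ≫ Sp.fromPt Y) (𝟙 Y)) where
  inj _ _ := Wedge.inl_injective
  surj n m := fun y => ⟨Wedge.inr y, Wedge.desc_inr _ _ y⟩
  ker n m w w' := by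
    have hl : ∀ a : (X.level n).obj m, (((Sp.desc (Sp.toPt X ≫ Sp.fromPt Y) (𝟙 Y)).map n).app m).toFun (Wedge.inl a) =
        ((Y.level n).obj m).point := fun a => Wedge.desc_inl _ _ a
    have hr : ∀ b : (Y.level n).obj m, (((Sp.desc (Sp.toPt X ≫ Sp.fromPt Y) (𝟙 Y)).map n).app m).toFun (Wedge.inr b) = b :=
      fun b => Wedge.desc_inr _ _ b
    have hrange : ∀ b : (Y.level n).obj m, (Wedge.inr b : Wedge ((X.level n).obj m) ((Y.level n).obj m)) ∈
        Set.range (((Sp.inl X Y).map n).app m).toFun ↔ b = ((Y.level n).obj m).point := fun b =>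
      ⟨fun ⟨a, ha⟩ => (Wedge.inl_eq_inr ha).2, fun e => ⟨((X.level n).obj m).point, by rw [e]; rfl⟩⟩
    have hrange' : ∀ a : (X.level n).obj m, (Wedge.inl a : Wedge ((X.level n).obj m) ((Y.level n).obj m)) ∈
        Set.range (((Sp.inl X Y).map n).app m).toFun := fun a => ⟨a, rfl⟩
    induction w using Wedge.ind with
    | hl a =>
      induction w' using Wedge.ind with
      | hl a' => rw [hl, hl]; exact ⟨fun _ => Or.inr ⟨hrange' a, hrange' a'⟩, fun _ => rfl⟩
      | hr b' =>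
        rw [hl, hr]
        constructor
        · intro e
          exact Or.inr ⟨hrange' a, (hrange b').2 e.symm⟩
        · rintro (e | ⟨-, e⟩)
          · exact (Wedge.inl_eq_inr e).2.symm
          · exact ((hrange b').1 e).symm
    | hr b =>
      induction w' using Wedge.ind with
      | hl a' =>
        rw [hl, hr]
        constructor
        · intro e
          exact Or.inr ⟨(hrange b).2 e, hrange' a'⟩
        · rintro (e | ⟨e, -⟩)
          · exact (Wedge.inl_eq_inr e.symm).2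
          · exact (hrange b).1 e
      | hr b' =>
        rw [hr, hr]
        constructor
        · intro e
          exact Or.inl (congrArg _ e)
        · rintro (e | ⟨e, e'⟩)
          · exact Wedge.inr_injective e
          · rw [(hrange b).1 e, (hrange b').1 e']

namespace SH

/-- **`X ⟶ X ∨ Y ⟶ Y` is a cofibre sequence in `SH`.** -/
theorem isCofiberSeq_il (X Y : SH) : IsCofiberSeq (il X Y) (wdesc (zeroHom X Y) (𝟙 Y)) := by
  have h := isCofiberSeq_of_strict (Sp.isCofSeq_inl X.sp Y.sp)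
  have e : wdesc (zeroHom X Y) (𝟙 Y) = Q.map (Sp.desc (Sp.toPt X.sp ≫ Sp.fromPt Y.sp) (𝟙 Y.sp)) := by
    have e1 : Q.map (Sp.inl X.sp Y.sp) ≫ Q.map (Sp.desc (Sp.toPt X.sp ≫ Sp.fromPt Y.sp) (𝟙 Y.sp)) =
        Q.map (Sp.toPt X.sp) ≫ Q.map (Sp.fromPt Y.sp) := by
      rw [← Q.map_comp, Sp.inl_desc, Q.map_comp]
    have e2 : Q.map (Sp.inr X.sp Y.sp) ≫ Q.map (Sp.desc (Sp.toPt X.sp ≫ Sp.fromPt Y.sp) (𝟙 Y.sp)) = 𝟙 (Q.obj Y.sp) := by
      rw [← Q.map_comp, Sp.inr_desc, Q.map_id]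
    refine wob_hom_ext ?_ ?_
    · rw [il_wdesc]
      exact e1.symm
    · rw [ir_wdesc]
      exact e2.symm
  rw [e]
  exact h

/-- A localizing subcategory is closed under wedges of two spectra. -/
theorem loc_wob {G : SH → Prop} {X Y : SH} (hX : Loc G X) (hY : Loc G Y) : Loc G (wob X Y) :=
  Loc.ext _ _ (isCofiberSeq_il X Y) hX hY

end SH

/-! ### 7. The spheres -/

/-- **`n` is invertible on the sphere `S^k` iff `n = 1`** (`⇒` is `not_natMulInvertible_sphere`). -/
theorem natMulInvertible_sphere_iff (n : ℕ) (k : ℤ) : NatMulInvertible n (SH.sphere k) ↔ n = 1 :=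
  ⟨fun h => by_contra fun hn => not_natMulInvertible_sphere hn k h, fun h => h ▸ SH.natMulInvertible_one _⟩

/-- On the sphere spectrum `𝟙` is `n · 𝟙` for `n = 1` only. -/
theorem isNatMul_id_sphere_iff (n : ℕ) : IsNatMul n (𝟙 (SH.sphere 0)) ↔ n = 1 :=
  ⟨fun h => isNatMul_sphere_unique h (SH.isNatMul_one _), fun h => h ▸ SH.isNatMul_one _⟩

/-- **An instance of `IsSum` in `SH` in which none of the three morphisms is zero**: `(𝟙, 0) + (0, 𝟙) = (𝟙, 𝟙) : S ∨ S ⟶ S`. -/
theorem exists_isSum_not_isZeroMor :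
    ∃ (X Y : SH) (f g h : X ⟶ Y), IsSum f g h ∧ ¬ IsZeroMor f ∧ ¬ IsZeroMor g ∧ ¬ IsZeroMor h :=
  ⟨_, SH.sphere 0, _, _, _, SH.isSum_pr (SH.sphere 0), SH.not_isZeroMor_pr₁ not_isZeroMor_id_sphere_zero,
    SH.not_isZeroMor_pr₂ not_isZeroMor_id_sphere_zero, fun h =>
      not_isZeroMor_id_sphere_zero (SH.il_fo (SH.sphere 0) ▸ h.comp_left (SH.il _ _))⟩

end Claimed.Open.R319
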