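import Claimed.Open.R319.SanitySuspD
import Claimed.Open.R319.SanityWedge

/-!
# Sanity (result 319): maps `Σ^∞ K ⟶ Y` of `SH` given by maps `K ∧ S¹ ∧ S¹ ⟶ Y_2`; maps into a wedge with disjoint supports
-/

open CategoryTheory Opposite Simplicial

namespace Claimed.Open.R319

open PSSet

namespace PSSet

/-- Two maps with disjoint supports give a map into the wedge. -/
def pinchMap {A V W : PSSet} (F : A ⟶ V) (G : A ⟶ W)
    (h : ∀ n (a : A.obj n), (F.app n).toFun a = (V.obj n).point ∨ (G.app n).toFun a = (W.obj n).point) : A ⟶ wedge V W where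
  app n := ⟨fun a => ⟨((F.app n).toFun a, (G.app n).toFun a), h n a⟩,
    Subtype.ext (Prod.ext (F.app n).map_point (G.app n).map_point)⟩
  naturality n n' φ := Pointed.Hom.ext (funext fun a => Subtype.ext (Prod.ext
    (congrArg (fun k : A.obj n ⟶ V.obj n' => k.toFun a) (F.naturality φ))
    (congrArg (fun k : A.obj n ⟶ W.obj n' => k.toFun a) (G.naturality φ))))

theorem pinchMap_desc_left {A V W : PSSet} (F : A ⟶ V) (G : A ⟶ W)
    (h : ∀ n (a : A.obj n), (F.app n).toFun a = (V.obj n).point ∨ (G.app n).toFun a = (W.obj n).point) :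
    pinchMap F G h ≫ desc (𝟙 V) (zeroMap W V) = F :=
  NatTrans.ext (funext fun n => Pointed.Hom.ext (funext fun a => by
    classical
    show (if (F.app n).toFun a = (V.obj n).point then (V.obj n).point else (F.app n).toFun a) = (F.app n).toFun a
    split_ifs with h1
    · exact h1.symm
    · rfl))

theorem pinchMap_desc_right {A V W : PSSet} (F : A ⟶ V) (G : A ⟶ W)
    (h : ∀ n (a : A.obj n), (F.app n).toFun a = (V.obj n).point ∨ (G.app n).toFun a = (W.obj n).point) :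
    pinchMap F G h ≫ desc (zeroMap V W) (𝟙 W) = G :=
  NatTrans.ext (funext fun n => Pointed.Hom.ext (funext fun a => by
    classical
    show (if (F.app n).toFun a = (V.obj n).point then (G.app n).toFun a else (W.obj n).point) = (G.app n).toFun a
    split_ifs with h1
    · rfl
    · exact ((h n a).resolve_left h1).symm))

end PSSet

namespace Sp

/-- The double desuspension of `Σ^∞ (K ∧ S¹ ∧ S¹)`. -/
def dd (K : PSSet) : Sp := ((suspSpec (PSSet.smash (PSSet.smash K S1) S1)).D).D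

/-- The map `D D Σ^∞ (K ∧ S¹ ∧ S¹) ⟶ Σ^∞ K`. -/
def ddTo (K : PSSet) : dd K ⟶ suspSpec K := Dfun.map (dSusp (PSSet.smash K S1)) ≫ dSusp K

theorem stableEquiv_comp {X Y Z : Sp} {f : X ⟶ Y} {g : Y ⟶ Z} (hf : stableEquiv f) (hg : stableEquiv g) : stableEquiv (f ≫ g) := by
  intro E hE
  constructor
  · intro k
    obtain ⟨h1, hh1⟩ := (hf E hE).1 k
    obtain ⟨h2, hh2⟩ := (hg E hE).1 h1
    refine ⟨h2, ?_⟩
    rw [Category.assoc]
    exact (hh2.comp_left f).trans _ _ _ hh1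
  · intro h h' hh
    rw [Category.assoc, Category.assoc] at hh
    exact (hg E hE).2 _ _ ((hf E hE).2 _ _ hh)

theorem stableEquiv_ddTo (K : PSSet) : stableEquiv (ddTo K) :=
  stableEquiv_comp (stableEquiv_D _ (stableEquiv_dSusp _)) (stableEquiv_dSusp K)

/-- The map of spectra given by a map `K ∧ S¹ ∧ S¹ ⟶ Y_2`. -/
def ddLift {K : PSSet} {Y : Sp} (w : PSSet.smash (PSSet.smash K S1) S1 ⟶ Y.level 2) : dd K ⟶ Y :=
  adjFrom (adjFrom (suspLift (K := PSSet.smash (PSSet.smash K S1) S1) (E := Y.sh.sh) w))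

/-- A map of spectra out of `D D Σ^∞ (K ∧ S¹ ∧ S¹)` is given by its level `2`. -/
theorem ddLift_map_two {K : PSSet} {Y : Sp} (x : dd K ⟶ Y) : ddLift (K := K) (x.map 2) = x := by
  have e1 : suspLift (K := PSSet.smash (PSSet.smash K S1) S1) (E := Y.sh.sh) (x.map 2) = adjTo (adjTo x) :=
    suspLift_map_zero (adjTo (adjTo x))
  unfold ddLift
  rw [e1, adjFrom_adjTo]
  exact adjFrom_adjTo _

theorem ddLift_comp {K : PSSet} {Y Y' : Sp} (w : PSSet.smash (PSSet.smash K S1) S1 ⟶ Y.level 2) (t : Y ⟶ Y') :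
    ddLift w ≫ t = ddLift (w ≫ t.map 2) :=
  (ddLift_map_two (ddLift w ≫ t)).symm

theorem ddTo_map_two (K : PSSet) : (ddTo K).map 2 = 𝟙 (PSSet.smash (PSSet.smash K S1) S1) := by
  show 𝟙 (PSSet.smash (PSSet.smash K S1) S1) ≫ (smashMap (𝟙 (PSSet.smash K S1)) (𝟙 S1) ≫ 𝟙 _) = _
  rw [smashMap_id, Category.id_comp, Category.id_comp]

theorem ddTo_comp {K : PSSet} {E : Sp} (h : suspSpec K ⟶ E) : ddTo K ≫ h = ddLift (K := K) (h.map 2) := by
  rw [← ddLift_map_two (ddTo K ≫ h)]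
  congr 1
  show (ddTo K).map 2 ≫ h.map 2 = h.map 2
  rw [ddTo_map_two]
  exact Category.id_comp _

theorem Homotopic.ddLift {K : PSSet} {Y : Sp} {w w' : PSSet.smash (PSSet.smash K S1) S1 ⟶ Y.level 2}
    (h : PSSet.Homotopic w w') : Homotopic (ddLift w) (ddLift w') :=
  (Homotopic.suspLift (K := PSSet.smash (PSSet.smash K S1) S1) (E := Y.sh.sh) h).adjFrom.adjFrom

end Sp

namespace SH

/-- The morphism `Σ^∞ K ⟶ Y` of `SH` given by a map `K ∧ S¹ ∧ S¹ ⟶ Y_2`. -/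
noncomputable def bracket {K : PSSet} {Y : Sp} (w : PSSet.smash (PSSet.smash K S1) S1 ⟶ Y.level 2) :
    Q.obj (Sp.suspSpec K) ⟶ Q.obj Y :=
  (@asIso _ _ _ _ (Q.map (Sp.ddTo K)) (Sp.stableEquiv.Q_inverts _ (Sp.stableEquiv_ddTo K))).inv ≫ Q.map (Sp.ddLift w)

theorem bracket_comp {K : PSSet} {Y Y' : Sp} (w : PSSet.smash (PSSet.smash K S1) S1 ⟶ Y.level 2) (t : Y ⟶ Y') :
    bracket w ≫ Q.map t = bracket (w ≫ t.map 2) := by
  unfold bracket
  rw [Category.assoc, ← Q.map_comp, Sp.ddLift_comp]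

theorem bracket_map_two {K : PSSet} {E : Sp} (h : Sp.suspSpec K ⟶ E) : bracket (K := K) (h.map 2) = Q.map h := by
  unfold bracket
  rw [← Sp.ddTo_comp, Q.map_comp, ← Category.assoc]
  have := (@asIso _ _ _ _ (Q.map (Sp.ddTo K)) (Sp.stableEquiv.Q_inverts _ (Sp.stableEquiv_ddTo K))).inv_hom_id
  rw [asIso_hom] at this
  rw [this, Category.id_comp]

theorem bracket_eq_of_homotopic {K : PSSet} {Y : Sp} {w w' : PSSet.smash (PSSet.smash K S1) S1 ⟶ Y.level 2}
    (h : PSSet.Homotopic w w') : bracket w = bracket w' := by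
  unfold bracket
  rw [Q_map_eq_of_homotopic (Sp.Homotopic.ddLift h)]

theorem isZeroMor_Q_zeroHom (X Y : Sp) : IsZeroMor (Q.map (Sp.zeroHom X Y)) := by
  have e : Sp.zeroHom X Y = Sp.toPt X ≫ Sp.fromPt Y := rfl
  rw [e, Q.map_comp]
  exact ⟨zero, _, _, isZero_zero, rfl⟩

/-- The two projections of the wedge are maps of spectra. -/
theorem pr₁_Q (K : Sp) : pr₁ (Q.obj K) = Q.map (Sp.desc (𝟙 K) (Sp.zeroHom K K)) := by
  apply wob_hom_ext
  · rw [il_pr₁]
    show 𝟙 _ = Q.map (Sp.inl K K) ≫ Q.map (Sp.desc (𝟙 K) (Sp.zeroHom K K))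
    rw [← Q.map_comp, Sp.inl_desc, Q.map_id]
  · rw [ir_pr₁]
    show _ = Q.map (Sp.inr K K) ≫ Q.map (Sp.desc (𝟙 K) (Sp.zeroHom K K))
    rw [← Q.map_comp, Sp.inr_desc]
    exact (isZeroMor_zeroHom _ _).unique (isZeroMor_Q_zeroHom K K)

theorem pr₂_Q (K : Sp) : pr₂ (Q.obj K) = Q.map (Sp.desc (Sp.zeroHom K K) (𝟙 K)) := by
  apply wob_hom_ext
  · rw [il_pr₂]
    show _ = Q.map (Sp.inl K K) ≫ Q.map (Sp.desc (Sp.zeroHom K K) (𝟙 K))
    rw [← Q.map_comp, Sp.inl_desc]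
    exact (isZeroMor_zeroHom _ _).unique (isZeroMor_Q_zeroHom K K)
  · rw [ir_pr₂]
    show 𝟙 _ = Q.map (Sp.inr K K) ≫ Q.map (Sp.desc (Sp.zeroHom K K) (𝟙 K))
    rw [← Q.map_comp, Sp.inr_desc, Q.map_id]

/-- **Sums exist**: two morphisms `Σ^∞ K ⟶ Y` given by maps `K ∧ S¹ ∧ S¹ ⟶ Y_2` with disjoint supports have a sum. -/
theorem exists_isSum_bracket {K : PSSet} {Y : Sp} (F G : PSSet.smash (PSSet.smash K S1) S1 ⟶ Y.level 2)
    (h : ∀ n (a : (PSSet.smash (PSSet.smash K S1) S1).obj n),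
      (F.app n).toFun a = ((Y.level 2).obj n).point ∨ (G.app n).toFun a = ((Y.level 2).obj n).point) :
    ∃ s : Q.obj (Sp.suspSpec K) ⟶ Q.obj Y, IsSum (bracket F) (bracket G) s := by
  let u : Q.obj (Sp.suspSpec K) ⟶ wob (Q.obj Y) (Q.obj Y) := bracket (Y := Sp.wedge Y Y) (pinchMap F G h)
  have h1 : u ≫ pr₁ (Q.obj Y) = bracket F := by
    rw [pr₁_Q]
    exact (bracket_comp (Y := Sp.wedge Y Y) _ _).trans (congrArg bracket (pinchMap_desc_left F G h))
  have h2 : u ≫ pr₂ (Q.obj Y) = bracket G := by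
    rw [pr₂_Q]
    exact (bracket_comp (Y := Sp.wedge Y Y) _ _).trans (congrArg bracket (pinchMap_desc_right F G h))
  exact ⟨u ≫ fo (Q.obj Y), h1 ▸ h2 ▸ isSum_of_hom u⟩

end SH

end Claimed.Open.R319
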