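import Claimed.Open.R319.Sanity
import Claimed.Open.R319.SanityPi

/-!
# Sanity (result 319): the functor `D` desuspends: `D (Σ^∞ (K ∧ S¹)) ≅ Σ^∞ K` in `SH`

The spheres `S^k`, `k ≥ 0`, of `Statement.lean` are suspension spectra, the spheres `S^k`, `k < 0`, are iterated desuspensions `D^{-k} S^0`.
Here the two halves are shown to fit together:

* `Sp.stableEquiv_dSusp` : the map of spectra `D (Σ^∞ (K ∧ S¹)) ⟶ Σ^∞ K` (the identity in the levels `≥ 1`) is a stable equivalence;
* `SH.dSuspIso : D (Σ^∞ (K ∧ S¹)) ≅ Σ^∞ K` in `SH`;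
* **`SH.nonempty_D_sphere_iso : D (S^{k+1}) ≅ S^k` for every `k ∈ ℤ`**;  `SH.piShEquiv : π_k E ≃ π_{k+1} (sh E)` for `Ω`-spectra `E`;
* **`SH.thick_sphere`, `SH.loc_sphere`** : every sphere `S^k`, `k ∈ ℤ`, lies in the thick (localizing) subcategory generated by `S^0`;  `SH.thick_sphere_sphere`.
-/

open CategoryTheory Opposite

namespace Claimed.Open.R319

open PSSet

namespace Sp

/-- The map of spectra `Σ^∞ (K ∧ S¹) ⟶ sh (Σ^∞ K)`: the identity in the level `0`. -/
def suspShift (K : PSSet) : suspSpec (PSSet.smash K S1) ⟶ (suspSpec K).sh :=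
  suspLift (K := PSSet.smash K S1) (E := (suspSpec K).sh) (𝟙 (PSSet.smash K S1))

/-- The map of spectra `D (Σ^∞ (K ∧ S¹)) ⟶ Σ^∞ K`. -/
def dSusp (K : PSSet) : (suspSpec (PSSet.smash K S1)).D ⟶ suspSpec K := adjFrom (suspShift K)

theorem adjTo_dSusp_comp (K : PSSet) {E : Sp} (h : suspSpec K ⟶ E) :
    adjTo (dSusp K ≫ h) = suspLift (K := PSSet.smash K S1) (E := E.sh) (smashMap (h.map 0) (𝟙 S1) ≫ E.σ 0) := by
  rw [← suspLift_map_zero (adjTo (dSusp K ≫ h))]
  congr 1
  exact h.comm 0

/-- **`D (Σ^∞ (K ∧ S¹)) ⟶ Σ^∞ K` is a stable equivalence.** -/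
theorem stableEquiv_dSusp (K : PSSet) : stableEquiv (dSusp K) := by
  intro E hE
  constructor
  · intro g
    obtain ⟨g₀, hg₀⟩ := hE.surj 0 K (g.map 1)
    refine ⟨suspLift g₀, ?_⟩
    have h1 : Homotopic (adjTo (dSusp K ≫ suspLift g₀)) (adjTo g) := by
      rw [adjTo_dSusp_comp, ← suspLift_map_zero (adjTo g)]
      exact Homotopic.suspLift (K := PSSet.smash K S1) (E := E.sh) hg₀
    have h2 := h1.adjFrom
    rwa [adjFrom_adjTo, adjFrom_adjTo] at h2
  · intro h h' hh
    have h1 := hh.adjTo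
    rw [adjTo_dSusp_comp, adjTo_dSusp_comp] at h1
    have h2 : PSSet.Homotopic (smashMap (h.map 0) (𝟙 S1) ≫ E.σ 0) (smashMap (h'.map 0) (𝟙 S1) ≫ E.σ 0) := h1.map 0
    have h3 : Homotopic (suspLift (h.map 0)) (suspLift (h'.map 0)) := Homotopic.suspLift (hE.inj 0 K _ _ h2)
    have e1 : suspLift (h.map 0) = h := suspLift_map_zero h
    have e2 : suspLift (h'.map 0) = h' := suspLift_map_zero h'
    rwa [e1, e2] at h3

end Sp

namespace SH

/-- **`D (Σ^∞ (K ∧ S¹)) ≅ Σ^∞ K` in `SH`.** -/
noncomputable def dSuspIso (K : PSSet) : D.obj (Q.obj (Sp.suspSpec (PSSet.smash K S1))) ≅ Q.obj (Sp.suspSpec K) :=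
  @asIso _ _ _ _ (Q.map (Sp.dSusp K)) (Sp.stableEquiv.Q_inverts _ (Sp.stableEquiv_dSusp K))

/-- `D (S^{k+1}) ≅ S^k` for `k ≥ 0`. -/
noncomputable def dSphereIso (k : ℕ) : D.obj (sphere (Int.ofNat (k + 1))) ≅ sphere (Int.ofNat k) := dSuspIso (Sph k)

/-- **`D (S^{k+1}) ≅ S^k` for every `k ∈ ℤ`.** -/
theorem nonempty_D_sphere_iso (k : ℤ) : Nonempty (D.obj (sphere (k + 1)) ≅ sphere k) :=
  match k with
  | Int.ofNat k => ⟨dSphereIso k⟩
  | Int.negSucc 0 => ⟨Iso.refl _⟩
  | Int.negSucc (k + 1) => by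
    have e : Int.negSucc (k + 1) + 1 = Int.negSucc k := by omega
    rw [e]
    exact ⟨Iso.refl _⟩

/-- **`π_k E ≃ π_{k+1} (sh E)` for an `Ω`-spectrum `E` and every `k ∈ ℤ`**: the shift is the suspension. -/
noncomputable def piShEquiv (k : ℤ) (E : Sp) (hE : E.IsOmega) : π k (Q.obj E) ≃ π (k + 1) (Q.obj E.sh) :=
  (((nonempty_D_sphere_iso k).some.homCongr (Iso.refl (Q.obj E))).symm).trans (adjHomEquiv (sphere (k + 1)).sp E hE)

/-- **Every sphere lies in the thick subcategory generated by the sphere spectrum.** -/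
theorem thick_sphere (k : ℤ) : Thick (sphere 0) (sphere k) :=
  match k with
  | Int.ofNat k => by
    induction k with
    | zero => exact Thick.base
    | succ k ih => exact Thick.susp (Thick.iso (dSphereIso k).symm ih)
  | Int.negSucc k => thick_Dpow Thick.base (k + 1)

/-- The thick subcategories generated by two spheres agree. -/
theorem thick_sphere_sphere (a b : ℤ) : Thick (sphere a) (sphere b) := by
  have up : ∀ (a : ℤ) (n : ℕ), Thick (sphere a) (sphere (a + n)) := by
    intro a n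
    induction n with
    | zero => simpa using (Thick.base : Thick (sphere a) (sphere a))
    | succ n ih =>
      obtain ⟨e⟩ := nonempty_D_sphere_iso (a + n)
      have : a + ((n + 1 : ℕ) : ℤ) = a + n + 1 := by push_cast; ring
      rw [this]
      exact Thick.susp (Thick.iso e.symm ih)
  have down : ∀ (a : ℤ) (n : ℕ), Thick (sphere a) (sphere (a - n)) := by
    intro a n
    induction n with
    | zero => simpa using (Thick.base : Thick (sphere a) (sphere a))
    | succ n ih =>
      obtain ⟨e⟩ := nonempty_D_sphere_iso (a - ((n + 1 : ℕ) : ℤ))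
      have : a - ((n + 1 : ℕ) : ℤ) + 1 = a - n := by push_cast; ring
      rw [this] at e
      exact Thick.iso e (Thick.desusp ih)
  rcases le_total a b with h | h
  · obtain ⟨n, rfl⟩ := Int.le.dest h
    exact up a n
  · obtain ⟨n, rfl⟩ := Int.le.dest h
    have := down (b + n) n
    rwa [add_sub_cancel_right] at this

/-- Every sphere lies in the localizing subcategory generated by a class that contains the sphere spectrum. -/
theorem loc_sphere {G : SH → Prop} (hG : G (sphere 0)) (k : ℤ) : Loc G (sphere k) :=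
  match k with
  | Int.ofNat k => by
    induction k with
    | zero => exact Loc.base hG
    | succ k ih => exact Loc.susp (Loc.iso (dSphereIso k).symm ih)
  | Int.negSucc k => by
    induction k with
    | zero => exact Loc.desusp (Loc.base hG)
    | succ k ih => exact Loc.desusp ih

end SH

end Claimed.Open.R319
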