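import Claimed.Open.R319.SanityTri
import Claimed.Open.R319.SanityWedge
import Claimed.Open.R319.SanitySuspD
import Claimed.Open.R319.SanitySmash
import Claimed.Open.R319.SanitySumComp

/-!
# Sanity (result 319): the pinch map of the sphere spectrum; sums exist in `π_0`

`TT X = Σ⁻¹ Σ^∞ X`.  The map `TT S¹ ∨ TT S¹ ⟶ TT Tri` is a stable equivalence (`Sp.stableEquiv_triDesc`, from `tri_surj`, `tri_inj'`), so `TT Tri` is a coproduct of two copies
of `TT S¹ ≅ S^0` in `SH`, and `TT (triE 1)` is the pinch map: **any two morphisms `f, g : S^0 ⟶ Y` of `SH` have a sum** (`SH.exists_isSum_sphere`), and every `n · 𝟙` exists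
on the sphere spectrum (`SH.exists_isNatMul_sphere`).
-/

open CategoryTheory Opposite Simplicial

namespace Claimed.Open.R319

open PSSet

namespace Sp

/-- `TT X = Σ⁻¹ Σ^∞ X`: the levels are `*, X, X ∧ S¹, …` -/
def TT (X : PSSet) : Sp := (suspSpec X).D

/-- the map of spectra `TT X ⟶ E` that extends `g : X ⟶ E_1` -/
def TT.lift {X : PSSet} {E : Sp} (g : X ⟶ E.level 1) : TT X ⟶ E := adjFrom (suspLift (K := X) (E := E.sh) g)

theorem TT.lift_map_one {X : PSSet} {E : Sp} (g : X ⟶ E.level 1) : (TT.lift g).map 1 = g := rfl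

theorem TT.lift_eta {X : PSSet} {E : Sp} (h : TT X ⟶ E) : TT.lift (X := X) (h.map 1) = h := by
  have e1 : suspLift (K := X) (E := E.sh) (h.map 1) = adjTo h := suspLift_map_zero (adjTo h)
  unfold TT.lift
  rw [e1]
  exact adjFrom_adjTo _

theorem TT.hom_ext {X : PSSet} {E : Sp} {h h' : TT X ⟶ E} (e : h.map 1 = h'.map 1) : h = h' := by
  rw [← TT.lift_eta h, ← TT.lift_eta h', e]

/-- `TT` on maps -/
def TT.map {X Y : PSSet} (f : X ⟶ Y) : TT X ⟶ TT Y := TT.lift (X := X) (E := TT Y) f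

theorem TT.map_map_one {X Y : PSSet} (f : X ⟶ Y) : (TT.map f).map 1 = f := rfl

theorem TT.map_id (X : PSSet) : TT.map (𝟙 X) = 𝟙 (TT X) := TT.hom_ext rfl

theorem TT.map_comp {X Y Z : PSSet} (f : X ⟶ Y) (g : Y ⟶ Z) : TT.map (f ≫ g) = TT.map f ≫ TT.map g := TT.hom_ext rfl

theorem TT.homotopic_iff {X : PSSet} {E : Sp} {h h' : TT X ⟶ E} : Homotopic h h' ↔ PSSet.Homotopic (h.map 1) (h'.map 1) := by
  refine ⟨fun H => H.map 1, fun H => ?_⟩
  have H' : Homotopic (TT.lift (X := X) (h.map 1)) (TT.lift (X := X) (h'.map 1)) :=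
    (Homotopic.suspLift (K := X) (E := E.sh) H).adjFrom
  rwa [TT.lift_eta, TT.lift_eta] at H'

/-- **`TT S¹ ∨ TT S¹ ⟶ TT Tri` is a stable equivalence.** -/
theorem stableEquiv_triDesc : stableEquiv (desc (TT.map (triE 2)) (TT.map (triE 0))) := by
  intro E hE
  constructor
  · intro g
    obtain ⟨F, hF2, hF0⟩ := tri_surj (E.level 1) (hE.kan 1) ((inl _ _ ≫ g).map 1) ((inr _ _ ≫ g).map 1)
    refine ⟨TT.lift F, ?_⟩
    have e2 : TT.map (triE 2) ≫ TT.lift F = inl _ _ ≫ g := TT.hom_ext hF2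
    have e0 : TT.map (triE 0) ≫ TT.lift F = inr _ _ ≫ g := TT.hom_ext hF0
    rw [desc_comp, e2, e0, desc_eta]
    exact .refl _
  · intro h h' H
    have H2 := H.comp_left (inl _ _)
    have H0 := H.comp_left (inr _ _)
    rw [← Category.assoc, ← Category.assoc, inl_desc] at H2
    rw [← Category.assoc, ← Category.assoc, inr_desc] at H0
    exact TT.homotopic_iff.2 (tri_inj' (E.level 1) (hE.kan 1) _ _ (H2.map 1) (H0.map 1))

end Sp

namespace SH

open Sp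

/-- The image in `SH` of `TT` of a constant map is a zero map. -/
theorem isZeroMor_Q_TT_zeroMap (X Y : PSSet) : IsZeroMor (Q.map (TT.map (zeroMap X Y))) := by
  have e : TT.map (zeroMap X Y) = Sp.toPt (TT X) ≫ Sp.fromPt (TT Y) := TT.hom_ext rfl
  rw [e, Q.map_comp]
  exact ⟨zero, _, _, isZero_zero, rfl⟩

/-- A coproduct may be replaced by an isomorphic object. -/
theorem isCoprod_comp_iso {A B P P' : SH} {i₁ : A ⟶ P} {i₂ : B ⟶ P} (h : IsCoprod i₁ i₂) (φ : P ⟶ P') [IsIso φ] :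
    IsCoprod (i₁ ≫ φ) (i₂ ≫ φ) := fun T a b => by
  obtain ⟨d, ⟨h1, h2⟩, hu⟩ := h T a b
  refine ⟨inv φ ≫ d, ⟨by rw [Category.assoc, IsIso.hom_inv_id_assoc, h1], by rw [Category.assoc, IsIso.hom_inv_id_assoc, h2]⟩, ?_⟩
  rintro d' ⟨h1', h2'⟩
  rw [← hu (φ ≫ d') ⟨by rw [← Category.assoc, h1'], by rw [← Category.assoc, h2']⟩, IsIso.inv_hom_id_assoc]

/-- `TT Tri` is the coproduct of two copies of `TT S¹` in `SH`. -/
theorem isCoprod_tri : IsCoprod (Q.map (TT.map (triE 2))) (Q.map (TT.map (triE 0))) := by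
  have : IsIso (Q.map (desc (TT.map (triE 2)) (TT.map (triE 0)))) := Sp.stableEquiv.Q_inverts _ stableEquiv_triDesc
  have h := isCoprod_comp_iso (isCoprod_wedge (TT S1) (TT S1)) (Q.map (desc (TT.map (triE 2)) (TT.map (triE 0))))
  rwa [← Q.map_comp, ← Q.map_comp, Sp.inl_desc, Sp.inr_desc] at h

theorem Q_TT_comp_of_eq_id {X Z : PSSet} {a : X ⟶ Z} {b : Z ⟶ X} (e : a ≫ b = 𝟙 X) {Y : SH} (f : Q.obj (TT X) ⟶ Y) :
    Q.map (TT.map a) ≫ Q.map (TT.map b) ≫ f = f := by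
  rw [← Category.assoc, ← Q.map_comp, ← TT.map_comp, e, TT.map_id, Q.map_id, Category.id_comp]

theorem Q_TT_comp_of_eq_zero {X Z W : PSSet} {a : X ⟶ Z} {b : Z ⟶ W} (e : a ≫ b = zeroMap X W) {Y : SH} (f : Q.obj (TT W) ⟶ Y) :
    Q.map (TT.map a) ≫ Q.map (TT.map b) ≫ f = zeroHom _ _ := by
  rw [← Category.assoc, ← Q.map_comp, ← TT.map_comp, e]
  exact ((isZeroMor_Q_TT_zeroMap X W).comp_right f).unique (isZeroMor_zeroHom _ _)

/-- Sums of maps out of `TT S¹` exist (`TT (triE 1)` is the pinch map). -/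
theorem exists_isSum_TT (Y : SH) (f g : Q.obj (TT S1) ⟶ Y) : ∃ h, IsSum f g h := by
  obtain ⟨d, ⟨hd1, hd2⟩, -⟩ := isCoprod_tri (wob Y Y) (f ≫ il Y Y) (g ≫ ir Y Y)
  have k1 : d ≫ pr₁ Y = Q.map (TT.map (triR 1)) ≫ f := by
    obtain ⟨_, -, hu⟩ := isCoprod_tri Y f (zeroHom _ _)
    rw [hu (d ≫ pr₁ Y) ⟨by rw [← Category.assoc, hd1, Category.assoc, il_pr₁, Category.comp_id],
        by rw [← Category.assoc, hd2, Category.assoc, ir_pr₁, comp_zeroHom]⟩,
      hu (Q.map (TT.map (triR 1)) ≫ f) ⟨Q_TT_comp_of_eq_id triE_two_triR_one f, Q_TT_comp_of_eq_zero triE_zero_triR_one f⟩]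
  have k2 : d ≫ pr₂ Y = Q.map (TT.map (triR 0)) ≫ g := by
    obtain ⟨_, -, hu⟩ := isCoprod_tri Y (zeroHom _ _) g
    rw [hu (d ≫ pr₂ Y) ⟨by rw [← Category.assoc, hd1, Category.assoc, il_pr₂, comp_zeroHom],
        by rw [← Category.assoc, hd2, Category.assoc, ir_pr₂, Category.comp_id]⟩,
      hu (Q.map (TT.map (triR 0)) ≫ g) ⟨Q_TT_comp_of_eq_zero triE_two_triR_zero g, Q_TT_comp_of_eq_id triE_zero_triR_zero g⟩]
  have H := isSum_of_hom (Q.map (TT.map (triE 1)) ≫ d)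
  rw [Category.assoc, Category.assoc, k1, k2, Q_TT_comp_of_eq_id triE_one_triR_one f, Q_TT_comp_of_eq_id triE_one_triR_zero g] at H
  exact ⟨_, H⟩

/-- `S^0 ≅ Σ⁻¹ Σ^∞ S¹` (`dSuspIso S0` and the isomorphism `lam S1 : S¹ ≅ S⁰ ∧ S¹`). -/
theorem nonempty_sphere_iso_TT : Nonempty (sphere 0 ≅ Q.obj (TT S1)) := by
  have : IsIso (suspLift (K := S1) (E := suspSpec (PSSet.smash S0 S1)) (PSSet.lam S1)) :=
    isIso_of_bijective _ (bijective_suspLift (E := suspSpec (PSSet.smash S0 S1)) _ (IsBij.lam S1) (bijective_suspSpec_σ _))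
  let e : Q.obj (TT S1) ≅ Q.obj (suspSpec (PSSet.smash S0 S1)).D :=
    Q.mapIso (Dfun.mapIso (asIso (suspLift (K := S1) (E := suspSpec (PSSet.smash S0 S1)) (PSSet.lam S1))))
  exact ⟨(e.trans (dSuspIso S0)).symm⟩

/-- **Any two elements of `π_0 Y` have a sum.** -/
theorem exists_isSum_sphere (Y : SH) (f g : sphere 0 ⟶ Y) : ∃ h, IsSum f g h := by
  obtain ⟨θ⟩ := nonempty_sphere_iso_TT
  obtain ⟨h, H⟩ := exists_isSum_TT Y (θ.inv ≫ f) (θ.inv ≫ g)
  refine ⟨θ.hom ≫ h, ?_⟩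
  have := isSum_comp_left H θ.hom
  rwa [θ.hom_inv_id_assoc, θ.hom_inv_id_assoc] at this

/-- **Every multiple `n · 𝟙` of the identity of the sphere spectrum exists.** -/
theorem exists_isNatMul_sphere (n : ℕ) : ∃ f : sphere 0 ⟶ sphere 0, IsNatMul n f := by
  induction n with
  | zero => exact ⟨zeroHom _ _, isZeroMor_zeroHom _ _⟩
  | succ n ih =>
    obtain ⟨g, hg⟩ := ih
    obtain ⟨f, hf⟩ := exists_isSum_sphere _ g (𝟙 _)
    exact ⟨f, g, hg, hf⟩

end SH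

end Claimed.Open.R319
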