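import Claimed.Open.R319.Statement

/-!
# Sanity (result 319), block M3a: the prism operator preserves cocycles (mod 2)
-/

open CategoryTheory Opposite Simplicial

namespace Claimed.Open.R319

/-- `tau j : ⦋m+1⦌ ⟶ ⦋1⦌` is the map `v ↦ 0` for `v ≤ j`, `v ↦ 1` for `v > j` (the `(m+1)`-simplex of `Δ[1]` with `j + 1` zeros). -/
def tau {m : ℕ} (j : Fin (m + 1)) : ⦋m + 1⦌ ⟶ ⦋1⦌ :=
  SimplexCategory.Hom.mk ⟨fun v => if v ≤ j.castSucc then 0 else 1, by
    intro a b hab
    dsimp only
    split_ifs with h1 h2 h2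
    · exact le_rfl
    · exact Fin.zero_le _
    · exact absurd (hab.trans h2) h1
    · exact le_rfl⟩

/-! ### Values of the maps involved -/

theorem prism_val_succAbove {m : ℕ} (p : Fin (m + 1)) (i : Fin m) :
    (p.succAbove i).val = if i.val < p.val then i.val else i.val + 1 := by
  unfold Fin.succAbove
  split_ifs with h1 h2 h2 <;> simp [Fin.lt_def] at * <;> omega

theorem prism_val_predAbove {m : ℕ} (p : Fin m) (i : Fin (m + 1)) :
    (p.predAbove i).val = if p.val < i.val then i.val - 1 else i.val := by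
  unfold Fin.predAbove
  have e : (p.castSucc < i) ↔ p.val < i.val := by rw [Fin.lt_def]; rfl
  by_cases h : p.val < i.val
  · rw [dif_pos (e.2 h), if_pos h]; rfl
  · rw [dif_neg (fun h' => h (e.1 h')), if_neg h]; rfl

theorem prism_δ_apply {m : ℕ} (i : Fin (m + 2)) (v : Fin (m + 1)) :
    ((SimplexCategory.δ i).toOrderHom v).val = if v.val < i.val then v.val else v.val + 1 := by
  have : (SimplexCategory.δ i).toOrderHom v = i.succAbove v := rfl
  rw [this, prism_val_succAbove]

theorem prism_σ_apply {m : ℕ} (i : Fin (m + 1)) (v : Fin (m + 2)) :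
    ((SimplexCategory.σ i).toOrderHom v).val = if i.val < v.val then v.val - 1 else v.val := by
  have : (SimplexCategory.σ i).toOrderHom v = i.predAbove v := rfl
  rw [this, prism_val_predAbove]

theorem prism_tau_apply {m : ℕ} (j : Fin (m + 1)) (v : Fin (m + 2)) :
    ((tau j).toOrderHom v).val = if v.val ≤ j.val then 0 else 1 := by
  have : (tau j).toOrderHom v = if v ≤ j.castSucc then 0 else 1 := rfl
  rw [this]
  have e : (v ≤ j.castSucc) ↔ v.val ≤ j.val := by rw [Fin.le_def]; rfl
  by_cases h : v.val ≤ j.val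
  · rw [if_pos h, if_pos (e.2 h)]; rfl
  · rw [if_neg h, if_neg (fun h' => h (e.1 h'))]; rfl

/-- Two maps `⦋a⦌ ⟶ ⦋b⦌` with the same values are equal. -/
theorem prism_hom_ext {a b : ℕ} (g h : ⦋a⦌ ⟶ ⦋b⦌)
    (H : ∀ v : Fin (a + 1), (g.toOrderHom v).val = (h.toOrderHom v).val) : g = h := by
  apply SimplexCategory.Hom.ext
  apply OrderHom.ext
  funext v
  exact Fin.ext (H v)

theorem prism_comp_apply {a b c : ℕ} (g : ⦋a⦌ ⟶ ⦋b⦌) (h : ⦋b⦌ ⟶ ⦋c⦌) (v : Fin (a + 1)) :
    (g ≫ h).toOrderHom v = h.toOrderHom (g.toOrderHom v) := rfl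

/-- `prismTheta c : ⦋m⦌ ⟶ ⦋1⦌` is the simplex of `Δ[1]` with `c` zeros (`v ↦ 0` for `v < c`, `v ↦ 1` otherwise). -/
def prismTheta {m : ℕ} (c : ℕ) : ⦋m⦌ ⟶ ⦋1⦌ :=
  SimplexCategory.Hom.mk ⟨fun v => if v.val < c then 0 else 1, by
    intro a b hab
    dsimp only
    split_ifs with h1 h2 h2
    · exact le_rfl
    · exact Fin.zero_le _
    · exact absurd (lt_of_le_of_lt (Fin.le_def.1 hab) h2) h1
    · exact le_rfl⟩

theorem prismTheta_apply {m : ℕ} (c : ℕ) (v : Fin (m + 1)) :
    ((prismTheta (m := m) c).toOrderHom v).val = if v.val < c then 0 else 1 := by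
  have : (prismTheta (m := m) c).toOrderHom v = if v.val < c then 0 else 1 := rfl
  rw [this]
  split_ifs <;> rfl

theorem prismTheta_zero_not_surjective {m : ℕ} :
    ¬ Function.Surjective (prismTheta (m := m) 0).toOrderHom := by
  intro h
  obtain ⟨v, hv⟩ := h 0
  have := prismTheta_apply (m := m) 0 v
  rw [hv] at this
  simp at this

theorem prismTheta_last_not_surjective {m : ℕ} :
    ¬ Function.Surjective (prismTheta (m := m) (m + 1)).toOrderHom := by
  intro h
  obtain ⟨v, hv⟩ := h 1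
  have := prismTheta_apply (m := m) (m + 1) v
  rw [hv, if_pos v.isLt] at this
  simp at this

/-! ### The simplicial identities in the form that is needed -/

theorem prism_δ_σ {n : ℕ} (j' : Fin (n + 2)) (l : Fin (n + 1)) :
    SimplexCategory.δ (j'.castSucc.succAbove (j'.succAbove l)) ≫ SimplexCategory.σ j' =
      SimplexCategory.σ (l.predAbove j') ≫ SimplexCategory.δ (j'.succAbove l) := by
  apply prism_hom_ext
  intro v
  simp only [prism_comp_apply, prism_δ_apply, prism_σ_apply, prism_val_succAbove,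
    prism_val_predAbove, Fin.val_castSucc]
  split_ifs <;> omega

theorem prism_δ_tau {n : ℕ} (j' : Fin (n + 2)) (l : Fin (n + 1)) :
    SimplexCategory.δ (j'.castSucc.succAbove (j'.succAbove l)) ≫ tau j' = tau (l.predAbove j') := by
  apply prism_hom_ext
  intro v
  simp only [prism_comp_apply, prism_δ_apply, prism_tau_apply, prism_val_succAbove,
    prism_val_predAbove, Fin.val_castSucc]
  split_ifs <;> omega

theorem prism_δ_castSucc_tau {n : ℕ} (j' : Fin (n + 2)) :
    SimplexCategory.δ j'.castSucc ≫ tau j' = prismTheta j'.val := by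
  apply prism_hom_ext
  intro v
  simp only [prism_comp_apply, prism_δ_apply, prism_tau_apply, prismTheta_apply, Fin.val_castSucc]
  split_ifs <;> omega

theorem prism_δ_succ_tau {n : ℕ} (j' : Fin (n + 2)) :
    SimplexCategory.δ j'.succ ≫ tau j' = prismTheta (j'.val + 1) := by
  apply prism_hom_ext
  intro v
  simp only [prism_comp_apply, prism_δ_apply, prism_tau_apply, prismTheta_apply, Fin.val_succ]
  split_ifs <;> omega

/-- The exchange `(a, b) ↦ (a.succAbove b, b.predAbove a)` is an involution of `Fin (n + 2) × Fin (n + 1)`. -/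
theorem prism_involutive (n : ℕ) :
    Function.Involutive fun p : Fin (n + 2) × Fin (n + 1) => (p.1.succAbove p.2, p.2.predAbove p.1) := by
  rintro ⟨a, b⟩
  apply Prod.ext
  · apply Fin.ext
    simp only [prism_val_succAbove, prism_val_predAbove]
    split_ifs <;> omega
  · apply Fin.ext
    simp only [prism_val_succAbove, prism_val_predAbove]
    split_ifs <;> omega

/-- Telescoping mod 2. -/
theorem prism_telescope (H : ℕ → ZMod 2) (N : ℕ) :
    ∑ k ∈ Finset.range N, (H k + H (k + 1)) = H 0 + H N := by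
  induction N with
  | zero => simp [CharTwo.add_self_eq_zero]
  | succ N ih =>
    rw [Finset.sum_range_succ, ih]
    have := CharTwo.add_self_eq_zero (H N)
    linear_combination this

/-- **The prism operator preserves cocycles.**  `f` is a mod 2 cochain of degree `n + 1` on `Δ[T] × Δ[1]` that vanishes on `Δ[T] × ∂Δ[1]` (`hV`) and is a
cocycle (`hC`).  Then `(P f)(χ) = ∑ j, f (σ j ≫ χ) (tau j)` is a cocycle of degree `n` on `Δ[T]`. -/
theorem prism_cocycle {n : ℕ} (T : SimplexCategory) (f : (⦋n + 1⦌ ⟶ T) → (⦋n + 1⦌ ⟶ ⦋1⦌) → ZMod 2)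
    (hV : ∀ ψ s, ¬ Function.Surjective s.toOrderHom → f ψ s = 0)
    (hC : ∀ (ψ : ⦋n + 2⦌ ⟶ T) (s : ⦋n + 2⦌ ⟶ ⦋1⦌),
      ∑ i : Fin (n + 3), f (SimplexCategory.δ i ≫ ψ) (SimplexCategory.δ i ≫ s) = 0)
    (ψ : ⦋n + 1⦌ ⟶ T) :
    ∑ i : Fin (n + 2), ∑ j : Fin (n + 1), f (SimplexCategory.σ j ≫ SimplexCategory.δ i ≫ ψ) (tau j) = 0 := by
  -- the summand of the claim, as a function of the pair `(i, j)`
  set G : Fin (n + 2) × Fin (n + 1) → ZMod 2 :=
    fun p => f (SimplexCategory.σ p.2 ≫ SimplexCategory.δ p.1 ≫ ψ) (tau p.2) with hG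
  set H : ℕ → ZMod 2 := fun c => f ψ (prismTheta c) with hH
  -- one row of the cocycle condition
  have row : ∀ j' : Fin (n + 2),
      (H j'.val + H (j'.val + 1)) + ∑ l : Fin (n + 1), G (j'.succAbove l, l.predAbove j') = 0 := by
    intro j'
    have h := hC (SimplexCategory.σ j' ≫ ψ) (tau j')
    rw [Fin.sum_univ_succAbove _ j'.castSucc, Fin.sum_univ_succAbove _ j',
      Fin.succAbove_castSucc_self] at h
    rw [← Category.assoc, SimplexCategory.δ_comp_σ_self, Category.id_comp, prism_δ_castSucc_tau,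
      ← Category.assoc (SimplexCategory.δ j'.succ), SimplexCategory.δ_comp_σ_succ, Category.id_comp,
      prism_δ_succ_tau] at h
    rw [← h, add_assoc]
    congr 2
    refine Finset.sum_congr rfl fun l _ => ?_
    rw [← Category.assoc, prism_δ_σ, prism_δ_tau, Category.assoc]
  -- sum over the rows
  have total := Finset.sum_congr (s₁ := (Finset.univ : Finset (Fin (n + 2)))) rfl fun j' _ => row j'
  rw [Finset.sum_add_distrib, Finset.sum_const_zero,
    Fin.sum_univ_eq_sum_range (fun k => H k + H (k + 1)) (n + 2), prism_telescope] at total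
  have h0 : H 0 = 0 := hV _ _ prismTheta_zero_not_surjective
  have h1 : H (n + 2) = 0 := hV _ _ prismTheta_last_not_surjective
  rw [h0, h1, add_zero, zero_add] at total
  -- re-indexing
  have e1 : ∑ j' : Fin (n + 2), ∑ l : Fin (n + 1), G (j'.succAbove l, l.predAbove j') =
      ∑ p : Fin (n + 2) × Fin (n + 1), G (p.1.succAbove p.2, p.2.predAbove p.1) :=
    (Fintype.sum_prod_type
      (fun p : Fin (n + 2) × Fin (n + 1) => G (p.1.succAbove p.2, p.2.predAbove p.1))).symm
  have e2 : ∑ i : Fin (n + 2), ∑ j : Fin (n + 1),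
      f (SimplexCategory.σ j ≫ SimplexCategory.δ i ≫ ψ) (tau j) =
      ∑ p : Fin (n + 2) × Fin (n + 1), G p := (Fintype.sum_prod_type G).symm
  have e3 : ∑ p : Fin (n + 2) × Fin (n + 1), G (p.1.succAbove p.2, p.2.predAbove p.1) =
      ∑ p : Fin (n + 2) × Fin (n + 1), G p := Equiv.sum_comp (prism_involutive n).toPerm G
  rw [e2, ← e3, ← e1]
  exact total

end Claimed.Open.R319
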