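import Claimed.Open.R319.SanityTri

/-!
# Sanity (result 319): `[K ∧ Tri, L] = [K ∧ S¹, L] × [K ∧ S¹, L]` for a Kan complex `L` and every pointed simplicial set `K`

The statements `tri_surj`, `tri_inj'` of `SanityTri.lean` with a parameter `K`: the inclusions `* × Δ[2] ∪ K × Λ[2,1] ⟶ K × Δ[2]` and its pushout product with `∂Δ[1] ⟶ Δ[1]` are anodyne (Mathlib).
-/

open CategoryTheory Opposite Simplicial MonoidalCategory

namespace Claimed.Open.R319

namespace PSSet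

open SSet.modelCategoryQuillen in
/-- A functional, natural relation whose domain is a subcomplex `W` of `B` with `W ⟶ B` anodyne extends to a map from `B` to a Kan complex. -/
theorem exists_ext_of_graph {B : SSet.{0}} (W : B.Subcomplex) (hW : SSet.anodyneExtensions W.ι) (L : PSSet) (hL : SSet.KanComplex L.toSSet)
    (R : ∀ n : SimplexCategoryᵒᵖ, B.obj n → L.obj n → Prop)
    (huniq : ∀ n w v v', R n w v → R n w v' → v = v')
    (hmap : ∀ (n n' : SimplexCategoryᵒᵖ) (ψ : n ⟶ n') w v, R n w v → R n' (B.map ψ w) ((L.map ψ).toFun v))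
    (htot : ∀ n w, w ∈ W.obj n → ∃ v, R n w v)
    (hdom : ∀ n w v, R n w v → w ∈ W.obj n) :
    ∃ U : B ⟶ L.toSSet, ∀ n w v, R n w v → U.app n w = v := by
  let u : (W : SSet.{0}) ⟶ L.toSSet :=
    { app := fun n => ↾fun w => Classical.choose (htot n w.1 w.2)
      naturality := fun n n' ψ => by
        ext w
        let w' := ((W : SSet.{0}).map ψ) w
        exact huniq _ _ _ _ (Classical.choose_spec (htot n' w'.1 w'.2)) (hmap n n' ψ _ _ (Classical.choose_spec (htot n w.1 w.2))) }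
  have h2 : HomotopicalAlgebra.Fibration (Limits.terminal.from L.toSSet) := inferInstance
  have h3 := hW _ (HomotopicalAlgebra.mem_fibrations (Limits.terminal.from L.toSSet))
  have sq : CommSq u W.ι (Limits.terminal.from L.toSSet) (Limits.terminal.from _) := ⟨Subsingleton.elim _ _⟩
  refine ⟨sq.lift, fun n w v hv => ?_⟩
  have hw := hdom n w v hv
  have e := congrArg (fun r => r.app n ⟨w, hw⟩) sq.fac_left
  exact (show sq.lift.app n w = u.app n ⟨w, hw⟩ from e).trans (huniq _ _ _ _ (Classical.choose_spec (htot n w hw)) hv)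

/-- the base point as a subcomplex -/
def ptSub (K : PSSet) : K.toSSet.Subcomplex where
  obj n := {x | x = (K.obj n).point}
  map φ x hx := by
    have hx' : x = (K.obj _).point := hx
    show (K.map φ).toFun x = _
    rw [hx']
    exact (K.map φ).map_point

/-- a simplex of `Δ[2]` lies in the horn `Λ[2,1]` iff it lies in the face `2` or in the face `0` -/
theorem mem_horn_iff_face {n : SimplexCategoryᵒᵖ} (x : (Δ[2] : SSet.{0}).obj n) :
    x ∈ (Λ[2, 1] : (Δ[2] : SSet.{0}).Subcomplex).obj n ↔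
      (∃ s : n.unop ⟶ ⦋1⦌, SSet.stdSimplex.objEquiv x = s ≫ SimplexCategory.δ (2 : Fin 3)) ∨
      (∃ s : n.unop ⟶ ⦋1⦌, SSet.stdSimplex.objEquiv x = s ≫ SimplexCategory.δ (0 : Fin 3)) := by
  constructor
  · intro h
    obtain ⟨j, hj⟩ := (Set.ne_univ_iff_exists_notMem _).1 h
    have hj1 : j ≠ 1 := fun e => hj (Or.inr e)
    have hjr : ∀ i, (SSet.stdSimplex.objEquiv x).toOrderHom i ≠ j := fun i e => hj (Or.inl ⟨i, e⟩)
    have hj02 : j = 2 ∨ j = 0 := by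
      revert hj1
      clear hj hjr
      revert j
      decide
    rcases hj02 with rfl | rfl
    · exact Or.inl ⟨_, eq_face_of_ne _ 2 1 (by decide) hjr⟩
    · exact Or.inr ⟨_, eq_face_of_ne _ 0 0 (by decide) hjr⟩
  · have hf : ∀ (j : Fin 3) (s : n.unop ⟶ ⦋1⦌), j ≠ 1 → (∀ a : Fin 2, (SimplexCategory.δ j).toOrderHom a ≠ j) →
        SSet.stdSimplex.objEquiv x = s ≫ SimplexCategory.δ j → x ∈ (Λ[2, 1] : (Δ[2] : SSet.{0}).Subcomplex).obj n := by
      intro j s hj1 hj e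
      refine (Set.ne_univ_iff_exists_notMem _).2 ⟨j, ?_⟩
      rintro (⟨i, hi⟩ | h1)
      · exact hj (s.toOrderHom i) ((congrArg (fun r : n.unop ⟶ ⦋2⦌ => r.toOrderHom i) e).symm.trans hi)
      · exact hj1 h1
    rintro (⟨s, hs⟩ | ⟨s, hs⟩)
    · exact hf 2 s (by decide) (by decide) hs
    · exact hf 0 s (by decide) (by decide) hs

theorem app_mk_left {K X L : PSSet} (f : smash K X ⟶ L) {n : SimplexCategoryᵒᵖ} (x : X.obj n) :
    (f.app n).toFun (Smash.mk (K.obj n).point x) = (L.obj n).point := by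
  rw [Smash.mk_left]
  exact (f.app n).map_point

theorem app_mk_const {K L : PSSet} (f : smash K S1 ⟶ L) {n : SimplexCategoryᵒᵖ} (k : K.obj n) (s : n.unop ⟶ ⦋1⦌) (hs : IsConstHom s) :
    (f.app n).toFun (Smash.mk k (S1.mk s)) = (L.obj n).point := by
  rw [S1.mk_eq_point _ ((isConstHom_iff_not_surjective s).1 hs), Smash.mk_right]
  exact (f.app n).map_point

section surj

variable {K L : PSSet} (a b : smash K S1 ⟶ L)

/-- the graph of the map `* × Δ[2] ∪ K × Λ[2,1] ⟶ L` given by `a`, `b` -/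
def KGraph (n : SimplexCategoryᵒᵖ) (w : (K.toSSet ⊗ (Δ[2] : SSet.{0})).obj n) (v : L.obj n) : Prop :=
  (w.1 = (K.obj n).point ∧ v = (L.obj n).point) ∨
  (∃ s : n.unop ⟶ ⦋1⦌, SSet.stdSimplex.objEquiv w.2 = s ≫ SimplexCategory.δ (2 : Fin 3) ∧ v = (a.app n).toFun (Smash.mk w.1 (S1.mk s))) ∨
  (∃ s : n.unop ⟶ ⦋1⦌, SSet.stdSimplex.objEquiv w.2 = s ≫ SimplexCategory.δ (0 : Fin 3) ∧ v = (b.app n).toFun (Smash.mk w.1 (S1.mk s)))

variable {a b}

theorem KGraph.unique {n : SimplexCategoryᵒᵖ} {w : (K.toSSet ⊗ (Δ[2] : SSet.{0})).obj n} {v v' : L.obj n}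
    (h : KGraph a b n w v) (h' : KGraph a b n w v') : v = v' := by
  have m2 : Mono (SimplexCategory.δ (2 : Fin 3)) := inferInstance
  have m0 : Mono (SimplexCategory.δ (0 : Fin 3)) := inferInstance
  rcases h with ⟨hk, rfl⟩ | ⟨s, hs, rfl⟩ | ⟨s, hs, rfl⟩ <;>
  rcases h' with ⟨hk', rfl⟩ | ⟨s', hs', rfl⟩ | ⟨s', hs', rfl⟩
  · rfl
  · rw [hk]; exact (app_mk_left a _).symm
  · rw [hk]; exact (app_mk_left b _).symm
  · rw [hk']; exact app_mk_left a _
  · rw [(cancel_mono _).1 (hs.symm.trans hs')]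
  · obtain ⟨c, c'⟩ := isConst_of_two_faces s s' (hs.symm.trans hs')
    exact (app_mk_const a _ s c).trans (app_mk_const b _ s' c').symm
  · rw [hk']; exact app_mk_left b _
  · obtain ⟨c, c'⟩ := isConst_of_two_faces s' s (hs'.symm.trans hs)
    exact (app_mk_const b _ s c').trans (app_mk_const a _ s' c).symm
  · rw [(cancel_mono _).1 (hs.symm.trans hs')]

theorem KGraph.map {n n' : SimplexCategoryᵒᵖ} (ψ : n ⟶ n') {w : (K.toSSet ⊗ (Δ[2] : SSet.{0})).obj n} {v : L.obj n}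
    (h : KGraph a b n w v) : KGraph a b n' ((K.toSSet ⊗ (Δ[2] : SSet.{0})).map ψ w) ((L.map ψ).toFun v) := by
  rcases h with ⟨hk, rfl⟩ | ⟨s, hs, rfl⟩ | ⟨s, hs, rfl⟩
  · exact Or.inl ⟨(congrArg (K.map ψ).toFun hk).trans (K.map ψ).map_point, (L.map ψ).map_point⟩
  · exact Or.inr (Or.inl ⟨ψ.unop ≫ s, (congrArg (fun r => ψ.unop ≫ r) hs).trans (Category.assoc _ _ _).symm, app_map a ψ _⟩)
  · exact Or.inr (Or.inr ⟨ψ.unop ≫ s, (congrArg (fun r => ψ.unop ≫ r) hs).trans (Category.assoc _ _ _).symm, app_map b ψ _⟩)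

end surj

section descentK

variable {K L : PSSet} (U : (K.toSSet ⊗ (Δ[2] : SSet.{0})) ⟶ L.toSSet)
  (hUv : ∀ (n : SimplexCategoryᵒᵖ) (k : K.obj n) (x : (Δ[2] : SSet.{0}).obj n), x ∈ triVert.obj n → U.app n (k, x) = (L.obj n).point)
  (hUp : ∀ (n : SimplexCategoryᵒᵖ) (x : (Δ[2] : SSet.{0}).obj n), U.app n ((K.obj n).point, x) = (L.obj n).point)

/-- a map on `K × Δ[2]`, as a function on `K × Tri` -/
def triKFun {n : SimplexCategoryᵒᵖ} (k : K.obj n) (d : Tri.obj n) : L.obj n :=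
  Tri.lift (P := L.obj n) (fun s => U.app n (k, SSet.stdSimplex.objEquiv.symm s)) (fun _ hs => hUv n k _ hs) d

theorem triKFun_mk {n : SimplexCategoryᵒᵖ} (k : K.obj n) (s : n.unop ⟶ ⦋2⦌) :
    triKFun U hUv k (Tri.mk s) = U.app n (k, SSet.stdSimplex.objEquiv.symm s) :=
  Tri.lift_mk (P := L.obj n) (fun s => U.app n (k, SSet.stdSimplex.objEquiv.symm s)) (fun _ hs => hUv n k _ hs) s

/-- a map on `K × Δ[2]` that is constant on `K × vertices` and on `* × Δ[2]` descends to `K ∧ Tri` -/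
def triK : smash K Tri ⟶ L where
  app n := Smash.lift (C := L.obj n) (triKFun U hUv)
    (fun d => by
      induction d using Tri.ind with | h s => ?_
      rw [triKFun_mk]
      exact hUp n _)
    (fun _ => rfl)
  naturality n n' ψ := Smash.hom_ext fun k d => by
    induction d using Tri.ind with | h s => ?_
    show triKFun U hUv ((K.map ψ).toFun k) ((Tri.map ψ).toFun (Tri.mk s)) = (L.map ψ).toFun (triKFun U hUv k (Tri.mk s))
    rw [Tri.map_mk, triKFun_mk, triKFun_mk]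
    have := congrArg (fun r => r ((k, SSet.stdSimplex.objEquiv.symm s) : (K.toSSet ⊗ (Δ[2] : SSet.{0})).obj n)) (U.naturality ψ)
    exact this

theorem triK_mk {n : SimplexCategoryᵒᵖ} (k : K.obj n) (s : n.unop ⟶ ⦋2⦌) :
    ((triK U hUv hUp).app n).toFun (Smash.mk k (Tri.mk s)) = U.app n (k, SSet.stdSimplex.objEquiv.symm s) :=
  triKFun_mk U hUv k s

end descentK

/-- **Two maps `K ∧ S¹ ⟶ L` to a Kan complex are two sides of a map `K ∧ Tri ⟶ L`.** -/
theorem triK_surj (K L : PSSet) (hL : SSet.KanComplex L.toSSet) (a b : smash K S1 ⟶ L) :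
    ∃ F : smash K Tri ⟶ L, smashMap (𝟙 K) (triE 2) ≫ F = a ∧ smashMap (𝟙 K) (triE 0) ≫ F = b := by
  obtain ⟨U, hU⟩ := exists_ext_of_graph ((ptSub K).unionProd (Λ[2, 1] : (Δ[2] : SSet.{0}).Subcomplex))
    (SSet.anodyneExtensions_unionProd_ι _ _ (SSet.anodyneExtensions.horn_ι (n := 2) 1)) L hL (KGraph a b)
    (fun _ _ _ _ h h' => h.unique h') (fun _ _ ψ _ _ h => h.map ψ)
    (fun n w hw => by
      rcases (SSet.Subcomplex.mem_unionProd_iff _ _ w).1 hw with h | h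
      · rcases (mem_horn_iff_face w.2).1 h with ⟨s, hs⟩ | ⟨s, hs⟩
        · exact ⟨_, Or.inr (Or.inl ⟨s, hs, rfl⟩)⟩
        · exact ⟨_, Or.inr (Or.inr ⟨s, hs, rfl⟩)⟩
      · exact ⟨_, Or.inl ⟨h, rfl⟩⟩)
    (fun n w v h => by
      refine (SSet.Subcomplex.mem_unionProd_iff _ _ w).2 ?_
      rcases h with ⟨hk, -⟩ | ⟨s, hs, -⟩ | ⟨s, hs, -⟩
      · exact Or.inr hk
      · exact Or.inl ((mem_horn_iff_face w.2).2 (Or.inl ⟨s, hs⟩))
      · exact Or.inl ((mem_horn_iff_face w.2).2 (Or.inr ⟨s, hs⟩)))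
  have hUv : ∀ (n : SimplexCategoryᵒᵖ) (k : K.obj n) (x : (Δ[2] : SSet.{0}).obj n), x ∈ triVert.obj n →
      U.app n (k, x) = (L.obj n).point := by
    intro n k x hx
    obtain ⟨j, s', hj, hs', e⟩ := IsConstHom.exists_face hx
    rcases hj with rfl | rfl
    · exact hU n (k, x) _ (Or.inr (Or.inl ⟨s', e, (app_mk_const a k s' hs').symm⟩))
    · exact hU n (k, x) _ (Or.inr (Or.inr ⟨s', e, (app_mk_const b k s' hs').symm⟩))
  have hUp : ∀ (n : SimplexCategoryᵒᵖ) (x : (Δ[2] : SSet.{0}).obj n), U.app n ((K.obj n).point, x) = (L.obj n).point :=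
    fun n x => hU n ((K.obj n).point, x) _ (Or.inl ⟨rfl, rfl⟩)
  refine ⟨triK U hUv hUp, smashS1_hom_ext fun n k s => ?_, smashS1_hom_ext fun n k s => ?_⟩
  · show ((triK U hUv hUp).app n).toFun (Smash.mk k (((triE 2).app n).toFun (S1.mk s))) = _
    rw [triE_mk, triK_mk]
    exact hU n _ _ (Or.inr (Or.inl ⟨s, Equiv.apply_symm_apply _ _, rfl⟩))
  · show ((triK U hUv hUp).app n).toFun (Smash.mk k (((triE 0).app n).toFun (S1.mk s))) = _
    rw [triE_mk, triK_mk]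
    exact hU n _ _ (Or.inr (Or.inr ⟨s, Equiv.apply_symm_apply _ _, rfl⟩))

section inj

variable {K L : PSSet} (F G : smash K Tri ⟶ L) (H2 H0 : smash (smash K S1) I ⟶ L)

/-- the graph of the map on `(* × Δ[2] ∪ K × Λ[2,1]) × Δ[1] ∪ (K × Δ[2]) × ∂Δ[1]` given by `F`, `G`, `H2`, `H0` -/
def KHGraph (n : SimplexCategoryᵒᵖ) (w : ((K.toSSet ⊗ (Δ[2] : SSet.{0})) ⊗ (Δ[1] : SSet.{0})).obj n) (v : L.obj n) : Prop :=
  (w.2 = SSet.stdSimplex.const 1 0 n ∧ v = (F.app n).toFun (Smash.mk w.1.1 (Tri.mk (SSet.stdSimplex.objEquiv w.1.2)))) ∨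
  (w.2 = SSet.stdSimplex.const 1 1 n ∧ v = (G.app n).toFun (Smash.mk w.1.1 (Tri.mk (SSet.stdSimplex.objEquiv w.1.2)))) ∨
  (w.1.1 = (K.obj n).point ∧ v = (L.obj n).point) ∨
  (∃ s : n.unop ⟶ ⦋1⦌, SSet.stdSimplex.objEquiv w.1.2 = s ≫ SimplexCategory.δ (2 : Fin 3) ∧
    v = (H2.app n).toFun (Smash.mk (Smash.mk w.1.1 (S1.mk s)) (quot.mk ⊥ w.2))) ∨
  (∃ s : n.unop ⟶ ⦋1⦌, SSet.stdSimplex.objEquiv w.1.2 = s ≫ SimplexCategory.δ (0 : Fin 3) ∧
    v = (H0.app n).toFun (Smash.mk (Smash.mk w.1.1 (S1.mk s)) (quot.mk ⊥ w.2)))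

theorem appH_left (H : smash (smash K S1) I ⟶ L) {n : SimplexCategoryᵒᵖ} (x : S1.obj n) (b : I.obj n) :
    (H.app n).toFun (Smash.mk (Smash.mk (K.obj n).point x) b) = (L.obj n).point := by
  rw [Smash.mk_left]
  exact app_mk_left H b

theorem appH_const (H : smash (smash K S1) I ⟶ L) {n : SimplexCategoryᵒᵖ} (k : K.obj n) (s : n.unop ⟶ ⦋1⦌) (hs : IsConstHom s) (b : I.obj n) :
    (H.app n).toFun (Smash.mk (Smash.mk k (S1.mk s)) b) = (L.obj n).point := by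
  rw [S1.mk_eq_point _ ((isConstHom_iff_not_surjective s).1 hs), Smash.mk_right]
  exact app_mk_left H b

theorem app_smashMap_triE (j : Fin 3) (F : smash K Tri ⟶ L) {n : SimplexCategoryᵒᵖ} (k : K.obj n) (s : n.unop ⟶ ⦋1⦌) :
    ((smashMap (𝟙 K) (triE j) ≫ F).app n).toFun (Smash.mk k (S1.mk s)) = (F.app n).toFun (Smash.mk k (Tri.mk (s ≫ SimplexCategory.δ j))) := by
  rw [← triE_mk]
  rfl

theorem endK {H : smash (smash K S1) I ⟶ L} {ε : Fin 2} {j : Fin 3} {F : smash K Tri ⟶ L}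
    (h : incl (smash K S1) ε ≫ H = smashMap (𝟙 K) (triE j) ≫ F) {n : SimplexCategoryᵒᵖ} (k : K.obj n) (s : n.unop ⟶ ⦋1⦌)
    (x : n.unop ⟶ ⦋2⦌) (hx : x = s ≫ SimplexCategory.δ j) (t : (Δ[1] : SSet.{0}).obj n) (ht : t = SSet.stdSimplex.const 1 ε n) :
    (H.app n).toFun (Smash.mk (Smash.mk k (S1.mk s)) (quot.mk ⊥ t)) = (F.app n).toFun (Smash.mk k (Tri.mk x)) := by
  subst hx ht
  exact (app_end h (A := smash K S1) (Smash.mk k (S1.mk s))).trans (app_smashMap_triE j F k s)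

variable {F G H2 H0}

theorem KHGraph.unique (h20 : incl (smash K S1) 0 ≫ H2 = smashMap (𝟙 K) (triE 2) ≫ F)
    (h21 : incl (smash K S1) 1 ≫ H2 = smashMap (𝟙 K) (triE 2) ≫ G)
    (h00 : incl (smash K S1) 0 ≫ H0 = smashMap (𝟙 K) (triE 0) ≫ F)
    (h01 : incl (smash K S1) 1 ≫ H0 = smashMap (𝟙 K) (triE 0) ≫ G)
    {n : SimplexCategoryᵒᵖ} {w : ((K.toSSet ⊗ (Δ[2] : SSet.{0})) ⊗ (Δ[1] : SSet.{0})).obj n} {v v' : L.obj n}
    (h : KHGraph F G H2 H0 n w v) (h' : KHGraph F G H2 H0 n w v') : v = v' := by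
  have m2 : Mono (SimplexCategory.δ (2 : Fin 3)) := inferInstance
  have m0 : Mono (SimplexCategory.δ (0 : Fin 3)) := inferInstance
  rcases h with ⟨ht, rfl⟩ | ⟨ht, rfl⟩ | ⟨hk, rfl⟩ | ⟨s, hs, rfl⟩ | ⟨s, hs, rfl⟩ <;>
  rcases h' with ⟨ht', rfl⟩ | ⟨ht', rfl⟩ | ⟨hk', rfl⟩ | ⟨s', hs', rfl⟩ | ⟨s', hs', rfl⟩
  · rfl
  · exact absurd (ht.symm.trans ht') (const_zero_ne_one n)
  · rw [hk']; exact app_mk_left F _
  · exact (endK h20 _ s' _ hs' _ ht).symm
  · exact (endK h00 _ s' _ hs' _ ht).symm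
  · exact absurd (ht'.symm.trans ht) (const_zero_ne_one n)
  · rfl
  · rw [hk']; exact app_mk_left G _
  · exact (endK h21 _ s' _ hs' _ ht).symm
  · exact (endK h01 _ s' _ hs' _ ht).symm
  · rw [hk]; exact (app_mk_left F _).symm
  · rw [hk]; exact (app_mk_left G _).symm
  · rfl
  · rw [hk]; exact (appH_left H2 _ _).symm
  · rw [hk]; exact (appH_left H0 _ _).symm
  · exact endK h20 _ s _ hs _ ht'
  · exact endK h21 _ s _ hs _ ht'
  · rw [hk']; exact appH_left H2 _ _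
  · rw [(cancel_mono _).1 (hs.symm.trans hs')]
  · obtain ⟨c, c'⟩ := isConst_of_two_faces s s' (hs.symm.trans hs')
    exact (appH_const H2 _ s c _).trans (appH_const H0 _ s' c' _).symm
  · exact endK h00 _ s _ hs _ ht'
  · exact endK h01 _ s _ hs _ ht'
  · rw [hk']; exact appH_left H0 _ _
  · obtain ⟨c, c'⟩ := isConst_of_two_faces s' s (hs'.symm.trans hs)
    exact (appH_const H0 _ s c' _).trans (appH_const H2 _ s' c _).symm
  · rw [(cancel_mono _).1 (hs.symm.trans hs')]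

theorem KHGraph.map {n n' : SimplexCategoryᵒᵖ} (ψ : n ⟶ n') {w : ((K.toSSet ⊗ (Δ[2] : SSet.{0})) ⊗ (Δ[1] : SSet.{0})).obj n} {v : L.obj n}
    (h : KHGraph F G H2 H0 n w v) :
    KHGraph F G H2 H0 n' (((K.toSSet ⊗ (Δ[2] : SSet.{0})) ⊗ (Δ[1] : SSet.{0})).map ψ w) ((L.map ψ).toFun v) := by
  rcases h with ⟨ht, rfl⟩ | ⟨ht, rfl⟩ | ⟨hk, rfl⟩ | ⟨s, hs, rfl⟩ | ⟨s, hs, rfl⟩
  · exact Or.inl ⟨congrArg ((Δ[1] : SSet.{0}).map ψ) ht, app_map F ψ _⟩
  · exact Or.inr (Or.inl ⟨congrArg ((Δ[1] : SSet.{0}).map ψ) ht, app_map G ψ _⟩)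
  · exact Or.inr (Or.inr (Or.inl ⟨(congrArg (K.map ψ).toFun hk).trans (K.map ψ).map_point, (L.map ψ).map_point⟩))
  · exact Or.inr (Or.inr (Or.inr (Or.inl ⟨ψ.unop ≫ s, (congrArg (fun r => ψ.unop ≫ r) hs).trans (Category.assoc _ _ _).symm, app_map H2 ψ _⟩)))
  · exact Or.inr (Or.inr (Or.inr (Or.inr ⟨ψ.unop ≫ s, (congrArg (fun r => ψ.unop ≫ r) hs).trans (Category.assoc _ _ _).symm, app_map H0 ψ _⟩)))

end inj

section descentKH

variable {K L : PSSet} (U : ((K.toSSet ⊗ (Δ[2] : SSet.{0})) ⊗ (Δ[1] : SSet.{0})) ⟶ L.toSSet)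
  (hUv : ∀ (n : SimplexCategoryᵒᵖ) (k : K.obj n) (x : (Δ[2] : SSet.{0}).obj n) (t : (Δ[1] : SSet.{0}).obj n),
    x ∈ triVert.obj n → U.app n ((k, x), t) = (L.obj n).point)
  (hUp : ∀ (n : SimplexCategoryᵒᵖ) (x : (Δ[2] : SSet.{0}).obj n) (t : (Δ[1] : SSet.{0}).obj n),
    U.app n (((K.obj n).point, x), t) = (L.obj n).point)

/-- a map on `K × Δ[2] × Δ[1]`, as a function on `K × Tri`, for a fixed simplex of `Δ[1]` -/
def triKHFun {n : SimplexCategoryᵒᵖ} (t : (Δ[1] : SSet.{0}).obj n) (k : K.obj n) (d : Tri.obj n) : L.obj n :=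
  Tri.lift (P := L.obj n) (fun s => U.app n ((k, SSet.stdSimplex.objEquiv.symm s), t)) (fun _ hs => hUv n k _ t hs) d

theorem triKHFun_mk {n : SimplexCategoryᵒᵖ} (t : (Δ[1] : SSet.{0}).obj n) (k : K.obj n) (s : n.unop ⟶ ⦋2⦌) :
    triKHFun U hUv t k (Tri.mk s) = U.app n ((k, SSet.stdSimplex.objEquiv.symm s), t) :=
  Tri.lift_mk (P := L.obj n) (fun s => U.app n ((k, SSet.stdSimplex.objEquiv.symm s), t)) (fun _ hs => hUv n k _ t hs) s

/-- the same as a pointed map on `K ∧ Tri` -/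
def triKHt {n : SimplexCategoryᵒᵖ} (t : (Δ[1] : SSet.{0}).obj n) : Smash (K.obj n) (Tri.obj n) ⟶ L.obj n :=
  Smash.lift (C := L.obj n) (triKHFun U hUv t)
    (fun d => by
      induction d using Tri.ind with | h s => ?_
      rw [triKHFun_mk]
      exact hUp n _ t)
    (fun _ => rfl)

/-- a map on `K × Δ[2] × Δ[1]` that is constant on `K × vertices × Δ[1]` and on `* × Δ[2] × Δ[1]` descends to `(K ∧ Tri) ∧ Δ[1]₊` -/
def triKH : smash (smash K Tri) I ⟶ L where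
  app n := Smash.lift (C := L.obj n) (fun y b => plusLift (P := L.obj n) (fun t => (triKHt U hUv hUp t).toFun y) b)
    (fun b => by
      induction b using plus_ind with
      | h0 => rfl
      | h t => exact (triKHt U hUv hUp t).map_point)
    (fun _ => rfl)
  naturality n n' ψ := Smash.hom_ext fun y b => by
    induction y using Smash.ind with | h k d => ?_
    induction d using Tri.ind with | h s => ?_
    induction b using plus_ind with
    | h0 => exact (L.map ψ).map_point.symm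
    | h t =>
      show triKHFun U hUv ((Δ[1] : SSet.{0}).map ψ t) ((K.map ψ).toFun k) ((Tri.map ψ).toFun (Tri.mk s))
        = (L.map ψ).toFun (triKHFun U hUv t k (Tri.mk s))
      rw [Tri.map_mk, triKHFun_mk, triKHFun_mk]
      have := congrArg (fun r => r (((k, SSet.stdSimplex.objEquiv.symm s), t) :
        ((K.toSSet ⊗ (Δ[2] : SSet.{0})) ⊗ (Δ[1] : SSet.{0})).obj n)) (U.naturality ψ)
      exact this

theorem incl_triKH_mk (ε : Fin 2) {n : SimplexCategoryᵒᵖ} (k : K.obj n) (s : n.unop ⟶ ⦋2⦌) :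
    ((incl (smash K Tri) ε ≫ triKH U hUv hUp).app n).toFun (Smash.mk k (Tri.mk s))
      = U.app n ((k, SSet.stdSimplex.objEquiv.symm s), SSet.stdSimplex.const 1 ε n) :=
  triKHFun_mk U hUv _ k s

end descentKH

theorem smashTri_hom_ext {A Y : PSSet} {f g : smash A Tri ⟶ Y}
    (h : ∀ (n : SimplexCategoryᵒᵖ) (a : A.obj n) (s : n.unop ⟶ ⦋2⦌),
      (f.app n).toFun (Smash.mk a (Tri.mk s)) = (g.app n).toFun (Smash.mk a (Tri.mk s))) : f = g :=
  NatTrans.ext (funext fun n => Smash.hom_ext fun a b => by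
    induction b using Tri.ind with | h s => exact h n a s)

/-- **Homotopies on two sides of `K ∧ Tri` extend.** -/
theorem triK_inj (K L : PSSet) (hL : SSet.KanComplex L.toSSet) (F G : smash K Tri ⟶ L)
    (h2 : Homotopy (smashMap (𝟙 K) (triE 2) ≫ F) (smashMap (𝟙 K) (triE 2) ≫ G))
    (h0 : Homotopy (smashMap (𝟙 K) (triE 0) ≫ F) (smashMap (𝟙 K) (triE 0) ≫ G)) : Homotopy F G := by
  obtain ⟨H2, h20, h21⟩ := h2
  obtain ⟨H0, h00, h01⟩ := h0
  have hc : ∀ (n : SimplexCategoryᵒᵖ) (ε : Fin 2),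
      (SSet.stdSimplex.const 1 ε n : (Δ[1] : SSet.{0}).obj n) ∈ (∂Δ[1] : (Δ[1] : SSet.{0}).Subcomplex).obj n :=
    fun n ε => (isConstHom_iff_not_surjective (SSet.stdSimplex.objEquiv (SSet.stdSimplex.const 1 ε n : (Δ[1] : SSet.{0}).obj n))).1
      ⟨ε, fun _ => rfl⟩
  obtain ⟨U, hU⟩ := exists_ext_of_graph
    (((ptSub K).unionProd (Λ[2, 1] : (Δ[2] : SSet.{0}).Subcomplex)).unionProd (∂Δ[1] : (Δ[1] : SSet.{0}).Subcomplex))
    (SSet.anodyneExtensions_unionProd_ι' _ _ (SSet.anodyneExtensions_unionProd_ι _ _ (SSet.anodyneExtensions.horn_ι (n := 2) 1)))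
    L hL (KHGraph F G H2 H0)
    (fun _ _ _ _ h h' => h.unique h20 h21 h00 h01 h') (fun _ _ ψ _ _ h => h.map ψ)
    (fun n w hw => by
      rcases (SSet.Subcomplex.mem_unionProd_iff _ _ w).1 hw with h | h
      · rcases eq_const_of_isConst w.2 ((isConstHom_iff_not_surjective _).2 h) with e | e
        · exact ⟨_, Or.inl ⟨e, rfl⟩⟩
        · exact ⟨_, Or.inr (Or.inl ⟨e, rfl⟩)⟩
      · rcases (SSet.Subcomplex.mem_unionProd_iff _ _ w.1).1 h with h | h
        · rcases (mem_horn_iff_face w.1.2).1 h with ⟨s, hs⟩ | ⟨s, hs⟩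
          · exact ⟨_, Or.inr (Or.inr (Or.inr (Or.inl ⟨s, hs, rfl⟩)))⟩
          · exact ⟨_, Or.inr (Or.inr (Or.inr (Or.inr ⟨s, hs, rfl⟩)))⟩
        · exact ⟨_, Or.inr (Or.inr (Or.inl ⟨h, rfl⟩))⟩)
    (fun n w v h => by
      refine (SSet.Subcomplex.mem_unionProd_iff _ _ w).2 ?_
      rcases h with ⟨ht, -⟩ | ⟨ht, -⟩ | ⟨hk, -⟩ | ⟨s, hs, -⟩ | ⟨s, hs, -⟩
      · exact Or.inl (ht ▸ hc n 0)
      · exact Or.inl (ht ▸ hc n 1)
      · exact Or.inr ((SSet.Subcomplex.mem_unionProd_iff _ _ w.1).2 (Or.inr hk))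
      · exact Or.inr ((SSet.Subcomplex.mem_unionProd_iff _ _ w.1).2 (Or.inl ((mem_horn_iff_face w.1.2).2 (Or.inl ⟨s, hs⟩))))
      · exact Or.inr ((SSet.Subcomplex.mem_unionProd_iff _ _ w.1).2 (Or.inl ((mem_horn_iff_face w.1.2).2 (Or.inr ⟨s, hs⟩)))))
  have hUv : ∀ (n : SimplexCategoryᵒᵖ) (k : K.obj n) (x : (Δ[2] : SSet.{0}).obj n) (t : (Δ[1] : SSet.{0}).obj n),
      x ∈ triVert.obj n → U.app n ((k, x), t) = (L.obj n).point := by
    intro n k x t hx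
    obtain ⟨j, s', hj, hs', e⟩ := IsConstHom.exists_face hx
    rcases hj with rfl | rfl
    · exact hU n ((k, x), t) _ (Or.inr (Or.inr (Or.inr (Or.inl ⟨s', e, (appH_const H2 k s' hs' _).symm⟩))))
    · exact hU n ((k, x), t) _ (Or.inr (Or.inr (Or.inr (Or.inr ⟨s', e, (appH_const H0 k s' hs' _).symm⟩))))
  have hUp : ∀ (n : SimplexCategoryᵒᵖ) (x : (Δ[2] : SSet.{0}).obj n) (t : (Δ[1] : SSet.{0}).obj n),
      U.app n (((K.obj n).point, x), t) = (L.obj n).point :=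
    fun n x t => hU n (((K.obj n).point, x), t) _ (Or.inr (Or.inr (Or.inl ⟨rfl, rfl⟩)))
  refine ⟨triKH U hUv hUp, smashTri_hom_ext fun n k s => ?_, smashTri_hom_ext fun n k s => ?_⟩
  · rw [incl_triKH_mk]
    exact hU n _ _ (Or.inl ⟨rfl, congrArg (fun y => (F.app n).toFun (Smash.mk k (Tri.mk y))) (Equiv.apply_symm_apply _ s).symm⟩)
  · rw [incl_triKH_mk]
    exact hU n _ _ (Or.inr (Or.inl ⟨rfl, congrArg (fun y => (G.app n).toFun (Smash.mk k (Tri.mk y))) (Equiv.apply_symm_apply _ s).symm⟩))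

/-- the version with chains of homotopies -/
theorem triK_inj' (K L : PSSet) (hL : SSet.KanComplex L.toSSet) (F G : smash K Tri ⟶ L)
    (h2 : Homotopic (smashMap (𝟙 K) (triE 2) ≫ F) (smashMap (𝟙 K) (triE 2) ≫ G))
    (h0 : Homotopic (smashMap (𝟙 K) (triE 0) ≫ F) (smashMap (𝟙 K) (triE 0) ≫ G)) : Homotopic F G := by
  have hrefl : ∀ {A : PSSet} (x : A ⟶ L), Homotopy x x := fun {A} x =>
    ⟨proj A ≫ x, by rw [← Category.assoc, incl_proj, Category.id_comp], by rw [← Category.assoc, incl_proj, Category.id_comp]⟩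
  have key2 : ∀ a a' : smash K S1 ⟶ L, Homotopic a a' → ∀ F G : smash K Tri ⟶ L, smashMap (𝟙 K) (triE 2) ≫ F = a →
      smashMap (𝟙 K) (triE 2) ≫ G = a' → smashMap (𝟙 K) (triE 0) ≫ F = smashMap (𝟙 K) (triE 0) ≫ G → Homotopic F G := by
    intro a a' h
    induction h with
    | rel a a' h =>
      rintro F G rfl rfl e0
      exact .rel _ _ (triK_inj K L hL F G h (e0 ▸ hrefl _))
    | refl a =>
      rintro F G rfl e2 e0
      exact .rel _ _ (triK_inj K L hL F G (e2 ▸ hrefl _) (e0 ▸ hrefl _))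
    | symm a a' _ ih =>
      intro F G e2 e2' e0
      exact .symm _ _ (ih G F e2' e2 e0.symm)
    | trans a b c _ _ ih ih' =>
      intro F G e2 e2' e0
      obtain ⟨M, hM2, hM0⟩ := triK_surj K L hL b (smashMap (𝟙 K) (triE 0) ≫ F)
      exact .trans _ _ _ (ih F M e2 hM2 hM0.symm) (ih' M G hM2 e2' (hM0.trans e0))
  have key0 : ∀ b b' : smash K S1 ⟶ L, Homotopic b b' → ∀ F G : smash K Tri ⟶ L, smashMap (𝟙 K) (triE 0) ≫ F = b →
      smashMap (𝟙 K) (triE 0) ≫ G = b' → smashMap (𝟙 K) (triE 2) ≫ F = smashMap (𝟙 K) (triE 2) ≫ G → Homotopic F G := by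
    intro b b' h
    induction h with
    | rel b b' h =>
      rintro F G rfl rfl e2
      exact .rel _ _ (triK_inj K L hL F G (e2 ▸ hrefl _) h)
    | refl b =>
      rintro F G rfl e0 e2
      exact .rel _ _ (triK_inj K L hL F G (e2 ▸ hrefl _) (e0 ▸ hrefl _))
    | symm b b' _ ih =>
      intro F G e0 e0' e2
      exact .symm _ _ (ih G F e0' e0 e2.symm)
    | trans b c d _ _ ih ih' =>
      intro F G e0 e0' e2
      obtain ⟨M, hM2, hM0⟩ := triK_surj K L hL (smashMap (𝟙 K) (triE 2) ≫ F) c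
      exact .trans _ _ _ (ih F M e0 hM0 hM2.symm) (ih' M G hM0 e0' (hM2.trans e2))
  obtain ⟨M, hM2, hM0⟩ := triK_surj K L hL (smashMap (𝟙 K) (triE 2) ≫ G) (smashMap (𝟙 K) (triE 0) ≫ F)
  exact .trans _ _ _ (key2 _ _ h2 F M rfl hM2 hM0.symm) (key0 _ _ h0 M G hM0 rfl hM2)

end PSSet

end Claimed.Open.R319
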