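import Claimed.Open.R319.SanitySumsPi
import Claimed.Open.R319.SanityTriK

/-!
# Sanity (result 319): sums exist in `π_k Y` for every `k ∈ ℤ`, and in `[Σ^∞ (K ∧ S¹), Y]` for every `K`

`Σ^∞ (K ∧ S¹) ∨ Σ^∞ (K ∧ S¹) ⟶ Σ^∞ (K ∧ Tri)` is a stable equivalence (`Sp.stableEquiv_triKDesc`, from `triK_surj`, `triK_inj'` and `[Σ^∞ X, E] = [X, E_0]`), so every suspension spectrum of a
suspension has a pinch map (`Sp.hasPinch_susp`).  With `SanitySumsPi.lean`: **any two elements of `π_k Y` have a sum, for every `k ∈ ℤ` and every `Y`** (`SH.exists_isSum_π`).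
-/

open CategoryTheory

namespace Claimed.Open.R319

open PSSet

namespace Sp

/-- `Σ^∞` on maps -/
def suspMap {X Y : PSSet} (f : X ⟶ Y) : suspSpec X ⟶ suspSpec Y := suspLift (K := X) (E := suspSpec Y) f

theorem suspMap_map_zero {X Y : PSSet} (f : X ⟶ Y) : (suspMap f).map 0 = f := rfl

theorem susp_hom_ext {X : PSSet} {E : Sp} {h h' : suspSpec X ⟶ E} (e : h.map 0 = h'.map 0) : h = h' := by
  rw [← suspLift_map_zero h, ← suspLift_map_zero h', e]

theorem suspMap_id (X : PSSet) : suspMap (𝟙 X) = 𝟙 (suspSpec X) := susp_hom_ext rfl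

theorem suspMap_comp {X Y Z : PSSet} (f : X ⟶ Y) (g : Y ⟶ Z) : suspMap f ≫ suspMap g = suspMap (f ≫ g) := susp_hom_ext rfl

theorem suspMap_zeroMap (X Y : PSSet) : suspMap (zeroMap X Y) = toPt (suspSpec X) ≫ fromPt (suspSpec Y) := susp_hom_ext rfl

theorem susp_homotopic_iff {X : PSSet} {E : Sp} {h h' : suspSpec X ⟶ E} : Homotopic h h' ↔ PSSet.Homotopic (h.map 0) (h'.map 0) := by
  refine ⟨fun H => H.map 0, fun H => ?_⟩
  have H' := Homotopic.suspLift (K := X) (E := E) H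
  have e : ∀ k : suspSpec X ⟶ E, suspLift (K := X) (E := E) (k.map 0) = k := suspLift_map_zero
  rwa [e, e] at H'

/-- **`Σ^∞ (K ∧ S¹) ∨ Σ^∞ (K ∧ S¹) ⟶ Σ^∞ (K ∧ Tri)` is a stable equivalence.** -/
theorem stableEquiv_triKDesc (K : PSSet) :
    stableEquiv (desc (suspMap (smashMap (𝟙 K) (triE 2))) (suspMap (smashMap (𝟙 K) (triE 0)))) := by
  intro E hE
  constructor
  · intro g
    obtain ⟨F, hF2, hF0⟩ := triK_surj K (E.level 0) (hE.kan 0) ((inl _ _ ≫ g).map 0) ((inr _ _ ≫ g).map 0)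
    refine ⟨suspLift F, ?_⟩
    have e2 : suspMap (smashMap (𝟙 K) (triE 2)) ≫ suspLift F = inl _ _ ≫ g := susp_hom_ext hF2
    have e0 : suspMap (smashMap (𝟙 K) (triE 0)) ≫ suspLift F = inr _ _ ≫ g := susp_hom_ext hF0
    rw [desc_comp, e2, e0, desc_eta]
    exact .refl _
  · intro h h' H
    have H2 := H.comp_left (inl _ _)
    have H0 := H.comp_left (inr _ _)
    rw [← Category.assoc, ← Category.assoc, inl_desc] at H2
    rw [← Category.assoc, ← Category.assoc, inr_desc] at H0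
    exact susp_homotopic_iff.2 (triK_inj' K (E.level 0) (hE.kan 0) _ _ (H2.map 0) (H0.map 0))

theorem smashMap_id_comp_of_eq_id (K : PSSet) {X Z : PSSet} {a : X ⟶ Z} {b : Z ⟶ X} (e : a ≫ b = 𝟙 X) :
    suspMap (smashMap (𝟙 K) a) ≫ suspMap (smashMap (𝟙 K) b) = 𝟙 _ := by
  rw [suspMap_comp, ← suspMap_id]
  congr 1
  exact NatTrans.ext (funext fun n => Smash.hom_ext fun k x =>
    congrArg (fun f : X ⟶ X => Smash.mk k ((f.app n).toFun x)) e)

theorem smashMap_id_comp_of_eq_zero (K : PSSet) {X Z : PSSet} {a : X ⟶ Z} {b : Z ⟶ X} (e : a ≫ b = zeroMap X X) :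
    suspMap (smashMap (𝟙 K) a) ≫ suspMap (smashMap (𝟙 K) b) = toPt _ ≫ fromPt _ := by
  rw [suspMap_comp, ← suspMap_zeroMap]
  congr 1
  exact NatTrans.ext (funext fun n => Smash.hom_ext fun k x =>
    (congrArg (fun f : X ⟶ X => Smash.mk k ((f.app n).toFun x)) e).trans (Smash.mk_right k))

/-- **Every `Σ^∞ (K ∧ S¹)` has a pinch map.** -/
theorem hasPinch_susp (K : PSSet) : HasPinch (suspSpec (PSSet.smash K S1)) :=
  ⟨suspSpec (PSSet.smash K Tri), suspMap (smashMap (𝟙 K) (triE 2)), suspMap (smashMap (𝟙 K) (triE 0)), suspMap (smashMap (𝟙 K) (triE 1)),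
    suspMap (smashMap (𝟙 K) (triR 1)), suspMap (smashMap (𝟙 K) (triR 0)), stableEquiv_triKDesc K,
    smashMap_id_comp_of_eq_id K triE_two_triR_one, smashMap_id_comp_of_eq_zero K triE_zero_triR_one,
    smashMap_id_comp_of_eq_id K triE_one_triR_one, smashMap_id_comp_of_eq_zero K triE_two_triR_zero,
    smashMap_id_comp_of_eq_id K triE_zero_triR_zero, smashMap_id_comp_of_eq_id K triE_one_triR_zero⟩

end Sp

namespace SH

open Sp

/-- **Any two morphisms `Σ^∞ (K ∧ S¹) ⟶ Y` of `SH` have a sum.** -/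
theorem exists_isSum_susp (K : PSSet) (Y : SH) (f g : Q.obj (suspSpec (PSSet.smash K S1)) ⟶ Y) : ∃ h, IsSum f g h :=
  exists_isSum_of_hasPinch (hasPinch_susp K) Y f g

/-- **Any two elements of `π_k Y` have a sum, for every `k ∈ ℤ` and every `Y`.** -/
theorem exists_isSum_π (k : ℤ) (Y : SH) (f g : π k Y) : ∃ h, IsSum f g h :=
  match k, f, g with
  | Int.ofNat 0, f, g => exists_isSum_sphere Y f g
  | Int.ofNat (n + 1), f, g => exists_isSum_susp (Sph n) Y f g
  | Int.negSucc n, f, g => exists_isSum_Dpow_sphere (n + 1) Y f g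

/-- Every multiple `n · 𝟙` of the identity exists on every sphere. -/
theorem exists_isNatMul_sphere_all (k : ℤ) (n : ℕ) : ∃ f : sphere k ⟶ sphere k, IsNatMul n f := by
  induction n with
  | zero => exact ⟨zeroHom _ _, isZeroMor_zeroHom _ _⟩
  | succ n ih =>
    obtain ⟨g, hg⟩ := ih
    obtain ⟨f, hf⟩ := exists_isSum_π k _ g (𝟙 _)
    exact ⟨f, g, hg, hf⟩

end SH

end Claimed.Open.R319
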