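import Claimed.Open.R319.SanityPinchTri

/-!
# Sanity (result 319): sums exist in `π_k Y` for every `k ≤ 0`

A *pinch map* on a spectrum `A` (`Sp.HasPinch A`): a spectrum `T` with maps `e₂, e₀, e₁ : A ⟶ T`, `r₁, r₀ : T ⟶ A` such that `(e₂, e₀) : A ∨ A ⟶ T` is a stable equivalence and `e₁` has both
components `𝟙`.  Then any two morphisms `Q A ⟶ Y` of `SH` have a sum (`SH.exists_isSum_of_hasPinch`).  The desuspension of a pinch map is a pinch map (`Sp.HasPinch.D`: the functor `D` preserves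
the coproduct, by the adjunction `[D X, E] = [X, sh E]`).  So **any two elements of `π_k Y`, `k ≤ 0`, have a sum** (`SH.exists_isSum_sphere_neg`).
-/

open CategoryTheory

namespace Claimed.Open.R319

open PSSet

namespace Sp

/-- A pinch map on the spectrum `A`. -/
def HasPinch (A : Sp) : Prop :=
  ∃ (T : Sp) (e2 e0 e1 : A ⟶ T) (r1 r0 : T ⟶ A), stableEquiv (desc e2 e0) ∧
    e2 ≫ r1 = 𝟙 A ∧ e0 ≫ r1 = toPt A ≫ fromPt A ∧ e1 ≫ r1 = 𝟙 A ∧
    e2 ≫ r0 = toPt A ≫ fromPt A ∧ e0 ≫ r0 = 𝟙 A ∧ e1 ≫ r0 = 𝟙 A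

/-- `D f` as a map `D X ⟶ D Y` -/
abbrev dMap {X Y : Sp} (f : X ⟶ Y) : X.D ⟶ Y.D := Dfun.map f

theorem dMap_comp_adjFrom {X Y E : Sp} (f : X ⟶ Y) (h : Y ⟶ E.sh) : dMap f ≫ adjFrom h = adjFrom (f ≫ h) :=
  Hom.ext (funext fun | 0 => PSSet.hom_ext_pt _ _ | _ + 1 => rfl)

theorem adjTo_dMap_comp {X Y E : Sp} (f : X ⟶ Y) (h : Y.D ⟶ E) : adjTo (dMap f ≫ h) = f ≫ adjTo h := rfl

/-- **The desuspension preserves coproducts**: if `(a, b) : X ∨ X' ⟶ Z` is a stable equivalence then so is `(D a, D b) : D X ∨ D X' ⟶ D Z`. -/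
theorem stableEquiv_desc_D {X X' Z : Sp} {a : X ⟶ Z} {b : X' ⟶ Z} (h : stableEquiv (desc a b)) :
    stableEquiv (desc (dMap a) (dMap b)) := by
  intro E hE
  obtain ⟨h1, h2⟩ := h E.sh hE.sh
  constructor
  · intro g
    obtain ⟨k, hk⟩ := h1 (desc (adjTo (inl X.D X'.D ≫ g)) (adjTo (inr X.D X'.D ≫ g)))
    refine ⟨adjFrom k, homotopic_of_components ?_ ?_⟩
    · have := (hk.comp_left (inl _ _)).adjFrom
      rw [← Category.assoc, inl_desc, inl_desc, adjFrom_adjTo] at this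
      rwa [← Category.assoc, inl_desc, dMap_comp_adjFrom]
    · have := (hk.comp_left (inr _ _)).adjFrom
      rw [← Category.assoc, inr_desc, inr_desc, adjFrom_adjTo] at this
      rwa [← Category.assoc, inr_desc, dMap_comp_adjFrom]
  · intro k k' hk
    have hl := (hk.comp_left (inl _ _)).adjTo
    have hr := (hk.comp_left (inr _ _)).adjTo
    rw [← Category.assoc, ← Category.assoc, inl_desc, adjTo_dMap_comp, adjTo_dMap_comp] at hl
    rw [← Category.assoc, ← Category.assoc, inr_desc, adjTo_dMap_comp, adjTo_dMap_comp] at hr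
    have := (h2 (adjTo k) (adjTo k') (homotopic_of_components
      (by rwa [← Category.assoc, ← Category.assoc, inl_desc]) (by rwa [← Category.assoc, ← Category.assoc, inr_desc]))).adjFrom
    rwa [adjFrom_adjTo, adjFrom_adjTo] at this

theorem dMap_id (A : Sp) : dMap (𝟙 A) = 𝟙 A.D := Dfun.map_id A

theorem dMap_comp {A B C : Sp} (f : A ⟶ B) (g : B ⟶ C) : dMap f ≫ dMap g = dMap (f ≫ g) := (Dfun.map_comp f g).symm

theorem dMap_zero (A B : Sp) : dMap (toPt A ≫ fromPt B) = toPt A.D ≫ fromPt B.D :=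
  Hom.ext (funext fun | 0 => PSSet.hom_ext_pt _ _ | _ + 1 => rfl)

/-- The desuspension of a pinch map is a pinch map. -/
theorem HasPinch.D {A : Sp} (h : HasPinch A) : HasPinch A.D := by
  obtain ⟨T, e2, e0, e1, r1, r0, hs, h21, h01, h11, h20, h00, h10⟩ := h
  refine ⟨T.D, dMap e2, dMap e0, dMap e1, dMap r1, dMap r0, stableEquiv_desc_D hs, ?_, ?_, ?_, ?_, ?_, ?_⟩
  · rw [dMap_comp, h21, dMap_id]
  · rw [dMap_comp, h01, dMap_zero]
  · rw [dMap_comp, h11, dMap_id]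
  · rw [dMap_comp, h20, dMap_zero]
  · rw [dMap_comp, h00, dMap_id]
  · rw [dMap_comp, h10, dMap_id]

theorem TT_map_zeroMap (X Y : PSSet) : TT.map (zeroMap X Y) = toPt (TT X) ≫ fromPt (TT Y) := TT.hom_ext rfl

/-- The pinch map of `Σ⁻¹ Σ^∞ S¹`. -/
theorem hasPinch_TT : HasPinch (TT S1) :=
  ⟨TT Tri, TT.map (triE 2), TT.map (triE 0), TT.map (triE 1), TT.map (triR 1), TT.map (triR 0), stableEquiv_triDesc,
    by rw [← TT.map_comp, triE_two_triR_one, TT.map_id], by rw [← TT.map_comp, triE_zero_triR_one, TT_map_zeroMap],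
    by rw [← TT.map_comp, triE_one_triR_one, TT.map_id], by rw [← TT.map_comp, triE_two_triR_zero, TT_map_zeroMap],
    by rw [← TT.map_comp, triE_zero_triR_zero, TT.map_id], by rw [← TT.map_comp, triE_one_triR_zero, TT.map_id]⟩

end Sp

namespace SH

open Sp

/-- **Any two morphisms of `SH` out of a spectrum with a pinch map have a sum.** -/
theorem exists_isSum_of_hasPinch {A : Sp} (hA : HasPinch A) (Y : SH) (f g : Q.obj A ⟶ Y) : ∃ h, IsSum f g h := by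
  obtain ⟨T, e2, e0, e1, r1, r0, hs, h21, h01, h11, h20, h00, h10⟩ := hA
  have hc : IsCoprod (Q.map e2) (Q.map e0) := by
    have : IsIso (Q.map (desc e2 e0)) := Sp.stableEquiv.Q_inverts _ hs
    have h := isCoprod_comp_iso (isCoprod_wedge A A) (Q.map (desc e2 e0))
    rwa [← Q.map_comp, ← Q.map_comp, Sp.inl_desc, Sp.inr_desc] at h
  have id_of : ∀ {a : A ⟶ T} {b : T ⟶ A}, a ≫ b = 𝟙 A → ∀ k : Q.obj A ⟶ Y, Q.map a ≫ Q.map b ≫ k = k := by
    intro a b e k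
    rw [← Category.assoc, ← Q.map_comp, e, Q.map_id, Category.id_comp]
  have zero_of : ∀ {a : A ⟶ T} {b : T ⟶ A}, a ≫ b = toPt A ≫ fromPt A → ∀ k : Q.obj A ⟶ Y, Q.map a ≫ Q.map b ≫ k = zeroHom _ _ := by
    intro a b e k
    rw [← Category.assoc, ← Q.map_comp, e, Q.map_comp]
    exact (IsZeroMor.comp_right ⟨zero, _, _, isZero_zero, rfl⟩ k).unique (isZeroMor_zeroHom _ _)
  obtain ⟨d, ⟨hd1, hd2⟩, -⟩ := hc (wob Y Y) (f ≫ il Y Y) (g ≫ ir Y Y)
  have k1 : d ≫ pr₁ Y = Q.map r1 ≫ f := by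
    obtain ⟨_, -, hu⟩ := hc Y f (zeroHom _ _)
    rw [hu (d ≫ pr₁ Y) ⟨by rw [← Category.assoc, hd1, Category.assoc, il_pr₁, Category.comp_id],
        by rw [← Category.assoc, hd2, Category.assoc, ir_pr₁, comp_zeroHom]⟩,
      hu (Q.map r1 ≫ f) ⟨id_of h21 f, zero_of h01 f⟩]
  have k2 : d ≫ pr₂ Y = Q.map r0 ≫ g := by
    obtain ⟨_, -, hu⟩ := hc Y (zeroHom _ _) g
    rw [hu (d ≫ pr₂ Y) ⟨by rw [← Category.assoc, hd1, Category.assoc, il_pr₂, comp_zeroHom],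
        by rw [← Category.assoc, hd2, Category.assoc, ir_pr₂, Category.comp_id]⟩,
      hu (Q.map r0 ≫ g) ⟨zero_of h20 g, id_of h00 g⟩]
  have H := isSum_of_hom (Q.map e1 ≫ d)
  rw [Category.assoc, Category.assoc, k1, k2, id_of h11 f, id_of h10 g] at H
  exact ⟨_, H⟩

/-- The existence of sums is invariant under isomorphisms of the source. -/
theorem exists_isSum_of_iso {A B : SH} (θ : A ≅ B) (hB : ∀ (Y : SH) (f g : B ⟶ Y), ∃ h, IsSum f g h) (Y : SH) (f g : A ⟶ Y) :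
    ∃ h, IsSum f g h := by
  obtain ⟨h, H⟩ := hB Y (θ.inv ≫ f) (θ.inv ≫ g)
  refine ⟨θ.hom ≫ h, ?_⟩
  have := isSum_comp_left H θ.hom
  rwa [θ.hom_inv_id_assoc, θ.hom_inv_id_assoc] at this

theorem exists_hasPinch_Dpow {A : Sp} (hA : HasPinch A) : ∀ m : ℕ, ∃ A' : Sp, HasPinch A' ∧ Nonempty ((Dpow m).obj (Q.obj A) ≅ Q.obj A')
  | 0 => ⟨A, hA, ⟨Iso.refl _⟩⟩
  | m + 1 => by
    obtain ⟨A', h', ⟨e⟩⟩ := exists_hasPinch_Dpow hA m
    exact ⟨A'.D, h'.D, ⟨D.mapIso e⟩⟩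

/-- Sums exist in `[Σ^{-m} S^0, Y]`. -/
theorem exists_isSum_Dpow_sphere (m : ℕ) (Y : SH) (f g : (Dpow m).obj (sphere 0) ⟶ Y) : ∃ h, IsSum f g h := by
  obtain ⟨θ⟩ := nonempty_sphere_iso_TT
  obtain ⟨A', h', ⟨e⟩⟩ := exists_hasPinch_Dpow hasPinch_TT m
  exact exists_isSum_of_iso ((Dpow m).mapIso θ ≪≫ e) (exists_isSum_of_hasPinch h') Y f g

/-- **Any two elements of `π_k Y`, `k ≤ 0`, have a sum.** -/
theorem exists_isSum_sphere_neg (k : ℤ) (hk : k ≤ 0) (Y : SH) (f g : π k Y) : ∃ h, IsSum f g h :=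
  match k, hk, f, g with
  | Int.ofNat 0, _, f, g => exists_isSum_sphere Y f g
  | Int.ofNat (n + 1), hk, _, _ => absurd hk (by simp)
  | Int.negSucc n, _, f, g => exists_isSum_Dpow_sphere (n + 1) Y f g

end SH

end Claimed.Open.R319
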