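import Claimed.Open.R319.SanityNontrivial
import Claimed.Open.R319.SanityWords

/-!
# Sanity (result 319): the words `seqComp`, `IsTelescopeOf`, `towerObj`, `towerMap`, `towerIter`, `act`

`Statement.lean` defines the telescope `T(2)` as a cocone under `F ⟶ Σ^{-d}F ⟶ Σ^{-2d}F ⟶ ⋯` that induces `colim π_* ≅ π_* T` (`IsTelescopeOf`).
No other file tests this predicate.  Here:

* `SH.isTelescopeOf_const` : `X` (with identities) is a telescope of the constant sequence `X = X = ⋯` (an **example**, for every `X`, zero or not);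
* `SH.isTelescopeOf_of_isIso` : if all the maps of a sequence are isomorphisms, `F 0` is a telescope of it; `SH.isTelescopeOf_towerMap_of_isIso` : `F` is a telescope of an invertible self-map `v : F ≅ Σ^{-d}F`;
* `SH.IsTelescopeOf.subsingleton_π` : a telescope of a sequence of zero maps has `π_k = 0` for all `k`;
  `SH.isTelescopeOf_zero` : a zero object is a telescope of every sequence of zero maps;
  `SH.IsTelescopeOf.isZeroMor_of_towerIter` : if an iterate `v^N` is a zero map, then `F ⟶ T` is a zero map;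
* `SH.not_isTelescopeOf_const_sphere` : a zero object is **not** a telescope of `S = S = ⋯` (a **non-example**);
* `SH.IsTelescopeOf.piEquiv`, `piEquiv_comp` : two telescopes of the same sequence have the same homotopy sets, compatibly with the two cocones: the predicate determines `π_* T`
  (a bijection of sets for each `k`; NOT shown: that the two vertices are isomorphic in `SH`, which needs Whitehead's theorem in `SH`); `piEquivConst`; `SH.IsTelescopeOf.of_iso` (invariance under isomorphisms of the vertex);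
* `SH.seqComp_zero`, `SH.seqComp_one`, `SH.seqComp_const`, `SH.IsTelescopeOf.seqComp_comp` (a cocone is compatible with all the composites);
* `SH.towerIter_eq_seqComp` : the iterate `v^N` of `IsVnSelfMap` is the composite `seqComp (towerMap v) 0 N` of `IsTelescopeOf` (up to the cast `0 + N = N`); `SH.IsTelescopeOf.towerIter_comp`;
* `SH.act_one`, `SH.act_id` : the identity operation (degree `0`) acts as the identity on cohomology classes, and `a · 𝟙 = a` for the class `𝟙 ∈ H^0 H`.

Nothing here constructs a `v_n`-self-map or an example of `IsTelescope p n T`.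
-/

open CategoryTheory

namespace Claimed.Open.R319

namespace SH

theorem seqComp_zero {F : ℕ → SH} (f : ∀ N, F N ⟶ F (N + 1)) (N : ℕ) : seqComp f N 0 = 𝟙 _ := rfl

theorem seqComp_one {F : ℕ → SH} (f : ∀ N, F N ⟶ F (N + 1)) (N : ℕ) : seqComp f N 1 = f N :=
  Category.id_comp _

/-- A cocone is compatible with all the composites of the sequence. -/
theorem IsTelescopeOf.seqComp_comp {F : ℕ → SH} {f : ∀ N, F N ⟶ F (N + 1)} {T : SH}
    {j : ∀ N, F N ⟶ T} (h : IsTelescopeOf f j) (N M : ℕ) : seqComp f N M ≫ j (N + M) = j N := by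
  induction M with
  | zero => exact Category.id_comp _
  | succ M ih =>
    have := h.cocone (N + M)
    calc seqComp f N (M + 1) ≫ j (N + (M + 1))
        = seqComp f N M ≫ (f (N + M) ≫ j (N + M + 1)) := Category.assoc _ _ _
      _ = seqComp f N M ≫ j (N + M) := by rw [this]
      _ = j N := ih

theorem seqComp_const (X : SH) (N M : ℕ) :
    seqComp (F := fun _ => X) (fun _ => 𝟙 X) N M = 𝟙 X := by
  induction M with
  | zero => rfl
  | succ M ih =>
    show seqComp (F := fun _ => X) (fun _ => 𝟙 X) N M ≫ 𝟙 X = 𝟙 X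
    rw [ih, Category.comp_id]

/-- **Example.** `X` is a telescope of the constant sequence `X = X = ⋯`. -/
theorem isTelescopeOf_const (X : SH) :
    IsTelescopeOf (F := fun _ => X) (fun _ => 𝟙 X) (fun _ => 𝟙 X) where
  cocone _ := Category.id_comp _
  surj _ x := ⟨0, x, Category.comp_id _⟩
  inj _ _ _ _ h := ⟨0, h⟩

/-- **Non-example.** A zero object is not a telescope of the constant sequence `S = S = ⋯`. -/
theorem not_isTelescopeOf_const_sphere {T : SH} (hT : Limits.IsZero T)
    (j : ∀ _ : ℕ, sphere 0 ⟶ T) :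
    ¬ IsTelescopeOf (F := fun _ => sphere 0) (fun _ => 𝟙 (sphere 0)) j := by
  intro h
  obtain ⟨z, hz⟩ : ∃ z : sphere 0 ⟶ sphere 0, IsZeroMor z :=
    ⟨j 0 ≫ hT.to_ _, T, j 0, hT.to_ _, hT, rfl⟩
  obtain ⟨M, hM⟩ := h.inj 0 0 (𝟙 (sphere 0)) z (hT.eq_of_tgt _ _)
  rw [seqComp_const] at hM
  have : 𝟙 (sphere 0) = z := by simpa using hM
  exact not_isZeroMor_id_sphere_zero (this ▸ hz)

/-- The telescope of a sequence of zero maps has trivial homotopy. -/
theorem IsTelescopeOf.subsingleton_π {F : ℕ → SH} {f : ∀ N, F N ⟶ F (N + 1)} {T : SH}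
    {j : ∀ N, F N ⟶ T} (h : IsTelescopeOf f j) (h0 : ∀ N, IsZeroMor (f N)) (k : ℤ) :
    Subsingleton (π k T) := by
  have key : ∀ x : π k T, IsZeroMor x := by
    intro x
    obtain ⟨N, y, rfl⟩ := h.surj k x
    obtain ⟨Z, a, b, hZ, hab⟩ := h0 N
    refine ⟨Z, y ≫ a, b ≫ j (N + 1), hZ, ?_⟩
    rw [← h.cocone N, hab]
    simp only [Category.assoc]
  refine ⟨fun x x' => ?_⟩
  obtain ⟨Z, a, b, hZ, rfl⟩ := key x
  obtain ⟨Z', a', b', hZ', rfl⟩ := key x'
  have e1 : a = a' ≫ hZ'.to_ Z := hZ.eq_of_tgt _ _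
  have e2 : hZ'.to_ Z ≫ b = b' := hZ'.eq_of_src _ _
  rw [e1, Category.assoc, e2]

/-- A zero object is a telescope of every sequence of zero maps. -/
theorem isTelescopeOf_zero {F : ℕ → SH} (f : ∀ N, F N ⟶ F (N + 1)) (h0 : ∀ N, IsZeroMor (f N))
    {T : SH} (hT : Limits.IsZero T) (j : ∀ N, F N ⟶ T) : IsTelescopeOf f j where
  cocone _ := hT.eq_of_tgt _ _
  surj k x := ⟨0, x ≫ hT.to_ _, hT.eq_of_tgt _ _⟩
  inj k N y y' _ := by
    refine ⟨1, ?_⟩
    rw [seqComp_one]
    obtain ⟨Z, a, b, hZ, hab⟩ := h0 N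
    rw [hab, ← Category.assoc, ← Category.assoc, hZ.eq_of_tgt (y ≫ a) (y' ≫ a)]

/-! ### Sequences of isomorphisms -/

/-- The cocone `F N ≅ F 0` under a sequence of isomorphisms. -/
noncomputable def isoCocone {F : ℕ → SH} (f : ∀ N, F N ⟶ F (N + 1)) [∀ N, IsIso (f N)] :
    ∀ N, F N ⟶ F 0
  | 0 => 𝟙 _
  | N + 1 => inv (f N) ≫ isoCocone f N

instance isIso_isoCocone {F : ℕ → SH} (f : ∀ N, F N ⟶ F (N + 1)) [∀ N, IsIso (f N)] (N : ℕ) :
    IsIso (isoCocone f N) := by
  induction N with
  | zero => exact inferInstanceAs (IsIso (𝟙 _))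
  | succ N ih => exact inferInstanceAs (IsIso (inv (f N) ≫ isoCocone f N))

/-- **Example.** If all the maps of the sequence are isomorphisms, `F 0` is a telescope. -/
theorem isTelescopeOf_of_isIso {F : ℕ → SH} (f : ∀ N, F N ⟶ F (N + 1)) [∀ N, IsIso (f N)] :
    IsTelescopeOf f (isoCocone f) where
  cocone N := by
    show f N ≫ inv (f N) ≫ isoCocone f N = isoCocone f N
    simp
  surj _ x := ⟨0, x, Category.comp_id _⟩
  inj _ N y y' h := ⟨0, by
    have : y = y' := (cancel_mono (isoCocone f N)).1 h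
    rw [this]⟩

/-! ### The predicate determines `π_* T` -/

/-- If two classes at the stages `N` and `N + M` agree in one telescope, they agree in every cocone. -/
theorem IsTelescopeOf.transfer_add {F : ℕ → SH} {f : ∀ N, F N ⟶ F (N + 1)} {T T' : SH}
    {j : ∀ N, F N ⟶ T} {j' : ∀ N, F N ⟶ T'} (h : IsTelescopeOf f j) (h' : IsTelescopeOf f j')
    {k : ℤ} {N M : ℕ} (y : π k (F N)) (y' : π k (F (N + M))) (e : y ≫ j N = y' ≫ j (N + M)) :
    y ≫ j' N = y' ≫ j' (N + M) := by
  have e1 : (y ≫ seqComp f N M) ≫ j (N + M) = y' ≫ j (N + M) := by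
    rw [Category.assoc, h.seqComp_comp, e]
  obtain ⟨M', hM'⟩ := h.inj k (N + M) _ _ e1
  calc y ≫ j' N = y ≫ seqComp f N M ≫ j' (N + M) := by rw [h'.seqComp_comp]
    _ = y ≫ seqComp f N M ≫ seqComp f (N + M) M' ≫ j' (N + M + M') := by
        rw [h'.seqComp_comp (N + M) M']
    _ = ((y ≫ seqComp f N M) ≫ seqComp f (N + M) M') ≫ j' (N + M + M') := by
        simp only [Category.assoc]
    _ = (y' ≫ seqComp f (N + M) M') ≫ j' (N + M + M') := by rw [hM']
    _ = y' ≫ j' (N + M) := by rw [Category.assoc, h'.seqComp_comp]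

theorem IsTelescopeOf.transfer {F : ℕ → SH} {f : ∀ N, F N ⟶ F (N + 1)} {T T' : SH}
    {j : ∀ N, F N ⟶ T} {j' : ∀ N, F N ⟶ T'} (h : IsTelescopeOf f j) (h' : IsTelescopeOf f j')
    {k : ℤ} {N N' : ℕ} (y : π k (F N)) (y' : π k (F N')) (e : y ≫ j N = y' ≫ j N') :
    y ≫ j' N = y' ≫ j' N' := by
  rcases Nat.le_total N N' with hN | hN
  · obtain ⟨M, rfl⟩ := Nat.exists_eq_add_of_le hN
    exact h.transfer_add h' y y' e
  · obtain ⟨M, rfl⟩ := Nat.exists_eq_add_of_le hN
    exact (h.transfer_add h' y' y e.symm).symm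

/-- The comparison map `π_k T ⟶ π_k T'` of two telescopes of the same sequence. -/
noncomputable def IsTelescopeOf.piMap {F : ℕ → SH} {f : ∀ N, F N ⟶ F (N + 1)} {T T' : SH}
    {j : ∀ N, F N ⟶ T} (h : IsTelescopeOf f j) (j' : ∀ N, F N ⟶ T') (k : ℤ) (x : π k T) : π k T' :=
  (h.surj k x).choose_spec.choose ≫ j' (h.surj k x).choose

theorem IsTelescopeOf.piMap_comp {F : ℕ → SH} {f : ∀ N, F N ⟶ F (N + 1)} {T T' : SH}
    {j : ∀ N, F N ⟶ T} {j' : ∀ N, F N ⟶ T'} (h : IsTelescopeOf f j) (h' : IsTelescopeOf f j')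
    (k : ℤ) (N : ℕ) (y : π k (F N)) : h.piMap j' k (y ≫ j N) = y ≫ j' N :=
  h.transfer h' _ _ (h.surj k (y ≫ j N)).choose_spec.choose_spec

/-- **Two telescopes of the same sequence have the same homotopy sets**, compatibly with the cocones
(`piEquiv_comp`): `IsTelescopeOf` determines `π_* T`. -/
noncomputable def IsTelescopeOf.piEquiv {F : ℕ → SH} {f : ∀ N, F N ⟶ F (N + 1)} {T T' : SH}
    {j : ∀ N, F N ⟶ T} {j' : ∀ N, F N ⟶ T'} (h : IsTelescopeOf f j) (h' : IsTelescopeOf f j')
    (k : ℤ) : π k T ≃ π k T' where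
  toFun := h.piMap j' k
  invFun := h'.piMap j k
  left_inv x := by
    obtain ⟨N, y, rfl⟩ := h.surj k x
    rw [h.piMap_comp h', h'.piMap_comp h]
  right_inv x := by
    obtain ⟨N, y, rfl⟩ := h'.surj k x
    rw [h'.piMap_comp h, h.piMap_comp h']

theorem IsTelescopeOf.piEquiv_comp {F : ℕ → SH} {f : ∀ N, F N ⟶ F (N + 1)} {T T' : SH}
    {j : ∀ N, F N ⟶ T} {j' : ∀ N, F N ⟶ T'} (h : IsTelescopeOf f j) (h' : IsTelescopeOf f j')
    (k : ℤ) (N : ℕ) (y : π k (F N)) : h.piEquiv h' k (y ≫ j N) = y ≫ j' N :=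
  h.piMap_comp h' k N y

/-- Every telescope of the constant sequence `X = X = ⋯` has the homotopy sets of `X`. -/
noncomputable def IsTelescopeOf.piEquivConst {X T : SH} {j : ∀ _ : ℕ, X ⟶ T}
    (h : IsTelescopeOf (F := fun _ => X) (fun _ => 𝟙 X) j) (k : ℤ) : π k X ≃ π k T :=
  (isTelescopeOf_const X).piEquiv h k

/-- The predicate is invariant under isomorphisms of the vertex. -/
theorem IsTelescopeOf.of_iso {F : ℕ → SH} {f : ∀ N, F N ⟶ F (N + 1)} {T T' : SH}
    {j : ∀ N, F N ⟶ T} (h : IsTelescopeOf f j) (e : T ≅ T') :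
    IsTelescopeOf f (fun N => j N ≫ e.hom) where
  cocone N := by rw [← Category.assoc, h.cocone]
  surj k x := by
    obtain ⟨N, y, hy⟩ := h.surj k (x ≫ e.inv)
    exact ⟨N, y, by rw [← Category.assoc, hy, Category.assoc, e.inv_hom_id, Category.comp_id]⟩
  inj k N y y' hyy := h.inj k N y y' (by
    have := congrArg (· ≫ e.inv) hyy
    simpa using this)

/-! ### The tower of a self-map -/

theorem towerMap_eqToHom {d : ℕ} {F : SH} (v : F ⟶ (Dpow d).obj F) {a b : ℕ} (h : a = b) :
    eqToHom (by rw [h]) ≫ towerMap v b = towerMap v a ≫ eqToHom (by rw [h]) := by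
  subst h
  simp

/-- The iterate `v^N` used in `IsVnSelfMap` is the composite `F_0 ⟶ F_N` used in `IsTelescopeOf`. -/
theorem towerIter_eq_seqComp {d : ℕ} {F : SH} (v : F ⟶ (Dpow d).obj F) (N : ℕ) :
    towerIter v N = seqComp (towerMap v) 0 N ≫ eqToHom (by rw [Nat.zero_add]) := by
  induction N with
  | zero => exact (Category.id_comp _).symm
  | succ N ih =>
    exact (congrArg (· ≫ towerMap v N) ih).trans ((Category.assoc _ _ _).trans
      ((congrArg (seqComp (towerMap v) 0 N ≫ ·) (towerMap_eqToHom v (Nat.zero_add N))).trans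
        (Category.assoc _ _ _).symm))

/-- In a telescope of `v`, the cocone is compatible with the iterates of `v`. -/
theorem IsTelescopeOf.towerIter_comp {d : ℕ} {F T : SH} {v : F ⟶ (Dpow d).obj F}
    {j : ∀ N, towerObj d F N ⟶ T} (h : IsTelescopeOf (towerMap v) j) (N : ℕ) :
    towerIter v N ≫ j N = j 0 := by
  induction N with
  | zero => exact Category.id_comp _
  | succ N ih =>
    show (towerIter v N ≫ towerMap v N) ≫ j (N + 1) = j 0
    rw [Category.assoc, h.cocone, ih]

/-- If some iterate of `v` is a zero map, then the class of every element of `π_* F` dies in the telescope. -/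
theorem IsTelescopeOf.isZeroMor_of_towerIter {d : ℕ} {F T : SH} {v : F ⟶ (Dpow d).obj F}
    {j : ∀ N, towerObj d F N ⟶ T} (h : IsTelescopeOf (towerMap v) j) {N : ℕ}
    (h0 : IsZeroMor (towerIter v N)) : IsZeroMor (j 0) := by
  obtain ⟨Z, a, b, hZ, hab⟩ := h0
  exact ⟨Z, a, b ≫ j N, hZ, by rw [← h.towerIter_comp N, hab, Category.assoc]; rfl⟩

instance isIso_towerMap {d : ℕ} {F : SH} (v : F ⟶ (Dpow d).obj F) [IsIso v] (N : ℕ) :
    IsIso (towerMap v N) := by
  induction N with
  | zero => exact inferInstanceAs (IsIso v)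
  | succ N ih => exact inferInstanceAs (IsIso ((Dpow d).map (towerMap v N)))

/-- **Example.** `F` is a telescope of an invertible self-map `v : F ≅ Σ^{-d} F`. -/
theorem isTelescopeOf_towerMap_of_isIso {d : ℕ} {F : SH} (v : F ⟶ (Dpow d).obj F) [IsIso v] :
    IsTelescopeOf (T := F) (towerMap v) (isoCocone (towerMap v)) :=
  isTelescopeOf_of_isIso (towerMap v)

/-! ### The action of operations -/

/-- The identity, an operation of degree `0`, acts as the identity on cohomology classes. -/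
theorem act_one {X H : SH} {l : ℕ} (y : (Dpow l).obj X ⟶ H) :
    act (k := 0) (Nat.add_zero l) (𝟙 H) y = y := by
  show eqToHom (rfl : (Dpow l).obj X = (Dpow l).obj X) ≫ y ≫ 𝟙 H = y
  simp

/-- An operation acts on the class `𝟙 ∈ H^0 H` by `a · 𝟙 = a`. -/
theorem act_id {H : SH} {k : ℕ} (a : (Dpow k).obj H ⟶ H) :
    act (X := H) (l := 0) (Nat.zero_add k) a (𝟙 H) = a := by
  show eqToHom (rfl : (Dpow k).obj H = (Dpow k).obj H) ≫ (Dpow k).map (𝟙 H) ≫ a = a
  simp

end SH

end Claimed.Open.R319
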