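import Claimed.Open.R319.SanityTelescope

/-!
# Sanity (result 319): the telescope of a NILPOTENT self-map is trivial

`SanityTelescope.lean` shows that a telescope of a sequence of zero maps has `π_* = 0`, and that `F ⟶ T` is a zero map if an iterate `v^N` of the self-map `v : F ⟶ Σ^{-d} F` is a zero map.
Here the whole statement, in the words `towerMap`, `towerIter` of `IsTelescope` and `IsVnSelfMap`:

* `SH.IsTelescopeOf.subsingleton_π_of_nilpotent` : if from every stage of a sequence some composite `F_N ⟶ F_{N+M}` is a zero map, every telescope of it has `π_k = 0` for all `k`;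
  `SH.isTelescopeOf_zero_of_nilpotent` : and a zero object is a telescope of it;
* `SH.seqComp_towerMap_succ` : the composites of the tower of `v` that start at the stage `N + 1` are the desuspensions `Σ^{-d}` of those that start at the stage `N`;
  `SH.isZeroMor_Dpow_map` : `Σ^{-d}` preserves zero maps; `SH.isZeroMor_seqComp_towerMap` : if `v^M` is a zero map, so are all the composites of length `M` of the tower;
* **`SH.IsTelescopeOf.subsingleton_π_of_towerIter`** : **if `v^M` is a zero map, then every telescope `v⁻¹ F` has `π_k = 0` for all `k`**;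
  `SH.isTelescopeOf_towerMap_zero` : and a zero object is a telescope of `v`;
* `SH.IsTelescopeOf.bijective_of_isIso` : every telescope `(T, j)` of a sequence of isomorphisms has `j_0` bijective on `π_k` for all `k`.
-/

open CategoryTheory

namespace Claimed.Open.R319

namespace SH

/-- If from every stage some composite is a zero map, a telescope has trivial homotopy groups. -/
theorem IsTelescopeOf.subsingleton_π_of_nilpotent {F : ℕ → SH} {f : ∀ N, F N ⟶ F (N + 1)} {T : SH} {j : ∀ N, F N ⟶ T}
    (h : IsTelescopeOf f j) (hz : ∀ N, ∃ M, IsZeroMor (seqComp f N M)) (k : ℤ) : Subsingleton (π k T) := by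
  have key : ∀ x : π k T, IsZeroMor x := fun x => by
    obtain ⟨N, y, rfl⟩ := h.surj k x
    obtain ⟨M, hM⟩ := hz N
    rw [← h.seqComp_comp N M]
    exact (hM.comp_right _).comp_left y
  exact ⟨fun x x' => (key x).unique (key x')⟩

/-- A zero object is a telescope of every sequence in which from every stage some composite is a zero map. -/
theorem isTelescopeOf_zero_of_nilpotent {F : ℕ → SH} {f : ∀ N, F N ⟶ F (N + 1)} (hz : ∀ N, ∃ M, IsZeroMor (seqComp f N M))
    {T : SH} (hT : Limits.IsZero T) (j : ∀ N, F N ⟶ T) : IsTelescopeOf f j where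
  cocone _ := hT.eq_of_tgt _ _
  surj k x := ⟨0, x ≫ hT.to_ _, hT.eq_of_tgt _ _⟩
  inj k N y y' _ := by
    obtain ⟨M, hM⟩ := hz N
    exact ⟨M, (hM.comp_left y).unique (hM.comp_left y')⟩

theorem isZeroMor_Dpow_map {X Y : SH} {g : X ⟶ Y} (hg : IsZeroMor g) (d : ℕ) : IsZeroMor ((Dpow d).map g) := by
  obtain ⟨Z, a, b, hZ, rfl⟩ := hg
  exact ⟨_, _, _, isZero_Dpow_obj hZ d, Functor.map_comp _ _ _⟩

/-- The composites of the tower that start at the stage `N + 1` are the desuspensions of those that start at the stage `N`. -/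
theorem seqComp_towerMap_succ {d : ℕ} {F : SH} (v : F ⟶ (Dpow d).obj F) (N : ℕ) : ∀ M : ℕ,
    seqComp (towerMap v) (N + 1) M =
      (Dpow d).map (seqComp (towerMap v) N M) ≫ eqToHom (show towerObj d F (N + M + 1) = towerObj d F (N + 1 + M) by rw [Nat.add_right_comm])
  | 0 => ((congrArg (· ≫ 𝟙 _) ((Dpow d).map_id _)).trans (Category.comp_id _)).symm
  | M + 1 =>
    (congrArg (· ≫ towerMap v (N + 1 + M)) (seqComp_towerMap_succ v N M)).trans
      ((Category.assoc _ _ _).trans
        ((congrArg ((Dpow d).map (seqComp (towerMap v) N M) ≫ ·) (towerMap_eqToHom v (Nat.add_right_comm N M 1))).trans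
          ((Category.assoc _ _ _).symm.trans
            (congrArg (· ≫ eqToHom _) ((Dpow d).map_comp _ _).symm))))

theorem isZeroMor_of_comp_eqToHom {X Y Y' : SH} (g : X ⟶ Y) (h : Y = Y') (hz : IsZeroMor (g ≫ eqToHom h)) : IsZeroMor g := by
  subst h
  rwa [eqToHom_refl, Category.comp_id] at hz

/-- If `v^M` is a zero map, so are all the composites of length `M` of the tower of `v`. -/
theorem isZeroMor_seqComp_towerMap {d : ℕ} {F : SH} {v : F ⟶ (Dpow d).obj F} {M : ℕ} (h0 : IsZeroMor (towerIter v M)) :
    ∀ N : ℕ, IsZeroMor (seqComp (towerMap v) N M)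
  | 0 => isZeroMor_of_comp_eqToHom _ _ (Eq.mp (congrArg IsZeroMor (towerIter_eq_seqComp v M)) h0)
  | N + 1 => by
    rw [seqComp_towerMap_succ]
    exact (isZeroMor_Dpow_map (isZeroMor_seqComp_towerMap h0 N) d).comp_right _

/-- **The telescope of a nilpotent self-map has trivial homotopy groups.** -/
theorem IsTelescopeOf.subsingleton_π_of_towerIter {d : ℕ} {F T : SH} {v : F ⟶ (Dpow d).obj F} {j : ∀ N, towerObj d F N ⟶ T}
    (h : IsTelescopeOf (towerMap v) j) {M : ℕ} (h0 : IsZeroMor (towerIter v M)) (k : ℤ) : Subsingleton (π k T) :=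
  h.subsingleton_π_of_nilpotent (fun N => ⟨M, isZeroMor_seqComp_towerMap h0 N⟩) k

/-- A zero object is a telescope of a nilpotent self-map. -/
theorem isTelescopeOf_towerMap_zero {d : ℕ} {F T : SH} {v : F ⟶ (Dpow d).obj F} {M : ℕ} (h0 : IsZeroMor (towerIter v M))
    (hT : Limits.IsZero T) (j : ∀ N, towerObj d F N ⟶ T) : IsTelescopeOf (towerMap v) j :=
  isTelescopeOf_zero_of_nilpotent (fun N => ⟨M, isZeroMor_seqComp_towerMap h0 N⟩) hT j

/-- Every telescope of a sequence of isomorphisms is `π_*`-isomorphic to its first term, by `j_0`. -/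
theorem IsTelescopeOf.bijective_of_isIso {F : ℕ → SH} {f : ∀ N, F N ⟶ F (N + 1)} [∀ N, IsIso (f N)] {T : SH} {j : ∀ N, F N ⟶ T}
    (h : IsTelescopeOf f j) (k : ℤ) : Function.Bijective fun y : π k (F 0) => y ≫ j 0 := by
  have : (fun y : π k (F 0) => y ≫ j 0) = (isTelescopeOf_of_isIso f).piEquiv h k := funext fun y => by
    have := (isTelescopeOf_of_isIso f).piEquiv_comp h k 0 y
    rw [show isoCocone f 0 = 𝟙 _ from rfl, Category.comp_id] at this
    exact this.symm
  rw [this]
  exact Equiv.bijective _

end SH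

end Claimed.Open.R319
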