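import Claimed.Open.R319.SanityCircle
import Claimed.Open.R319.SanityOmega

/-!
# Sanity (result 319): the triangle `Tri = Δ[2] / (vertices)` and maps from it to Kan complexes

`Tri` contains the three circles `triE k : S¹ ⟶ Tri` (`k = 0, 1, 2`, the faces of `Δ[2]`) and retracts onto `S¹` in two ways (`triR 1`, `triR 0`, the degeneracies).
For a Kan complex `K` the map `F ↦ (triE 2 ≫ F, triE 0 ≫ F)` is a bijection from `[Tri, K]` to `[S¹, K] × [S¹, K]` (`tri_surj`, `tri_inj`): the inclusion of the horn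
`Λ[2,1]` is an anodyne extension.  So `Tri` is a model of `S¹ ∨ S¹`, and `triE 1 : S¹ ⟶ Tri` is the pinch map.
-/

open CategoryTheory Opposite Simplicial

namespace Claimed.Open.R319

namespace PSSet

/-- a constant simplex -/
def IsConstHom {T : SimplexCategory} {k : ℕ} (s : T ⟶ ⦋k⦌) : Prop := ∃ v : Fin (k + 1), ∀ i, s.toOrderHom i = v

theorem IsConstHom.comp_left {T T' : SimplexCategory} {k : ℕ} {s : T ⟶ ⦋k⦌} (h : IsConstHom s) (ψ : T' ⟶ T) : IsConstHom (ψ ≫ s) := by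
  obtain ⟨v, hv⟩ := h
  exact ⟨v, fun i => hv _⟩

theorem IsConstHom.comp_right {T : SimplexCategory} {k l : ℕ} {s : T ⟶ ⦋k⦌} (h : IsConstHom s) (χ : ⦋k⦌ ⟶ ⦋l⦌) : IsConstHom (s ≫ χ) := by
  obtain ⟨v, hv⟩ := h
  exact ⟨χ.toOrderHom v, fun i => congrArg χ.toOrderHom (hv i)⟩

/-- a simplex of `Δ[1]` lies in the boundary iff it is constant -/
theorem isConstHom_iff_not_surjective {T : SimplexCategory} (s : T ⟶ ⦋1⦌) : IsConstHom s ↔ ¬ Function.Surjective s.toOrderHom := by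
  constructor
  · rintro ⟨v, hv⟩ hs
    obtain ⟨i, hi⟩ := hs (0 : Fin 2)
    obtain ⟨j, hj⟩ := hs (1 : Fin 2)
    rw [hv] at hi hj
    exact absurd (hi.symm.trans hj) (by decide)
  · intro hs
    have hs' : ∃ w : Fin 2, ∀ i, s.toOrderHom i ≠ w := by
      by_contra hc
      push Not at hc
      exact hs hc
    obtain ⟨w, hw⟩ := hs'
    have key : ∀ a w : Fin 2, a ≠ w → a = w + 1 := by decide
    exact ⟨w + 1, fun i => key _ _ (hw i)⟩

/-- The subcomplex of the vertices of `Δ[2]`. -/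
def triVert : (Δ[2] : SSet.{0}).Subcomplex where
  obj _ := {x | IsConstHom (SSet.stdSimplex.objEquiv x)}
  map φ _ hx := IsConstHom.comp_left hx φ.unop

/-- The triangle with its three vertices identified. -/
def Tri : PSSet := quot Δ[2] triVert

/-- The class in `Tri` of the simplex `s : T ⟶ ⦋2⦌` of `Δ[2]`. -/
def Tri.mk {n : SimplexCategoryᵒᵖ} (s : n.unop ⟶ ⦋2⦌) : Tri.obj n :=
  quot.mk _ (SSet.stdSimplex.objEquiv.symm s)

theorem Tri.mk_eq_point {n : SimplexCategoryᵒᵖ} (s : n.unop ⟶ ⦋2⦌) (hs : IsConstHom s) : Tri.mk s = (Tri.obj n).point :=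
  Quotient.sound (Or.inr ⟨Or.inr ⟨_, hs, rfl⟩, Or.inl rfl⟩)

@[elab_as_elim]
theorem Tri.ind {n : SimplexCategoryᵒᵖ} {motive : Tri.obj n → Prop} (h : ∀ s, motive (Tri.mk s)) (x : Tri.obj n) : motive x := by
  induction x using Quotient.ind with
  | _ o =>
    cases o with
    | none =>
      have hc : IsConstHom (SimplexCategory.Hom.mk (a := n.unop) (b := ⦋2⦌) (OrderHom.const _ (0 : Fin 3))) := ⟨0, fun _ => rfl⟩
      have := h (SimplexCategory.Hom.mk (OrderHom.const _ (0 : Fin 3)))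
      rw [Tri.mk_eq_point _ hc] at this
      exact this
    | some a =>
      have := h (SSet.stdSimplex.objEquiv a)
      unfold Tri.mk at this
      rw [Equiv.symm_apply_apply] at this
      exact this

theorem Tri.map_mk {n n' : SimplexCategoryᵒᵖ} (ψ : n ⟶ n') (s : n.unop ⟶ ⦋2⦌) :
    (Tri.map ψ).toFun (Tri.mk s) = Tri.mk (ψ.unop ≫ s) := rfl

/-- A function on the simplices of `Δ[2]` that sends the constant simplices to the base point induces a function on `Tri`. -/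
def Tri.lift {n : SimplexCategoryᵒᵖ} {P : Pointed.{0}} (f : (n.unop ⟶ ⦋2⦌) → P)
    (hf : ∀ s, IsConstHom s → f s = P.point) : Tri.obj n → P :=
  Quotient.lift (fun o : Option ((Δ[2] : SSet.{0}).obj n) => o.elim P.point fun a => f (SSet.stdSimplex.objEquiv a)) (by
    have key : ∀ o : Option ((Δ[2] : SSet.{0}).obj n),
        (o = none ∨ ∃ a ∈ triVert.obj n, o = some a) →
        (o.elim P.point fun a => f (SSet.stdSimplex.objEquiv a)) = P.point := by
      rintro o (rfl | ⟨a, ha, rfl⟩)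
      · rfl
      · exact hf _ ha
    rintro x y (rfl | ⟨hx, hy⟩)
    · rfl
    · exact (key x hx).trans (key y hy).symm)

theorem Tri.lift_mk {n : SimplexCategoryᵒᵖ} {P : Pointed.{0}} (f : (n.unop ⟶ ⦋2⦌) → P)
    (hf : ∀ s, IsConstHom s → f s = P.point) (s : n.unop ⟶ ⦋2⦌) : Tri.lift f hf (Tri.mk s) = f s :=
  congrArg f (Equiv.apply_symm_apply _ s)

theorem Tri.hom_ext {Y : PSSet} {f g : Tri ⟶ Y}
    (h : ∀ (n : SimplexCategoryᵒᵖ) (s : n.unop ⟶ ⦋2⦌), (f.app n).toFun (Tri.mk s) = (g.app n).toFun (Tri.mk s)) : f = g :=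
  NatTrans.ext (funext fun n => Pointed.Hom.ext (funext fun x => by
    induction x using Tri.ind with | h s => exact h n s))

theorem S1.hom_ext {Y : PSSet} {f g : S1 ⟶ Y}
    (h : ∀ (n : SimplexCategoryᵒᵖ) (s : n.unop ⟶ ⦋1⦌), (f.app n).toFun (S1.mk s) = (g.app n).toFun (S1.mk s)) : f = g :=
  NatTrans.ext (funext fun n => Pointed.Hom.ext (funext fun x => by
    induction x using S1.ind with | h s => exact h n s))

/-- the three circles in the triangle, on simplices -/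
def triEFun (k : Fin 3) {n : SimplexCategoryᵒᵖ} : S1.obj n → Tri.obj n :=
  S1.lift (P := Tri.obj n) (fun s => Tri.mk (s ≫ SimplexCategory.δ k))
    (fun s hs => Tri.mk_eq_point _ (((isConstHom_iff_not_surjective s).2 hs).comp_right _))

theorem triEFun_mk (k : Fin 3) {n : SimplexCategoryᵒᵖ} (s : n.unop ⟶ ⦋1⦌) :
    triEFun k (S1.mk s) = Tri.mk (s ≫ SimplexCategory.δ k) := S1.lift_mk _ _ s

/-- The three circles in the triangle. -/
def triE (k : Fin 3) : S1 ⟶ Tri where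
  app n := ⟨triEFun k, rfl⟩
  naturality n n' ψ := Pointed.Hom.ext (funext fun x => by
    induction x using S1.ind with | h s => ?_
    show triEFun k ((S1.map ψ).toFun (S1.mk s)) = (Tri.map ψ).toFun (triEFun k (S1.mk s))
    rw [S1.map_mk, triEFun_mk, triEFun_mk, Tri.map_mk, Category.assoc])

theorem triE_mk (k : Fin 3) {n : SimplexCategoryᵒᵖ} (s : n.unop ⟶ ⦋1⦌) :
    ((triE k).app n).toFun (S1.mk s) = Tri.mk (s ≫ SimplexCategory.δ k) := triEFun_mk k s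

/-- the two retractions of the triangle onto the circle, on simplices -/
def triRFun (j : Fin 2) {n : SimplexCategoryᵒᵖ} : Tri.obj n → S1.obj n :=
  Tri.lift (P := S1.obj n) (fun s => S1.mk (s ≫ SimplexCategory.σ j))
    (fun _ hs => S1.mk_eq_point _ ((isConstHom_iff_not_surjective _).1 (hs.comp_right _)))

theorem triRFun_mk (j : Fin 2) {n : SimplexCategoryᵒᵖ} (s : n.unop ⟶ ⦋2⦌) :
    triRFun j (Tri.mk s) = S1.mk (s ≫ SimplexCategory.σ j) := Tri.lift_mk _ _ s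

/-- The two retractions of the triangle onto the circle. -/
def triR (j : Fin 2) : Tri ⟶ S1 where
  app n := ⟨triRFun j, rfl⟩
  naturality n n' ψ := Pointed.Hom.ext (funext fun x => by
    induction x using Tri.ind with | h s => ?_
    show triRFun j ((Tri.map ψ).toFun (Tri.mk s)) = (S1.map ψ).toFun (triRFun j (Tri.mk s))
    rw [Tri.map_mk, triRFun_mk, triRFun_mk, S1.map_mk, Category.assoc])

theorem triR_mk (j : Fin 2) {n : SimplexCategoryᵒᵖ} (s : n.unop ⟶ ⦋2⦌) :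
    ((triR j).app n).toFun (Tri.mk s) = S1.mk (s ≫ SimplexCategory.σ j) := triRFun_mk j s

theorem triE_triR_of_eq_id (k : Fin 3) (j : Fin 2) (h : SimplexCategory.δ k ≫ SimplexCategory.σ j = 𝟙 ⦋1⦌) :
    triE k ≫ triR j = 𝟙 S1 :=
  S1.hom_ext fun n s => by
    show ((triR j).app n).toFun (((triE k).app n).toFun (S1.mk s)) = S1.mk s
    rw [triE_mk, triR_mk, Category.assoc, h, Category.comp_id]

theorem triE_triR_of_isConst (k : Fin 3) (j : Fin 2) (h : IsConstHom (SimplexCategory.δ k ≫ SimplexCategory.σ j)) :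
    triE k ≫ triR j = zeroMap S1 S1 :=
  S1.hom_ext fun n s => by
    show ((triR j).app n).toFun (((triE k).app n).toFun (S1.mk s)) = (S1.obj n).point
    rw [triE_mk, triR_mk, Category.assoc]
    exact S1.mk_eq_point _ ((isConstHom_iff_not_surjective _).1 (h.comp_left s))

theorem triE_two_triR_one : triE 2 ≫ triR 1 = 𝟙 S1 :=
  triE_triR_of_eq_id 2 1 (SimplexCategory.δ_comp_σ_succ (i := (1 : Fin 2)))

theorem triE_one_triR_one : triE 1 ≫ triR 1 = 𝟙 S1 :=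
  triE_triR_of_eq_id 1 1 (SimplexCategory.δ_comp_σ_self (i := (1 : Fin 2)))

theorem triE_zero_triR_one : triE 0 ≫ triR 1 = zeroMap S1 S1 :=
  triE_triR_of_isConst 0 1 ⟨1, fun i => by fin_cases i <;> rfl⟩

theorem triE_two_triR_zero : triE 2 ≫ triR 0 = zeroMap S1 S1 :=
  triE_triR_of_isConst 2 0 ⟨0, fun i => by fin_cases i <;> rfl⟩

theorem triE_one_triR_zero : triE 1 ≫ triR 0 = 𝟙 S1 :=
  triE_triR_of_eq_id 1 0 (SimplexCategory.δ_comp_σ_succ (i := (0 : Fin 2)))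

theorem triE_zero_triR_zero : triE 0 ≫ triR 0 = 𝟙 S1 :=
  triE_triR_of_eq_id 0 0 (SimplexCategory.δ_comp_σ_self (i := (0 : Fin 2)))

/-! ### Maps into Kan complexes -/

/-- the `1`-simplex that classifies a map `S¹ ⟶ K` -/
def loopOf {K : PSSet} (a : S1 ⟶ K) : K.obj (op ⦋1⦌) := (a.app (op ⦋1⦌)).toFun (S1.mk (n := op ⦋1⦌) (𝟙 ⦋1⦌))

theorem map_loopOf {K : PSSet} (a : S1 ⟶ K) {n : SimplexCategoryᵒᵖ} (s : n.unop ⟶ ⦋1⦌) :
    (K.map s.op).toFun (loopOf a) = (a.app n).toFun (S1.mk s) := by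
  have h := congrArg (fun k : S1.obj (op ⦋1⦌) ⟶ K.obj n => k.toFun (S1.mk (n := op ⦋1⦌) (𝟙 ⦋1⦌))) (a.naturality s.op)
  have h' : (a.app n).toFun ((S1.map s.op).toFun (S1.mk (n := op ⦋1⦌) (𝟙 ⦋1⦌))) = (K.map s.op).toFun (loopOf a) := h
  rw [← h', S1.map_mk]
  exact congrArg (fun t => (a.app n).toFun (S1.mk t)) (Category.comp_id s)

theorem map_loopOf_of_isConst {K : PSSet} (a : S1 ⟶ K) {n : SimplexCategoryᵒᵖ} (s : n.unop ⟶ ⦋1⦌) (hs : IsConstHom s) :
    (K.map s.op).toFun (loopOf a) = (K.obj n).point := by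
  rw [map_loopOf, S1.mk_eq_point _ ((isConstHom_iff_not_surjective s).1 hs)]
  exact (a.app n).map_point

theorem map_comp_apply' {K : PSSet} {n : SimplexCategoryᵒᵖ} {k l : ℕ} (s : n.unop ⟶ ⦋k⦌) (χ : ⦋k⦌ ⟶ ⦋l⦌) (x : K.obj (op ⦋l⦌)) :
    (K.map (s ≫ χ).op).toFun x = (K.map s.op).toFun ((K.map χ.op).toFun x) := by
  have e : (s ≫ χ).op = χ.op ≫ s.op := rfl
  rw [e, K.map_comp]
  rfl

/-- a constant simplex of `Δ[2]` lies in the face `2` or in the face `0` -/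
theorem IsConstHom.exists_face {T : SimplexCategory} {s : T ⟶ ⦋2⦌} (hs : IsConstHom s) :
    ∃ (j : Fin 3) (s' : T ⟶ ⦋1⦌), (j = 2 ∨ j = 0) ∧ IsConstHom s' ∧ s = s' ≫ SimplexCategory.δ j := by
  obtain ⟨v, hv⟩ := hs
  by_cases h2 : v = 2
  · refine ⟨0, s ≫ SimplexCategory.σ 0, Or.inr rfl, IsConstHom.comp_right ⟨v, hv⟩ _, ?_⟩
    apply SimplexCategory.Hom.ext
    apply OrderHom.ext
    funext i
    show s.toOrderHom i = (SimplexCategory.δ (0 : Fin 3)).toOrderHom ((SimplexCategory.σ (0 : Fin 2)).toOrderHom (s.toOrderHom i))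
    rw [hv, h2]
    rfl
  · refine ⟨2, s ≫ SimplexCategory.σ 1, Or.inl rfl, IsConstHom.comp_right ⟨v, hv⟩ _, ?_⟩
    apply SimplexCategory.Hom.ext
    apply OrderHom.ext
    funext i
    show s.toOrderHom i = (SimplexCategory.δ (2 : Fin 3)).toOrderHom ((SimplexCategory.σ (1 : Fin 2)).toOrderHom (s.toOrderHom i))
    rw [hv]
    have key : ∀ v : Fin 3, v ≠ 2 →
        v = (SimplexCategory.δ (2 : Fin 3)).toOrderHom ((SimplexCategory.σ (1 : Fin 2)).toOrderHom v) := by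
      intro v hv
      fin_cases v
      · rfl
      · rfl
      · exact absurd rfl hv
    exact key v h2

theorem triOf_const {K : PSSet} (x : K.obj (op ⦋2⦌)) (a b : S1 ⟶ K) (h2 : (K.map (SimplexCategory.δ (2 : Fin 3)).op).toFun x = loopOf a)
    (h0 : (K.map (SimplexCategory.δ (0 : Fin 3)).op).toFun x = loopOf b) {n : SimplexCategoryᵒᵖ} (s : n.unop ⟶ ⦋2⦌) (hs : IsConstHom s) :
    (K.map s.op).toFun x = (K.obj n).point := by
  obtain ⟨j, s', hj, hs', rfl⟩ := hs.exists_face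
  rcases hj with rfl | rfl
  · rw [map_comp_apply', h2, map_loopOf_of_isConst a s' hs']
  · rw [map_comp_apply', h0, map_loopOf_of_isConst b s' hs']

/-- the map `Tri ⟶ K` classified by a `2`-simplex, on simplices -/
def triOfFun {K : PSSet} (x : K.obj (op ⦋2⦌)) (a b : S1 ⟶ K) (h2 : (K.map (SimplexCategory.δ (2 : Fin 3)).op).toFun x = loopOf a)
    (h0 : (K.map (SimplexCategory.δ (0 : Fin 3)).op).toFun x = loopOf b) {n : SimplexCategoryᵒᵖ} : Tri.obj n → K.obj n :=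
  Tri.lift (P := K.obj n) (fun s => (K.map s.op).toFun x) (fun s hs => triOf_const x a b h2 h0 s hs)

theorem triOfFun_mk {K : PSSet} (x : K.obj (op ⦋2⦌)) (a b : S1 ⟶ K) (h2 : (K.map (SimplexCategory.δ (2 : Fin 3)).op).toFun x = loopOf a)
    (h0 : (K.map (SimplexCategory.δ (0 : Fin 3)).op).toFun x = loopOf b) {n : SimplexCategoryᵒᵖ} (s : n.unop ⟶ ⦋2⦌) :
    triOfFun x a b h2 h0 (Tri.mk s) = (K.map s.op).toFun x :=
  Tri.lift_mk (P := K.obj n) (fun s => (K.map s.op).toFun x) (fun s hs => triOf_const x a b h2 h0 s hs) s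

/-- The map `Tri ⟶ K` classified by a `2`-simplex whose faces `2` and `0` are loops. -/
def triOf {K : PSSet} (x : K.obj (op ⦋2⦌)) (a b : S1 ⟶ K) (h2 : (K.map (SimplexCategory.δ (2 : Fin 3)).op).toFun x = loopOf a)
    (h0 : (K.map (SimplexCategory.δ (0 : Fin 3)).op).toFun x = loopOf b) : Tri ⟶ K where
  app n := ⟨triOfFun x a b h2 h0, rfl⟩
  naturality n n' ψ := Pointed.Hom.ext (funext fun d => by
    induction d using Tri.ind with | h s => ?_
    show triOfFun x a b h2 h0 ((Tri.map ψ).toFun (Tri.mk s)) = (K.map ψ).toFun (triOfFun x a b h2 h0 (Tri.mk s))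
    rw [Tri.map_mk, triOfFun_mk, triOfFun_mk]
    have e : (ψ.unop ≫ s).op = s.op ≫ ψ := rfl
    rw [e, K.map_comp]
    rfl)

theorem triOf_mk {K : PSSet} (x : K.obj (op ⦋2⦌)) (a b : S1 ⟶ K) (h2 : (K.map (SimplexCategory.δ (2 : Fin 3)).op).toFun x = loopOf a)
    (h0 : (K.map (SimplexCategory.δ (0 : Fin 3)).op).toFun x = loopOf b) {n : SimplexCategoryᵒᵖ} (s : n.unop ⟶ ⦋2⦌) :
    ((triOf x a b h2 h0).app n).toFun (Tri.mk s) = (K.map s.op).toFun x := triOfFun_mk x a b h2 h0 s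

/-- the horn `Λ[2,1]` in a Kan complex -/
theorem exists_filler (K : PSSet) (hK : SSet.KanComplex K.toSSet) (xa xb : K.obj (op ⦋1⦌))
    (h : (K.map (SimplexCategory.δ (0 : Fin 2)).op).toFun xa = (K.map (SimplexCategory.δ (1 : Fin 2)).op).toFun xb) :
    ∃ x : K.obj (op ⦋2⦌), (K.map (SimplexCategory.δ (2 : Fin 3)).op).toFun x = xa ∧
      (K.map (SimplexCategory.δ (0 : Fin 3)).op).toFun x = xb := by
  let ya : K.toSSet _⦋1⦌ := xa
  let yb : K.toSSet _⦋1⦌ := xb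
  let f : ∀ (j : Fin 3) (_ : j ≠ 1), (Δ[1] : SSet.{0}) ⟶ K.toSSet := fun j _ =>
    SSet.yonedaEquiv.symm (if j = 0 then yb else ya)
  have hf : SSet.horn.IsCompatible f := by
    intro j k hj hk hjk
    have hj0 : j = 0 := by
      revert hj hk hjk
      revert j k
      decide
    have hk2 : k = 2 := by
      revert hj hk hjk
      revert j k
      decide
    subst hj0 hk2
    show SSet.stdSimplex.δ (1 : Fin 2) ≫ SSet.yonedaEquiv.symm yb = SSet.stdSimplex.δ (0 : Fin 2) ≫ SSet.yonedaEquiv.symm ya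
    rw [SSet.stdSimplex.δ_comp_yonedaEquiv_symm, SSet.stdSimplex.δ_comp_yonedaEquiv_symm]
    exact congrArg _ h.symm
  obtain ⟨φ, hφ⟩ := hf.exists_lift_of_kanComplex
  refine ⟨SSet.yonedaEquiv φ, ?_, ?_⟩
  · have := congrArg SSet.yonedaEquiv (hφ 2 (by decide))
    rw [SSet.stdSimplex.yonedaEquiv_δ_comp] at this
    exact this.trans (Equiv.apply_symm_apply _ _)
  · have := congrArg SSet.yonedaEquiv (hφ 0 (by decide))
    rw [SSet.stdSimplex.yonedaEquiv_δ_comp] at this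
    exact this.trans (Equiv.apply_symm_apply _ _)

/-- LEAF C-surj: two loops of a Kan complex are two sides of a triangle. -/
theorem tri_surj (K : PSSet) (hK : SSet.KanComplex K.toSSet) (a b : S1 ⟶ K) :
    ∃ F : Tri ⟶ K, triE 2 ≫ F = a ∧ triE 0 ≫ F = b := by
  have hc : ∀ i : Fin 2, IsConstHom (SimplexCategory.δ i : ⦋0⦌ ⟶ ⦋1⦌) := fun i =>
    ⟨(SimplexCategory.δ i).toOrderHom 0, fun j => congrArg _ (Subsingleton.elim (α := Fin 1) j 0)⟩
  obtain ⟨x, h2, h0⟩ := exists_filler K hK (loopOf a) (loopOf b)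
    ((map_loopOf_of_isConst (n := op ⦋0⦌) a _ (hc 0)).trans (map_loopOf_of_isConst (n := op ⦋0⦌) b _ (hc 1)).symm)
  refine ⟨triOf x a b h2 h0, S1.hom_ext fun n s => ?_, S1.hom_ext fun n s => ?_⟩
  · show ((triOf x a b h2 h0).app n).toFun (((triE 2).app n).toFun (S1.mk s)) = _
    rw [triE_mk, triOf_mk, map_comp_apply', h2, map_loopOf]
  · show ((triOf x a b h2 h0).app n).toFun (((triE 0).app n).toFun (S1.mk s)) = _
    rw [triE_mk, triOf_mk, map_comp_apply', h0, map_loopOf]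

section graph

variable {K : PSSet} (F G : Tri ⟶ K) (H2 H0 : smash S1 I ⟶ K)

/-- the graph of the map `Λ[2,1] × Δ[1] ∪ Δ[2] × ∂Δ[1] ⟶ K` given by `F`, `G`, `H2`, `H0` -/
def TriGraph {n : SimplexCategoryᵒᵖ} (x : n.unop ⟶ ⦋2⦌) (t : (Δ[1] : SSet.{0}).obj n) (k : K.obj n) : Prop :=
  (t = SSet.stdSimplex.const 1 0 n ∧ k = (F.app n).toFun (Tri.mk x)) ∨
  (t = SSet.stdSimplex.const 1 1 n ∧ k = (G.app n).toFun (Tri.mk x)) ∨
  (∃ s : n.unop ⟶ ⦋1⦌, x = s ≫ SimplexCategory.δ (2 : Fin 3) ∧ k = (H2.app n).toFun (Smash.mk (S1.mk s) (quot.mk ⊥ t))) ∨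
  (∃ s : n.unop ⟶ ⦋1⦌, x = s ≫ SimplexCategory.δ (0 : Fin 3) ∧ k = (H0.app n).toFun (Smash.mk (S1.mk s) (quot.mk ⊥ t)))

theorem const_zero_ne_one (n : SimplexCategoryᵒᵖ) :
    (SSet.stdSimplex.const 1 0 n : (Δ[1] : SSet.{0}).obj n) ≠ SSet.stdSimplex.const 1 1 n := by
  intro h
  have := congrArg (fun t : (Δ[1] : SSet.{0}).obj n => SSet.stdSimplex.asOrderHom t 0) h
  exact absurd (show (0 : Fin 2) = 1 from this) (by decide)

/-- a homotopy at its end -/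
theorem app_end {A : PSSet} {H : smash A I ⟶ K} {ε : Fin 2} {f : A ⟶ K} (h : incl A ε ≫ H = f) {n : SimplexCategoryᵒᵖ} (a : A.obj n) :
    (H.app n).toFun (Smash.mk a (quot.mk ⊥ (SSet.stdSimplex.const 1 ε n))) = (f.app n).toFun a := by
  rw [← h]
  rfl

theorem app_triE (k : Fin 3) (F : Tri ⟶ K) {n : SimplexCategoryᵒᵖ} (s : n.unop ⟶ ⦋1⦌) :
    ((triE k ≫ F).app n).toFun (S1.mk s) = (F.app n).toFun (Tri.mk (s ≫ SimplexCategory.δ k)) := by
  rw [← triE_mk]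
  rfl

theorem app_const (H : smash S1 I ⟶ K) {n : SimplexCategoryᵒᵖ} (s : n.unop ⟶ ⦋1⦌) (hs : IsConstHom s) (b : I.obj n) :
    (H.app n).toFun (Smash.mk (S1.mk s) b) = (K.obj n).point := by
  rw [S1.mk_eq_point _ ((isConstHom_iff_not_surjective s).1 hs), Smash.mk_left]
  exact (H.app n).map_point

theorem isConst_of_two_faces {T : SimplexCategory} (s s' : T ⟶ ⦋1⦌)
    (h : s ≫ SimplexCategory.δ (2 : Fin 3) = s' ≫ SimplexCategory.δ (0 : Fin 3)) : IsConstHom s ∧ IsConstHom s' := by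
  have key : ∀ a b : Fin 2, (SimplexCategory.δ (2 : Fin 3)).toOrderHom a = (SimplexCategory.δ (0 : Fin 3)).toOrderHom b → a = 1 ∧ b = 0 := by
    decide
  have h' : ∀ i, (SimplexCategory.δ (2 : Fin 3)).toOrderHom (s.toOrderHom i) = (SimplexCategory.δ (0 : Fin 3)).toOrderHom (s'.toOrderHom i) :=
    fun i => congrArg (fun r : T ⟶ ⦋2⦌ => r.toOrderHom i) h
  exact ⟨⟨1, fun i => (key _ _ (h' i)).1⟩, ⟨0, fun i => (key _ _ (h' i)).2⟩⟩

variable {F G H2 H0}

theorem TriGraph.unique (h20 : incl S1 0 ≫ H2 = triE 2 ≫ F) (h21 : incl S1 1 ≫ H2 = triE 2 ≫ G)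
    (h00 : incl S1 0 ≫ H0 = triE 0 ≫ F) (h01 : incl S1 1 ≫ H0 = triE 0 ≫ G)
    {n : SimplexCategoryᵒᵖ} {x : n.unop ⟶ ⦋2⦌} {t : (Δ[1] : SSet.{0}).obj n} {k k' : K.obj n}
    (h : TriGraph F G H2 H0 x t k) (h' : TriGraph F G H2 H0 x t k') : k = k' := by
  have m2 : Mono (SimplexCategory.δ (2 : Fin 3)) := inferInstance
  have m0 : Mono (SimplexCategory.δ (0 : Fin 3)) := inferInstance
  rcases h with ⟨ht, rfl⟩ | ⟨ht, rfl⟩ | ⟨s, hs, rfl⟩ | ⟨s, hs, rfl⟩ <;>
  rcases h' with ⟨ht', rfl⟩ | ⟨ht', rfl⟩ | ⟨s', hs', rfl⟩ | ⟨s', hs', rfl⟩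
  · rfl
  · exact absurd (ht.symm.trans ht') (const_zero_ne_one n)
  · rw [ht, app_end h20, app_triE, hs']
  · rw [ht, app_end h00, app_triE, hs']
  · exact absurd (ht'.symm.trans ht) (const_zero_ne_one n)
  · rfl
  · rw [ht, app_end h21, app_triE, hs']
  · rw [ht, app_end h01, app_triE, hs']
  · rw [ht', app_end h20, app_triE, hs]
  · rw [ht', app_end h21, app_triE, hs]
  · rw [(cancel_mono _).1 (hs.symm.trans hs')]
  · obtain ⟨c, c'⟩ := isConst_of_two_faces s s' (hs.symm.trans hs')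
    exact (app_const H2 s c _).trans (app_const H0 s' c' _).symm
  · rw [ht', app_end h00, app_triE, hs]
  · rw [ht', app_end h01, app_triE, hs]
  · obtain ⟨c, c'⟩ := isConst_of_two_faces s' s (hs'.symm.trans hs)
    exact (app_const H0 s c' _).trans (app_const H2 s' c _).symm
  · rw [(cancel_mono _).1 (hs.symm.trans hs')]

theorem app_map {A : PSSet} (f : A ⟶ K) {n n' : SimplexCategoryᵒᵖ} (ψ : n ⟶ n') (a : A.obj n) :
    (K.map ψ).toFun ((f.app n).toFun a) = (f.app n').toFun ((A.map ψ).toFun a) :=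
  (congrArg (fun k : A.obj n ⟶ K.obj n' => k.toFun a) (f.naturality ψ)).symm

theorem TriGraph.map {n n' : SimplexCategoryᵒᵖ} (ψ : n ⟶ n') {x : n.unop ⟶ ⦋2⦌} {t : (Δ[1] : SSet.{0}).obj n} {k : K.obj n}
    (h : TriGraph F G H2 H0 x t k) : TriGraph F G H2 H0 (ψ.unop ≫ x) ((Δ[1] : SSet.{0}).map ψ t) ((K.map ψ).toFun k) := by
  rcases h with ⟨ht, rfl⟩ | ⟨ht, rfl⟩ | ⟨s, hs, rfl⟩ | ⟨s, hs, rfl⟩
  · exact Or.inl ⟨by rw [ht]; rfl, app_map F ψ _⟩
  · exact Or.inr (Or.inl ⟨by rw [ht]; rfl, app_map G ψ _⟩)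
  · exact Or.inr (Or.inr (Or.inl ⟨ψ.unop ≫ s, by rw [hs, Category.assoc], app_map H2 ψ _⟩))
  · exact Or.inr (Or.inr (Or.inr ⟨ψ.unop ≫ s, by rw [hs, Category.assoc], app_map H0 ψ _⟩))

theorem eq_face_of_ne {T : SimplexCategory} (s : T ⟶ ⦋2⦌) (j : Fin 3) (r : Fin 2)
    (key : ∀ v : Fin 3, v ≠ j → v = (SimplexCategory.δ j).toOrderHom ((SimplexCategory.σ r).toOrderHom v))
    (h : ∀ i, s.toOrderHom i ≠ j) : s = (s ≫ SimplexCategory.σ r) ≫ SimplexCategory.δ j := by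
  apply SimplexCategory.Hom.ext
  apply OrderHom.ext
  funext i
  exact key _ (h i)

theorem eq_const_of_isConst {n : SimplexCategoryᵒᵖ} (t : (Δ[1] : SSet.{0}).obj n) (h : IsConstHom (SSet.stdSimplex.objEquiv t)) :
    t = SSet.stdSimplex.const 1 0 n ∨ t = SSet.stdSimplex.const 1 1 n := by
  obtain ⟨v, hv⟩ := h
  have e : t = SSet.stdSimplex.const 1 v n :=
    SSet.stdSimplex.objEquiv.injective (SimplexCategory.Hom.ext _ _ (OrderHom.ext _ _ (funext hv)))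
  have hv2 : ∀ v : Fin 2, v = 0 ∨ v = 1 := by decide
  have hv2 := hv2 v
  rcases hv2 with rfl | rfl
  · exact Or.inl e
  · exact Or.inr e

open MonoidalCategory in
variable (F G H2 H0) in
theorem TriGraph.total {n : SimplexCategoryᵒᵖ} (w : ((Δ[2] : SSet.{0}) ⊗ (Δ[1] : SSet.{0})).obj n)
    (h : w ∈ ((Λ[2, 1] : (Δ[2] : SSet.{0}).Subcomplex).unionProd (∂Δ[1] : (Δ[1] : SSet.{0}).Subcomplex)).obj n) :
    ∃ k : K.obj n, TriGraph F G H2 H0 (SSet.stdSimplex.objEquiv w.1) w.2 k := by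
  rcases (SSet.Subcomplex.mem_unionProd_iff _ _ w).1 h with h | h
  · rcases eq_const_of_isConst w.2 ((isConstHom_iff_not_surjective _).2 h) with e | e
    · exact ⟨_, Or.inl ⟨e, rfl⟩⟩
    · exact ⟨_, Or.inr (Or.inl ⟨e, rfl⟩)⟩
  · obtain ⟨j, hj⟩ := (Set.ne_univ_iff_exists_notMem _).1 h
    have hj1 : j ≠ 1 := fun e => hj (Or.inr e)
    have hjr : ∀ i, (SSet.stdSimplex.objEquiv w.1).toOrderHom i ≠ j := fun i e => hj (Or.inl ⟨i, e⟩)
    have hj02 : j = 2 ∨ j = 0 := by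
      revert hj1
      clear hj hjr
      revert j
      decide
    rcases hj02 with rfl | rfl
    · exact ⟨_, Or.inr (Or.inr (Or.inl ⟨_, eq_face_of_ne _ 2 1 (by decide) hjr, rfl⟩))⟩
    · exact ⟨_, Or.inr (Or.inr (Or.inr ⟨_, eq_face_of_ne _ 0 0 (by decide) hjr, rfl⟩))⟩

open MonoidalCategory in
/-- the map `Λ[2,1] × Δ[1] ∪ Δ[2] × ∂Δ[1] ⟶ K` given by `F`, `G`, `H2`, `H0` -/
noncomputable def triU (h20 : incl S1 0 ≫ H2 = triE 2 ≫ F) (h21 : incl S1 1 ≫ H2 = triE 2 ≫ G)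
    (h00 : incl S1 0 ≫ H0 = triE 0 ≫ F) (h01 : incl S1 1 ≫ H0 = triE 0 ≫ G) :
    (((Λ[2, 1] : (Δ[2] : SSet.{0}).Subcomplex).unionProd (∂Δ[1] : (Δ[1] : SSet.{0}).Subcomplex) : SSet.{0})) ⟶ K.toSSet where
  app n := ↾fun w => Classical.choose (TriGraph.total F G H2 H0 w.1 w.2)
  naturality n n' ψ := by
    ext w
    let w' := ((((Λ[2, 1] : (Δ[2] : SSet.{0}).Subcomplex).unionProd (∂Δ[1] : (Δ[1] : SSet.{0}).Subcomplex) : SSet.{0})).map ψ) w
    exact TriGraph.unique h20 h21 h00 h01 (Classical.choose_spec (TriGraph.total F G H2 H0 w'.1 w'.2))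
      ((Classical.choose_spec (TriGraph.total F G H2 H0 w.1 w.2)).map ψ)

end graph

open SSet.modelCategoryQuillen MonoidalCategory in
/-- (128) the inclusion `Λ[2,1] × Δ[1] ∪ Δ[2] × ∂Δ[1] ⟶ Δ[2] × Δ[1]` is anodyne -/
theorem exists_ext_unionProd (X : SSet.{0}) [hX : SSet.KanComplex X]
    (u : (((Λ[2, 1] : (Δ[2] : SSet.{0}).Subcomplex).unionProd (∂Δ[1] : (Δ[1] : SSet.{0}).Subcomplex) : SSet.{0})) ⟶ X) :
    ∃ U : ((Δ[2] : SSet.{0}) ⊗ (Δ[1] : SSet.{0})) ⟶ X,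
      ((Λ[2, 1] : (Δ[2] : SSet.{0}).Subcomplex).unionProd (∂Δ[1] : (Δ[1] : SSet.{0}).Subcomplex)).ι ≫ U = u := by
  have h1 : SSet.anodyneExtensions ((Λ[2, 1] : (Δ[2] : SSet.{0}).Subcomplex).unionProd (∂Δ[1] : (Δ[1] : SSet.{0}).Subcomplex)).ι :=
    SSet.anodyneExtensions_unionProd_ι' _ _ (SSet.anodyneExtensions.horn_ι (n := 2) 1)
  have h2 : HomotopicalAlgebra.Fibration (Limits.terminal.from X) := inferInstance
  have h3 := h1 _ (HomotopicalAlgebra.mem_fibrations (Limits.terminal.from X))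
  have sq : CommSq u ((Λ[2, 1] : (Δ[2] : SSet.{0}).Subcomplex).unionProd (∂Δ[1] : (Δ[1] : SSet.{0}).Subcomplex)).ι
      (Limits.terminal.from X) (Limits.terminal.from _) := ⟨Subsingleton.elim _ _⟩
  exact ⟨sq.lift, sq.fac_left⟩

open MonoidalCategory in
/-- LEAF C-ext (Mathlib: `SSet.anodyneExtensions_unionProd_ι' Λ[2,1] ∂Δ[1]`): the map `Λ[2,1] × Δ[1] ∪ Δ[2] × ∂Δ[1] ⟶ K` given by `H2`, `H0`, `F`, `G` extends to the prism. -/
theorem tri_ext (K : PSSet) (hK : SSet.KanComplex K.toSSet) (F G : Tri ⟶ K) (H2 H0 : smash S1 I ⟶ K)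
    (h20 : incl S1 0 ≫ H2 = triE 2 ≫ F) (h21 : incl S1 1 ≫ H2 = triE 2 ≫ G)
    (h00 : incl S1 0 ≫ H0 = triE 0 ≫ F) (h01 : incl S1 1 ≫ H0 = triE 0 ≫ G) :
    ∃ U : ((Δ[2] : SSet.{0}) ⊗ (Δ[1] : SSet.{0})) ⟶ K.toSSet,
      (∀ (n : SimplexCategoryᵒᵖ) (x : (Δ[2] : SSet.{0}).obj n),
        U.app n (x, SSet.stdSimplex.const 1 0 n) = (F.app n).toFun (quot.mk _ x)) ∧
      (∀ (n : SimplexCategoryᵒᵖ) (x : (Δ[2] : SSet.{0}).obj n),
        U.app n (x, SSet.stdSimplex.const 1 1 n) = (G.app n).toFun (quot.mk _ x)) ∧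
      (∀ (n : SimplexCategoryᵒᵖ) (x : (Δ[2] : SSet.{0}).obj n) (t : (Δ[1] : SSet.{0}).obj n),
        x ∈ triVert.obj n → U.app n (x, t) = (K.obj n).point) := by
  obtain ⟨U, hU⟩ := exists_ext_unionProd K.toSSet (triU h20 h21 h00 h01)
  -- the value of `U` at a point where the graph is defined
  have key : ∀ (n : SimplexCategoryᵒᵖ) (x : (Δ[2] : SSet.{0}).obj n) (t : (Δ[1] : SSet.{0}).obj n) (k : K.obj n),
      TriGraph F G H2 H0 (SSet.stdSimplex.objEquiv x) t k → U.app n (x, t) = k := by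
    intro n x t k hk
    have hw : ((x, t) : ((Δ[2] : SSet.{0}) ⊗ (Δ[1] : SSet.{0})).obj n) ∈
        ((Λ[2, 1] : (Δ[2] : SSet.{0}).Subcomplex).unionProd (∂Δ[1] : (Δ[1] : SSet.{0}).Subcomplex)).obj n := by
      refine (SSet.Subcomplex.mem_unionProd_iff _ _ _).2 ?_
      have hc : ∀ ε : Fin 2, (SSet.stdSimplex.const 1 ε n : (Δ[1] : SSet.{0}).obj n) ∈ (∂Δ[1] : (Δ[1] : SSet.{0}).Subcomplex).obj n :=
        fun ε => (isConstHom_iff_not_surjective (SSet.stdSimplex.objEquiv (SSet.stdSimplex.const 1 ε n : (Δ[1] : SSet.{0}).obj n))).1 ⟨ε, fun _ => rfl⟩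
      have hf : ∀ (j : Fin 3) (s : n.unop ⟶ ⦋1⦌), j ≠ 1 → (∀ a : Fin 2, (SimplexCategory.δ j).toOrderHom a ≠ j) →
          SSet.stdSimplex.objEquiv x = s ≫ SimplexCategory.δ j → x ∈ (Λ[2, 1] : (Δ[2] : SSet.{0}).Subcomplex).obj n := by
        intro j s hj1 hj e
        refine (Set.ne_univ_iff_exists_notMem _).2 ⟨j, ?_⟩
        rintro (⟨i, hi⟩ | h1)
        · exact hj (s.toOrderHom i) ((congrArg (fun r : n.unop ⟶ ⦋2⦌ => r.toOrderHom i) e).symm.trans hi)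
        · exact hj1 h1
      rcases hk with ⟨ht, -⟩ | ⟨ht, -⟩ | ⟨s, hs, -⟩ | ⟨s, hs, -⟩
      · exact Or.inl (ht ▸ hc 0)
      · exact Or.inl (ht ▸ hc 1)
      · exact Or.inr (hf 2 s (by decide) (by decide) hs)
      · exact Or.inr (hf 0 s (by decide) (by decide) hs)
    have e := congrArg (fun r => r.app n ⟨(x, t), hw⟩) hU
    exact (show U.app n (x, t) = (triU h20 h21 h00 h01).app n ⟨(x, t), hw⟩ from e).trans
      (TriGraph.unique h20 h21 h00 h01 (Classical.choose_spec (TriGraph.total F G H2 H0 (x, t) hw)) hk)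
  refine ⟨U, fun n x => key n x _ _ (Or.inl ⟨rfl, ?_⟩), fun n x => key n x _ _ (Or.inr (Or.inl ⟨rfl, ?_⟩)), fun n x t hx => ?_⟩
  · exact congrArg (fun y => (F.app n).toFun (quot.mk _ y)) (Equiv.symm_apply_apply _ x).symm
  · exact congrArg (fun y => (G.app n).toFun (quot.mk _ y)) (Equiv.symm_apply_apply _ x).symm
  · obtain ⟨j, s', hj, hs', e⟩ := IsConstHom.exists_face hx
    rcases hj with rfl | rfl
    · exact key n x t _ (Or.inr (Or.inr (Or.inl ⟨s', e, (app_const H2 s' hs' _).symm⟩)))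
    · exact key n x t _ (Or.inr (Or.inr (Or.inr ⟨s', e, (app_const H0 s' hs' _).symm⟩)))

section descent

open MonoidalCategory

variable {K : PSSet} (U : ((Δ[2] : SSet.{0}) ⊗ (Δ[1] : SSet.{0})) ⟶ K.toSSet)
  (hUv : ∀ (n : SimplexCategoryᵒᵖ) (x : (Δ[2] : SSet.{0}).obj n) (t : (Δ[1] : SSet.{0}).obj n),
    x ∈ triVert.obj n → U.app n (x, t) = (K.obj n).point)

/-- a map on the prism that is constant on the three vertical edges, as a function on `Tri × Δ[1]₊` -/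
def triHFun {n : SimplexCategoryᵒᵖ} (d : Tri.obj n) (b : I.obj n) : K.obj n :=
  plusLift (P := K.obj n) (fun t => Tri.lift (P := K.obj n) (fun s => U.app n (SSet.stdSimplex.objEquiv.symm s, t))
    (fun _ hs => hUv n _ t hs) d) b

theorem triHFun_mk {n : SimplexCategoryᵒᵖ} (s : n.unop ⟶ ⦋2⦌) (t : (Δ[1] : SSet.{0}).obj n) :
    triHFun U hUv (Tri.mk s) (quot.mk ⊥ t) = U.app n (SSet.stdSimplex.objEquiv.symm s, t) :=
  Tri.lift_mk (P := K.obj n) (fun s => U.app n (SSet.stdSimplex.objEquiv.symm s, t)) (fun _ hs => hUv n _ t hs) s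

/-- a map on the prism that is constant on the three vertical edges descends to `Tri ∧ Δ[1]₊` -/
def triH : smash Tri I ⟶ K where
  app n := Smash.lift (C := K.obj n) (triHFun U hUv)
    (fun b => by
      induction b using plus_ind with
      | h0 => rfl
      | h t => rfl)
    (fun _ => rfl)
  naturality n n' ψ := Smash.hom_ext fun d b => by
    induction d using Tri.ind with | h s => ?_
    induction b using plus_ind with
    | h0 => exact (K.map ψ).map_point.symm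
    | h t =>
      show triHFun U hUv ((Tri.map ψ).toFun (Tri.mk s)) (quot.mk ⊥ ((Δ[1] : SSet.{0}).map ψ t))
        = (K.map ψ).toFun (triHFun U hUv (Tri.mk s) (quot.mk ⊥ t))
      rw [Tri.map_mk, triHFun_mk, triHFun_mk]
      have := congrArg (fun k => k ((SSet.stdSimplex.objEquiv.symm s, t) : ((Δ[2] : SSet.{0}) ⊗ (Δ[1] : SSet.{0})).obj n))
        (U.naturality ψ)
      exact this

theorem incl_triH_mk (ε : Fin 2) {n : SimplexCategoryᵒᵖ} (s : n.unop ⟶ ⦋2⦌) :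
    ((incl Tri ε ≫ triH U hUv).app n).toFun (Tri.mk s)
      = U.app n (SSet.stdSimplex.objEquiv.symm s, SSet.stdSimplex.const 1 ε n) :=
  triHFun_mk U hUv s _

end descent

/-- LEAF C-inj (from C-ext): homotopies on two sides of a triangle extend to the triangle. -/
theorem tri_inj (K : PSSet) (hK : SSet.KanComplex K.toSSet) (F G : Tri ⟶ K)
    (h2 : Homotopy (triE 2 ≫ F) (triE 2 ≫ G)) (h0 : Homotopy (triE 0 ≫ F) (triE 0 ≫ G)) : Homotopy F G := by
  obtain ⟨H2, h20, h21⟩ := h2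
  obtain ⟨H0, h00, h01⟩ := h0
  obtain ⟨U, hU0, hU1, hUv⟩ := tri_ext K hK F G H2 H0 h20 h21 h00 h01
  refine ⟨triH U hUv, Tri.hom_ext fun n s => ?_, Tri.hom_ext fun n s => ?_⟩
  · rw [incl_triH_mk]
    exact hU0 n _
  · rw [incl_triH_mk]
    exact hU1 n _

/-- the version with chains of homotopies -/
theorem tri_inj' (K : PSSet) (hK : SSet.KanComplex K.toSSet) (F G : Tri ⟶ K)
    (h2 : Homotopic (triE 2 ≫ F) (triE 2 ≫ G)) (h0 : Homotopic (triE 0 ≫ F) (triE 0 ≫ G)) : Homotopic F G := by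
  have hrefl : ∀ {A : PSSet} (x : A ⟶ K), Homotopy x x := fun {A} x =>
    ⟨proj A ≫ x, by rw [← Category.assoc, incl_proj, Category.id_comp], by rw [← Category.assoc, incl_proj, Category.id_comp]⟩
  have key2 : ∀ a a' : S1 ⟶ K, Homotopic a a' → ∀ F G : Tri ⟶ K, triE 2 ≫ F = a → triE 2 ≫ G = a' →
      triE 0 ≫ F = triE 0 ≫ G → Homotopic F G := by
    intro a a' h
    induction h with
    | rel a a' h =>
      rintro F G rfl rfl e0
      exact .rel _ _ (tri_inj K hK F G h (e0 ▸ hrefl _))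
    | refl a =>
      rintro F G rfl e2 e0
      exact .rel _ _ (tri_inj K hK F G (e2 ▸ hrefl _) (e0 ▸ hrefl _))
    | symm a a' _ ih =>
      intro F G e2 e2' e0
      exact .symm _ _ (ih G F e2' e2 e0.symm)
    | trans a b c _ _ ih ih' =>
      intro F G e2 e2' e0
      obtain ⟨M, hM2, hM0⟩ := tri_surj K hK b (triE 0 ≫ F)
      exact .trans _ _ _ (ih F M e2 hM2 hM0.symm) (ih' M G hM2 e2' (hM0.trans e0))
  have key0 : ∀ b b' : S1 ⟶ K, Homotopic b b' → ∀ F G : Tri ⟶ K, triE 0 ≫ F = b → triE 0 ≫ G = b' →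
      triE 2 ≫ F = triE 2 ≫ G → Homotopic F G := by
    intro b b' h
    induction h with
    | rel b b' h =>
      rintro F G rfl rfl e2
      exact .rel _ _ (tri_inj K hK F G (e2 ▸ hrefl _) h)
    | refl b =>
      rintro F G rfl e0 e2
      exact .rel _ _ (tri_inj K hK F G (e2 ▸ hrefl _) (e0 ▸ hrefl _))
    | symm b b' _ ih =>
      intro F G e0 e0' e2
      exact .symm _ _ (ih G F e0' e0 e2.symm)
    | trans b c d _ _ ih ih' =>
      intro F G e0 e0' e2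
      obtain ⟨M, hM2, hM0⟩ := tri_surj K hK (triE 2 ≫ F) c
      exact .trans _ _ _ (ih F M e0 hM0 hM2.symm) (ih' M G hM0 e0' (hM2.trans e2))
  obtain ⟨M, hM2, hM0⟩ := tri_surj K hK (triE 2 ≫ G) (triE 0 ≫ F)
  exact .trans _ _ _ (key2 _ _ h2 F M rfl hM2 hM0.symm) (key0 _ _ h0 M G hM0 rfl hM2)

end PSSet

end Claimed.Open.R319
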