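import Claimed.Open.R319.SanityDegree

/-!
# Sanity (result 319): the twist of `S¹ ∧ S¹` has the degree `-1`; the degree `π_0 S ⟶ ℤ` is surjective

* `twistS : S ⟶ S` : the morphism of `SH` given by the twist `S⁰ ∧ S¹ ∧ S¹ ⟶ S⁰ ∧ S¹ ∧ S¹` (`SH.bracket`);
* `inv0R_of_susG_swap` : desuspending twice the twisted double suspension of `c ·` (fundamental class) gives the invariant `-c` (the computation in `exists_disjoint_aux`);
* **`degS_twistS : degS twistS = -1`**;
* **`degS_surjective`** : every integer is the degree of a self-map of the sphere spectrum.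
-/

open CategoryTheory Opposite Simplicial

namespace Claimed.Open.R319

open PSSet

variable (R : Type) [CommRing R]

/-- The sign of the twist: if the double suspension of `zg` is the twisted double suspension of `c ·` (fundamental class), then `zg` has the invariant `-c`. -/
theorem inv0R_of_susG_swap {d1 d2 : ℤ} (h1 : d1 = 0 + 1) (h2 : d2 = d1 + 1) (c : R) (zg : S0 ⟶ GEMR R 0)
    (hsus : susG R h1 h2 zg = swapRight S0 S1 S1 ≫ susG R h1 h2 (cfund R c)) : inv0R (zg ≫ gemιR R 0) = -c := by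
  have hval : ∀ {n : SimplexCategoryᵒᵖ} (x : S0.obj n) (s t : n.unop ⟶ ⦋1⦌) (m : ℕ) (φ : ⦋m⦌ ⟶ n.unop) (l : List (⦋m⦌ ⟶ ⦋1⦌)),
      (((susG R h1 h2 zg).app n).toFun (Smash.mk (Smash.mk x (S1.mk s)) (S1.mk t))).1 m φ l
        = (((cfund R c).app n).toFun x).1 m φ ((φ ≫ t) :: (φ ≫ s) :: l) := by
    intro n x s t m φ l
    rw [hsus]
    exact susG_mk R h1 h2 (cfund R c) x t s m φ l
  obtain ⟨Z, hZ⟩ : ∃ Z : (GEMR R 0).obj (op ⦋0⦌), Z = (zg.app (op ⦋0⦌)).toFun (S0.vertex (op ⦋0⦌)) := ⟨_, rfl⟩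
  show ((zg.app (op ⦋0⦌)).toFun (S0.vertex (op ⦋0⦌))).1 0 (𝟙 _) [] = -c
  rw [← hZ]
  have key : ∀ (ψ : ⦋2⦌ ⟶ ⦋0⦌) (s t : ⦋2⦌ ⟶ ⦋1⦌), Z.1 2 ψ [s, t] = c * (if [t, s] = diag 2 then 1 else 0) := by
    intro ψ s t
    have e := hval (n := op ⦋2⦌) (S0.vertex (op ⦋2⦌)) s t 2 (𝟙 _) []
    rw [susG_mk, S0_app_vertex, cfund_vertex, ← hZ] at e
    simp only [Category.id_comp] at e
    rw [← e]
    exact congrArg (fun χ : ⦋2⦌ ⟶ ⦋0⦌ => Z.1 2 χ [s, t]) (hom_pt_eq _ _)
  have d2 : diag 2 = [tau 0, tau 1] := by simp [diag, List.ofFn_succ]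
  have t1 : SimplexCategory.σ (0 : Fin 2) ≫ tau (0 : Fin 1) = tau (1 : Fin 2) := by
    apply nz_inj
    rw [nz_σ, nz_tau, nz_tau]
    simp
  have t2 : tau (1 : Fin 2) ≠ tau (0 : Fin 2) := fun h => by
    have := congrArg nz h
    rw [nz_tau, nz_tau] at this
    simp at this
  have p0 := Z.2.st.prism 0 (𝟙 _) []
  have p1 := Z.2.st.prism 1 (SimplexCategory.σ 0 ≫ 𝟙 _) [tau 0]
  rw [Fin.sum_univ_one] at p0
  rw [Fin.sum_univ_two] at p1
  simp only [List.map_nil, List.nil_append, List.map_cons, List.cons_append] at p0 p1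
  rw [key, key, t1, d2, if_pos rfl, if_neg (fun h => t2 (List.cons.inj h).1)] at p1
  rw [p0, p1]
  simp

/-- There is a map whose double suspension is the twisted double suspension of `c ·` (fundamental class); it has the invariant `-c`. -/
theorem exists_sus2_swap (c : R) : ∃ zg : S0 ⟶ (loopGEMR R 0).E 0,
    sus2 R zg = swapRight S0 S1 S1 ≫ sus2 R (cfund R c) ∧ inv0R (zg ≫ gemιR R (0 + (0 : ℕ))) = -c := by
  have h1 : (0 + ((0 + 1 : ℕ) : ℤ)) = 0 + 1 := by push_cast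
  have h2 : (0 + ((1 + 1 : ℕ) : ℤ)) = (0 + ((0 + 1 : ℕ) : ℤ)) + 1 := by push_cast
  obtain ⟨g1, hg1⟩ := σGR_ex h2 (PSSet.smash S0 S1) (swapRight S0 S1 S1 ≫ susG R h1 h2 (cfund R c))
  obtain ⟨zg, hzg⟩ := σGR_ex h1 S0 g1
  have hsus : susG R h1 h2 zg = swapRight S0 S1 S1 ≫ susG R h1 h2 (cfund R c) := by
    unfold susG
    rw [hzg, hg1]
    rfl
  exact ⟨zg, hsus, inv0R_of_susG_swap R h1 h2 c zg hsus⟩

theorem suspLift_alift_map_two (z : S0 ⟶ (loopGEMR R 0).E 0) :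
    (Sp.suspLift (K := S0) (E := HA R 0) ((loopGEMR R 0).alift 0 z)).map 2 ≫ (loopGEMR R 0).apr 2 = sus2 R z := by
  show (smashMap (smashMap ((loopGEMR R 0).alift 0 z) (𝟙 S1) ≫ (loopGEMR R 0).aspec.σ 0) (𝟙 S1) ≫ (loopGEMR R 0).aspec.σ 1)
    ≫ (loopGEMR R 0).apr 2 = _
  rw [(loopGEMR R 0).aspec_σ_apr 1, (loopGEMR R 0).aspec_σ_apr 0]
  rfl

/-- The self-map of the sphere spectrum given by the twist of `S¹ ∧ S¹`. -/
noncomputable def twistS : SH.sphere 0 ⟶ SH.sphere 0 :=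
  SH.bracket (K := S0) (Y := Sp.suspSpec S0) (swapRight S0 S1 S1)

/-- The twist acts on `π_0 (HA R 0) ≃ R` by `-1`, on the multiples of the fundamental class. -/
theorem piZeroHA_twistS_comp (c : R) :
    piZeroHA R (twistS ≫ Q.map (Sp.suspLift (K := S0) (E := HA R 0) ((loopGEMR R 0).alift 0 (cfund R c))) : SH.sphere 0 ⟶ Q.obj (HA R 0)) = -c := by
  obtain ⟨zg, hzg, hinv⟩ := exists_sus2_swap R c
  have e1 : (twistS ≫ Q.map (Sp.suspLift (K := S0) (E := HA R 0) ((loopGEMR R 0).alift 0 (cfund R c))) : SH.sphere 0 ⟶ Q.obj (HA R 0))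
      = SH.bracket (K := S0) (Y := HA R 0)
        (swapRight S0 S1 S1 ≫ (Sp.suspLift (K := S0) (E := HA R 0) ((loopGEMR R 0).alift 0 (cfund R c))).map 2) :=
    SH.bracket_comp (K := S0) (Y := Sp.suspSpec S0) (swapRight S0 S1 S1) _
  have e2 : SH.bracket (K := S0) (Y := HA R 0)
        (swapRight S0 S1 S1 ≫ (Sp.suspLift (K := S0) (E := HA R 0) ((loopGEMR R 0).alift 0 (cfund R c))).map 2)
      = SH.bracket (K := S0) (Y := HA R 0) ((loopGEMR R 0).alift 2 (sus2 R zg)) := by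
    refine SH.bracket_eq_of_homotopic ((loopGEMR R 0).homotopic_alevel ?_)
    have e : (swapRight S0 S1 S1 ≫ (Sp.suspLift (K := S0) (E := HA R 0) ((loopGEMR R 0).alift 0 (cfund R c))).map 2) ≫ (loopGEMR R 0).apr 2
        = sus2 R zg :=
      (Category.assoc _ _ _).trans ((congrArg (fun k => swapRight S0 S1 S1 ≫ k) (suspLift_alift_map_two R (cfund R c))).trans hzg.symm)
    have h : PSSet.Homotopic (sus2 R zg) (sus2 R zg) := .refl _
    exact e.symm ▸ h
  have e3 := bracket_alift_sus2 R zg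
  have e4 := piZeroHA_Q R (Sp.suspLift (K := S0) (E := HA R 0) ((loopGEMR R 0).alift 0 zg))
  exact (congrArg (piZeroHA R) (e1.trans (e2.trans e3))).trans (e4.trans hinv)

theorem unitHZ_eq : unitHZ = Q.map (Sp.suspLift (K := S0) (E := HA ℤ 0) ((loopGEMR ℤ 0).alift 0 (cfund ℤ 1))) := by
  apply (piZeroHA ℤ).injective
  exact ((piZeroHA ℤ).apply_symm_apply 1).trans
    ((piZeroHA_Q ℤ (Sp.suspLift (K := S0) (E := HA ℤ 0) ((loopGEMR ℤ 0).alift 0 (cfund ℤ 1)))).trans (mul_one (1 : ℤ))).symm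

/-- **The twist of `S¹ ∧ S¹` has the degree `-1`.** -/
theorem degS_twistS : degS twistS = -1 := by
  unfold degS
  rw [unitHZ_eq]
  exact piZeroHA_twistS_comp ℤ 1

/-- **Every integer is the degree of a self-map of the sphere spectrum.** -/
theorem degS_surjective : Function.Surjective degS := fun k => by
  obtain ⟨n, rfl | rfl⟩ := k.eq_nat_or_neg
  · exact exists_degS_eq n
  · obtain ⟨g, hg⟩ := SH.exists_isNatMul_sphere n
    exact ⟨g ≫ twistS, by rw [degS_comp_of_isNatMul hg, degS_twistS]; ring⟩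

/-- The twist is not the identity of the sphere spectrum, and not a zero map. -/
theorem twistS_ne_id : twistS ≠ 𝟙 _ := fun h => by
  have := degS_twistS
  rw [h, degS_id] at this
  omega

theorem not_isZeroMor_twistS : ¬ IsZeroMor twistS := fun h => by
  have := degS_twistS
  rw [degS_of_isZeroMor h] at this
  omega

end Claimed.Open.R319
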