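import Claimed.Open.R319.SanityTelescope2
import Claimed.Open.R319.SanityHQ2

/-!
# Sanity (result 319): the word `IsVnSelfMap` (`v_n`-self-maps) of `Statement.lean`

No other file tests this predicate.  `K(m)^* F` stands for the sets `[Σ^{-a} F, Σ^{-b} K]`, `K` any spectrum with `IsMoravaK p m K`.

* `SH.isVnSelfMap_of_isZero` : every self-map of a zero spectrum is a `v_n`-self-map, for every `n` (an **example**, the trivial one);
* `SH.IsVnSelfMap.isZeroMor_of_isZeroMor` : if a ZERO map `v : F ⟶ Σ^{-d} F` is a `v_n`-self-map then `K(n)^* F = 0`;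
  **`SH.not_isVnSelfMap_zero_sphere`** : a zero map `S ⟶ Σ^{-d} S` is **not** a `v_0`-self-map (the clause `iso` bites; `K(0) = Hℚ` is `HA ℚ 0`, `isHQ_HA_zero`);
* `SH.IsVnSelfMap.isZeroMor_of_isIso` : if an ISOMORPHISM `v : F ≅ Σ^{-d} F` is a `v_n`-self-map then `K(m)^* F = 0` for all `m ≠ n`;
  **`SH.not_isVnSelfMap_id_sphere`** : the identity of `S` (`d = 0`) is **not** a `v_n`-self-map for `n ≠ 0` (the clause `nilp` bites);
* `SH.isVnSelfMap_iso_of_isIso` : an isomorphism satisfies the clause `iso`, for every `K`;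
* `SH.HasType.unique` : a spectrum has at most one type.

NOT shown: an example of a `v_n`-self-map of a non-zero spectrum (e.g. that `p : S ⟶ S` is a `v_0`-self-map: this needs `K(m)^* S` for `m ≥ 1`, and no `K(m)`, `m ≥ 1`, is constructed).
-/

open CategoryTheory

namespace Claimed.Open.R319

namespace SH

/-- **Example.** Every self-map of a zero spectrum is a `v_n`-self-map. -/
theorem isVnSelfMap_of_isZero (p n : ℕ) {d : ℕ} {F : SH} (hF : Limits.IsZero F) (v : F ⟶ (Dpow d).obj F) : IsVnSelfMap p n v where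
  iso _ _ a _ :=
    ⟨fun g g' _ => (isZero_Dpow_obj (isZero_Dpow_obj hF d) a).eq_of_src g g',
      fun _ => ⟨(isZero_Dpow_obj (isZero_Dpow_obj hF d) a).to_ _, (isZero_Dpow_obj hF a).eq_of_src _ _⟩⟩
  nilp _ _ _ _ := ⟨0, fun a _ _ => isZeroMor_of_isZero_src (isZero_Dpow_obj hF a) _⟩

/-- If a zero map is a `v_n`-self-map, then `K(n)^* F = 0`. -/
theorem IsVnSelfMap.isZeroMor_of_isZeroMor {p n d : ℕ} {F : SH} {v : F ⟶ (Dpow d).obj F} (h : IsVnSelfMap p n v) (hv : IsZeroMor v)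
    {K : SH} (hK : IsMoravaK p n K) (a b : ℕ) (g : (Dpow a).obj F ⟶ (Dpow b).obj K) : IsZeroMor g := by
  obtain ⟨g', rfl⟩ := (h.iso K hK a b).2 g
  exact (isZeroMor_Dpow_map hv a).comp_right g'

/-- `[S, Hℚ] ≠ 0` -/
theorem exists_not_isZeroMor_of_isHQ {K : SH} (hK : IsHQ K) : ∃ g : sphere 0 ⟶ K, ¬ IsZeroMor g := by
  obtain ⟨⟨e, -⟩, -⟩ := hK
  by_contra hc
  have hc' : ∀ g : sphere 0 ⟶ K, IsZeroMor g := fun g => by_contra fun hg => hc ⟨g, hg⟩
  have : e.symm 0 = e.symm 1 := (hc' _).unique (hc' _)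
  exact zero_ne_one (e.symm.injective this)

/-- **Non-example.** A zero map `S ⟶ Σ^{-d} S` is not a `v_0`-self-map. -/
theorem not_isVnSelfMap_zero_sphere (p : ℕ) {d : ℕ} {v : sphere 0 ⟶ (Dpow d).obj (sphere 0)} (hv : IsZeroMor v) : ¬ IsVnSelfMap p 0 v := fun h => by
  obtain ⟨g, hg⟩ := exists_not_isZeroMor_of_isHQ isHQ_HA_zero
  exact hg (h.isZeroMor_of_isZeroMor hv (K := Q.obj (HA ℚ 0)) isHQ_HA_zero 0 0 g)

instance isIso_towerIter {d : ℕ} {F : SH} (v : F ⟶ (Dpow d).obj F) [IsIso v] (N : ℕ) : IsIso (towerIter v N) := by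
  induction N with
  | zero => exact inferInstanceAs (IsIso (𝟙 _))
  | succ N ih => exact inferInstanceAs (IsIso (towerIter v N ≫ towerMap v N))

/-- An isomorphism satisfies the clause `iso` of `IsVnSelfMap`, for every `K`. -/
theorem isVnSelfMap_iso_of_isIso {d : ℕ} {F : SH} (v : F ⟶ (Dpow d).obj F) [IsIso v] (K : SH) (a b : ℕ) :
    Function.Bijective fun g : (Dpow a).obj ((Dpow d).obj F) ⟶ (Dpow b).obj K => (Dpow a).map v ≫ g :=
  ⟨fun _ _ h => (cancel_epi ((Dpow a).map v)).1 h, fun g => ⟨inv ((Dpow a).map v) ≫ g, IsIso.hom_inv_id_assoc _ _⟩⟩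

/-- If an isomorphism is a `v_n`-self-map, then `K(m)^* F = 0` for all `m ≠ n`. -/
theorem IsVnSelfMap.isZeroMor_of_isIso {p n d : ℕ} {F : SH} {v : F ⟶ (Dpow d).obj F} (h : IsVnSelfMap p n v) [IsIso v]
    {m : ℕ} (hm : m ≠ n) {K : SH} (hK : IsMoravaK p m K) (a b : ℕ) (g : (Dpow a).obj F ⟶ (Dpow b).obj K) : IsZeroMor g := by
  obtain ⟨N, hN⟩ := h.nilp m hm K hK
  have := hN a b (inv ((Dpow a).map (towerIter v N)) ≫ g)
  rwa [IsIso.hom_inv_id_assoc] at this

/-- **Non-example.** The identity of the sphere spectrum is not a `v_n`-self-map for `n ≠ 0`. -/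
theorem not_isVnSelfMap_id_sphere (p : ℕ) {n : ℕ} (hn : n ≠ 0) : ¬ IsVnSelfMap (d := 0) p n (𝟙 (sphere 0)) := fun h => by
  obtain ⟨g, hg⟩ := exists_not_isZeroMor_of_isHQ isHQ_HA_zero
  have : IsIso (show sphere 0 ⟶ (Dpow 0).obj (sphere 0) from 𝟙 (sphere 0)) := inferInstanceAs (IsIso (𝟙 (sphere 0)))
  exact hg (h.isZeroMor_of_isIso (m := 0) hn.symm (K := Q.obj (HA ℚ 0)) isHQ_HA_zero 0 0 g)

/-- A spectrum has at most one type. -/
theorem HasType.unique {p : ℕ} {V : SH} {j j' : ℕ} (h : HasType p V j) (h' : HasType p V j') : j = j' := by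
  rcases lt_trichotomy j j' with hlt | rfl | hlt
  · exact absurd (h'.2 j hlt) h.1
  · rfl
  · exact absurd (h.2 j' hlt) h'.1

end SH

end Claimed.Open.R319
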