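import Claimed.Open.R319.SanityVn
import Claimed.Open.R319.SanityIdeal

/-!
# Sanity (result 319): the iterates of a `v_n`-self-map; the height `n` of a `v_n`-self-map is unique

`K(m)^* F` stands for the sets `[Σ^{-a} F, Σ^{-b} K]`, `K` any spectrum with `IsMoravaK p m K`.

* `SH.IsVnSelfMap.bijective_towerMap`, **`SH.IsVnSelfMap.bijective_towerIter`** : all the maps `Σ^{-Nd} v` of the tower of a `v_n`-self-map `v`, and all its iterates `v^N : F ⟶ Σ^{-Nd} F`, induce bijections in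
  `K(n)`-cohomology (the clause `iso` of `IsVnSelfMap` speaks of `v` only);
* **`SH.IsVnSelfMap.isZeroMor_of_towerIter`** : a NILPOTENT `v_n`-self-map forces `K(n)^* F = 0`;
* **`SH.IsVnSelfMap.isZeroMor_of_ne`** : if `v` is a `v_n`-self-map and a `v_m`-self-map with `m ≠ n`, then `K(m)^* F = 0` (and `K(n)^* F = 0`): on a spectrum with `K(n)^* F ≠ 0` the height of a
  self-map is determined by the map; `SH.IsVnSelfMap.eq_zero_of_sphere` : a `v_0`-self-map of the sphere spectrum is a `v_n`-self-map for `n = 0` only.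
-/

open CategoryTheory

namespace Claimed.Open.R319

namespace SH

/-- `G u` induces a bijection `[G Y, Z] ≃ [G X, Z]` -/
def PreBij (Z : SH) {X Y : SH} (u : X ⟶ Y) (G : SH ⥤ SH) : Prop := Function.Bijective fun g : G.obj Y ⟶ Z => G.map u ≫ g

theorem PreBij.comp {Z X Y W : SH} {u : X ⟶ Y} {w : Y ⟶ W} {G : SH ⥤ SH} (hu : PreBij Z u G) (hw : PreBij Z w G) : PreBij Z (u ≫ w) G := by
  have : (fun g : G.obj W ⟶ Z => G.map (u ≫ w) ≫ g) = (fun g : G.obj Y ⟶ Z => G.map u ≫ g) ∘ fun g : G.obj W ⟶ Z => G.map w ≫ g :=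
    funext fun g => by
      show G.map (u ≫ w) ≫ g = G.map u ≫ G.map w ≫ g
      rw [G.map_comp, Category.assoc]
  unfold PreBij
  rw [this]
  exact Function.Bijective.comp hu hw

theorem preBij_id (Z X : SH) (G : SH ⥤ SH) : PreBij Z (𝟙 X) G := by
  have : (fun g : G.obj X ⟶ Z => G.map (𝟙 X) ≫ g) = id := funext fun g => by
    show G.map (𝟙 X) ≫ g = g
    rw [G.map_id, Category.id_comp]
  unfold PreBij
  rw [this]
  exact Function.bijective_id

/-- All the maps of the tower of a `v_n`-self-map induce bijections in `K(n)`-cohomology. -/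
theorem IsVnSelfMap.bijective_towerMap {p n d : ℕ} {F : SH} {v : F ⟶ (Dpow d).obj F} (h : IsVnSelfMap p n v)
    {K : SH} (hK : IsMoravaK p n K) (b : ℕ) : ∀ N a : ℕ, PreBij ((Dpow b).obj K) (towerMap v N) (Dpow a)
  | 0, a => h.iso K hK a b
  | N + 1, a => by
    have h1 : PreBij ((Dpow b).obj K) (towerMap v N) (Dpow d ⋙ Dpow a) := by
      rw [Dpow_comp]
      exact IsVnSelfMap.bijective_towerMap h hK b N (d + a)
    exact h1

/-- **All the iterates `v^N` of a `v_n`-self-map induce bijections in `K(n)`-cohomology.** -/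
theorem IsVnSelfMap.bijective_towerIter {p n d : ℕ} {F : SH} {v : F ⟶ (Dpow d).obj F} (h : IsVnSelfMap p n v)
    {K : SH} (hK : IsMoravaK p n K) (a b : ℕ) : ∀ N : ℕ,
    Function.Bijective fun g : (Dpow a).obj (towerObj d F N) ⟶ (Dpow b).obj K => (Dpow a).map (towerIter v N) ≫ g
  | 0 => preBij_id _ _ _
  | N + 1 => PreBij.comp (IsVnSelfMap.bijective_towerIter h hK a b N) (h.bijective_towerMap hK b N a)

/-- **A nilpotent `v_n`-self-map forces `K(n)^* F = 0`.** -/
theorem IsVnSelfMap.isZeroMor_of_towerIter {p n d : ℕ} {F : SH} {v : F ⟶ (Dpow d).obj F} (h : IsVnSelfMap p n v) {N : ℕ}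
    (h0 : IsZeroMor (towerIter v N)) {K : SH} (hK : IsMoravaK p n K) (a b : ℕ) (g : (Dpow a).obj F ⟶ (Dpow b).obj K) : IsZeroMor g := by
  obtain ⟨g', rfl⟩ := (h.bijective_towerIter hK a b N).2 g
  exact (isZeroMor_Dpow_map h0 a).comp_right g'

/-- **The height of a self-map is unique**: if `v` is a `v_n`-self-map and a `v_m`-self-map, `m ≠ n`, then `K(m)^* F = 0`. -/
theorem IsVnSelfMap.isZeroMor_of_ne {p n m d : ℕ} {F : SH} {v : F ⟶ (Dpow d).obj F} (h : IsVnSelfMap p n v) (h' : IsVnSelfMap p m v)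
    (hm : m ≠ n) {K : SH} (hK : IsMoravaK p m K) (a b : ℕ) (g : (Dpow a).obj F ⟶ (Dpow b).obj K) : IsZeroMor g := by
  obtain ⟨N, hN⟩ := h.nilp m hm K hK
  obtain ⟨g', rfl⟩ := (h'.bijective_towerIter hK a b N).2 g
  exact hN a b g'

/-- A `v_0`-self-map of the sphere spectrum is not a `v_n`-self-map for `n ≠ 0`. -/
theorem IsVnSelfMap.eq_zero_of_sphere {p n d : ℕ} {v : sphere 0 ⟶ (Dpow d).obj (sphere 0)} (h0 : IsVnSelfMap p 0 v) (h : IsVnSelfMap p n v) :
    n = 0 := by
  by_contra hn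
  obtain ⟨g, hg⟩ := exists_not_isZeroMor_of_isHQ isHQ_HA_zero
  exact hg (h.isZeroMor_of_ne h0 (Ne.symm hn) (K := Q.obj (HA ℚ 0)) isHQ_HA_zero 0 0 g)

end SH

end Claimed.Open.R319
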