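import Mathlib

/-!
# Result 319: Counterexamples to the Hahn--Wilson conjecture at height two (statement)

`Claimed.Open.R319.Statement` states Theorem 1.1 (label `thm:main`) of the paper:

> For every sufficiently large prime `p`, there is a connective `p`-complete spectrum `X` of exact
> fp-type two such that, for a standard form of `BP⟨2⟩_p^∧`, `X ∉ Thick(BP⟨2⟩_p^∧)`.  The same spectrum
> satisfies `L_2^f X ≃ L_2 X` and `L_{T(2)} X ≃ L_{K(2)} X`.

Mathlib has no stable homotopy theory, so everything is defined here from scratch: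

1. pointed sets: quotients and smash products;
2. pointed simplicial sets: smash products, `S¹ = Δ[1]/∂Δ[1]`, `Δ[1]₊`, pointed homotopies;
3. (cofibrant Bousfield--Friedlander) sequential spectra, `Ω`-spectra, stable equivalences, and the stable
   homotopy category `SH` as the localization at the stable equivalences;
4. zero maps and sums of maps, in categorical terms;
5. desuspension, spheres, `π_k`, cofibre sequences, thick and localizing subcategories;
6. smash products of spectra, acyclic and local spectra, Bousfield localizations, `p`-completeness,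
   finite `p`-local spectra;
7. `H𝔽_p`, `Hℚ`, symmetric ring spectra, `K(ℤ, 2) ≃ ℂP^∞`, complex orientations, heights, Morava K-theories;
8. type, fp-spectra, fp-type;
9. the Steenrod algebra, the Milnor primitives, standard forms of `BP⟨2⟩_p^∧`;
10. telescopes, `L_n`, `L_n^f`, and the statement.

The only proofs in this file are those that the definitions need (well-definedness of quotient maps,
functoriality, injectivity of structure maps, and the fact that the desuspension preserves stable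
equivalences, which is needed to define it on `SH`).  See `CLAIM.md` for sources and deviations.
-/

open CategoryTheory Opposite

noncomputable section

namespace Claimed.Open.R319

/-! ## 1. Pointed sets: collapsing a subset, smash products -/

/-- The equivalence relation on a type that identifies all points of the subset `d`. -/
def collapseSetoid {P : Type} (d : P → Prop) : Setoid P where
  r x y := x = y ∨ (d x ∧ d y)
  iseqv :=
    { refl := fun _ => Or.inl rfl
      symm := by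
        rintro x y (h | ⟨h, h'⟩)
        · exact Or.inl h.symm
        · exact Or.inr ⟨h', h⟩
      trans := by
        rintro x y z (rfl | ⟨h, h'⟩) (rfl | ⟨k, k'⟩)
        · exact Or.inl rfl
        · exact Or.inr ⟨k, k'⟩
        · exact Or.inr ⟨h, h'⟩
        · exact Or.inr ⟨h, k'⟩ }

/-- The pointed set `P / d` obtained from the pointed set `P` by collapsing the subset `d`
(together with the base point) to the base point. -/
def Collapse (P : Pointed.{0}) (d : P → Prop) : Pointed.{0} :=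
  ⟨Quotient (collapseSetoid fun x => x = P.point ∨ d x), ⟦P.point⟧⟩

/-- The class of a point in `P / d`. -/
def Collapse.mk {P : Pointed.{0}} (d : P → Prop) (x : P) : Collapse P d :=
  Quotient.mk (collapseSetoid fun x => x = P.point ∨ d x) x

/-- A pointed map `P ⟶ P'` that maps `d` into `d'` (or to the base point) induces
`P / d ⟶ P' / d'`. -/
def Collapse.map {P P' : Pointed.{0}} (d : P → Prop) (d' : P' → Prop) (f : P ⟶ P')
    (hf : ∀ x, d x → f.toFun x = P'.point ∨ d' (f.toFun x)) : Collapse P d ⟶ Collapse P' d' where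
  toFun := Quotient.map' f.toFun (by
    rintro x y (rfl | ⟨h, h'⟩)
    · exact Or.inl rfl
    · refine Or.inr ⟨?_, ?_⟩
      · rcases h with rfl | h
        · exact Or.inl f.map_point
        · exact hf _ h
      · rcases h' with rfl | h'
        · exact Or.inl f.map_point
        · exact hf _ h')
  map_point := congrArg (Collapse.mk d') f.map_point

/-- The product of two pointed sets. -/
def pprod (A B : Pointed.{0}) : Pointed.{0} := ⟨A × B, (A.point, B.point)⟩

/-- The smash product `A ∧ B = A × B / (A × * ∪ * × B)` of two pointed sets. -/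
def Smash (A B : Pointed.{0}) : Pointed.{0} :=
  Collapse (pprod A B) fun x => x.1 = A.point ∨ x.2 = B.point

/-- The class `a ∧ b` in `A ∧ B`. -/
def Smash.mk {A B : Pointed.{0}} (a : A) (b : B) : Smash A B :=
  Collapse.mk (P := pprod A B) _ (a, b)

/-- The smash product of two pointed maps. -/
def Smash.map {A A' B B' : Pointed.{0}} (f : A ⟶ A') (g : B ⟶ B') : Smash A B ⟶ Smash A' B' :=
  Collapse.map (P := pprod A B) (P' := pprod A' B') _ _
    ⟨fun x => (f.toFun x.1, g.toFun x.2), Prod.ext f.map_point g.map_point⟩ (by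
      rintro ⟨a, b⟩ (h | h)
      · exact Or.inr (Or.inl ((congrArg f.toFun h).trans f.map_point))
      · exact Or.inr (Or.inr ((congrArg g.toFun h).trans g.map_point)))


theorem Smash.mk_left {A B : Pointed.{0}} (b : B) :
    Smash.mk A.point b = (Smash A B).point :=
  Quotient.sound (Or.inr ⟨Or.inr (Or.inl rfl), Or.inl rfl⟩)

theorem Smash.mk_right {A B : Pointed.{0}} (a : A) :
    Smash.mk a B.point = (Smash A B).point :=
  Quotient.sound (Or.inr ⟨Or.inr (Or.inr rfl), Or.inl rfl⟩)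

@[elab_as_elim]
theorem Smash.ind {A B : Pointed.{0}} {motive : Smash A B → Prop}
    (h : ∀ a b, motive (Smash.mk a b)) (x : Smash A B) : motive x :=
  Quotient.ind (fun x => h x.1 x.2) x

/-- A map `A × B → C` that is constant on `A ∨ B` induces a pointed map `A ∧ B ⟶ C`. -/
def Smash.lift {A B C : Pointed.{0}} (f : A → B → C) (hl : ∀ b, f A.point b = C.point)
    (hr : ∀ a, f a B.point = C.point) : Smash A B ⟶ C where
  toFun := Quotient.lift (fun x : A × B => f x.1 x.2) (by
    have key : ∀ x : A × B, (x = (A.point, B.point) ∨ x.1 = A.point ∨ x.2 = B.point) →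
        f x.1 x.2 = C.point := by
      rintro ⟨a, b⟩ (h | h | h)
      · cases h; exact hl _
      · cases h; exact hl _
      · cases h; exact hr _
    rintro x y (rfl | ⟨h, h'⟩)
    · rfl
    · exact (key x h).trans (key y h').symm)
  map_point := hl _

/-- The associativity map `(A ∧ B) ∧ C ⟶ A ∧ (B ∧ C)`. -/
def Smash.assoc (A B C : Pointed.{0}) : Smash (Smash A B) C ⟶ Smash A (Smash B C) :=
  Smash.lift
    (fun x c => (Smash.lift (C := Smash A (Smash B C)) (fun a b => Smash.mk a (Smash.mk b c))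
      (fun _ => Smash.mk_left _)
      (fun a => (congrArg (Smash.mk a) (Smash.mk_left c)).trans (Smash.mk_right a))).toFun x)
    (fun _ => Smash.mk_left _)
    (fun x => Smash.ind (motive := fun x => (Smash.lift (C := Smash A (Smash B C))
        (fun a b => Smash.mk a (Smash.mk b C.point)) _ _).toFun x = _)
      (fun a b => (congrArg (Smash.mk a) (Smash.mk_right b)).trans (Smash.mk_right a)) x)

/-- The map `(A ∧ B) ∧ C ⟶ (A ∧ C) ∧ B` that exchanges the last two factors. -/
def Smash.swapRight (A B C : Pointed.{0}) : Smash (Smash A B) C ⟶ Smash (Smash A C) B :=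
  Smash.lift
    (fun x c => (Smash.lift (C := Smash (Smash A C) B) (fun a b => Smash.mk (Smash.mk a c) b)
      (fun b => (congrArg (fun t => Smash.mk t b) (Smash.mk_left c)).trans (Smash.mk_left b))
      (fun _ => Smash.mk_right _)).toFun x)
    (fun c => (congrArg (fun t => Smash.mk t B.point) (Smash.mk_left c)).trans (Smash.mk_left _))
    (fun x => Smash.ind (motive := fun x => (Smash.lift (C := Smash (Smash A C) B)
        (fun a b => Smash.mk (Smash.mk a C.point) b) _ _).toFun x = _)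
      (fun a b => (congrArg (fun t => Smash.mk t b) (Smash.mk_right a)).trans (Smash.mk_left b)) x)


theorem Smash.hom_ext {A B C : Pointed.{0}} {f g : Smash A B ⟶ C}
    (h : ∀ a b, f.toFun (Smash.mk a b) = g.toFun (Smash.mk a b)) : f = g :=
  Pointed.Hom.ext (funext fun x => Smash.ind (motive := fun x => f.toFun x = g.toFun x) h x)

theorem Smash.mk_eq_point_iff {A B : Pointed.{0}} (a : A) (b : B) :
    Smash.mk a b = (Smash A B).point ↔ a = A.point ∨ b = B.point := by
  constructor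
  · intro h
    rcases Quotient.exact h with h | ⟨h | h, -⟩
    · exact Or.inl (congrArg Prod.fst h)
    · exact Or.inl (congrArg Prod.fst h)
    · exact h
  · rintro (rfl | rfl)
    · exact Smash.mk_left b
    · exact Smash.mk_right a

theorem Smash.mk_eq_mk_iff {A B : Pointed.{0}} (a a' : A) (b b' : B) :
    Smash.mk a b = Smash.mk a' b' ↔
      (a = a' ∧ b = b') ∨ ((a = A.point ∨ b = B.point) ∧ (a' = A.point ∨ b' = B.point)) := by
  constructor
  · intro h
    by_cases h0 : Smash.mk a b = (Smash A B).point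
    · exact Or.inr ⟨(Smash.mk_eq_point_iff a b).1 h0, (Smash.mk_eq_point_iff a' b').1 (h ▸ h0)⟩
    · rcases Quotient.exact h with h | ⟨h1, -⟩
      · exact Or.inl ⟨congrArg Prod.fst h, congrArg Prod.snd h⟩
      · refine absurd ((Smash.mk_eq_point_iff a b).2 ?_) h0
        rcases h1 with h1 | h1
        · exact Or.inl (congrArg Prod.fst h1)
        · exact h1
  · rintro (⟨rfl, rfl⟩ | ⟨h, h'⟩)
    · rfl
    · exact ((Smash.mk_eq_point_iff a b).2 h).trans ((Smash.mk_eq_point_iff a' b').2 h').symm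

theorem Smash.map_injective {A A' B B' : Pointed.{0}} {f : A ⟶ A'} {g : B ⟶ B'}
    (hf : Function.Injective f.toFun) (hg : Function.Injective g.toFun) :
    Function.Injective (Smash.map f g).toFun := by
  intro x y
  induction x using Smash.ind with | h a b => ?_
  induction y using Smash.ind with | h a' b' => ?_
  intro h
  have hfp : ∀ a, f.toFun a = A'.point → a = A.point := fun a h => hf (h.trans f.map_point.symm)
  have hgp : ∀ b, g.toFun b = B'.point → b = B.point := fun b h => hg (h.trans g.map_point.symm)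
  rcases (Smash.mk_eq_mk_iff _ _ _ _).1 h with ⟨h1, h2⟩ | ⟨h1, h2⟩
  · exact congrArg₂ Smash.mk (hf h1) (hg h2)
  · exact (Smash.mk_eq_mk_iff _ _ _ _).2 (Or.inr ⟨h1.imp (hfp _) (hgp _), h2.imp (hfp _) (hgp _)⟩)

theorem Smash.assoc_injective (A B C : Pointed.{0}) :
    Function.Injective (Smash.assoc A B C).toFun := by
  intro x y
  induction x using Smash.ind with | h u c => ?_
  induction u using Smash.ind with | h a b => ?_
  induction y using Smash.ind with | h u' c' => ?_
  induction u' using Smash.ind with | h a' b' => ?_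
  intro h
  have h : Smash.mk a (Smash.mk b c) = Smash.mk a' (Smash.mk b' c') := h
  simp only [Smash.mk_eq_mk_iff, Smash.mk_eq_point_iff] at h ⊢
  tauto

theorem Smash.swapRight_injective (A B C : Pointed.{0}) :
    Function.Injective (Smash.swapRight A B C).toFun := by
  intro x y
  induction x using Smash.ind with | h u c => ?_
  induction u using Smash.ind with | h a b => ?_
  induction y using Smash.ind with | h u' c' => ?_
  induction u' using Smash.ind with | h a' b' => ?_
  intro h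
  have h : Smash.mk (Smash.mk a c) b = Smash.mk (Smash.mk a' c') b' := h
  simp only [Smash.mk_eq_mk_iff, Smash.mk_eq_point_iff] at h ⊢
  tauto

/-! ## 2. Pointed simplicial sets -/

/-- The category of pointed simplicial sets. -/
abbrev PSSet : Type 1 := SimplexCategoryᵒᵖ ⥤ Pointed.{0}

namespace PSSet

/-- The underlying simplicial set of a pointed simplicial set. -/
abbrev toSSet (X : PSSet) : SSet.{0} := X ⋙ forget Pointed

/-- The smash product of pointed simplicial sets, formed degreewise. -/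
def smash (X Y : PSSet) : PSSet where
  obj n := Smash (X.obj n) (Y.obj n)
  map φ := Smash.map (X.map φ) (Y.map φ)
  map_id n := Smash.hom_ext fun a b => by
    show Smash.mk ((X.map (𝟙 n)).toFun a) ((Y.map (𝟙 n)).toFun b) = Smash.mk a b
    rw [X.map_id, Y.map_id]; rfl
  map_comp φ ψ := Smash.hom_ext fun a b => by
    show Smash.mk ((X.map (φ ≫ ψ)).toFun a) ((Y.map (φ ≫ ψ)).toFun b) = _
    rw [X.map_comp, Y.map_comp]; rfl

/-- The smash product of two maps of pointed simplicial sets. -/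
def smashMap {X X' Y Y' : PSSet} (f : X ⟶ X') (g : Y ⟶ Y') : smash X Y ⟶ smash X' Y' where
  app n := Smash.map (f.app n) (g.app n)
  naturality n m φ := Smash.hom_ext fun a b => by
    have h1 := congrArg (fun k => k.toFun a) (f.naturality φ)
    have h2 := congrArg (fun k => k.toFun b) (g.naturality φ)
    exact congrArg₂ Smash.mk h1 h2

/-- The associativity map `(X ∧ Y) ∧ Z ⟶ X ∧ (Y ∧ Z)`. -/
def assoc (X Y Z : PSSet) : smash (smash X Y) Z ⟶ smash X (smash Y Z) where
  app n := Smash.assoc (X.obj n) (Y.obj n) (Z.obj n)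
  naturality _ _ φ := Smash.hom_ext fun x c =>
    Smash.ind (motive := fun x => ((smash (smash X Y) Z).map φ ≫ Smash.assoc _ _ _).toFun
      (Smash.mk x c) = (Smash.assoc _ _ _ ≫ (smash X (smash Y Z)).map φ).toFun (Smash.mk x c))
      (fun _ _ => rfl) x

/-- The map `(X ∧ Y) ∧ Z ⟶ (X ∧ Z) ∧ Y` that exchanges the last two factors. -/
def swapRight (X Y Z : PSSet) : smash (smash X Y) Z ⟶ smash (smash X Z) Y where
  app n := Smash.swapRight (X.obj n) (Y.obj n) (Z.obj n)
  naturality _ _ φ := Smash.hom_ext fun x c =>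
    Smash.ind (motive := fun x => ((smash (smash X Y) Z).map φ ≫ Smash.swapRight _ _ _).toFun
      (Smash.mk x c) = (Smash.swapRight _ _ _ ≫ (smash (smash X Z) Y).map φ).toFun (Smash.mk x c))
      (fun _ _ => rfl) x


theorem _root_.Claimed.Open.R319.Collapse.hom_ext {P C : Pointed.{0}} {d : P → Prop}
    {f g : Collapse P d ⟶ C} (h : ∀ x, f.toFun (Collapse.mk d x) = g.toFun (Collapse.mk d x)) :
    f = g :=
  Pointed.Hom.ext (funext fun x => Quotient.ind (motive := fun x => f.toFun x = g.toFun x) h x)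

/-- The pointed simplicial set `S / A` for a simplicial set `S` and a simplicial subset `A`; the
base point is the class of `A`.  It is formed as `S₊ / A₊`, so that `S / ∅ = S₊` is `S` with a
disjoint base point. -/
def quot (S : SSet.{0}) (A : S.Subcomplex) : PSSet where
  obj n := Collapse ⟨Option (S.obj n), none⟩ fun o => ∃ a ∈ A.obj n, o = some a
  map {n m} φ := Collapse.map _ _ ⟨Option.map (S.map φ), rfl⟩ (by
    rintro _ ⟨a, ha, rfl⟩
    exact Or.inr ⟨S.map φ a, A.map φ ha, rfl⟩)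
  map_id n := Collapse.hom_ext fun x => by
    cases x with
    | none => rfl
    | some x =>
      exact congrArg (fun t => Collapse.mk (P := ⟨Option (S.obj n), none⟩) _ (some t))
        (S.map_id_apply n x)
  map_comp {_ _ k} φ ψ := Collapse.hom_ext fun x => by
    cases x with
    | none => rfl
    | some x =>
      exact congrArg (fun t => Collapse.mk (P := ⟨Option (S.obj k), none⟩) _ (some t))
        (S.map_comp_apply φ ψ x)

/-- The class in `S / A` of a simplex of `S`. -/
def quot.mk {S : SSet.{0}} (A : S.Subcomplex) {n : SimplexCategoryᵒᵖ} (x : S.obj n) :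
    (quot S A).obj n :=
  Collapse.mk _ (some x)

/-- `S₊`: the simplicial set `S` with a disjoint base point. -/
abbrev plus (S : SSet.{0}) : PSSet := quot S ⊥

/-- The one-point pointed simplicial set. -/
def pt : PSSet := (Functor.const _).obj ⟨PUnit, PUnit.unit⟩

open Simplicial in
/-- The pointed `0`-sphere `S⁰ = Δ[0]₊`. -/
def S0 : PSSet := plus Δ[0]

open Simplicial in
/-- The simplicial circle `S¹ = Δ[1] / ∂Δ[1]`. -/
def S1 : PSSet := quot Δ[1] ∂Δ[1]

open Simplicial in
/-- The pointed simplicial set `Δ[1]₊`. -/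
def I : PSSet := plus Δ[1]

/-- The inclusion `X ≅ X ∧ {ε}₊ ⟶ X ∧ Δ[1]₊` at the vertex `ε` of `Δ[1]`. -/
def incl (X : PSSet) (ε : Fin 2) : X ⟶ smash X I where
  app n := ⟨fun x => Smash.mk x (quot.mk _ (SSet.stdSimplex.const 1 ε n)), Smash.mk_left _⟩
  naturality _ _ _ := rfl

/-- The isomorphism `X ≅ X ∧ S⁰`. -/
def rho (X : PSSet) : X ⟶ smash X S0 where
  app n := ⟨fun x => Smash.mk x (quot.mk _ (SSet.stdSimplex.const 0 0 n)), Smash.mk_left _⟩
  naturality _ _ _ := rfl

/-- The isomorphism `X ≅ S⁰ ∧ X`. -/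
def lam (X : PSSet) : X ⟶ smash S0 X where
  app n := ⟨fun x => Smash.mk (quot.mk _ (SSet.stdSimplex.const 0 0 n)) x, Smash.mk_right _⟩
  naturality _ _ _ := rfl

/-- The symmetry isomorphism `X ∧ Y ≅ Y ∧ X`. -/
def swap (X Y : PSSet) : smash X Y ⟶ smash Y X where
  app _ := Smash.lift (fun x y => Smash.mk y x) (fun _ => Smash.mk_right _) (fun _ => Smash.mk_left _)
  naturality _ _ _ := Smash.hom_ext fun _ _ => rfl

/-- An elementary pointed simplicial homotopy between two maps of pointed simplicial sets. -/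
def Homotopy {X Y : PSSet} (f g : X ⟶ Y) : Prop :=
  ∃ H : smash X I ⟶ Y, incl X 0 ≫ H = f ∧ incl X 1 ≫ H = g

/-- Two maps of pointed simplicial sets are homotopic if they are joined by a finite chain of
elementary pointed simplicial homotopies. -/
def Homotopic {X Y : PSSet} (f g : X ⟶ Y) : Prop := Relation.EqvGen Homotopy f g


theorem smashMap_id (X Y : PSSet) : smashMap (𝟙 X) (𝟙 Y) = 𝟙 (smash X Y) :=
  NatTrans.ext (funext fun _ => Smash.hom_ext fun _ _ => rfl)

theorem smashMap_comp {X X' X'' Y Y' Y'' : PSSet} (f : X ⟶ X') (f' : X' ⟶ X'') (g : Y ⟶ Y')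
    (g' : Y' ⟶ Y'') : smashMap (f ≫ f') (g ≫ g') = smashMap f g ≫ smashMap f' g' :=
  NatTrans.ext (funext fun _ => Smash.hom_ext fun _ _ => rfl)

/-- The constant map at the base point. -/
def zeroMap (X Y : PSSet) : X ⟶ Y where
  app n := ⟨fun _ => (Y.obj n).point, rfl⟩
  naturality _ _ φ := Pointed.Hom.ext (funext fun _ => (Y.map φ).map_point.symm)

end PSSet

/-! ## 3. Sequential spectra and the stable homotopy category -/

open PSSet in
/-- A sequential spectrum of pointed simplicial sets (Bousfield--Friedlander) whose structure maps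
`σ_n : X_n ∧ S¹ ⟶ X_{n+1}` are injective, i.e. a *cofibrant* object of the Bousfield--Friedlander
stable model category (the simplicial analogue of a CW-spectrum). -/
structure Sp : Type 1 where
  /-- the pointed simplicial set `X_n` -/
  level : ℕ → PSSet
  /-- the structure map `X_n ∧ S¹ ⟶ X_{n+1}` -/
  σ : ∀ n, smash (level n) S1 ⟶ level (n + 1)
  /-- the structure maps are injective -/
  σ_inj : ∀ n m, Function.Injective ((σ n).app m).toFun

namespace Sp

open PSSet

/-- A (strict) map of spectra: maps `X_n ⟶ Y_n` that commute with the structure maps. -/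
@[ext]
structure Hom (X Y : Sp) : Type where
  /-- the map `X_n ⟶ Y_n` -/
  map : ∀ n, X.level n ⟶ Y.level n
  comm : ∀ n, X.σ n ≫ map (n + 1) = smashMap (map n) (𝟙 S1) ≫ Y.σ n

instance instCategory : Category Sp where
  Hom := Hom
  id X := ⟨fun _ => 𝟙 _, fun n => by rw [smashMap_id, Category.comp_id, Category.id_comp]⟩
  comp f g := ⟨fun n => f.map n ≫ g.map n, fun n => by
    rw [← Category.assoc, f.comm, Category.assoc, g.comm, ← Category.assoc, ← smashMap_comp,
      Category.comp_id]⟩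

/-- The spectrum `X ∧ K` for a pointed simplicial set `K`, with `(X ∧ K)_n = X_n ∧ K`. -/
def smashK (X : Sp) (K : PSSet) : Sp where
  level n := smash (X.level n) K
  σ n := swapRight (X.level n) K S1 ≫ smashMap (X.σ n) (𝟙 K)
  σ_inj n m := (Smash.map_injective (f := (X.σ n).app m) (g := 𝟙 (K.obj m)) (X.σ_inj n m)
    Function.injective_id).comp (Smash.swapRight_injective _ _ _)

/-- The inclusion `X ⟶ X ∧ Δ[1]₊` at the vertex `ε` of `Δ[1]`. -/
def incl (X : Sp) (ε : Fin 2) : X ⟶ X.smashK I where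
  map n := PSSet.incl (X.level n) ε
  comm _ := NatTrans.ext (funext fun _ => Smash.hom_ext fun _ _ => rfl)

/-- An elementary simplicial homotopy between two maps of spectra. -/
def Homotopy {X Y : Sp} (f g : X ⟶ Y) : Prop :=
  ∃ H : X.smashK I ⟶ Y, incl X 0 ≫ H = f ∧ incl X 1 ≫ H = g

/-- Two maps of spectra are homotopic if they are joined by a finite chain of elementary simplicial
homotopies. -/
def Homotopic {X Y : Sp} (f g : X ⟶ Y) : Prop := Relation.EqvGen Homotopy f g

/-- `E` is an `Ω`-spectrum (a fibrant object of the Bousfield--Friedlander stable model category):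
every `E_n` is a Kan complex and the adjoint structure map `E_n ⟶ Ω E_{n+1}` is a weak equivalence.
The second condition is stated through the adjunction `[A ∧ S¹, E_{n+1}] = [A, Ω E_{n+1}]`:
for every pointed simplicial set `A`, the map `g ↦ σ_n ∘ (g ∧ S¹)` is a bijection from the pointed
homotopy classes `[A, E_n]` to `[A ∧ S¹, E_{n+1}]`. -/
structure IsOmega (E : Sp) : Prop where
  kan : ∀ n, SSet.KanComplex (E.level n).toSSet
  surj : ∀ (n : ℕ) (A : PSSet) (h : smash A S1 ⟶ E.level (n + 1)),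
    ∃ g : A ⟶ E.level n, PSSet.Homotopic (smashMap g (𝟙 S1) ≫ E.σ n) h
  inj : ∀ (n : ℕ) (A : PSSet) (g g' : A ⟶ E.level n),
    PSSet.Homotopic (smashMap g (𝟙 S1) ≫ E.σ n) (smashMap g' (𝟙 S1) ≫ E.σ n) →
      PSSet.Homotopic g g'

/-- The stable equivalences: the maps `f : X ⟶ Y` such that, for every `Ω`-spectrum `E`,
`f^* : [Y, E] ⟶ [X, E]` is a bijection on homotopy classes of maps of spectra. -/
def stableEquiv : MorphismProperty Sp := fun X Y f =>
  ∀ E : Sp, IsOmega E →
    (∀ g : X ⟶ E, ∃ h : Y ⟶ E, Homotopic (f ≫ h) g) ∧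
    (∀ h h' : Y ⟶ E, Homotopic (f ≫ h) (f ≫ h') → Homotopic h h')

/-! ### Shift and desuspension -/

/-- The shift `sh X`, with `(sh X)_n = X_{n+1}`. -/
def sh (X : Sp) : Sp where
  level n := X.level (n + 1)
  σ n := X.σ (n + 1)
  σ_inj n := X.σ_inj (n + 1)

theorem IsOmega.sh {E : Sp} (hE : IsOmega E) : IsOmega E.sh where
  kan n := hE.kan (n + 1)
  surj n := hE.surj (n + 1)
  inj n := hE.inj (n + 1)

/-- Two maps out of a pointed simplicial set of the form `* ∧ K` agree. -/
theorem _root_.Claimed.Open.R319.PSSet.hom_ext_pt_smash {K Y : PSSet}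
    (f g : smash PSSet.pt K ⟶ Y) : f = g :=
  NatTrans.ext (funext fun n => Smash.hom_ext fun a b => by
    have h : Smash.mk a b = (Smash (PSSet.pt.obj n) (K.obj n)).point := Smash.mk_left b
    exact (congrArg (f.app n).toFun h).trans ((f.app n).map_point.trans
      ((g.app n).map_point.symm.trans (congrArg (g.app n).toFun h).symm)))

/-- Two maps out of a pointed simplicial set of the form `(* ∧ K) ∧ L` agree. -/
theorem _root_.Claimed.Open.R319.PSSet.hom_ext_pt_smash_smash {K L Y : PSSet}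
    (f g : smash (smash PSSet.pt K) L ⟶ Y) : f = g :=
  NatTrans.ext (funext fun n => Smash.hom_ext fun a b => by
    induction a using Smash.ind with | h a c => ?_
    have h : Smash.mk (Smash.mk a c) b
        = (Smash (Smash (PSSet.pt.obj n) (K.obj n)) (L.obj n)).point :=
      (congrArg (fun t => Smash.mk t b) (Smash.mk_left c)).trans (Smash.mk_left b)
    exact (congrArg (f.app n).toFun h).trans ((f.app n).map_point.trans
      ((g.app n).map_point.symm.trans (congrArg (g.app n).toFun h).symm)))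

/-- Two maps out of the point agree. -/
theorem _root_.Claimed.Open.R319.PSSet.hom_ext_pt {Y : PSSet} (f g : PSSet.pt ⟶ Y) : f = g :=
  NatTrans.ext (funext fun n => Pointed.Hom.ext (funext fun a => by
    have h : a = (PSSet.pt.obj n).point := rfl
    exact (congrArg (f.app n).toFun h).trans ((f.app n).map_point.trans
      ((g.app n).map_point.symm.trans (congrArg (g.app n).toFun h).symm))))

/-- The levels of the desuspension. -/
def dLevel (X : Sp) : ℕ → PSSet
  | 0 => PSSet.pt
  | n + 1 => X.level n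

/-- The structure maps of the desuspension. -/
def dσ (X : Sp) : ∀ n, smash (X.dLevel n) S1 ⟶ X.dLevel (n + 1)
  | 0 => zeroMap _ _
  | n + 1 => X.σ n

/-- The desuspension `D X = Σ⁻¹ X`, with `(D X)_0 = *` and `(D X)_{n+1} = X_n`. -/
def D (X : Sp) : Sp where
  level := X.dLevel
  σ := X.dσ
  σ_inj
    | 0 => fun m x y _ => by
      induction x using Smash.ind with | h a b => ?_
      induction y using Smash.ind with | h a' b' => ?_
      exact (Smash.mk_left (A := PSSet.pt.obj m) b).trans (Smash.mk_left (A := PSSet.pt.obj m) b').symm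
    | n + 1 => X.σ_inj n

/-- The maps `(D X)_n ⟶ (D Y)_n` induced by `f : X ⟶ Y`. -/
def dMapLevel {X Y : Sp} (f : X ⟶ Y) : ∀ n, X.dLevel n ⟶ Y.dLevel n
  | 0 => 𝟙 _
  | n + 1 => f.map n

/-- The desuspension as a functor. -/
def Dfun : Sp ⥤ Sp where
  obj := D
  map f :=
    { map := dMapLevel f
      comm := fun
        | 0 => PSSet.hom_ext_pt_smash _ _
        | n + 1 => f.comm n }
  map_id _ := Hom.ext (funext fun | 0 => rfl | _ + 1 => rfl)
  map_comp _ _ := Hom.ext (funext fun
    | 0 => (Category.comp_id _).symm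
    | _ + 1 => rfl)

/-- One half of the adjunction `Sp(D X, E) = Sp(X, sh E)`. -/
def adjTo {X E : Sp} (a : X.D ⟶ E) : X ⟶ E.sh where
  map n := a.map (n + 1)
  comm n := a.comm (n + 1)

/-- The other half of the adjunction `Sp(D X, E) = Sp(X, sh E)`. -/
def adjFrom {X E : Sp} (b : X ⟶ E.sh) : X.D ⟶ E where
  map
    | 0 => zeroMap _ _
    | n + 1 => b.map n
  comm
    | 0 => PSSet.hom_ext_pt_smash _ _
    | n + 1 => b.comm n

theorem adjFrom_adjTo {X E : Sp} (a : X.D ⟶ E) : adjFrom (adjTo a) = a :=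
  Hom.ext (funext fun
    | 0 => PSSet.hom_ext_pt _ _
    | _ + 1 => rfl)

theorem Homotopy.adjTo {X E : Sp} {a a' : X.D ⟶ E} (h : Homotopy a a') :
    Homotopy (adjTo a) (adjTo a') := by
  obtain ⟨H, rfl, rfl⟩ := h
  exact ⟨⟨fun n => H.map (n + 1), fun n => H.comm (n + 1)⟩, rfl, rfl⟩

theorem Homotopy.adjFrom {X E : Sp} {b b' : X ⟶ E.sh} (h : Homotopy b b') :
    Homotopy (adjFrom b) (adjFrom b') := by
  obtain ⟨H, rfl, rfl⟩ := h
  refine ⟨⟨fun | 0 => zeroMap _ _ | n + 1 => H.map n,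
    fun | 0 => PSSet.hom_ext_pt_smash_smash _ _ | n + 1 => H.comm n⟩, ?_, ?_⟩ <;>
  exact Hom.ext (funext fun | 0 => PSSet.hom_ext_pt _ _ | _ + 1 => rfl)

theorem Homotopic.adjTo {X E : Sp} {a a' : X.D ⟶ E} (h : Homotopic a a') :
    Homotopic (adjTo a) (adjTo a') := by
  induction h with
  | rel _ _ h => exact .rel _ _ h.adjTo
  | refl _ => exact .refl _
  | symm _ _ _ ih => exact .symm _ _ ih
  | trans _ _ _ _ _ ih ih' => exact .trans _ _ _ ih ih'

theorem Homotopic.adjFrom {X E : Sp} {b b' : X ⟶ E.sh} (h : Homotopic b b') :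
    Homotopic (adjFrom b) (adjFrom b') := by
  induction h with
  | rel _ _ h => exact .rel _ _ h.adjFrom
  | refl _ => exact .refl _
  | symm _ _ _ ih => exact .symm _ _ ih
  | trans _ _ _ _ _ ih ih' => exact .trans _ _ _ ih ih'

/-- The desuspension preserves stable equivalences. -/
theorem stableEquiv_D {X Y : Sp} (f : X ⟶ Y) (hf : stableEquiv f) : stableEquiv (Dfun.map f) := by
  intro E hE
  obtain ⟨h1, h2⟩ := hf E.sh hE.sh
  constructor
  · intro g
    obtain ⟨h, hh⟩ := h1 (adjTo g)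
    refine ⟨adjFrom h, ?_⟩
    have this := hh.adjFrom
    have e2 : adjFrom (adjTo g) = g := adjFrom_adjTo g
    rw [e2] at this
    have e : Dfun.map f ≫ adjFrom h = adjFrom (f ≫ h) :=
      Hom.ext (funext fun | 0 => PSSet.hom_ext_pt _ _ | _ + 1 => rfl)
    rw [e]; exact this
  · intro h h' hh
    have this := (h2 (adjTo h) (adjTo h') hh.adjTo).adjFrom
    have e : adjFrom (adjTo h) = h := adjFrom_adjTo h
    have e' : adjFrom (adjTo h') = h' := adjFrom_adjTo h'
    rwa [e, e'] at this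

end Sp

/-- The stable homotopy category: the localization of the category of spectra at the stable
equivalences. -/
abbrev SH : Type 1 := Sp.stableEquiv.Localization

/-- The localization functor. -/
abbrev Q : Sp ⥤ SH := Sp.stableEquiv.Q

/-! ## 4. Zero maps and sums of maps, in categorical terms

No additive structure is constructed on `SH`; "zero map" and "sum of two maps" are expressed
through zero objects and coproducts.  In an additive category they have their usual meaning. -/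

section Categorical

universe v u

variable {C : Type u} [Category.{v} C]

/-- A morphism is zero if it factors through a zero object. -/
def IsZeroMor {X Y : C} (f : X ⟶ Y) : Prop :=
  ∃ (Z : C) (a : X ⟶ Z) (b : Z ⟶ Y), Limits.IsZero Z ∧ f = a ≫ b

/-- `(P, i₁, i₂)` is a coproduct of `A` and `B`. -/
def IsCoprod {A B P : C} (i₁ : A ⟶ P) (i₂ : B ⟶ P) : Prop :=
  ∀ (T : C) (a : A ⟶ T) (b : B ⟶ T), ∃! d : P ⟶ T, i₁ ≫ d = a ∧ i₂ ≫ d = b

/-- `h = f + g`, stated without an additive structure: choose a coproduct `Y ⨿ Y`, its two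
"projections" `r₁ = (𝟙, 0)`, `r₂ = (0, 𝟙)` and the fold map `(𝟙, 𝟙)`; then `h = fold ∘ u` for a map
`u : X ⟶ Y ⨿ Y` with components `f` and `g`. -/
def IsSum {X Y : C} (f g h : X ⟶ Y) : Prop :=
  ∃ (P : C) (i₁ i₂ : Y ⟶ P) (r₁ r₂ fold : P ⟶ Y) (u : X ⟶ P),
    IsCoprod i₁ i₂ ∧
    i₁ ≫ r₁ = 𝟙 Y ∧ IsZeroMor (i₂ ≫ r₁) ∧
    IsZeroMor (i₁ ≫ r₂) ∧ i₂ ≫ r₂ = 𝟙 Y ∧
    i₁ ≫ fold = 𝟙 Y ∧ i₂ ≫ fold = 𝟙 Y ∧
    u ≫ r₁ = f ∧ u ≫ r₂ = g ∧ u ≫ fold = h

/-- `f = n · 𝟙_X`. -/
def IsNatMul {X : C} : ℕ → (X ⟶ X) → Prop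
  | 0, f => IsZeroMor f
  | n + 1, f => ∃ g : X ⟶ X, IsNatMul n g ∧ IsSum g (𝟙 X) f

/-- Multiplication by `n` is invertible on `X`. -/
def NatMulInvertible (n : ℕ) (X : C) : Prop := ∃ f : X ⟶ X, IsNatMul n f ∧ IsIso f

end Categorical

/-! ## 5. Desuspension, spheres, homotopy groups, cofibre sequences, thick subcategories -/

/-- The iterated suspension `K ∧ S¹ ∧ ⋯ ∧ S¹`. -/
def PSSet.iterSusp (K : PSSet) : ℕ → PSSet
  | 0 => K
  | n + 1 => PSSet.smash (PSSet.iterSusp K n) PSSet.S1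

/-- The simplicial `k`-sphere `S^k = S⁰ ∧ S¹ ∧ ⋯ ∧ S¹`. -/
def PSSet.Sph (k : ℕ) : PSSet := PSSet.iterSusp PSSet.S0 k

/-- The suspension spectrum `Σ^∞ K`. -/
def Sp.suspSpec (K : PSSet) : Sp where
  level := K.iterSusp
  σ _ := 𝟙 _
  σ_inj _ _ := Function.injective_id

/-- A strict cofibre sequence of spectra `X ↪ Y ↠ Y / X`: in every level and every simplicial
degree, `i` is injective, `q` is surjective, and `q` identifies exactly the image of `i` to a
point. -/
structure Sp.IsCofSeq {X Y Z : Sp} (i : X ⟶ Y) (q : Y ⟶ Z) : Prop where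
  inj : ∀ n m, Function.Injective ((i.map n).app m).toFun
  surj : ∀ n m, Function.Surjective ((q.map n).app m).toFun
  ker : ∀ n m (y y' : (Y.level n).obj m),
    ((q.map n).app m).toFun y = ((q.map n).app m).toFun y' ↔
      y = y' ∨ (y ∈ Set.range ((i.map n).app m).toFun ∧ y' ∈ Set.range ((i.map n).app m).toFun)

namespace Sp

open PSSet

/-- The levels of the smash product of two spectra along the staircase starting at `(a, b)`:
`X_a ∧ Y_b`, `X_a ∧ Y_{b+1}`, `X_{a+1} ∧ Y_{b+1}`, `X_{a+1} ∧ Y_{b+2}`, ... -/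
def smashLevel (X Y : Sp) : ℕ → ℕ → ℕ → PSSet
  | 0, a, b => PSSet.smash (X.level a) (Y.level b)
  | 1, a, b => PSSet.smash (X.level a) (Y.level (b + 1))
  | m + 2, a, b => smashLevel X Y m (a + 1) (b + 1)

/-- The structure maps of the smash product of two spectra:
`(X_a ∧ Y_b) ∧ S¹ ≅ X_a ∧ (Y_b ∧ S¹) ⟶ X_a ∧ Y_{b+1}` and
`(X_a ∧ Y_{b+1}) ∧ S¹ ≅ (X_a ∧ S¹) ∧ Y_{b+1} ⟶ X_{a+1} ∧ Y_{b+1}`. -/
def smashσ (X Y : Sp) : ∀ m a b, PSSet.smash (smashLevel X Y m a b) S1 ⟶ smashLevel X Y (m + 1) a b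
  | 0, a, b => PSSet.assoc _ _ _ ≫ smashMap (𝟙 (X.level a)) (Y.σ b)
  | 1, a, b => PSSet.swapRight _ _ _ ≫ smashMap (X.σ a) (𝟙 (Y.level (b + 1)))
  | m + 2, a, b => smashσ X Y m (a + 1) (b + 1)

theorem smashσ_inj (X Y : Sp) : ∀ m a b k, Function.Injective (((smashσ X Y m a b)).app k).toFun
  | 0, a, b, k => (Smash.map_injective (f := 𝟙 ((X.level a).obj k)) (g := (Y.σ b).app k)
      Function.injective_id (Y.σ_inj b k)).comp (Smash.assoc_injective _ _ _)
  | 1, a, b, k => (Smash.map_injective (f := (X.σ a).app k) (g := 𝟙 ((Y.level (b + 1)).obj k))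
      (X.σ_inj a k) Function.injective_id).comp (Smash.swapRight_injective _ _ _)
  | m + 2, a, b, k => smashσ_inj X Y m (a + 1) (b + 1) k

/-- The (naive, "handicrafted") smash product `X ∧ Y` of two spectra:
`(X ∧ Y)_{2n} = X_n ∧ Y_n` and `(X ∧ Y)_{2n+1} = X_n ∧ Y_{n+1}`. -/
def smash (X Y : Sp) : Sp where
  level m := smashLevel X Y m 0 0
  σ m := smashσ X Y m 0 0
  σ_inj m := smashσ_inj X Y m 0 0

end Sp

namespace SH

/-- The spectrum underlying an object of `SH` (the localization has the same objects as `Sp`). -/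
def sp (X : SH) : Sp := (Localization.Construction.objEquiv Sp.stableEquiv).symm X

/-- The desuspension functor `Σ⁻¹` on the stable homotopy category. -/
def D : SH ⥤ SH :=
  Localization.Construction.lift (Sp.Dfun ⋙ Q) fun _ _ f hf =>
    Sp.stableEquiv.Q_inverts _ (Sp.stableEquiv_D f hf)

/-- The iterated desuspension `Σ^{-k}`. -/
def Dpow : ℕ → (SH ⥤ SH)
  | 0 => 𝟭 SH
  | k + 1 => Dpow k ⋙ D

/-- The sphere spectrum `S^k`, `k ∈ ℤ`. -/
def sphere : ℤ → SH
  | Int.ofNat k => Q.obj (Sp.suspSpec (PSSet.Sph k))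
  | Int.negSucc k => (Dpow (k + 1)).obj (Q.obj (Sp.suspSpec PSSet.S0))

/-- The stable homotopy group `π_k X = [S^k, X]` (as a set; its addition is `IsSum`). -/
abbrev π (k : ℤ) (X : SH) : Type 1 := sphere k ⟶ X

/-- `X ⟶ Y ⟶ Z` is a cofibre sequence in `SH`: it is isomorphic to the image of a strict cofibre
sequence of spectra. -/
def IsCofiberSeq {X Y Z : SH} (f : X ⟶ Y) (g : Y ⟶ Z) : Prop :=
  ∃ (X' Y' Z' : Sp) (i : X' ⟶ Y') (q : Y' ⟶ Z')
    (a : X ≅ Q.obj X') (b : Y ≅ Q.obj Y') (c : Z ≅ Q.obj Z'),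
    Sp.IsCofSeq i q ∧ f ≫ b.hom = a.hom ≫ Q.map i ∧ g ≫ c.hom = b.hom ≫ Q.map q

/-- The ordinary thick closure `Thick(B)` of an object `B`: the smallest class of spectra that
contains `B` and is closed under equivalences, finite sums, all integer shifts, cofibre sequences
(two out of three) and retracts. -/
inductive Thick (B : SH) : SH → Prop
  | base : Thick B B
  | iso {X Y : SH} (e : X ≅ Y) : Thick B X → Thick B Y
  | zero {Z : SH} : Limits.IsZero Z → Thick B Z
  | sum {X Y P : SH} (i₁ : X ⟶ P) (i₂ : Y ⟶ P) : IsCoprod i₁ i₂ → Thick B X → Thick B Y → Thick B P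
  | desusp {X : SH} : Thick B X → Thick B (D.obj X)
  | susp {X : SH} : Thick B (D.obj X) → Thick B X
  | cofiber {X Y Z : SH} (f : X ⟶ Y) (g : Y ⟶ Z) :
      IsCofiberSeq f g → Thick B X → Thick B Y → Thick B Z
  | fiber {X Y Z : SH} (f : X ⟶ Y) (g : Y ⟶ Z) :
      IsCofiberSeq f g → Thick B Y → Thick B Z → Thick B X
  | ext {X Y Z : SH} (f : X ⟶ Y) (g : Y ⟶ Z) :
      IsCofiberSeq f g → Thick B X → Thick B Z → Thick B Y
  | retract {X Y : SH} (i : X ⟶ Y) (r : Y ⟶ X) : i ≫ r = 𝟙 X → Thick B Y → Thick B X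

/-- The localizing subcategory generated by a class `G` of spectra: the smallest class that
contains `G` and is closed under equivalences, shifts, cofibre sequences (two out of three) and
arbitrary coproducts. -/
inductive Loc (G : SH → Prop) : SH → Prop
  | base {X : SH} : G X → Loc G X
  | iso {X Y : SH} (e : X ≅ Y) : Loc G X → Loc G Y
  | desusp {X : SH} : Loc G X → Loc G (D.obj X)
  | susp {X : SH} : Loc G (D.obj X) → Loc G X
  | cofiber {X Y Z : SH} (f : X ⟶ Y) (g : Y ⟶ Z) :
      IsCofiberSeq f g → Loc G X → Loc G Y → Loc G Z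
  | fiber {X Y Z : SH} (f : X ⟶ Y) (g : Y ⟶ Z) :
      IsCofiberSeq f g → Loc G Y → Loc G Z → Loc G X
  | ext {X Y Z : SH} (f : X ⟶ Y) (g : Y ⟶ Z) :
      IsCofiberSeq f g → Loc G X → Loc G Z → Loc G Y
  | coprod {J : Type} (X : J → SH) (c : Limits.Cofan X) (hc : Limits.IsColimit c) :
      (∀ j, Loc G (X j)) → Loc G c.pt


/-! ## 6. Smash products, homology, Bousfield localization -/

/-- The smash product `E ∧ X` of two objects of `SH`. -/
def smash (E X : SH) : SH := Q.obj (Sp.smash E.sp X.sp)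

/-- `A` is `E`-acyclic: `E_* A = π_* (E ∧ A) = 0`. -/
def IsAcyclic (E A : SH) : Prop := ∀ k : ℤ, Subsingleton (π k (smash E A))

/-- `Z` is local with respect to a class `Ac` of "acyclic" spectra (closed under shifts):
`[A, Z] = 0` for every acyclic `A`. -/
def IsLocalFor (Ac : SH → Prop) (Z : SH) : Prop :=
  ∀ A : SH, Ac A → ∀ f : A ⟶ Z, IsZeroMor f

/-- `η : X ⟶ Z` is a (Bousfield) localization with respect to the class `Ac` of acyclic spectra:
`Z` is local and the cofibre of `η` is acyclic. -/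
def IsLocalizationFor (Ac : SH → Prop) {X Z : SH} (η : X ⟶ Z) : Prop :=
  IsLocalFor Ac Z ∧ ∃ (C : SH) (g : Z ⟶ C), IsCofiberSeq η g ∧ Ac C

/-- `X` is `p`-complete, i.e. local with respect to the mod `p` Moore spectrum `S/p`: the
`S/p`-acyclic spectra are those on which `p` is invertible. -/
def IsPComplete (p : ℕ) (X : SH) : Prop := IsLocalFor (NatMulInvertible p) X

/-- `X` is connective. -/
def IsConnective (X : SH) : Prop := ∀ k : ℤ, k < 0 → Subsingleton (π k X)

/-- `X` is bounded below. -/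
def IsBoundedBelow (X : SH) : Prop := ∃ N : ℤ, ∀ k : ℤ, k < N → Subsingleton (π k X)

/-- `π_* Y` is finite in total: finitely many nonzero homotopy groups, each a finite group. -/
def IsTotallyFinite (Y : SH) : Prop :=
  (∀ k : ℤ, Finite (π k Y)) ∧ ∃ N : ℤ, ∀ k : ℤ, N < |k| → Subsingleton (π k Y)

/-- `X` is `p`-local: every prime `ℓ ≠ p` is invertible on `X`. -/
def IsPLocal (p : ℕ) (X : SH) : Prop := ∀ ℓ : ℕ, ℓ.Prime → ℓ ≠ p → NatMulInvertible ℓ X

/-- `η : X ⟶ Y` is a `p`-localization: the universal map from `X` to a `p`-local spectrum. -/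
def IsPLocalization (p : ℕ) {X Y : SH} (η : X ⟶ Y) : Prop :=
  IsPLocal p Y ∧ ∀ Z : SH, IsPLocal p Z → Function.Bijective fun g : Y ⟶ Z => η ≫ g

/-- `V` is a finite `p`-local spectrum: it lies in the thick subcategory generated by the
`p`-local sphere `S_(p)`. -/
def IsFinitePLocal (p : ℕ) (V : SH) : Prop :=
  ∃ (S_p : SH) (η : sphere 0 ⟶ S_p), IsPLocalization p η ∧ Thick S_p V

/-! ## 7. Eilenberg--Mac Lane spectra and Morava K-theories -/

/-- `H` is an Eilenberg--Mac Lane spectrum `H𝔽_p`: `π_0 H` has `p` elements (`p` prime) and the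
other homotopy groups vanish. -/
def IsHFp (p : ℕ) (H : SH) : Prop :=
  Nat.card (π 0 H) = p ∧ ∀ k : ℤ, k ≠ 0 → Subsingleton (π k H)

/-- `K` is an Eilenberg--Mac Lane spectrum `Hℚ`. -/
def IsHQ (K : SH) : Prop :=
  (∃ e : π 0 K ≃ ℚ, ∀ f g h : π 0 K, IsSum f g h ↔ e h = e f + e g) ∧
    ∀ k : ℤ, k ≠ 0 → Subsingleton (π k K)

end SH

/-! ### Symmetric ring spectra -/

open PSSet in
/-- A symmetric ring spectrum of pointed simplicial sets (Hovey--Shipley--Smith; Schwede,
*Symmetric spectra*, Definition I.1.3): pointed simplicial sets `R_n` with an action of the symmetric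
group `Σ_n`, `Σ_m × Σ_n`-equivariant multiplication maps `μ_{m,n} : R_m ∧ R_n ⟶ R_{m+n}` and unit maps
`ι₀ : S⁰ ⟶ R_0`, `ι₁ : S¹ ⟶ R_1`, subject to the associativity, unit and centrality conditions.
(No commutativity is required.) -/
structure SymRing : Type 1 where
  level : ℕ → PSSet
  /-- the action of the symmetric group `Σ_n` on `R_n` -/
  act : ∀ n, Equiv.Perm (Fin n) → (level n ⟶ level n)
  act_one : ∀ n, act n 1 = 𝟙 _
  act_mul : ∀ n (s t : Equiv.Perm (Fin n)), act n (s * t) = act n t ≫ act n s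
  /-- the multiplication maps -/
  μ : ∀ m n, smash (level m) (level n) ⟶ level (m + n)
  /-- the unit maps -/
  ι₀ : S0 ⟶ level 0
  ι₁ : S1 ⟶ level 1
  equivariant : ∀ m n (s : Equiv.Perm (Fin m)) (t : Equiv.Perm (Fin n)),
    smashMap (act m s) (act n t) ≫ μ m n =
      μ m n ≫ act (m + n) (finSumFinEquiv.permCongr (Equiv.Perm.sumCongr s t))
  assoc : ∀ l m n,
    smashMap (μ l m) (𝟙 (level n)) ≫ μ (l + m) n ≫ eqToHom (congrArg level (Nat.add_assoc l m n)) =
      PSSet.assoc _ _ _ ≫ smashMap (𝟙 (level l)) (μ m n) ≫ μ l (m + n)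
  unit_right : ∀ n, rho (level n) ≫ smashMap (𝟙 (level n)) ι₀ ≫ μ n 0 = 𝟙 _
  unit_left : ∀ n, lam (level n) ≫ smashMap ι₀ (𝟙 (level n)) ≫ μ 0 n ≫
    eqToHom (congrArg level (Nat.zero_add n)) = 𝟙 _
  /-- centrality of `ι₁`; `finRotate (n + 1)` is the shuffle `χ_{n,1}`, `i ↦ i + 1`, `n ↦ 0` -/
  central : ∀ n, smashMap (𝟙 (level n)) ι₁ ≫ μ n 1 ≫ act (n + 1) (finRotate (n + 1)) =
    swap _ _ ≫ smashMap ι₁ (𝟙 (level n)) ≫ μ 1 n ≫ eqToHom (congrArg level (Nat.add_comm 1 n))
  /-- the structure maps `R_n ∧ S¹ ⟶ R_{n+1}` of the underlying spectrum are injective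
  (this holds e.g. for cofibrant symmetric ring spectra) -/
  σ_inj : ∀ n k, Function.Injective ((smashMap (𝟙 (level n)) ι₁ ≫ μ n 1).app k).toFun

namespace SymRing

open PSSet

/-- The underlying sequential spectrum of a symmetric ring spectrum, with structure maps
`μ_{n,1} ∘ (R_n ∧ ι₁) : R_n ∧ S¹ ⟶ R_{n+1}`. -/
def toSp (R : SymRing) : Sp where
  level := R.level
  σ n := smashMap (𝟙 (R.level n)) R.ι₁ ≫ R.μ n 1
  σ_inj := R.σ_inj

/-- The iterated unit maps `ι_n : S^n ⟶ R_n`. -/
def unit (R : SymRing) : ∀ n, Sph n ⟶ R.level n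
  | 0 => R.ι₀
  | n + 1 => smashMap (unit R n) R.ι₁ ≫ R.μ n 1

end SymRing

/-! ### The Eilenberg--Mac Lane complex `K(ℤ, 2) ≃ ℂP^∞` -/

open Simplicial in
/-- A normalized `2`-cocycle of the simplex `Δ^n` with integer coefficients: a function on the
`2`-simplices `⦋2⦌ ⟶ n` of `Δ^n` that vanishes on the degenerate ones and whose coboundary
vanishes on every `3`-simplex. -/
@[ext]
structure Cocycle2 (n : SimplexCategory) : Type where
  val : (⦋2⦌ ⟶ n) → ℤ
  normalized : ∀ τ : ⦋2⦌ ⟶ n, ¬ Function.Injective τ.toOrderHom → val τ = 0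
  cocycle : ∀ ρ : ⦋3⦌ ⟶ n, ∑ i : Fin 4, (-1 : ℤ) ^ (i : ℕ) * val (SimplexCategory.δ i ≫ ρ) = 0

/-- The zero cocycle. -/
def Cocycle2.zero (n : SimplexCategory) : Cocycle2 n := ⟨fun _ => 0, fun _ _ => rfl, fun _ => by simp⟩

/-- The multiple `k · c` of a cocycle. -/
def Cocycle2.smul {n : SimplexCategory} (k : ℤ) (c : Cocycle2 n) : Cocycle2 n where
  val τ := k * c.val τ
  normalized τ hτ := by rw [c.normalized τ hτ, mul_zero]
  cocycle ρ := by
    have h := congrArg (k * ·) (c.cocycle ρ)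
    simp only [Finset.mul_sum, mul_zero] at h
    rw [← h]
    exact Finset.sum_congr rfl fun i _ => by ring

/-- The pullback of a cocycle along a simplicial operator. -/
def Cocycle2.pullback {n m : SimplexCategory} (φ : m ⟶ n) (c : Cocycle2 n) : Cocycle2 m where
  val τ := c.val (τ ≫ φ)
  normalized τ hτ := c.normalized _ fun h => hτ (Function.Injective.of_comp (f := φ.toOrderHom) h)
  cocycle ρ := by
    simpa only [Category.assoc] using c.cocycle (ρ ≫ φ)

/-- The Eilenberg--Mac Lane complex `K(ℤ, 2) ≃ ℂP^∞`: its `n`-simplices are the normalized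
`2`-cocycles of `Δ^n` with integer coefficients; the base point is `0`. -/
def KZ2 : PSSet where
  obj n := ⟨Cocycle2 n.unop, Cocycle2.zero _⟩
  map φ := ⟨Cocycle2.pullback φ.unop, rfl⟩
  map_id _ := Pointed.Hom.ext (funext fun c => Cocycle2.ext (funext fun τ => by
    show c.val (τ ≫ 𝟙 _) = c.val τ
    rw [Category.comp_id]))
  map_comp φ ψ := Pointed.Hom.ext (funext fun c => Cocycle2.ext (funext fun τ => by
    show c.val (τ ≫ (ψ.unop ≫ φ.unop)) = c.val ((τ ≫ ψ.unop) ≫ φ.unop)
    rw [Category.assoc]))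

/-- Multiplication by `k` on the simplicial abelian group `K(ℤ, 2)`; under `K(ℤ, 2) ≃ ℂP^∞` it is the
`k`-th power map of the H-space `ℂP^∞`, which classifies the `k`-th tensor power of line bundles. -/
def KZ2.mul (k : ℤ) : KZ2 ⟶ KZ2 where
  app _ := ⟨Cocycle2.smul k, Cocycle2.ext (funext fun _ => mul_zero k)⟩
  naturality _ _ _ := rfl

/-! ### Morava K-theories -/

open PSSet in
/-- `x : K(ℤ, 2) ⟶ R_2`, a class in `R̃²(ℂP^∞)`, is a complex orientation of the ring spectrum `R`: its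
restriction along a generator `j : S² ⟶ K(ℤ, 2)` of `π_2 K(ℤ, 2) = ℤ` is the unit `ι_2 : S² ⟶ R_2`.
(That `j` is a generator is expressed by: every map `S² ⟶ K(ℤ, 2)` is homotopic to a multiple of `j`.) -/
def SymRing.IsOrientation (R : SymRing) (x : KZ2 ⟶ R.level 2) : Prop :=
  ∃ j : Sph 2 ⟶ KZ2,
    (∀ g : Sph 2 ⟶ KZ2, ∃ k : ℤ, PSSet.Homotopic g (j ≫ KZ2.mul k)) ∧
    PSSet.Homotopic (j ≫ x) (R.unit 2)

open PSSet in
/-- The formal group of the complex oriented ring spectrum `(R, x)` (with `π_* R` a graded field of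
characteristic `p`) has height exactly `n`: the `p`-series `[p](x) = [p]^* x ∈ R̃²(ℂP^∞)` is zero modulo
`x^{p^n}` and nonzero modulo `x^{p^n + 1}`.  As `R^*(ℂP^m) = R^*[x]/(x^{m+1})` and every map from a complex
of dimension `≤ 2m + 1` to `ℂP^∞` factors through `ℂP^m`, this means that `[p]^* x` restricts to zero on
all complexes of dimension `< 2 p^n` but not on all complexes of dimension `≤ 2 p^n`. -/
def SymRing.HasHeight (R : SymRing) (x : KZ2 ⟶ R.level 2) (p n : ℕ) : Prop :=
  (∀ (L : PSSet) (g : L ⟶ KZ2), L.toSSet.HasDimensionLT (2 * p ^ n) →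
    PSSet.Homotopic (g ≫ KZ2.mul p ≫ x) (zeroMap _ _)) ∧
  ∃ (L : PSSet) (g : L ⟶ KZ2), L.toSSet.HasDimensionLT (2 * p ^ n + 1) ∧
    ¬ PSSet.Homotopic (g ≫ KZ2.mul p ≫ x) (zeroMap _ _)

open PSSet in
/-- `K` is a Morava K-theory spectrum `K(n)` at the prime `p`, `n ≥ 1`: it is the underlying spectrum
of a ring spectrum `R` (a symmetric ring spectrum that is an `Ω`-spectrum) with
`π_* R ≅ 𝔽_p[v^{±1}]`, `|v| = 2(p^n - 1)`, which admits a complex orientation whose formal group has
height exactly `n`.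

The coefficients are described by: `π_k R` has `p` elements if `2(p^n - 1)` divides `k` and is trivial
otherwise, and there is a unit of degree `d = 2(p^n - 1)`: classes `a ∈ π_d R = [S^d, R_0]` and
`b ∈ π_{-d} R = [S⁰, R_d]` with `b · a = 1` in `π_0 R = [S^d, R_d]`. -/
def IsMoravaKpos (p n : ℕ) (K : SH) : Prop :=
  ∃ R : SymRing, R.toSp.IsOmega ∧ Nonempty (K ≅ Q.obj R.toSp) ∧
    (∀ k : ℤ, (2 * ((p : ℤ) ^ n - 1) ∣ k → Nat.card (SH.π k K) = p) ∧
      (¬ 2 * ((p : ℤ) ^ n - 1) ∣ k → Subsingleton (SH.π k K))) ∧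
    (∃ (a : Sph (2 * (p ^ n - 1)) ⟶ R.level 0) (b : S0 ⟶ R.level (2 * (p ^ n - 1))),
      PSSet.Homotopic (lam _ ≫ smashMap b a ≫ R.μ (2 * (p ^ n - 1)) 0) (R.unit _)) ∧
    ∃ x : KZ2 ⟶ R.level 2, R.IsOrientation x ∧ R.HasHeight x p n

namespace SH

/-- `K` is a Morava K-theory spectrum `K(n)` at the prime `p`, with `K(0) = Hℚ`. -/
def IsMoravaK (p : ℕ) : ℕ → SH → Prop
  | 0, K => IsHQ K
  | n + 1, K => IsMoravaKpos p (n + 1) K

/-- `K(j)_* A = 0`. -/
def IsKAcyclic (p j : ℕ) (A : SH) : Prop := ∀ K : SH, IsMoravaK p j K → IsAcyclic K A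

/-! ## 8. Type and fp-type -/

/-- The spectrum `V` has type `j` (at `p`): `j` is the least index for which the `K(j)`-homology
of `V` is nonzero. -/
def HasType (p : ℕ) (V : SH) (j : ℕ) : Prop :=
  ¬ IsKAcyclic p j V ∧ ∀ i < j, IsKAcyclic p i V

/-- `P` is a finite product (equivalently, a finite sum) of desuspensions `Σ^{-c_i} H` of `H`.  Then
`H^* P = [P, Σ^* H]` is the free module over the algebra of operations `H^* H` on the projections. -/
def IsFiniteProductOfShifts (H P : SH) : Prop :=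
  ∃ (n : ℕ) (c : Fin n → ℕ) (pr : ∀ i, P ⟶ (Dpow (c i)).obj H),
    Nonempty (Limits.IsLimit (Limits.Fan.mk P pr))

/-- The sequence `H^* P₁ ⟶ H^* P₀ ⟶ H^* Y ⟶ 0` induced by `Y --x--> P₀ --r--> P₁` is exact, in every
degree (the group of degree `a - b` is written as `[Σ^{-a} (-), Σ^{-b} H]`). -/
structure IsCohomologyPresentation (H : SH) {Y P₀ P₁ : SH} (x : Y ⟶ P₀) (r : P₀ ⟶ P₁) : Prop where
  surj : ∀ (a b : ℕ) (y : (Dpow a).obj Y ⟶ (Dpow b).obj H),
    ∃ g : (Dpow a).obj P₀ ⟶ (Dpow b).obj H, y = (Dpow a).map x ≫ g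
  exact : ∀ (a b : ℕ) (g : (Dpow a).obj P₀ ⟶ (Dpow b).obj H),
    IsZeroMor ((Dpow a).map x ≫ g) ↔
      ∃ h : (Dpow a).obj P₁ ⟶ (Dpow b).obj H, g = (Dpow a).map r ≫ h

/-- `H^*(X; 𝔽_p)` is finitely presented as a module over the mod `p` Steenrod algebra: finitely many
classes (the components of `x`) generate it, and the module of relations between them is generated
by finitely many relations (the components of `r`).  A desuspension `Σ^{-M} X` is used so that all
generators and relations can be written with desuspensions of `H𝔽_p` only. -/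
def HasFinitelyPresentedCohomology (p : ℕ) (X : SH) : Prop :=
  ∃ (H P₀ P₁ : SH) (M : ℕ) (x : (Dpow M).obj X ⟶ P₀) (r : P₀ ⟶ P₁), IsHFp p H ∧
    IsFiniteProductOfShifts H P₀ ∧ IsFiniteProductOfShifts H P₁ ∧ IsCohomologyPresentation H x r

/-- `X` is an fp-spectrum (Mahowald--Rezk): bounded below, `p`-complete, with mod `p` cohomology
finitely presented over the Steenrod algebra. -/
structure IsFp (p : ℕ) (X : SH) : Prop where
  boundedBelow : IsBoundedBelow X
  complete : IsPComplete p X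
  cohomology : HasFinitelyPresentedCohomology p X

/-- `X` is an fp-spectrum of fp-type at most `n`: `π_* (V ∧ X)` is finite in total for a finite
`p`-local spectrum `V` of type `n + 1`. -/
def FpTypeLE (p n : ℕ) (X : SH) : Prop :=
  IsFp p X ∧ ∃ V : SH, IsFinitePLocal p V ∧ HasType p V (n + 1) ∧ IsTotallyFinite (smash V X)

/-! ## 9. The Steenrod algebra, the Milnor primitives and `BP⟨2⟩` -/

theorem Dpow_add (k l : ℕ) (X : SH) : (Dpow k).obj ((Dpow l).obj X) = (Dpow (l + k)).obj X := by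
  induction k with
  | zero => rfl
  | succ k ih => exact congrArg D.obj ih

/-- Cohomology classes of degree `l` of `X` with coefficients in `H` are maps `Σ^{-l} X ⟶ H`, and
cohomology operations of degree `k` are maps `Σ^{-k} H ⟶ H`.  This is the action `a · y = a ∘ Σ^{-k} y`
of an operation `a` of degree `k` on a class `y` of degree `l`; it has degree `n = l + k`.  For
`X = H` it is the product of the algebra of operations. -/
def act {X H : SH} {k l n : ℕ} (h : l + k = n) (a : (Dpow k).obj H ⟶ H)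
    (y : (Dpow l).obj X ⟶ H) : (Dpow n).obj X ⟶ H :=
  eqToHom (by rw [← h, Dpow_add]) ≫ (Dpow k).map y ≫ a

/-- `Q₀, Q₁, Q₂` are the first three Milnor primitives in the mod `p` Steenrod algebra
`𝒜^* = [H, Σ^* H]`, `H = H𝔽_p`, `p` odd, up to units of `𝔽_p`:
`Q₀ = β`, `Q₁ = P¹ Q₀ - Q₀ P¹`, `Q₂ = P^p Q₁ - Q₁ P^p`.
Here `β`, `P¹`, `P^p` are nonzero elements of `𝒜^1`, `𝒜^{2(p-1)}`, `𝒜^{2p(p-1)}`; these three groups
are one-dimensional over `𝔽_p`.  The degrees are `|Q₁| = 2(p-1)+1 = 2p-1` and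
`|Q₂| = 2p(p-1) + 2(p-1) + 1 = 2p²-1`. -/
def IsMilnorTriple (p : ℕ) {H : SH} (Q₀ : (Dpow 1).obj H ⟶ H)
    (Q₁ : (Dpow (2 * (p - 1) + 1)).obj H ⟶ H)
    (Q₂ : (Dpow (p * (2 * (p - 1)) + (2 * (p - 1) + 1))).obj H ⟶ H) : Prop :=
  ∃ (P1 : (Dpow (2 * (p - 1))).obj H ⟶ H) (Pp : (Dpow (p * (2 * (p - 1)))).obj H ⟶ H),
    ¬ IsZeroMor Q₀ ∧ ¬ IsZeroMor P1 ∧ ¬ IsZeroMor Pp ∧
    IsSum Q₁ (act rfl Q₀ P1) (act (Nat.add_comm _ _) P1 Q₀) ∧
    IsSum Q₂ (act rfl Q₁ Pp) (act (Nat.add_comm _ _) Pp Q₁)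

/-- The left ideal of the algebra of operations of `H` generated by three homogeneous elements. -/
inductive LeftIdeal {H : SH} {d₀ d₁ d₂ : ℕ} (Q₀ : (Dpow d₀).obj H ⟶ H)
    (Q₁ : (Dpow d₁).obj H ⟶ H) (Q₂ : (Dpow d₂).obj H ⟶ H) :
    ∀ n : ℕ, ((Dpow n).obj H ⟶ H) → Prop
  | zero {n : ℕ} (a : (Dpow n).obj H ⟶ H) : IsZeroMor a → LeftIdeal Q₀ Q₁ Q₂ n a
  | gen₀ {k n : ℕ} (h : d₀ + k = n) (c : (Dpow k).obj H ⟶ H) : LeftIdeal Q₀ Q₁ Q₂ n (act h c Q₀)
  | gen₁ {k n : ℕ} (h : d₁ + k = n) (c : (Dpow k).obj H ⟶ H) : LeftIdeal Q₀ Q₁ Q₂ n (act h c Q₁)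
  | gen₂ {k n : ℕ} (h : d₂ + k = n) (c : (Dpow k).obj H ⟶ H) : LeftIdeal Q₀ Q₁ Q₂ n (act h c Q₂)
  | add {n : ℕ} (a b s : (Dpow n).obj H ⟶ H) :
      LeftIdeal Q₀ Q₁ Q₂ n a → LeftIdeal Q₀ Q₁ Q₂ n b → IsSum a b s → LeftIdeal Q₀ Q₁ Q₂ n s

/-- `B` is a standard form of `BP⟨2⟩_p^∧` (`p` odd): it is bounded below, `p`-complete and of finite
type, and `H^*(B; 𝔽_p) ≅ 𝒜 / 𝒜(Q₀, Q₁, Q₂) = 𝒜 // E(Q₀, Q₁, Q₂)` as a module over the Steenrod algebra:
there is a class `ι ∈ H^0(B; 𝔽_p)` that generates `H^*(B; 𝔽_p)` and whose annihilator is the left ideal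
generated by the Milnor primitives `Q₀, Q₁, Q₂`. -/
structure IsBP2 (p : ℕ) (B : SH) : Prop where
  boundedBelow : IsBoundedBelow B
  complete : IsPComplete p B
  /-- finite type: the homotopy groups of `B / p` are finite -/
  finiteType : ∃ (f : B ⟶ B) (C : SH) (g : B ⟶ C), IsNatMul p f ∧ IsCofiberSeq f g ∧
    ∀ k : ℤ, Finite (π k C)
  cohomology : ∃ (H : SH) (Q₀ : (Dpow 1).obj H ⟶ H) (Q₁ : (Dpow (2 * (p - 1) + 1)).obj H ⟶ H)
    (Q₂ : (Dpow (p * (2 * (p - 1)) + (2 * (p - 1) + 1))).obj H ⟶ H) (ι : B ⟶ H),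
    IsHFp p H ∧ IsMilnorTriple p Q₀ Q₁ Q₂ ∧
    (∀ (j : ℕ) (y : B ⟶ (Dpow (j + 1)).obj H), IsZeroMor y) ∧
    (∀ (n : ℕ) (y : (Dpow n).obj B ⟶ H), ∃ a : (Dpow n).obj H ⟶ H, y = (Dpow n).map ι ≫ a) ∧
    (∀ (n : ℕ) (a : (Dpow n).obj H ⟶ H),
      IsZeroMor ((Dpow n).map ι ≫ a) ↔ LeftIdeal Q₀ Q₁ Q₂ n a)

/-! ## 10. Telescopes and chromatic localizations -/

/-- The composite `F_N ⟶ F_{N+1} ⟶ ⋯ ⟶ F_{N+M}` in a sequence. -/
def seqComp {F : ℕ → SH} (f : ∀ N, F N ⟶ F (N + 1)) (N : ℕ) : ∀ M : ℕ, F N ⟶ F (N + M)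
  | 0 => 𝟙 _
  | M + 1 => seqComp f N M ≫ f (N + M)

/-- `(T, j)` is a homotopy colimit (mapping telescope) of the sequence `F_0 ⟶ F_1 ⟶ ⋯` in `SH`: a
cocone that induces isomorphisms `colim_N π_k F_N ≅ π_k T` for all `k`. -/
structure IsTelescopeOf {F : ℕ → SH} (f : ∀ N, F N ⟶ F (N + 1)) {T : SH} (j : ∀ N, F N ⟶ T) :
    Prop where
  cocone : ∀ N, f N ≫ j (N + 1) = j N
  surj : ∀ (k : ℤ) (x : π k T), ∃ (N : ℕ) (y : π k (F N)), y ≫ j N = x
  inj : ∀ (k : ℤ) (N : ℕ) (y y' : π k (F N)), y ≫ j N = y' ≫ j N →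
    ∃ M : ℕ, y ≫ seqComp f N M = y' ≫ seqComp f N M

/-- The objects `F, Σ^{-d} F, Σ^{-2d} F, …`. -/
def towerObj (d : ℕ) (F : SH) : ℕ → SH
  | 0 => F
  | N + 1 => (Dpow d).obj (towerObj d F N)

/-- The sequence `F ⟶ Σ^{-d} F ⟶ Σ^{-2d} F ⟶ ⋯` of desuspensions of a self-map `v : F ⟶ Σ^{-d} F`
(equivalently `Σ^d F ⟶ F`). -/
def towerMap {d : ℕ} {F : SH} (v : F ⟶ (Dpow d).obj F) :
    ∀ N, towerObj d F N ⟶ towerObj d F (N + 1)
  | 0 => v
  | N + 1 => (Dpow d).map (towerMap v N)

/-- The `N`-th iterate `v^N : F ⟶ Σ^{-Nd} F`. -/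
def towerIter {d : ℕ} {F : SH} (v : F ⟶ (Dpow d).obj F) : ∀ N, F ⟶ towerObj d F N
  | 0 => 𝟙 F
  | N + 1 => towerIter v N ≫ towerMap v N

/-- `v : Σ^d F ⟶ F`, written as `F ⟶ Σ^{-d} F`, is a `v_n`-self-map (Hopkins--Smith): it induces an
isomorphism in `K(n)` and a nilpotent map in `K(m)` for `m ≠ n`.  The conditions are stated in
`K(m)`-cohomology `K(m)^* Y = [Y, Σ^* K(m)]`, which is the `K(m)_*`-linear dual of `K(m)_* Y`. -/
structure IsVnSelfMap (p n : ℕ) {d : ℕ} {F : SH} (v : F ⟶ (Dpow d).obj F) : Prop where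
  iso : ∀ K : SH, IsMoravaK p n K → ∀ a b : ℕ,
    Function.Bijective fun g : (Dpow a).obj ((Dpow d).obj F) ⟶ (Dpow b).obj K => (Dpow a).map v ≫ g
  nilp : ∀ m : ℕ, m ≠ n → ∀ K : SH, IsMoravaK p m K → ∃ N : ℕ, ∀ (a b : ℕ)
    (g : (Dpow a).obj (towerObj d F N) ⟶ (Dpow b).obj K), IsZeroMor ((Dpow a).map (towerIter v N) ≫ g)

/-- `T` is a telescope `T(n)`: the mapping telescope `v⁻¹ F` of a `v_n`-self-map `v` of positive
degree of a finite `p`-local spectrum `F` of type `n`. -/
def IsTelescope (p n : ℕ) (T : SH) : Prop :=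
  ∃ (d : ℕ) (F : SH) (v : F ⟶ (Dpow d).obj F) (j : ∀ N, towerObj d F N ⟶ T),
    0 < d ∧ IsFinitePLocal p F ∧ HasType p F n ∧ IsVnSelfMap p n v ∧ IsTelescopeOf (towerMap v) j

/-- The acyclics of `L_n = L_{E(n)}`: `⟨E(n)⟩ = ⟨K(0) ∨ ⋯ ∨ K(n)⟩`. -/
def IsLnAcyclic (p n : ℕ) (A : SH) : Prop := ∀ i ≤ n, IsKAcyclic p i A

/-- The acyclics of the finite localization `L_n^f`: the localizing subcategory generated by the
finite `p`-local spectra of type greater than `n`. -/
def IsLnfAcyclic (p n : ℕ) : SH → Prop :=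
  Loc fun V => IsFinitePLocal p V ∧ ∀ i ≤ n, IsKAcyclic p i V

end SH

open SH in
/-- **Theorem 1.1** of "Counterexamples to the Hahn--Wilson conjecture at height two". -/
def Statement : Prop :=
  ∃ N : ℕ, ∀ p : ℕ, p.Prime → N ≤ p →
    -- the objects in terms of which the theorem is stated exist
    (∀ n : ℕ, ∃ K : SH, IsMoravaK p n K) ∧ (∃ T : SH, IsTelescope p 2 T) ∧
    (∃ B : SH, IsBP2 p B) ∧
    -- the counterexample
    ∃ X : SH, IsConnective X ∧ IsPComplete p X ∧
      -- exact fp-type two (the test for fp-type at most two holds for one, and for every, finite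
      -- spectrum of type three; the test for fp-type at most one fails)
      FpTypeLE p 2 X ∧ ¬ FpTypeLE p 1 X ∧
      (∀ V : SH, IsFinitePLocal p V → HasType p V 3 → IsTotallyFinite (smash V X)) ∧
      -- outside the thick subcategory generated by `BP⟨2⟩_p^∧`
      (∀ B : SH, IsBP2 p B → ¬ Thick B X) ∧
      -- `L_2^f X ≃ L_2 X`
      (∃ (Z : SH) (η : X ⟶ Z),
        IsLocalizationFor (IsLnfAcyclic p 2) η ∧ IsLocalizationFor (IsLnAcyclic p 2) η) ∧
      -- `L_{T(2)} X ≃ L_{K(2)} X`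
      (∃ (Z : SH) (η : X ⟶ Z),
        (∀ T : SH, IsTelescope p 2 T → IsLocalizationFor (IsAcyclic T) η) ∧
        IsLocalizationFor (IsKAcyclic p 2) η)

end Claimed.Open.R319
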